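import Vale.Agent.P137.Defs

/-!
Shared definitions for the centred operator: scales and layers of a ball, bands, radial fields.

For a band index `J`, the depth index `n ≤ J` refers to the ladder level `J - n`, of radius
`uu ε J n = ρ_J 4^{-n}`.  The layer weights `omega` decompose the indicator of a ball along the
ladder; `band` is a two-sided neighbourhood of the sphere.
-/

namespace Vale.Agent.P137

open MeasureTheory Metric Filter Topology Set
open scoped RealInnerProductSpace

variable {d : ℕ}

/-- The scale at depth `n` below the band `J`. -/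
def uu (ε : ℝ) (J n : ℕ) : ℝ := rho ε (J - n)

/-- The ladder at depth `n` below the band `J`. -/
noncomputable def vv (ε : ℝ) (v : EE d → EE d) (J n : ℕ) : EE d → EE d := lad ε v (J - n)

/-- The deficit at depth `n` below the band `J`. -/
noncomputable def gg (ε : ℝ) (v : EE d → EE d) (e : EE d) (J n : ℕ) : EE d → ℝ :=
  gdef ε v e (J - n)

/-- The radius of the core at depth `n`: the whole ball at full depth. -/
def coreRad (ε : ℝ) (J : ℕ) (r : ℝ) (n : ℕ) : ℝ := if n < J then r - 2 * uu ε J n else r

/-- The core at depth `n`. -/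
noncomputable def chiK (ε : ℝ) (J : ℕ) (x : EE d) (r : ℝ) (n : ℕ) : EE d → ℝ :=
  (ball x (coreRad ε J r n)).indicator fun _ => 1

/-- The layer at depth `n + 1`. -/
noncomputable def omega1 (ε : ℝ) (J : ℕ) (x : EE d) (r : ℝ) (n : ℕ) : EE d → ℝ :=
  fun z => chiK ε J x r (n + 1) z - ballAvg (uu ε J n) (chiK ε J x r n) z

/-- The two-sided band of half width `b` around the sphere. -/
def band (x : EE d) (r b : ℝ) : Set (EE d) := {z | |‖z - x‖ - r| ≤ b}

/-- The relative position of `z` in the ball. -/
noncomputable def qq (x : EE d) (r : ℝ) (z : EE d) : EE d := r⁻¹ • (z - x)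

/-- The distance weight from the direction `n0`. -/
noncomputable def wdir (x : EE d) (r : ℝ) (n0 : EE d) (z : EE d) : ℝ := ‖qq x r z - n0‖

/-- The radial part at depth `n`. -/
noncomputable def radial (ε : ℝ) (v : EE d → EE d) (J : ℕ) (x : EE d) (r : ℝ) (n : ℕ) : ℝ :=
  ∫ z, chiK ε J x r n z * ⟪vv ε v J n z, qq x r z⟫

/-- The vector at depth `n`. -/
noncomputable def coreVec (ε : ℝ) (v : EE d → EE d) (J : ℕ) (x : EE d) (r : ℝ) (n : ℕ) : EE d :=
  ∫ z, chiK ε J x r n z • vv ε v J n z

/-- The mass at depth `n` of the ball of radius `s`. -/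
noncomputable def massB (ε : ℝ) (v : EE d → EE d) (J : ℕ) (x : EE d) (n : ℕ) (s : ℝ) : ℝ :=
  ∫ z in ball x s, ‖vv ε v J n z‖

/-- The deficit mass at depth `n` of the band of half width `b`. -/
noncomputable def bandDef (ε : ℝ) (v : EE d → EE d) (e : EE d) (J : ℕ) (x : EE d) (r b : ℝ)
    (n : ℕ) : ℝ :=
  ∫ z in band x r b, gg ε v e J n z

/-- The excess over a multiple of the component along `e`. -/
noncomputable def excess (C : ℝ) (e a : EE d) : ℝ := max 0 (‖a‖ - C * ⟪a, e⟫)

end Vale.Agent.P137
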