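import Vale.Agent.P137.Defs

/-!
Centred averages with radii in a compact interval: continuity, gradient, and the first order
conditions at a maximising radius.

Proof notes.  Scaling writes the average over `ball x r` as the average of `u ↦ g (x + r • u)`
over the unit ball, which is differentiable in `x` and in `r`.  The supremum over `r ∈ [a, b]` is
attained and Lipschitz; where it is differentiable its gradient is that of the average at any
maximiser (Fermat applied to the difference), and at an interior maximiser the derivative in `r`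
vanishes.
-/

namespace Vale.Agent.P137

open MeasureTheory Metric Filter Topology Set
open scoped RealInnerProductSpace

variable {d : ℕ}

/-- The vector average over a ball. -/
noncomputable def avgV (v : EE d → EE d) (x : EE d) (r : ℝ) : EE d :=
  (volume.real (ball x r))⁻¹ • ∫ y in ball x r, v y

/-- The centred maximal function with radii in `[a, b]`. -/
noncomputable def Fsup (a b : ℝ) (g : EE d → ℝ) (x : EE d) : ℝ :=
  sSup ((fun r => avg g x r) '' Icc a b)

/-- The average over the unit ball after scaling. -/
private noncomputable def navg {F : Type*} [NormedAddCommGroup F] [NormedSpace ℝ F]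
    (g : EE d → F) (x : EE d) (r : ℝ) : F :=
  (volume.real (ball (0 : EE d) 1))⁻¹ • ∫ u in ball (0 : EE d) 1, g (x + r • u)

private theorem scale_avg {F : Type*} [NormedAddCommGroup F] [NormedSpace ℝ F] [CompleteSpace F]
    (g : EE d → F) (x : EE d) {r : ℝ} (hr : 0 < r) :
    (volume.real (ball x r))⁻¹ • ∫ y in ball x r, g y = navg g x r := by
  have h1 : ∫ u in ball (0 : EE d) 1, g (x + r • u) =
      (r ^ d)⁻¹ • ∫ y in ball x r, g y := by
    rw [Measure.setIntegral_comp_smul_of_pos volume (fun y => g (x + y)) (ball (0 : EE d) 1) hr,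
      finrank_euclideanSpace_fin, smul_unitBall_of_pos hr]
    congr 1
    rw [← (measurePreserving_add_left volume x).setIntegral_preimage_emb
      (measurableEmbedding_addLeft x) g (ball x r)]
    simp
  have h2 : volume.real (ball x r) = r ^ d * volume.real (ball (0 : EE d) 1) := by
    rw [measureReal_def, measureReal_def, Measure.addHaar_ball_of_pos volume x hr,
      finrank_euclideanSpace_fin, ENNReal.toReal_mul, ENNReal.toReal_ofReal (pow_nonneg hr.le d)]
  rw [navg, h1, h2, mul_inv_rev, smul_smul]

private theorem avg_eq_navg (g : EE d → ℝ) (x : EE d) {r : ℝ} (hr : 0 < r) :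
    avg g x r = navg g x r := by
  rw [← scale_avg g x hr, avg, smul_eq_mul]

theorem avgV_eq_integral (v : EE d → EE d) (x : EE d) {r : ℝ} (hr : 0 < r) :
    avgV v x r = (volume.real (ball (0 : EE d) 1))⁻¹ • ∫ u in ball (0 : EE d) 1, v (x + r • u) :=
  scale_avg v x hr

variable {g : EE d → ℝ} {v : EE d → EE d}

/-- A potential is differentiable. -/
theorem IsPot.hasFDerivAt (hp : IsPot g v) (x : EE d) : HasFDerivAt g (innerSL ℝ (v x)) x := by
  rw [hasFDerivAt_iff_isLittleO_nhds_zero]
  refine Asymptotics.isLittleO_iff.2 fun c hc => ?_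
  obtain ⟨δ, hδ, hball⟩ := Metric.continuousAt_iff.1 hp.contv.continuousAt c hc
  filter_upwards [ball_mem_nhds (0 : EE d) hδ] with w hw
  rw [mem_ball_zero_iff] at hw
  have hci : Continuous fun s : ℝ => ⟪v (x + s • w), w⟫ := by
    have := hp.contv
    fun_prop
  have e : g (x + w) - g x - (innerSL ℝ (v x)) w =
      ∫ s in (0 : ℝ)..1, (⟪v (x + s • w), w⟫ - ⟪v x, w⟫) := by
    rw [intervalIntegral.integral_sub (hci.intervalIntegrable _ _) intervalIntegrable_const,
      ← hp.seg, intervalIntegral.integral_const]
    simp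
  rw [e]
  refine (intervalIntegral.norm_integral_le_of_norm_le_const (C := c * ‖w‖) fun s hs => ?_).trans
    (by simp)
  rw [uIoc_of_le (zero_le_one (α := ℝ))] at hs
  have hclose : ‖v (x + s • w) - v x‖ ≤ c := by
    rw [← dist_eq_norm]
    refine (hball ?_).le
    rw [dist_eq_norm, add_sub_cancel_left, norm_smul, Real.norm_eq_abs, abs_of_pos hs.1]
    exact lt_of_le_of_lt (mul_le_of_le_one_left (norm_nonneg w) hs.2) hw
  rw [← inner_sub_left]
  exact (norm_inner_le_norm _ _).trans (mul_le_mul_of_nonneg_right hclose (norm_nonneg w))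

private theorem intOn_unit {F : Type*} [NormedAddCommGroup F] {H : EE d → F} (hH : Continuous H) :
    IntegrableOn H (ball (0 : EE d) 1) :=
  (hH.continuousOn.integrableOn_compact (isCompact_closedBall _ _)).mono_set
    ball_subset_closedBall

private theorem fact_unit : Fact (volume (ball (0 : EE d) 1) < ⊤) := ⟨measure_ball_lt_top⟩

/-- The average is differentiable in the centre, with gradient the average of the gradient. -/
theorem hasFDerivAt_avg (hp : IsPot g v) {r : ℝ} (hr : 0 < r) (x : EE d) :
    HasFDerivAt (fun y => avg g y r) (innerSL ℝ (avgV v x r)) x := by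
  have hg := hp.cont
  have hv := hp.contv
  have := fact_unit (d := d)
  obtain ⟨C, hC⟩ :=
    (isCompact_closedBall x (1 + r)).exists_bound_of_continuousOn hp.contv.continuousOn
  have key : HasFDerivAt (fun y => ∫ u in ball (0 : EE d) 1, g (y + r • u))
      (∫ u in ball (0 : EE d) 1, innerSL ℝ (v (x + r • u))) x := by
    refine hasFDerivAt_integral_of_dominated_of_fderiv_le
      (F := fun y u => g (y + r • u)) (F' := fun y u => innerSL ℝ (v (y + r • u)))
      (bound := fun _ => C) (ball_mem_nhds x one_pos)
      (.of_forall fun y => Continuous.aestronglyMeasurable (by fun_prop))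
      (intOn_unit (by fun_prop)) (Continuous.aestronglyMeasurable (by fun_prop)) ?_
      (integrable_const C) (.of_forall fun u y _ => ?_)
    · filter_upwards [ae_restrict_mem measurableSet_ball] with u hu y hy
      rw [mem_ball_zero_iff] at hu
      rw [mem_ball, dist_eq_norm] at hy
      rw [innerSL_apply_norm]
      refine hC _ ?_
      rw [mem_closedBall, dist_eq_norm]
      calc ‖y + r • u - x‖ = ‖(y - x) + r • u‖ := by congr 1; abel
        _ ≤ ‖y - x‖ + ‖r • u‖ := norm_add_le _ _
        _ ≤ 1 + r := by
          rw [norm_smul, Real.norm_of_nonneg hr.le]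
          have := mul_le_mul_of_nonneg_left hu.le hr.le
          linarith
    · exact (hasFDerivAt_comp_add_right (r • u)).2 (hp.hasFDerivAt (y + r • u))
  have e1 : (fun y => avg g y r) =
      fun y => (volume.real (ball (0 : EE d) 1))⁻¹ • ∫ u in ball (0 : EE d) 1, g (y + r • u) :=
    funext fun y => avg_eq_navg g y hr
  have e2 : innerSL ℝ (avgV v x r) = (volume.real (ball (0 : EE d) 1))⁻¹ •
      ∫ u in ball (0 : EE d) 1, innerSL ℝ (v (x + r • u)) := by
    rw [avgV_eq_integral v x hr, map_smul,
      ContinuousLinearMap.integral_comp_comm (innerSL ℝ) (intOn_unit (by fun_prop))]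
  rw [e1, e2]
  exact key.const_smul ((volume.real (ball (0 : EE d) 1))⁻¹)

/-- The average is differentiable in the radius. -/
theorem hasDerivAt_avg_radius (hp : IsPot g v) {r : ℝ} (hr : 0 < r) (x : EE d) :
    HasDerivAt (fun s => avg g x s)
      ((r * volume.real (ball x r))⁻¹ * ∫ y in ball x r, ⟪v y, y - x⟫) r := by
  have hg := hp.cont
  have hv := hp.contv
  have := fact_unit (d := d)
  obtain ⟨C, hC⟩ :=
    (isCompact_closedBall x (2 * r)).exists_bound_of_continuousOn hp.contv.continuousOn
  have hnhd : Ioo 0 (2 * r) ∈ 𝓝 r := Ioo_mem_nhds hr (by linarith)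
  have key : HasDerivAt (fun s => ∫ u in ball (0 : EE d) 1, g (x + s • u))
      (∫ u in ball (0 : EE d) 1, ⟪v (x + r • u), u⟫) r := by
    refine (hasDerivAt_integral_of_dominated_loc_of_deriv_le
      (F := fun s u => g (x + s • u)) (F' := fun s u => ⟪v (x + s • u), u⟫)
      (bound := fun _ => C) hnhd
      (.of_forall fun s => Continuous.aestronglyMeasurable (by fun_prop))
      (intOn_unit (by fun_prop)) (Continuous.aestronglyMeasurable (by fun_prop)) ?_
      (integrable_const C) (.of_forall fun u s _ => ?_)).2
    · filter_upwards [ae_restrict_mem measurableSet_ball] with u hu s hs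
      rw [mem_ball_zero_iff] at hu
      refine (norm_inner_le_norm _ _).trans ?_
      refine (mul_le_of_le_one_right (norm_nonneg _) hu.le).trans (hC _ ?_)
      rw [mem_closedBall, dist_eq_norm, add_sub_cancel_left, norm_smul,
        Real.norm_of_nonneg hs.1.le]
      exact (mul_le_of_le_one_right hs.1.le hu.le).trans hs.2.le
    · have h1 : HasDerivAt (fun s : ℝ => x + s • u) u s := by
        simpa using ((hasDerivAt_id s).smul_const u).const_add x
      exact (hp.hasFDerivAt (x + s • u)).comp_hasDerivAt s h1
  have e1 : (fun s => avg g x s) =ᶠ[𝓝 r]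
      fun s => (volume.real (ball (0 : EE d) 1))⁻¹ • ∫ u in ball (0 : EE d) 1, g (x + s • u) := by
    filter_upwards [hnhd] with s hs
    exact avg_eq_navg g x hs.1
  have e2 : (r * volume.real (ball x r))⁻¹ * ∫ y in ball x r, ⟪v y, y - x⟫ =
      (volume.real (ball (0 : EE d) 1))⁻¹ • ∫ u in ball (0 : EE d) 1, ⟪v (x + r • u), u⟫ := by
    have h := scale_avg (fun y => ⟪v y, y - x⟫) x hr
    rw [navg] at h
    rw [mul_inv, mul_assoc, ← smul_eq_mul (volume.real (ball x r))⁻¹, h]
    simp only [add_sub_cancel_left, inner_smul_right, integral_const_mul, smul_eq_mul]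
    field_simp
  rw [e2]
  exact (key.const_smul ((volume.real (ball (0 : EE d) 1))⁻¹)).congr_of_eventuallyEq e1

theorem norm_avgV_le (hp : IsPot g v) {a r : ℝ} (ha : 0 < a) (har : a ≤ r) (x : EE d) :
    ‖avgV v x r‖ ≤ (volume.real (ball (0 : EE d) a))⁻¹ * ∫ y, ‖v y‖ := by
  have hpos : 0 < volume.real (ball (0 : EE d) a) :=
    ENNReal.toReal_pos (measure_ball_pos _ _ ha).ne' measure_ball_lt_top.ne
  have hvol : volume.real (ball (0 : EE d) a) ≤ volume.real (ball x r) := by
    rw [show volume.real (ball x r) = volume.real (ball (0 : EE d) r) by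
      rw [measureReal_def, measureReal_def, Measure.addHaar_ball_center]]
    exact measureReal_mono (ball_subset_ball har) measure_ball_lt_top.ne
  rw [avgV, norm_smul, norm_inv, Real.norm_of_nonneg measureReal_nonneg]
  refine mul_le_mul (inv_anti₀ hpos hvol) ?_ (norm_nonneg _) (inv_nonneg.2 hpos.le)
  exact (norm_integral_le_integral_norm _).trans
    (setIntegral_le_integral hp.intv.norm (.of_forall fun y => norm_nonneg _))

/-- The Lipschitz constant of the truncated maximal function. -/
noncomputable def supLip (a : ℝ) (v : EE d → EE d) : ℝ :=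
  (volume.real (ball (0 : EE d) a))⁻¹ * ∫ y, ‖v y‖

theorem avg_lip (hp : IsPot g v) {a r : ℝ} (ha : 0 < a) (har : a ≤ r) (x y : EE d) :
    |avg g y r - avg g x r| ≤ supLip a v * ‖y - x‖ := by
  have := Convex.norm_image_sub_le_of_norm_hasFDerivWithin_le (C := supLip a v)
    (f := fun z => avg g z r) (fun z _ => (hasFDerivAt_avg hp (ha.trans_le har) z).hasFDerivWithinAt)
    (fun z _ => by rw [innerSL_apply_norm]; exact norm_avgV_le hp ha har z) convex_univ
    (mem_univ x) (mem_univ y)
  simpa [Real.norm_eq_abs] using this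

theorem continuousOn_avg (hp : IsPot g v) (x : EE d) :
    ContinuousOn (fun r => avg g x r) (Ioi 0) := fun r hr =>
  (hasDerivAt_avg_radius hp hr x).continuousAt.continuousWithinAt

/-- The supremum over a compact interval of radii is attained. -/
theorem exists_Fsup (hp : IsPot g v) {a b : ℝ} (ha : 0 < a) (hab : a ≤ b) (x : EE d) :
    ∃ r ∈ Icc a b, avg g x r = Fsup a b g x := by
  have hc : ContinuousOn (fun r => avg g x r) (Icc a b) :=
    (continuousOn_avg hp x).mono fun r hr => ha.trans_le hr.1
  obtain ⟨r, hr, h⟩ := isCompact_Icc.exists_sSup_image_eq (nonempty_Icc.2 hab) hc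
  exact ⟨r, hr, h.symm⟩

theorem avg_le_Fsup (hp : IsPot g v) {a b r : ℝ} (ha : 0 < a) (hr : r ∈ Icc a b) (x : EE d) :
    avg g x r ≤ Fsup a b g x :=
  le_csSup (isCompact_Icc.bddAbove_image
    ((continuousOn_avg hp x).mono fun s hs => ha.trans_le hs.1)) (mem_image_of_mem _ hr)

theorem Fsup_lipschitz (hp : IsPot g v) {a b : ℝ} (ha : 0 < a) (hab : a ≤ b) :
    LipschitzWith (supLip a v).toNNReal (Fsup a b g) := by
  have h0 : 0 ≤ supLip a v :=
    mul_nonneg (inv_nonneg.2 measureReal_nonneg) (integral_nonneg fun _ => norm_nonneg _)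
  refine LipschitzWith.of_le_add_mul _ fun x y => ?_
  obtain ⟨r, hr, he⟩ := exists_Fsup hp ha hab x
  rw [Real.coe_toNNReal _ h0, ← he]
  have h1 := (le_abs_self _).trans (avg_lip hp ha hr.1 y x)
  rw [← dist_eq_norm] at h1
  linarith [avg_le_Fsup hp ha hr y]

/-- Where the supremum is differentiable its gradient is the average gradient at every maximiser. -/
theorem gradient_Fsup (hp : IsPot g v) {a b r : ℝ} (ha : 0 < a) (hr : r ∈ Icc a b) {x : EE d}
    (hmax : avg g x r = Fsup a b g x) {L : EE d →L[ℝ] ℝ} (hL : HasFDerivAt (Fsup a b g) L x) :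
    L = innerSL ℝ (avgV v x r) := by
  have hmin : IsLocalMin (fun y => Fsup a b g y - avg g y r) x :=
    .of_forall fun y => by
      simp only [hmax, sub_self]
      linarith [avg_le_Fsup hp ha hr y]
  exact sub_eq_zero.1 (hmin.hasFDerivAt_eq_zero (hL.sub (hasFDerivAt_avg hp (ha.trans_le hr.1) x)))

/-- At an interior maximiser the radial moment of the gradient vanishes. -/
theorem moment_eq_zero (hp : IsPot g v) {a b r : ℝ} (ha : 0 < a) (hr : r ∈ Ioo a b) {x : EE d}
    (hmax : avg g x r = Fsup a b g x) : ∫ y in ball x r, ⟪v y, y - x⟫ = 0 := by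
  have hloc : IsLocalMax (fun s => avg g x s) r := by
    filter_upwards [Ioo_mem_nhds hr.1 hr.2] with s hs
    rw [hmax]
    exact avg_le_Fsup hp ha (Ioo_subset_Icc_self hs) x
  have h := hloc.hasDerivAt_eq_zero (hasDerivAt_avg_radius hp (ha.trans hr.1) x)
  have hne : r * volume.real (ball x r) ≠ 0 :=
    mul_ne_zero (ha.trans hr.1).ne'
      (ENNReal.toReal_pos (measure_ball_pos _ _ (ha.trans hr.1)).ne' measure_ball_lt_top.ne).ne'
  exact (mul_eq_zero.1 h).resolve_left (inv_ne_zero hne)

/-- Almost everywhere the truncated maximal function has the average gradient at every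
maximiser. -/
theorem ae_gradient_Fsup (hp : IsPot g v) {a b : ℝ} (ha : 0 < a) (hab : a ≤ b) :
    ∀ᵐ x ∂(volume : Measure (EE d)), ∀ r ∈ Icc a b, avg g x r = Fsup a b g x →
      HasFDerivAt (Fsup a b g) (innerSL ℝ (avgV v x r)) x := by
  filter_upwards [(Fsup_lipschitz hp ha hab).ae_differentiableAt] with x hx r hr hmax
  have := gradient_Fsup hp ha hr hmax hx.hasFDerivAt
  rw [← this]
  exact hx.hasFDerivAt

end Vale.Agent.P137
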