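import Vale.Agent.P137.Ladder
import Vale.Agent.P137.Centred.Defs
import Vale.Agent.P137.Centred.Trunc

/-!
The resolution of a ball along the ladder: layer identities, the convex telescoping of coherent
mass, rotation identities for radial weights, and the shell tests.

Proof notes.  Ball averages are self-adjoint (Fubini and `u ↦ -u`), so `∫ χ_n v_n` equals
`∫ (avg χ_n) v_{n+1}`.  For a convex weight `avg W ≥ W`, so along the outer balls
`∫ W ⟪v_n, e⟫` increases by at most deficits; inside, the same pairing changes by the layer and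
a commutator.  A reflection family preserves `∫ κ g` for radial `κ`; its derivative gives the
rotation identity.  The shell weight comes from the derivative of the average in the radius.
-/

namespace Vale.Agent.P137

open MeasureTheory Metric Filter Topology Set
open scoped RealInnerProductSpace

variable {d : ℕ} {ε r : ℝ} {J n N M : ℕ} {g : EE d → ℝ} {v : EE d → EE d} {x e n0 : EE d}

/-- A nonnegative convex weight with Lipschitz constant `L`. -/
structure IsWt (W : EE d → ℝ) (L : ℝ) : Prop where
  lip0 : 0 ≤ L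
  nonneg : ∀ z, 0 ≤ W z
  convex : ConvexOn ℝ univ W
  lip : ∀ z z', |W z - W z'| ≤ L * ‖z - z'‖

/-- The weight `1` on the inner part of a shell, decreasing to `0` across it. -/
noncomputable def shellK (x : EE d) (a b : ℝ) (z : EE d) : ℝ :=
  (∫ s in a..b, (ball x s).indicator (fun _ => (s * volume.real (ball x s))⁻¹) z) /
    ∫ s in a..b, (s * volume.real (ball x s))⁻¹

namespace Layers

theorem intOn_bdd {F : Type*} [NormedAddCommGroup F] [MeasurableSpace F] [BorelSpace F]
    [SecondCountableTopology F] {f : EE d → F} (hm : Measurable f) {C : ℝ} (hb : ∀ z, ‖f z‖ ≤ C)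
    (a : EE d) (u : ℝ) : IntegrableOn f (ball a u) :=
  Integrable.mono' (integrableOn_const measure_ball_lt_top.ne (C := C))
    hm.aestronglyMeasurable (.of_forall hb)

theorem volball_pos {u : ℝ} (hu : 0 < u) : 0 < volume.real (ball (0 : EE d) u) :=
  ENNReal.toReal_pos (measure_ball_pos _ _ hu).ne' measure_ball_lt_top.ne

theorem vol_ball (x : EE d) {s : ℝ} (hs : 0 < s) :
    volume.real (ball x s) = s ^ d * volume.real (ball (0 : EE d) 1) := by
  rw [measureReal_def, measureReal_def, Measure.addHaar_ball_of_pos volume x hs,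
    finrank_euclideanSpace_fin, ENNReal.toReal_mul, ENNReal.toReal_ofReal (pow_nonneg hs.le d)]

section Avg

variable {F : Type*} [NormedAddCommGroup F] [NormedSpace ℝ F] [CompleteSpace F] {u : ℝ}

theorem avg_congr (hu : 0 < u) {f : EE d → F} {z : EE d} {c : F}
    (h : ∀ w, ‖w‖ < u → f (z + w) = c) : ballAvg u f z = c := by
  rw [ballAvg, setIntegral_congr_fun measurableSet_ball
    (fun w hw => h w (mem_ball_zero_iff.1 hw)), setIntegral_const,
    inv_smul_smul₀ (volball_pos hu).ne']

omit [CompleteSpace F] in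
theorem norm_avg_le (hu : 0 < u) {f : EE d → F} {z : EE d} {δ : ℝ}
    (h : ∀ w, ‖w‖ < u → ‖f (z + w)‖ ≤ δ) : ‖ballAvg u f z‖ ≤ δ := by
  have hV := volball_pos (d := d) hu
  rw [ballAvg, norm_smul, norm_inv, Real.norm_of_nonneg hV.le, inv_mul_le_iff₀ hV, mul_comm]
  exact norm_setIntegral_le_of_norm_le_const measure_ball_lt_top
    fun w hw => h w (mem_ball_zero_iff.1 hw)

variable [MeasurableSpace F] [BorelSpace F] [SecondCountableTopology F]

omit [NormedSpace ℝ F] [CompleteSpace F] in
theorem intShift {f : EE d → F} (hm : Measurable f) {C : ℝ} (hb : ∀ z, ‖f z‖ ≤ C) (z : EE d)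
    (u : ℝ) : IntegrableOn (fun w => f (z + w)) (ball (0 : EE d) u) :=
  intOn_bdd (hm.comp (measurable_const_add z)) (fun w => hb (z + w)) 0 u

omit [CompleteSpace F] in
theorem meas_avg (u : ℝ) {f : EE d → F} (hm : Measurable f) : Measurable (ballAvg u f) := by
  have : StronglyMeasurable (Function.uncurry fun z w : EE d => f (z + w)) :=
    (hm.comp measurable_add).stronglyMeasurable
  exact (this.integral_prod_right (ν := volume.restrict (ball (0 : EE d) u))).measurable.const_smul
    ((volume.real (ball (0 : EE d) u))⁻¹)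

omit [CompleteSpace F] in
theorem avg_sub {f h : EE d → F} (hf : Measurable f) (hh : Measurable h) {A B : ℝ}
    (hfb : ∀ z, ‖f z‖ ≤ A) (hhb : ∀ z, ‖h z‖ ≤ B) (u : ℝ) (z : EE d) :
    ballAvg u (fun y => f y - h y) z = ballAvg u f z - ballAvg u h z := by
  rw [ballAvg, ballAvg, ballAvg, integral_sub (intShift hf hfb z u) (intShift hh hhb z u),
    smul_sub]

end Avg

theorem avg_mem {u : ℝ} (hu : 0 < u) {f : EE d → ℝ} (hm : Measurable f) {C : ℝ}
    (hb : ∀ z, ‖f z‖ ≤ C) {z : EE d} {lo hi : ℝ} (h : ∀ w, ‖w‖ < u → f (z + w) ∈ Icc lo hi) :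
    ballAvg u f z ∈ Icc lo hi := by
  have hV := volball_pos (d := d) hu
  have hi0 := intShift hm hb z u
  rw [ballAvg, smul_eq_mul, mem_Icc, le_inv_mul_iff₀ hV, inv_mul_le_iff₀ hV, ← smul_eq_mul,
    ← smul_eq_mul (volume.real _) hi, ← setIntegral_const lo, ← setIntegral_const hi]
  exact ⟨setIntegral_mono_on (integrableOn_const measure_ball_lt_top.ne) hi0 measurableSet_ball
      fun w hw => (h w (mem_ball_zero_iff.1 hw)).1,
    setIntegral_mono_on hi0 (integrableOn_const measure_ball_lt_top.ne) measurableSet_ball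
      fun w hw => (h w (mem_ball_zero_iff.1 hw)).2⟩

theorem setIntegral_symm {F : Type*} [NormedAddCommGroup F] [NormedSpace ℝ F] (f : EE d → F)
    (u : ℝ) : ∫ w in ball (0 : EE d) u, f (-w) = ∫ w in ball (0 : EE d) u, f w := by
  rw [← (Measure.measurePreserving_neg (volume : Measure (EE d))).setIntegral_preimage_emb
    (MeasurableEquiv.neg (EE d)).measurableEmbedding f (ball 0 u)]
  congr 2
  ext w
  simp

section Adjoint

variable {E F G : Type*} [NormedAddCommGroup E] [NormedSpace ℝ E] [MeasurableSpace E]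
  [BorelSpace E] [SecondCountableTopology E] [CompleteSpace E]
  [NormedAddCommGroup F] [NormedSpace ℝ F] [CompleteSpace F]
  [NormedAddCommGroup G] [NormedSpace ℝ G] [CompleteSpace G]
  {Φ : EE d → E} {V : EE d → F}

omit [CompleteSpace E] [CompleteSpace F] [CompleteSpace G] in
theorem integ_pair (B : E →L[ℝ] F →L[ℝ] G) (hΦ : Measurable Φ) {C : ℝ} (hb : ∀ z, ‖Φ z‖ ≤ C)
    (hV : Integrable V) : Integrable fun z => B (Φ z) (V z) := by
  refine (hV.norm.const_mul (‖B‖ * C)).mono'
    (B.aestronglyMeasurable_comp₂ hΦ.aestronglyMeasurable hV.aestronglyMeasurable)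
    (.of_forall fun z => ?_)
  refine (B.le_opNorm₂ _ _).trans ?_
  gcongr
  exact hb z

/-- Ball averages are self-adjoint. -/
theorem adjoint (B : E →L[ℝ] F →L[ℝ] G) (hΦ : Measurable Φ) {C : ℝ} (hb : ∀ z, ‖Φ z‖ ≤ C)
    (hV : Continuous V) (hVi : Integrable V) (u : ℝ) :
    ∫ z, B (Φ z) (ballAvg u V z) = ∫ z, B (ballAvg u Φ z) (V z) := by
  have : Fact (volume (ball (0 : EE d) u) < ⊤) := ⟨measure_ball_lt_top⟩
  set ν := volume.restrict (ball (0 : EE d) u) with hν
  have h1 : ∀ z, B (Φ z) (ballAvg u V z) =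
      (volume.real (ball (0 : EE d) u))⁻¹ • ∫ w, B (Φ z) (V (z + w)) ∂ν := fun z => by
    have hi : Integrable (fun w => V (z + w)) ν :=
      ((hV.comp (continuous_const.add continuous_id)).continuousOn.integrableOn_compact
        (isCompact_closedBall (0 : EE d) u)).mono_set ball_subset_closedBall
    rw [ballAvg, map_smul, (B (Φ z)).integral_comp_comm hi]
  have h2 : ∀ z, B (ballAvg u Φ z) (V z) =
      (volume.real (ball (0 : EE d) u))⁻¹ • ∫ w, B (Φ (z + w)) (V z) ∂ν := fun z => by
    rw [ballAvg, map_smul, smul_apply]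
    exact congrArg _ ((B.flip (V z)).integral_comp_comm (intShift hΦ hb z u)).symm
  have hp1 : Integrable (Function.uncurry fun z w => B (Φ z) (V (z + w))) (volume.prod ν) := by
    have hVs : Integrable (fun p : EE d × EE d => V (p.1 + p.2)) (volume.prod ν) := by
      have hm : Continuous fun p : EE d × EE d => V (p.1 + p.2) := by fun_prop
      rw [integrable_prod_iff' hm.aestronglyMeasurable]
      refine ⟨.of_forall fun y => hVi.comp_add_right y, ?_⟩
      simp only [integral_add_right_eq_self (fun x => ‖V x‖)]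
      exact integrable_const _
    refine (hVs.norm.const_mul (‖B‖ * C)).mono'
      (B.aestronglyMeasurable_comp₂ (hΦ.comp measurable_fst).aestronglyMeasurable
        (hV.comp (continuous_fst.add continuous_snd)).aestronglyMeasurable)
      (.of_forall fun p => ?_)
    refine (B.le_opNorm₂ _ _).trans ?_
    gcongr
    exact hb _
  have hp2 : Integrable (Function.uncurry fun z w => B (Φ (z + w)) (V z)) (volume.prod ν) := by
    refine ((hVi.norm.const_mul (‖B‖ * C)).comp_fst ν).mono'
      (B.aestronglyMeasurable_comp₂ (hΦ.comp measurable_add).aestronglyMeasurable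
        (hV.comp continuous_fst).aestronglyMeasurable) (.of_forall fun p => ?_)
    refine (B.le_opNorm₂ _ _).trans ?_
    gcongr
    exact hb _
  simp only [h1, h2, integral_smul]
  congr 1
  rw [integral_integral_swap hp1, integral_integral_swap hp2, hν,
    ← setIntegral_symm (fun w => ∫ z, B (Φ (z + w)) (V z)) u]
  refine setIntegral_congr_fun measurableSet_ball fun w _ => ?_
  rw [← integral_add_right_eq_self (fun z => B (Φ (z + -w)) (V z)) w]
  simp

end Adjoint

theorem adj_smul {V : EE d → EE d} {κ : EE d → ℝ} (hκ : Measurable κ) {C : ℝ}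
    (hb : ∀ z, ‖κ z‖ ≤ C) (hV : Continuous V) (hVi : Integrable V) (u : ℝ) :
    ∫ z, κ z • ballAvg u V z = ∫ z, ballAvg u κ z • V z :=
  adjoint (ContinuousLinearMap.lsmul ℝ ℝ) hκ hb hV hVi u

theorem adj_inner {V : EE d → EE d} {Φ : EE d → EE d} (hΦ : Measurable Φ) {C : ℝ}
    (hb : ∀ z, ‖Φ z‖ ≤ C) (hV : Continuous V) (hVi : Integrable V) (u : ℝ) :
    ∫ z, ⟪ballAvg u V z, Φ z⟫ = ∫ z, ⟪V z, ballAvg u Φ z⟫ := by
  simp only [real_inner_comm (ballAvg u Φ _), real_inner_comm (Φ _)]
  exact adjoint (innerSL ℝ) hΦ hb hV hVi u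

theorem integ_smul {V : EE d → EE d} {κ : EE d → ℝ} (hκ : Measurable κ) {C : ℝ}
    (hb : ∀ z, ‖κ z‖ ≤ C) (hV : Integrable V) : Integrable fun z => κ z • V z :=
  integ_pair (ContinuousLinearMap.lsmul ℝ ℝ) hκ hb hV

theorem integ_inner {V : EE d → EE d} {Φ : EE d → EE d} (hΦ : Measurable Φ) {C : ℝ}
    (hb : ∀ z, ‖Φ z‖ ≤ C) (hV : Integrable V) : Integrable fun z => ⟪V z, Φ z⟫ := by
  simp only [real_inner_comm (Φ _)]
  exact integ_pair (innerSL ℝ) hΦ hb hV

theorem integ_mul {V : EE d → ℝ} {κ : EE d → ℝ} (hκ : Measurable κ) {C : ℝ}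
    (hb : ∀ z, ‖κ z‖ ≤ C) (hV : Integrable V) : Integrable fun z => κ z * V z :=
  hV.bdd_mul hκ.aestronglyMeasurable (.of_forall hb)

theorem pair_e {V : EE d → EE d} {κ : EE d → ℝ} (hκ : Measurable κ) {C : ℝ}
    (hb : ∀ z, ‖κ z‖ ≤ C) (hV : Integrable V) (e : EE d) :
    ∫ z, κ z * ⟪V z, e⟫ = ⟪∫ z, κ z • V z, e⟫ := by
  rw [real_inner_comm e, ← integral_inner (integ_smul hκ hb hV) e]
  refine integral_congr_ae (.of_forall fun z => ?_)
  simp only [real_inner_smul_right, real_inner_comm e]

theorem adj_pair {V : EE d → EE d} {κ : EE d → ℝ} (hκ : Measurable κ) {C : ℝ}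
    (hb : ∀ z, ‖κ z‖ ≤ C) (hV : Continuous V) (hVi : Integrable V) {u : ℝ} (hu : 0 < u)
    (hai : Integrable (ballAvg u V)) (e : EE d) :
    ∫ z, κ z * ⟪ballAvg u V z, e⟫ = ∫ z, ballAvg u κ z * ⟪V z, e⟫ := by
  rw [pair_e hκ hb hai e,
    pair_e (meas_avg u hκ) (fun z => norm_avg_le hu fun w _ => hb (z + w)) hVi e,
    adj_smul hκ hb hV hVi u]

/-- There is a measure preserving linear isometry between two vectors of the same length. -/
theorem avg_radial {u : ℝ} {f : EE d → ℝ} (hf : ∀ y y', ‖y - x‖ = ‖y' - x‖ → f y = f y')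
    {z z' : EE d} (h : ‖z - x‖ = ‖z' - x‖) : ballAvg u f z = ballAvg u f z' := by
  set R := (ℝ ∙ ((z - x) - (z' - x)))ᗮ.reflection with hR
  have hRz : R (z - x) = z' - x := Submodule.reflection_sub h
  rw [ballAvg, ballAvg]
  congr 1
  rw [← R.measurePreserving.setIntegral_preimage_emb R.toHomeomorph.measurableEmbedding
    (fun w => f (z' + w)) (ball 0 u)]
  have hpre : R ⁻¹' ball 0 u = ball 0 u := by
    ext w
    simp
  rw [hpre]
  refine setIntegral_congr_fun measurableSet_ball fun w _ => hf _ _ ?_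
  rw [show z + w - x = (z - x) + w by abel, show z' + R w - x = (z' - x) + R w by abel, ← hRz,
    ← map_add, LinearIsometryEquiv.norm_map]

theorem ind_bdd (S : Set (EE d)) (z : EE d) : ‖S.indicator (fun _ => (1 : ℝ)) z‖ ≤ 1 := by
  by_cases h : z ∈ S <;> simp [h]

theorem uu_pos (hε : 0 < ε) (J n : ℕ) : 0 < uu ε J n := rho_pos hε _

theorem uu_succ (ε : ℝ) (hn : n < J) : uu ε J n = 4 * uu ε J (n + 1) := by
  rw [uu, uu, show J - n = J - (n + 1) + 1 by omega, rho, rho, pow_succ]
  ring

theorem vv_succ (ε : ℝ) (v : EE d → EE d) (hn : n < J) :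
    vv ε v J n = ballAvg (uu ε J n) (vv ε v J (n + 1)) := by
  rw [vv, vv, uu, show J - n = J - (n + 1) + 1 by omega]
  rfl

theorem contv (hp : IsPot g v) (hε : 0 < ε) (J n : ℕ) : Continuous (vv ε v J n) :=
  (isPot_lad hε hp _).contv

theorem intv (hp : IsPot g v) (hε : 0 < ε) (J n : ℕ) : Integrable (vv ε v J n) :=
  (isPot_lad hε hp _).intv

theorem gg_int (hp : IsPot g v) (hε : 0 < ε) (e : EE d) (J n : ℕ) : Integrable (gg ε v e J n) :=
  (gdef_continuous_integrable hε hp.contv hp.intv e _).2

theorem gg_nonneg (ε : ℝ) (v : EE d → EE d) (he : ‖e‖ = 1) (J n : ℕ) (z : EE d) :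
    0 ≤ gg ε v e J n z := gdef_nonneg ε v he _ z

theorem neg_le_gg (ε : ℝ) (v : EE d → EE d) (e : EE d) (J n : ℕ) (z : EE d) :
    -⟪vv ε v J n z, e⟫ ≤ gg ε v e J n z := by
  have := norm_nonneg (vv ε v J n z)
  simp only [gg, gdef, vv] at *
  linarith

theorem norm_eq (ε : ℝ) (v : EE d → EE d) (e : EE d) (J n : ℕ) (z : EE d) :
    ‖vv ε v J n z‖ = ⟪vv ε v J n z, e⟫ + gg ε v e J n z := by
  simp only [gg, gdef, vv]
  ring

theorem meas_band (x : EE d) (r b : ℝ) : MeasurableSet (band x r b) :=
  (isClosed_le (by fun_prop : Continuous fun z : EE d => |‖z - x‖ - r|) continuous_const).measurableSet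

theorem band_bounded (x : EE d) (r b : ℝ) : band x r b ⊆ closedBall x (r + b) := fun z hz => by
  rw [mem_closedBall, dist_eq_norm]
  have hz' : |‖z - x‖ - r| ≤ b := hz
  linarith [(abs_le.1 hz').2]

theorem mem_ball_norm {z : EE d} {s : ℝ} : z ∈ ball x s ↔ ‖z - x‖ < s := by
  rw [mem_ball, dist_eq_norm]

end Layers

open Layers

theorem IsWt.continuous {W : EE d → ℝ} {L : ℝ} (hW : IsWt W L) : Continuous W :=
  (LipschitzWith.of_dist_le_mul (K := L.toNNReal) fun a b => by
    rw [Real.dist_eq, dist_eq_norm, Real.coe_toNNReal _ hW.lip0]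
    exact hW.lip a b).continuous

theorem IsWt.le_of_mem {W : EE d → ℝ} {L : ℝ} (hW : IsWt W L) {S : Set (EE d)} {R : ℝ}
    (hS : S ⊆ closedBall x R) (z : EE d) :
    ‖S.indicator W z‖ ≤ W x + L * |R| := by
  by_cases h : z ∈ S
  · rw [indicator_of_mem h, Real.norm_of_nonneg (hW.nonneg z)]
    have h1 := hS h
    rw [mem_closedBall, dist_eq_norm] at h1
    have := mul_le_mul_of_nonneg_left (h1.trans (le_abs_self R)) hW.lip0
    linarith [(abs_le.1 (hW.lip z x)).2]
  · rw [indicator_of_notMem h, norm_zero]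
    exact add_nonneg (hW.nonneg x) (mul_nonneg hW.lip0 (abs_nonneg R))

theorem isWt_wdir (hr : 0 < r) : IsWt (wdir x r n0) (1 / r) where
  lip0 := by positivity
  nonneg z := norm_nonneg _
  convex := by
    refine ⟨convex_univ, fun a _ b _ s t hs ht hst => ?_⟩
    simp only [wdir, qq, smul_eq_mul]
    have e : r⁻¹ • (s • a + t • b - x) - n0 =
        s • (r⁻¹ • (a - x) - n0) + t • (r⁻¹ • (b - x) - n0) := by
      rw [← eq_sub_iff_add_eq] at hst
      subst hst
      module
    rw [e]
    refine (norm_add_le _ _).trans ?_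
    rw [norm_smul, norm_smul, Real.norm_of_nonneg hs, Real.norm_of_nonneg ht]
  lip z z' := by
    refine (abs_norm_sub_norm_le _ _).trans (le_of_eq ?_)
    rw [qq, qq, show r⁻¹ • (z - x) - n0 - (r⁻¹ • (z' - x) - n0) = r⁻¹ • (z - z') by module,
      norm_smul, Real.norm_of_nonneg (by positivity), one_div]

theorem isWt_one : IsWt (fun _ : EE d => (1 : ℝ)) 0 :=
  ⟨le_rfl, fun _ => zero_le_one, convexOn_const 1 convex_univ, fun _ _ => by simp⟩

/-- The average of a convex weight is at least its value at the centre. -/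
theorem IsWt.le_avg {W : EE d → ℝ} {L u : ℝ} (hW : IsWt W L) (hu : 0 < u) (z : EE d) :
    W z ≤ ballAvg u W z := by
  have hV := volball_pos (d := d) hu
  have hi : ∀ σ : ℝ, IntegrableOn (fun w => W (z + σ • w)) (ball (0 : EE d) u) := fun σ =>
    ((hW.continuous.comp (by fun_prop : Continuous fun w : EE d => z + σ • w)).continuousOn
      |>.integrableOn_compact (isCompact_closedBall 0 u)).mono_set ball_subset_closedBall
  have h1 := hi 1
  have h2 := hi (-1)
  simp only [one_smul, neg_smul] at h1 h2
  have key : ∫ _w in ball (0 : EE d) u, W z ≤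
      ∫ w in ball (0 : EE d) u, (1 / 2 * W (z + w) + 1 / 2 * W (z + -w)) := by
    refine setIntegral_mono_on (integrableOn_const measure_ball_lt_top.ne)
      ((h1.const_mul _).add (h2.const_mul _)) measurableSet_ball fun w _ => ?_
    have := hW.convex.2 (mem_univ (z + w)) (mem_univ (z + -w))
      (by norm_num : (0 : ℝ) ≤ 1 / 2) (by norm_num : (0 : ℝ) ≤ 1 / 2) (by norm_num)
    rw [show (1 / 2 : ℝ) • (z + w) + (1 / 2 : ℝ) • (z + -w) = z by module] at this
    simpa [smul_eq_mul] using this
  rw [integral_add (h1.const_mul _) (h2.const_mul _), integral_const_mul, integral_const_mul,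
    setIntegral_symm (fun w => W (z + w)) u, setIntegral_const, smul_eq_mul] at key
  rw [ballAvg, smul_eq_mul, ← mul_le_mul_iff_of_pos_left hV, mul_inv_cancel_left₀ hV.ne']
  linarith

namespace Layers

theorem chi_meas (ε : ℝ) (J : ℕ) (x : EE d) (r : ℝ) (n : ℕ) :
    Measurable (chiK ε J x r n) :=
  measurable_const.indicator measurableSet_ball

theorem chi_bdd (ε : ℝ) (J : ℕ) (x : EE d) (r : ℝ) (n : ℕ) (z : EE d) :
    ‖chiK ε J x r n z‖ ≤ 1 := ind_bdd _ z

theorem chi_mem (ε : ℝ) (J : ℕ) (x : EE d) (r : ℝ) (n : ℕ) (z : EE d) :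
    chiK ε J x r n z ∈ Icc (0 : ℝ) 1 := by
  unfold chiK
  by_cases h : z ∈ ball x (coreRad ε J r n) <;> simp [h]

theorem avgchi_mem (hε : 0 < ε) (z : EE d) :
    ballAvg (uu ε J n) (chiK ε J x r n) z ∈ Icc (0 : ℝ) 1 :=
  avg_mem (uu_pos hε J n) (chi_meas ..) (chi_bdd ε J x r n) fun _ _ => chi_mem ..

/-- Outside `ball x (r - u)` the average of the core vanishes. -/
theorem avgchi_zero (hε : 0 < ε) (hn : n < J) {z : EE d} (hz : r - uu ε J n ≤ ‖z - x‖) :
    ballAvg (uu ε J n) (chiK ε J x r n) z = 0 := by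
  refine avg_congr (uu_pos hε J n) fun w hw => indicator_of_notMem ?_ _
  rw [coreRad, if_pos hn, mem_ball_norm, not_lt, show z + w - x = (z - x) + w by abel]
  have h1 := norm_sub_norm_le (z - x) (-w)
  rw [sub_neg_eq_add, norm_neg] at h1
  linarith

theorem coreRad_ge (hε : 0 < ε) (hn : n < J) (r : ℝ) :
    r - uu ε J n / 2 ≤ coreRad ε J r (n + 1) := by
  rw [coreRad]
  split_ifs
  · linarith [uu_succ ε hn]
  · linarith [uu_pos hε J n]

theorem coreRad_le (hε : 0 < ε) (r : ℝ) (n : ℕ) : coreRad ε J r n ≤ r := by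
  rw [coreRad]
  split_ifs
  · linarith [uu_pos hε J n]
  · exact le_rfl

theorem coreRad_lb (hε : 0 < ε) (r : ℝ) (n : ℕ) : r - 2 * uu ε J n ≤ coreRad ε J r n := by
  rw [coreRad]
  split_ifs
  · exact le_rfl
  · linarith [uu_pos hε J n]

theorem chi_radial (ε : ℝ) (J : ℕ) (r : ℝ) (n : ℕ) {z z' : EE d} (h : ‖z - x‖ = ‖z' - x‖) :
    chiK ε J x r n z = chiK ε J x r n z' := by
  classical
  simp only [chiK, indicator_apply, mem_ball_norm, h]

theorem omega_meas (ε : ℝ) (J : ℕ) (x : EE d) (r : ℝ) (n : ℕ) :
    Measurable (omega1 ε J x r n) :=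
  (chi_meas ..).sub (meas_avg _ (chi_meas ..))

end Layers

theorem omega1_mem (hε : 0 < ε) (hn : n < J) (z : EE d) :
    omega1 ε J x r n z ∈ Icc (0 : ℝ) 1 := by
  have h1 := chi_mem ε J x r (n + 1) z
  have h2 := avgchi_mem (J := J) (n := n) (x := x) (r := r) hε z
  refine ⟨?_, by unfold omega1; linarith [h1.2, h2.1]⟩
  unfold omega1
  rw [sub_nonneg]
  by_cases h : r - uu ε J n ≤ ‖z - x‖
  · rw [avgchi_zero hε hn h]; exact h1.1
  · refine h2.2.trans (le_of_eq ?_)
    rw [chiK, indicator_of_mem]
    rw [mem_ball_norm]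
    linarith [coreRad_ge hε hn r, uu_pos hε J n]

theorem omega1_support (hε : 0 < ε) (hn : n < J) {z : EE d} (hz : omega1 ε J x r n z ≠ 0) :
    r - 3 * uu ε J n ≤ ‖z - x‖ ∧ ‖z - x‖ < r := by
  have hu := uu_pos hε J n
  constructor
  · by_contra h
    refine hz ?_
    unfold omega1
    have e1 : ballAvg (uu ε J n) (chiK ε J x r n) z = 1 := avg_congr hu fun w hw => by
      rw [chiK, indicator_of_mem]
      rw [coreRad, if_pos hn, mem_ball_norm, show z + w - x = (z - x) + w by abel]
      linarith [norm_add_le (z - x) w]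
    have e2 : chiK ε J x r (n + 1) z = 1 := by
      rw [chiK, indicator_of_mem]
      rw [mem_ball_norm]; linarith [coreRad_ge hε hn r]
    rw [e1, e2, sub_self]
  · by_contra h
    refine hz ?_
    unfold omega1
    rw [avgchi_zero hε hn (by linarith), chiK, indicator_of_notMem, sub_zero]
    rw [mem_ball_norm]
    linarith [coreRad_le (J := J) hε r (n + 1)]

theorem omega1_radial {z z' : EE d} (h : ‖z - x‖ = ‖z' - x‖) :
    omega1 ε J x r n z = omega1 ε J x r n z' := by
  unfold omega1
  rw [chi_radial ε J r _ h, avg_radial (fun y y' h' => chi_radial ε J r n h') h]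

theorem coreVec_succ (hp : IsPot g v) (hε : 0 < ε) (hn : n < J) :
    coreVec ε v J x r (n + 1) = coreVec ε v J x r n +
      ∫ z, omega1 ε J x r n z • vv ε v J (n + 1) z := by
  have hc := contv hp hε J (n + 1)
  have hi := intv hp hε J (n + 1)
  have e : coreVec ε v J x r n =
      ∫ z, ballAvg (uu ε J n) (chiK ε J x r n) z • vv ε v J (n + 1) z := by
    rw [coreVec, vv_succ ε v hn]
    exact adj_smul (chi_meas ..) (chi_bdd ε J x r n) hc hi _
  rw [e, coreVec, ← integral_add
    (integ_smul (meas_avg _ (chi_meas ..)) (fun z => norm_avg_le (uu_pos hε J n)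
      fun w _ => chi_bdd ε J x r n (z + w)) hi)
    (integ_smul (omega_meas ..) (C := 1) (fun z => by
      rw [Real.norm_eq_abs, abs_le]
      exact ⟨by linarith [(omega1_mem (x := x) (r := r) hε hn z).1],
        (omega1_mem hε hn z).2⟩) hi)]
  refine integral_congr_ae (.of_forall fun z => ?_)
  simp only [← add_smul, omega1, add_sub_cancel]

theorem coreVec_sum (hp : IsPot g v) (hε : 0 < ε) (hNM : N ≤ M) (hM : M ≤ J) :
    coreVec ε v J x r M = coreVec ε v J x r N +
      ∑ n ∈ Finset.Ico N M, ∫ z, omega1 ε J x r n z • vv ε v J (n + 1) z := by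
  induction M, hNM using Nat.le_induction with
  | base => simp
  | succ k hk ih =>
    rw [coreVec_succ hp hε (by omega), ih (by omega), Finset.sum_Ico_succ_top hk, add_assoc]

theorem coreVec_top : coreVec ε v J x r J = ∫ z in ball x r, v z := by
  rw [coreVec, ← integral_indicator measurableSet_ball]
  refine integral_congr_ae (.of_forall fun z => ?_)
  simp only [chiK, coreRad, lt_irrefl, if_false, vv, Nat.sub_self, lad]
  by_cases h : z ∈ ball x r <;> simp [h]

/-- A layer vector is aligned with `e` up to the deficit in its band. -/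
theorem layer_excess (hp : IsPot g v) (hε : 0 < ε) (he : ‖e‖ = 1) (hn : n < J) {b : ℝ}
    (hb : 3 * uu ε J n ≤ b) :
    ‖∫ z, omega1 ε J x r n z • vv ε v J (n + 1) z‖ -
        ⟪∫ z, omega1 ε J x r n z • vv ε v J (n + 1) z, e⟫ ≤
      bandDef ε v e J x r b (n + 1) := by
  have hi := intv hp hε J (n + 1)
  have h0 := fun z => omega1_mem (x := x) (r := r) hε hn z
  have hm := omega_meas ε J x r n
  have hb1 : ∀ z, ‖omega1 ε J x r n z‖ ≤ 1 := fun z => by
    rw [Real.norm_of_nonneg (h0 z).1]; exact (h0 z).2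
  rw [← pair_e hm hb1 hi e, bandDef, ← integral_indicator (meas_band x r b)]
  have hn1 := norm_integral_le_integral_norm (μ := volume)
    (fun z => omega1 ε J x r n z • vv ε v J (n + 1) z)
  have hie : Integrable fun z => omega1 ε J x r n z * ⟪vv ε v J (n + 1) z, e⟫ :=
    integ_mul hm hb1 (hi.inner_const e)
  refine (sub_le_sub_right hn1 _).trans ?_
  rw [← integral_sub (integ_smul hm hb1 hi).norm hie]
  refine integral_mono ((integ_smul hm hb1 hi).norm.sub hie)
    ((gg_int hp hε e J _).indicator (meas_band x r b)) fun z => ?_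
  simp only
  rw [norm_smul, Real.norm_of_nonneg (h0 z).1, ← mul_sub, norm_eq ε v e J (n + 1) z,
    add_sub_cancel_left]
  by_cases hz : omega1 ε J x r n z = 0
  · rw [hz, zero_mul]
    exact indicator_nonneg (fun y _ => gg_nonneg ε v he J _ y) z
  · have hs := omega1_support hε hn hz
    have hmem : z ∈ band x r b := by
      show |‖z - x‖ - r| ≤ b
      rw [abs_le]
      constructor <;> linarith [uu_pos hε J n]
    rw [indicator_of_mem hmem]
    exact mul_le_of_le_one_left (gg_nonneg ε v he J _ z) (h0 z).2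

namespace Layers

/-- The pairing with `e` on the outer ball. -/
noncomputable def outP (ε : ℝ) (v : EE d → EE d) (e : EE d) (J : ℕ) (x : EE d) (s : ℝ)
    (W : EE d → ℝ) (n : ℕ) : ℝ :=
  ∫ z, (ball x (s + 2 * uu ε J n)).indicator W z * ⟪vv ε v J n z, e⟫

/-- The pairing with `e` on the core. -/
noncomputable def inP (ε : ℝ) (v : EE d → EE d) (e : EE d) (J : ℕ) (x : EE d) (r : ℝ)
    (W : EE d → ℝ) (n : ℕ) : ℝ :=
  ∫ z, (ball x (coreRad ε J r n)).indicator W z * ⟪vv ε v J n z, e⟫

theorem integ_wt (hp : IsPot g v) (hε : 0 < ε) {W : EE d → ℝ} {L : ℝ} (hW : IsWt W L)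
    {S : Set (EE d)} (hS : MeasurableSet S) {R : ℝ} (hSR : S ⊆ closedBall x R) (J n : ℕ)
    (e : EE d) :
    Integrable (fun z => S.indicator W z * ⟪vv ε v J n z, e⟫) ∧
      IntegrableOn (fun z => W z * ‖vv ε v J n z‖) S ∧
      IntegrableOn (fun z => W z * gg ε v e J n z) S := by
  have hm := hW.continuous.measurable.indicator hS
  refine ⟨integ_mul hm (hW.le_of_mem hSR) ((intv hp hε J n).inner_const e), ?_, ?_⟩
  · exact (integrable_indicator_iff hS).1 ((integ_mul hm (hW.le_of_mem hSR)
      (intv hp hε J n).norm).congr (.of_forall fun z => by by_cases h : z ∈ S <;> simp [h]))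
  · exact (integrable_indicator_iff hS).1 ((integ_mul hm (hW.le_of_mem hSR)
      (gg_int hp hε e J n)).congr (.of_forall fun z => by by_cases h : z ∈ S <;> simp [h]))

theorem outP_succ (hp : IsPot g v) (hε : 0 < ε) (he : ‖e‖ = 1) {W : EE d → ℝ} {L : ℝ}
    (hW : IsWt W L) (hn : n < J) (s : ℝ) :
    outP ε v e J x s W (n + 1) ≤ outP ε v e J x s W n +
      (∫ z in band x s (3 * uu ε J n), W z * gg ε v e J (n + 1) z) +
      L * uu ε J n * ∫ z in ball x (s + 3 * uu ε J n), gg ε v e J (n + 1) z := by
  set u := uu ε J n with hu'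
  have hu : 0 < u := uu_pos hε J n
  have hu1 := uu_succ ε hn
  rw [← hu'] at hu1
  set Sb := band x s (3 * u)
  have hSb : MeasurableSet Sb := meas_band ..
  have hbig : MeasurableSet (ball x (s + 3 * u)) := measurableSet_ball
  set F := (ball x (s + 2 * u)).indicator W with hF
  set G := (ball x (s + 2 * uu ε J (n + 1))).indicator W with hG
  have hFm : Measurable F := hW.continuous.measurable.indicator measurableSet_ball
  have hFb := hW.le_of_mem (ball_subset_closedBall (x := x) (ε := s + 2 * u))
  have hi := intv hp hε J (n + 1)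
  have e1 : outP ε v e J x s W n = ∫ z, ballAvg u F z * ⟪vv ε v J (n + 1) z, e⟫ := by
    rw [outP, vv_succ ε v hn]
    exact adj_pair hFm hFb (contv hp hε J (n + 1)) hi hu
      (vv_succ ε v hn ▸ intv hp hε J n) e
  have i1 : Integrable fun z => ballAvg u F z * ⟪vv ε v J (n + 1) z, e⟫ :=
    integ_mul (meas_avg u hFm) (fun z => norm_avg_le hu fun w _ => hFb (z + w))
      (hi.inner_const e)
  have i2 := (integ_wt hp hε hW (S := ball x (s + 2 * uu ε J (n + 1))) measurableSet_ball
    (ball_subset_closedBall (x := x)) J (n + 1) e).1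
  have i3 : Integrable (Sb.indicator fun z => W z * gg ε v e J (n + 1) z) :=
    (integrable_indicator_iff hSb).2 (integ_wt hp hε hW hSb (band_bounded ..) J (n + 1) e).2.2
  have i4 : Integrable ((ball x (s + 3 * u)).indicator (gg ε v e J (n + 1))) :=
    (gg_int hp hε e J _).indicator hbig
  rw [e1, outP, ← integral_indicator hSb, ← integral_indicator hbig, ← integral_const_mul,
    add_assoc, ← integral_add i3 (i4.const_mul _), ← sub_le_iff_le_add', ← integral_sub i2 i1]
  refine integral_mono (i2.sub i1) (i3.add (i4.const_mul _)) fun z => ?_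
  simp only [← hG]
  rw [← sub_mul]
  have hg0 := gg_nonneg ε v he J (n + 1) z
  have hneg := neg_le_gg ε v e J (n + 1) z
  have hW0 := hW.nonneg z
  have hLu : 0 ≤ L * u := mul_nonneg hW.lip0 hu.le
  have near : ∀ w, ‖w‖ < u → W (z + w) ≤ W z + L * u := fun w hw => by
    have h1 := (abs_le.1 (hW.lip (z + w) z)).2
    rw [add_sub_cancel_left] at h1
    nlinarith [hW.lip0]
  have hFle : ∀ w, ‖w‖ < u → F (z + w) ∈ Icc 0 (W z + L * u) := fun w hw => by
    by_cases h : z + w ∈ ball x (s + 2 * u)
    · rw [hF, indicator_of_mem h]; exact ⟨hW.nonneg _, near w hw⟩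
    · rw [hF, indicator_of_notMem h]; exact ⟨le_rfl, by linarith⟩
  have hav := avg_mem hu hFm hFb hFle
  have hband0 : 0 ≤ Sb.indicator (fun z => W z * gg ε v e J (n + 1) z) z :=
    indicator_nonneg (fun y _ => mul_nonneg (hW.nonneg y) (gg_nonneg ε v he J _ y)) z
  have hball0 : 0 ≤ (ball x (s + 3 * u)).indicator (gg ε v e J (n + 1)) z :=
    indicator_nonneg (fun y _ => gg_nonneg ε v he J _ y) z
  rcases lt_or_ge ‖z - x‖ (s + 2 * uu ε J (n + 1)) with h | h
  · have hF' : ∀ w, ‖w‖ < u → F (z + w) = W (z + w) := fun w hw => by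
      refine indicator_of_mem ?_ _
      rw [mem_ball_norm, show z + w - x = (z - x) + w by abel]
      linarith [norm_add_le (z - x) w]
    have hFW : ballAvg u F z = ballAvg u W z := by
      simp only [ballAvg]
      congr 1
      exact setIntegral_congr_fun measurableSet_ball fun w hw => hF' w (mem_ball_zero_iff.1 hw)
    have hge : W z ≤ ballAvg u F z := hFW ▸ hW.le_avg hu z
    rw [hG, indicator_of_mem (mem_ball_norm.2 h),
      indicator_of_mem (mem_ball_norm.2 (by linarith : ‖z - x‖ < s + 3 * u))]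
    nlinarith [hav.2]
  · rw [hG, indicator_of_notMem (by rw [mem_ball_norm]; exact not_lt.2 h), zero_sub]
    rcases lt_or_ge ‖z - x‖ (s + 3 * u) with h3 | h3
    · have hmem : z ∈ Sb := by
        show |‖z - x‖ - s| ≤ 3 * u
        rw [abs_le]; constructor <;> linarith
      rw [indicator_of_mem hmem, indicator_of_mem (mem_ball_norm.2 h3)]
      nlinarith [hav.1, hav.2]
    · rw [avg_congr hu (c := (0 : ℝ)) fun w hw => indicator_of_notMem ?_ _]
      · simp only [neg_zero, zero_mul]; positivity
      · rw [mem_ball_norm, not_lt, show z + w - x = (z - x) - -w by abel]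
        linarith [norm_sub_norm_le (z - x) (-w), norm_neg w]

theorem inP_succ (hp : IsPot g v) (hε : 0 < ε) (he : ‖e‖ = 1) {W : EE d → ℝ} {L : ℝ}
    (hW : IsWt W L) (hn : n < J) :
    ∫ z, omega1 ε J x r n z * (W z * ‖vv ε v J (n + 1) z‖) ≤
      inP ε v e J x r W (n + 1) - inP ε v e J x r W n +
      (∫ z in band x r (3 * uu ε J n), W z * gg ε v e J (n + 1) z) +
      L * uu ε J n * massB ε v J x (n + 1) r := by
  set u := uu ε J n with hu'
  have hu : 0 < u := uu_pos hε J n
  set Sb := band x r (3 * u)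
  have hSb : MeasurableSet Sb := meas_band ..
  set F := (ball x (coreRad ε J r n)).indicator W with hF
  set G := (ball x (coreRad ε J r (n + 1))).indicator W with hG
  have hFm : Measurable F := hW.continuous.measurable.indicator measurableSet_ball
  have hFb := hW.le_of_mem (ball_subset_closedBall (x := x) (ε := coreRad ε J r n))
  have hi := intv hp hε J (n + 1)
  have hin := vv_succ ε v hn ▸ intv hp hε J n
  have e1 : inP ε v e J x r W n = ∫ z, ballAvg u F z * ⟪vv ε v J (n + 1) z, e⟫ := by
    rw [inP, vv_succ ε v hn]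
    exact adj_pair hFm hFb (contv hp hε J (n + 1)) hi hu hin e
  have i1 : Integrable fun z => ballAvg u F z * ⟪vv ε v J (n + 1) z, e⟫ :=
    integ_mul (meas_avg u hFm) (fun z => norm_avg_le hu fun w _ => hFb (z + w))
      (hi.inner_const e)
  have i2 := (integ_wt hp hε hW (S := ball x (coreRad ε J r (n + 1))) measurableSet_ball
    (ball_subset_closedBall (x := x)) J (n + 1) e).1
  have i3 : Integrable (Sb.indicator fun z => W z * gg ε v e J (n + 1) z) :=
    (integrable_indicator_iff hSb).2 (integ_wt hp hε hW hSb (band_bounded ..) J (n + 1) e).2.2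
  have i4 : Integrable ((ball x r).indicator fun z => ‖vv ε v J (n + 1) z‖) :=
    hi.norm.indicator measurableSet_ball
  have hw0 := fun z => omega1_mem (x := x) (r := r) hε hn z
  have i5 : Integrable fun z => omega1 ε J x r n z * (W z * ‖vv ε v J (n + 1) z‖) := by
    have hb : ∀ z, ‖(ball x r).indicator W z * omega1 ε J x r n z‖ ≤ W x + L * |r| := fun z => by
      rw [norm_mul]
      refine (mul_le_of_le_one_right (norm_nonneg _) ?_).trans
        (hW.le_of_mem ball_subset_closedBall z)
      rw [Real.norm_of_nonneg (hw0 z).1]; exact (hw0 z).2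
    refine (integ_mul ((hW.continuous.measurable.indicator measurableSet_ball).mul
      (omega_meas ε J x r n)) hb hi.norm).congr (.of_forall fun z => ?_)
    simp only [Pi.mul_apply]
    by_cases hz : omega1 ε J x r n z = 0
    · simp [hz]
    · rw [indicator_of_mem (mem_ball_norm.2 (omega1_support hε hn hz).2)]; ring
  rw [e1, inP, massB, ← integral_indicator hSb, ← integral_indicator measurableSet_ball,
    ← integral_const_mul, ← integral_sub i2 i1]
  have i6 : Integrable fun z => (ball x (coreRad ε J r (n + 1))).indicator W z *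
      ⟪vv ε v J (n + 1) z, e⟫ - ballAvg u F z * ⟪vv ε v J (n + 1) z, e⟫ := i2.sub i1
  have i7 : Integrable fun z => (ball x (coreRad ε J r (n + 1))).indicator W z *
      ⟪vv ε v J (n + 1) z, e⟫ - ballAvg u F z * ⟪vv ε v J (n + 1) z, e⟫ +
      Sb.indicator (fun z => W z * gg ε v e J (n + 1) z) z := i6.add i3
  rw [← integral_add i6 i3, ← integral_add i7 (i4.const_mul _)]
  refine integral_mono i5 (i7.add (i4.const_mul _)) fun z => ?_
  simp only [← hG]
  set ω := omega1 ε J x r n z with hω
  set a := ⟪vv ε v J (n + 1) z, e⟫ with ha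
  have hcom : |ballAvg u F z - ballAvg u (chiK ε J x r n) z * W z| ≤
      L * u * (ball x r).indicator (fun _ => (1 : ℝ)) z := by
    have hmul : ballAvg u (chiK ε J x r n) z * W z =
        ballAvg u (fun y => chiK ε J x r n y * W z) z := by
      simp only [ballAvg, smul_eq_mul, integral_mul_const]; ring
    rw [hmul, ← avg_sub hFm ((chi_meas ε J x r n).mul_const _) hFb (B := W z)
      (fun y => by
        rw [norm_mul, Real.norm_of_nonneg (hW.nonneg z)]
        exact mul_le_of_le_one_left (hW.nonneg z) (chi_bdd ε J x r n y)) u z,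
      ← Real.norm_eq_abs]
    refine norm_avg_le hu fun w hw => ?_
    by_cases h : z + w ∈ ball x (coreRad ε J r n)
    · have hzr : z ∈ ball x r := by
        rw [coreRad, if_pos hn, mem_ball_norm] at h
        rw [mem_ball_norm, show z - x = (z + w - x) - w by abel]
        linarith [norm_sub_le (z + w - x) w]
      simp only [hF, chiK, indicator_of_mem h, indicator_of_mem hzr, one_mul, mul_one]
      have h1 := hW.lip (z + w) z
      rw [add_sub_cancel_left] at h1
      rw [Real.norm_eq_abs]
      exact h1.trans (mul_le_mul_of_nonneg_left hw.le hW.lip0)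
    · simp only [hF, chiK, indicator_of_notMem h, zero_mul, sub_self, norm_zero]
      exact mul_nonneg (mul_nonneg hW.lip0 hu.le) (indicator_nonneg (fun _ _ => zero_le_one) z)
  have hG' : G z = chiK ε J x r (n + 1) z * W z := by
    rw [hG, chiK]
    by_cases h : z ∈ ball x (coreRad ε J r (n + 1)) <;> simp [h]
  have hab : |a| ≤ ‖vv ε v J (n + 1) z‖ := by
    have := abs_real_inner_le_norm (vv ε v J (n + 1) z) e
    rwa [he, mul_one] at this
  have hne := norm_eq ε v e J (n + 1) z
  rw [← ha] at hne
  have hg0 := gg_nonneg ε v he J (n + 1) z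
  have hband : ω * (W z * gg ε v e J (n + 1) z) ≤
      Sb.indicator (fun z => W z * gg ε v e J (n + 1) z) z := by
    by_cases hz : ω = 0
    · rw [hz, zero_mul]
      exact indicator_nonneg (fun y _ => mul_nonneg (hW.nonneg y) (gg_nonneg ε v he J _ y)) z
    · have hs := omega1_support hε hn hz
      have hmem : z ∈ Sb := by
        show |‖z - x‖ - r| ≤ 3 * u
        rw [abs_le]; constructor <;> linarith
      rw [indicator_of_mem hmem]
      exact mul_le_of_le_one_left (mul_nonneg (hW.nonneg z) hg0) (hw0 z).2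
  have hωd : ω = chiK ε J x r (n + 1) z - ballAvg u (chiK ε J x r n) z := rfl
  have key : -((ball x r).indicator (fun z => ‖vv ε v J (n + 1) z‖) z * (L * u)) ≤
      (ballAvg u (chiK ε J x r n) z * W z - ballAvg u F z) * a := by
    have h1 : |(ballAvg u (chiK ε J x r n) z * W z - ballAvg u F z) * a| ≤
        L * u * (ball x r).indicator (fun _ => (1 : ℝ)) z * ‖vv ε v J (n + 1) z‖ := by
      rw [abs_mul, abs_sub_comm]
      exact mul_le_mul hcom hab (abs_nonneg _) ((abs_nonneg _).trans hcom)
    refine le_trans ?_ (abs_le.1 h1).1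
    by_cases h : z ∈ ball x r <;> simp [h, mul_comm]
  have e2 : ω * (W z * a) = chiK ε J x r (n + 1) z * W z * a -
      ballAvg u (chiK ε J x r n) z * W z * a := by rw [hωd]; ring
  rw [hG', hne, mul_add, mul_add, e2]
  linarith [key, hband]

end Layers

open Layers

/-- Convex telescoping of coherent mass in the layers. -/
theorem coherent_sum (hp : IsPot g v) (hε : 0 < ε) (he : ‖e‖ = 1) {W : EE d → ℝ} {L : ℝ}
    (hW : IsWt W L) (hNM : N ≤ M) (hM : M ≤ J) :
    ∑ n ∈ Finset.Ico N M, ∫ z, omega1 ε J x r n z * (W z * ‖vv ε v J (n + 1) z‖) ≤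
      (∫ z in band x r (2 * uu ε J N), W z * ‖vv ε v J N z‖) +
      ∑ n ∈ Finset.Ico N M, (2 * (∫ z in band x r (3 * uu ε J n), W z * gg ε v e J (n + 1) z) +
        L * uu ε J n * ((∫ z in ball x (r + 3 * uu ε J n), gg ε v e J (n + 1) z) +
          massB ε v J x (n + 1) r)) +
      ∫ z in band x r (2 * uu ε J M), W z * gg ε v e J M z := by
  have hgap : ∀ m, (∀ z, |(ball x (r + 2 * uu ε J m)).indicator W z -
      (ball x (coreRad ε J r m)).indicator W z| ≤ (band x r (2 * uu ε J m)).indicator W z) ∧
      ∀ z, 0 ≤ (ball x (r + 2 * uu ε J m)).indicator W z -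
        (ball x (coreRad ε J r m)).indicator W z := by
    intro m
    have hu := uu_pos hε J m
    have hsub : ball x (coreRad ε J r m) ⊆ ball x (r + 2 * uu ε J m) :=
      ball_subset_ball (by linarith [coreRad_le (J := J) hε r m])
    have hnn : ∀ z, 0 ≤ (ball x (r + 2 * uu ε J m)).indicator W z -
        (ball x (coreRad ε J r m)).indicator W z := fun z =>
      sub_nonneg.2 (indicator_le_indicator_of_subset hsub hW.nonneg z)
    refine ⟨fun z => ?_, hnn⟩
    rw [abs_of_nonneg (hnn z)]
    by_cases h1 : z ∈ band x r (2 * uu ε J m)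
    · rw [indicator_of_mem h1]
      refine le_trans (sub_le_self _ (indicator_nonneg (fun y _ => hW.nonneg y) z)) ?_
      exact indicator_le_self' (fun y _ => hW.nonneg y) z
    · rw [indicator_of_notMem h1]
      have h1' : ¬|‖z - x‖ - r| ≤ 2 * uu ε J m := h1
      rw [abs_le, not_and_or] at h1'
      rcases h1' with h | h
      · have : z ∈ ball x (coreRad ε J r m) := by
          rw [mem_ball_norm]; linarith [coreRad_lb (J := J) hε r m]
        rw [indicator_of_mem this, indicator_of_mem (hsub this), sub_self]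
      · have : z ∉ ball x (r + 2 * uu ε J m) := by
          rw [mem_ball_norm]; linarith
        rw [indicator_of_notMem this, indicator_of_notMem (fun h' => this (hsub h')), sub_self]
  have hfirst : outP ε v e J x r W N - inP ε v e J x r W N ≤
      ∫ z in band x r (2 * uu ε J N), W z * ‖vv ε v J N z‖ := by
    have i1 := (integ_wt hp hε hW (S := ball x (r + 2 * uu ε J N)) measurableSet_ball
      (ball_subset_closedBall (x := x)) J N e).1
    have i2 := (integ_wt hp hε hW (S := ball x (coreRad ε J r N)) measurableSet_ball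
      (ball_subset_closedBall (x := x)) J N e).1
    have i3 := (integrable_indicator_iff (meas_band x r _)).2
      (integ_wt hp hε hW (meas_band x r (2 * uu ε J N)) (band_bounded ..) J N e).2.1
    rw [outP, inP, ← integral_sub i1 i2, ← integral_indicator (meas_band x r _)]
    refine integral_mono (i1.sub i2) i3 fun z => ?_
    simp only [← sub_mul, indicator_mul_left]
    have hb := abs_real_inner_le_norm (vv ε v J N z) e
    rw [he, mul_one] at hb
    refine (le_abs_self _).trans ?_
    rw [abs_mul]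
    exact mul_le_mul ((hgap N).1 z) hb (abs_nonneg _) ((abs_nonneg _).trans ((hgap N).1 z))
  have hlast : inP ε v e J x r W M ≤ outP ε v e J x r W M +
      ∫ z in band x r (2 * uu ε J M), W z * gg ε v e J M z := by
    have i1 := (integ_wt hp hε hW (S := ball x (r + 2 * uu ε J M)) measurableSet_ball
      (ball_subset_closedBall (x := x)) J M e).1
    have i2 := (integ_wt hp hε hW (S := ball x (coreRad ε J r M)) measurableSet_ball
      (ball_subset_closedBall (x := x)) J M e).1
    have i3 := (integrable_indicator_iff (meas_band x r _)).2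
      (integ_wt hp hε hW (meas_band x r (2 * uu ε J M)) (band_bounded ..) J M e).2.2
    rw [inP, outP, ← integral_indicator (meas_band x r _), ← sub_le_iff_le_add',
      ← integral_sub i2 i1]
    refine integral_mono (i2.sub i1) i3 fun z => ?_
    simp only [← sub_mul, indicator_mul_left]
    rw [← neg_sub, neg_mul, ← mul_neg]
    refine (mul_le_mul_of_nonneg_left (neg_le_gg ε v e J M z) ((hgap M).2 z)).trans ?_
    refine mul_le_mul_of_nonneg_right ?_ (gg_nonneg ε v he J M z)
    exact (le_abs_self _).trans ((hgap M).1 z)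
  have key : ∀ K, N ≤ K → K ≤ J →
      (∑ n ∈ Finset.Ico N K, ∫ z, omega1 ε J x r n z * (W z * ‖vv ε v J (n + 1) z‖)) +
        (outP ε v e J x r W K - inP ε v e J x r W K) ≤
      (outP ε v e J x r W N - inP ε v e J x r W N) +
      ∑ n ∈ Finset.Ico N K, (2 * (∫ z in band x r (3 * uu ε J n), W z * gg ε v e J (n + 1) z) +
        L * uu ε J n * ((∫ z in ball x (r + 3 * uu ε J n), gg ε v e J (n + 1) z) +
          massB ε v J x (n + 1) r)) := by
    intro K hK
    induction K, hK using Nat.le_induction with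
    | base => simp
    | succ k hk ih =>
      intro hkJ
      rw [Finset.sum_Ico_succ_top hk, Finset.sum_Ico_succ_top hk]
      have h1 := ih (by omega)
      have h2 := outP_succ (x := x) hp hε he hW (show k < J by omega) r
      have h3 := inP_succ (x := x) (r := r) hp hε he hW (show k < J by omega)
      linarith
  linarith [key M hNM hM]

/-- The mass at a fine depth is at most the mass at a coarse depth in a larger ball, up to the
deficits in the bands and in the ball. -/
theorem massB_le (hp : IsPot g v) (hε : 0 < ε) (he : ‖e‖ = 1) (hNM : N ≤ M) (hM : M ≤ J)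
    (s : ℝ) :
    massB ε v J x M s ≤ massB ε v J x N (s + 2 * uu ε J N) +
      (∑ n ∈ Finset.Ico N M, bandDef ε v e J x s (3 * uu ε J n) (n + 1)) +
      ∫ z in ball x (s + 2 * uu ε J M), gg ε v e J M z := by
  have hW := isWt_one (d := d)
  have hout : ∀ m, outP ε v e J x s (fun _ => 1) m =
      ∫ z in ball x (s + 2 * uu ε J m), ⟪vv ε v J m z, e⟫ := fun m => by
    rw [outP, ← integral_indicator measurableSet_ball]
    refine integral_congr_ae (.of_forall fun z => ?_)
    by_cases h : z ∈ ball x (s + 2 * uu ε J m) <;> simp [h]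
  have key : ∀ K, N ≤ K → K ≤ J → outP ε v e J x s (fun _ => 1) K ≤
      outP ε v e J x s (fun _ => 1) N +
      ∑ n ∈ Finset.Ico N K, bandDef ε v e J x s (3 * uu ε J n) (n + 1) := by
    intro K hK
    induction K, hK using Nat.le_induction with
    | base => simp
    | succ k hk ih =>
      intro hkJ
      have h2 := outP_succ (x := x) hp hε he hW (show k < J by omega) s
      rw [Finset.sum_Ico_succ_top hk]
      simp only [zero_mul, add_zero, one_mul] at h2
      have h1 := ih (by omega)
      unfold bandDef at h1 ⊢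
      linarith
  have hN : outP ε v e J x s (fun _ => 1) N ≤ massB ε v J x N (s + 2 * uu ε J N) := by
    rw [hout, massB]
    refine setIntegral_mono ((intv hp hε J N).inner_const e).integrableOn
      (intv hp hε J N).norm.integrableOn fun z => ?_
    simpa [he] using real_inner_le_norm (vv ε v J N z) e
  have hMm : massB ε v J x M s ≤ outP ε v e J x s (fun _ => 1) M +
      ∫ z in ball x (s + 2 * uu ε J M), gg ε v e J M z := by
    rw [hout, ← integral_add ((intv hp hε J M).inner_const e).restrict
      (gg_int hp hε e J M).restrict, massB]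
    simp only [← norm_eq ε v e J M]
    exact setIntegral_mono_set (intv hp hε J M).norm.integrableOn
      (.of_forall fun z => norm_nonneg _)
      (ball_subset_ball (by linarith [uu_pos hε J M])).eventuallyLE
  linarith [key M hNM hM]

namespace Layers

/-- The reflection orthogonal to `a`, for a unit vector `a`. -/
noncomputable def refl (a y : EE d) : EE d := y - (2 * ⟪a, y⟫) • a

theorem refl_eq {a : EE d} (ha : ‖a‖ = 1) (y : EE d) :
    refl a y = (ℝ ∙ a)ᗮ.reflection y := by
  rw [Submodule.reflection_orthogonal_apply, Submodule.reflection_singleton_apply, refl]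
  simp [ha]
  module

theorem norm_refl {a : EE d} (ha : ‖a‖ = 1) (y : EE d) : ‖refl a y‖ = ‖y‖ := by
  rw [refl_eq ha, LinearIsometryEquiv.norm_map]

theorem refl_refl {a : EE d} (ha : ‖a‖ = 1) (y : EE d) : refl a (refl a y) = y := by
  rw [refl_eq ha, refl_eq ha, Submodule.reflection_reflection]

theorem integral_refl {a : EE d} (ha : ‖a‖ = 1) (f : EE d → ℝ) :
    ∫ y, f (refl a y) = ∫ y, f y := by
  simp only [refl_eq ha]
  exact ((ℝ ∙ a)ᗮ.reflection).measurePreserving.integral_comp
    ((ℝ ∙ a)ᗮ.reflection).toHomeomorph.measurableEmbedding f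

/-- For a radial weight a rotation field is orthogonal to gradients. -/
theorem rot_zero {G : EE d → ℝ} {V : EE d → EE d} (hG : IsPot G V) {κ : EE d → ℝ}
    (hκm : Measurable κ) {Cκ s : ℝ} (hκb : ∀ z, |κ z| ≤ Cκ)
    (hκs : ∀ z, s ≤ ‖z - x‖ → κ z = 0)
    (hκr : ∀ z z', ‖z - x‖ = ‖z' - x‖ → κ z = κ z') {w : EE d} (hn0 : ‖n0‖ = 1) (hw : ‖w‖ = 1)
    (hwn : ⟪n0, w⟫ = 0) :
    ∫ z, κ z * ⟪V z, ⟪n0, z - x⟫ • w - ⟪w, z - x⟫ • n0⟫ = 0 := by
  set a : ℝ → EE d := fun t => Real.cos t • n0 + Real.sin t • w with ha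
  have ha1 : ∀ t, ‖a t‖ = 1 := fun t => by
    have h := norm_add_sq_eq_norm_sq_add_norm_sq_of_inner_eq_zero (Real.cos t • n0)
      (Real.sin t • w) (by rw [real_inner_smul_left, real_inner_smul_right, hwn]; ring)
    rw [norm_smul, norm_smul, hn0, hw, Real.norm_eq_abs, Real.norm_eq_abs, mul_one, mul_one,
      abs_mul_abs_self, abs_mul_abs_self] at h
    have h2 := Real.cos_sq_add_sin_sq t
    show ‖Real.cos t • n0 + Real.sin t • w‖ = 1
    nlinarith [norm_nonneg (Real.cos t • n0 + Real.sin t • w)]
  have hconst : ∀ t, ∫ y, κ (x + y) * G (x + refl (a t) y) = ∫ y, κ (x + y) * G (x + y) := by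
    intro t
    rw [← integral_refl (ha1 t) fun y => κ (x + y) * G (x + y)]
    refine integral_congr_ae (.of_forall fun y => ?_)
    simp only
    rw [hκr (x + refl (a t) y) (x + y) (by simp [norm_refl (ha1 t)])]
  set a' : ℝ → EE d := fun t => -Real.sin t • n0 + Real.cos t • w with ha'
  have hda : ∀ t, HasDerivAt a (a' t) t := fun t =>
    ((Real.hasDerivAt_cos t).smul_const n0).add ((Real.hasDerivAt_sin t).smul_const w)
  set D : ℝ → EE d → ℝ := fun t y => κ (x + y) *
    ⟪V (x + refl (a t) y), -((2 * ⟪a t, y⟫) • a' t + (2 * ⟪a' t, y⟫) • a t)⟫ with hD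
  have hdiff : ∀ y t, HasDerivAt (fun t => κ (x + y) * G (x + refl (a t) y)) (D t y) t := by
    intro y t
    have h1 : HasDerivAt (fun t => ⟪a t, y⟫) ⟪a' t, y⟫ t := by
      simpa using (hda t).inner ℝ (hasDerivAt_const t y)
    have h2 : HasDerivAt (fun t => x + refl (a t) y)
        (-((2 * ⟪a t, y⟫) • a' t + (2 * ⟪a' t, y⟫) • a t)) t := by
      simpa [refl] using (((h1.const_mul 2).smul (hda t)).const_sub y).const_add x
    exact ((hG.hasFDerivAt _).comp_hasDerivAt t h2).const_mul _
  obtain ⟨CV, hCV⟩ :=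
    (isCompact_closedBall x |s|).exists_bound_of_continuousOn hG.contv.continuousOn
  have hbound : ∀ t y, ‖D t y‖ ≤
      (ball (0 : EE d) |s|).indicator (fun _ => Cκ * (CV * (8 * |s|))) y := by
    intro t y
    by_cases hy : ‖y‖ < |s|
    · rw [indicator_of_mem (mem_ball_zero_iff.2 hy), hD, norm_mul, Real.norm_eq_abs]
      refine mul_le_mul (hκb _) ((norm_inner_le_norm _ _).trans ?_) (norm_nonneg _)
        ((abs_nonneg _).trans (hκb x))
      have hVb : ‖V (x + refl (a t) y)‖ ≤ CV :=
        hCV _ (by rw [mem_closedBall, dist_self_add_left, norm_refl (ha1 t)]; exact hy.le)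
      refine mul_le_mul hVb ?_ (norm_nonneg _) ((norm_nonneg _).trans hVb)
      have ha'1 : ‖a' t‖ ≤ 2 := by
        refine (norm_add_le _ _).trans ?_
        rw [norm_smul, norm_smul, hn0, hw, norm_neg, Real.norm_eq_abs, Real.norm_eq_abs]
        linarith [Real.abs_sin_le_one t, Real.abs_cos_le_one t]
      have h3 := abs_real_inner_le_norm (a t) y
      have h4 := abs_real_inner_le_norm (a' t) y
      rw [ha1] at h3
      rw [norm_neg]
      refine (norm_add_le _ _).trans ?_
      rw [norm_smul, norm_smul, Real.norm_eq_abs, Real.norm_eq_abs, abs_mul, abs_mul, ha1,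
        abs_two]
      nlinarith [norm_nonneg y, norm_nonneg (a' t), abs_nonneg ⟪a t, y⟫]
    · simp only [hD]
      rw [hκs (x + y) (by
        rw [add_sub_cancel_left]; exact (le_abs_self s).trans (not_lt.1 hy))]
      simp [indicator_of_notMem (show y ∉ ball (0 : EE d) |s| by
        rw [mem_ball_zero_iff]; exact hy)]
  have hint : Integrable fun y => κ (x + y) * G (x + refl (a 0) y) := by
    refine integ_mul (hκm.comp (measurable_const_add x)) (fun y => hκb (x + y)) ?_
    have h := ((ℝ ∙ a 0)ᗮ.reflection).measurePreserving.integrable_comp_emb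
      ((ℝ ∙ a 0)ᗮ.reflection).toHomeomorph.measurableEmbedding (g := fun y => G (x + y))
    have h' := h.2 (hG.int.comp_add_left x)
    simpa [Function.comp_def, refl_eq (ha1 0)] using h'
  have hac : Continuous a := continuous_iff_continuousAt.2 fun t => (hda t).continuousAt
  have hmain := (hasDerivAt_integral_of_dominated_loc_of_deriv_le
    (F := fun t y => κ (x + y) * G (x + refl (a t) y)) (F' := D) (x₀ := (0 : ℝ))
    (bound := (ball (0 : EE d) |s|).indicator fun _ => Cκ * (CV * (8 * |s|)))
    univ_mem (.of_forall fun t => ((hκm.comp (measurable_const_add x)).mul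
      ((hG.cont.comp (by unfold refl; fun_prop)).measurable)).aestronglyMeasurable)
    hint (((hκm.comp (measurable_const_add x)).mul
      (Continuous.measurable (Continuous.inner (hG.contv.comp (by unfold refl; fun_prop))
        (by fun_prop)))).aestronglyMeasurable)
    (.of_forall fun y t _ => hbound t y)
    ((integrableOn_const measure_ball_lt_top.ne).integrable_indicator measurableSet_ball)
    (.of_forall fun y t _ => hdiff y t)).2
  simp only [hconst] at hmain
  have hzero := (hasDerivAt_const (0 : ℝ) _).unique hmain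
  have hconv : (∫ y, D 0 y) =
      2 * ∫ z, κ z * ⟪V z, ⟪n0, z - x⟫ • w - ⟪w, z - x⟫ • n0⟫ := by
    rw [← integral_refl hn0 (D 0), ← integral_const_mul, ← integral_add_left_eq_self
      (fun z => 2 * (κ z * ⟪V z, ⟪n0, z - x⟫ • w - ⟪w, z - x⟫ • n0⟫)) x]
    refine integral_congr_ae (.of_forall fun y => ?_)
    have hnn : ⟪n0, n0⟫ = (1 : ℝ) := by rw [real_inner_self_eq_norm_sq, hn0, one_pow]
    have e0 : a 0 = n0 := by simp [ha]
    have e0' : a' 0 = w := by simp [ha']
    simp only [hD, e0, e0', refl_refl hn0, add_sub_cancel_left]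
    rw [hκr (x + refl n0 y) (x + y) (by simp [norm_refl hn0])]
    have i1 : ⟪n0, refl n0 y⟫ = -⟪n0, y⟫ := by
      rw [refl, inner_sub_right, real_inner_smul_right, hnn]; ring
    have i2 : ⟪w, refl n0 y⟫ = ⟪w, y⟫ := by
      rw [refl, inner_sub_right, real_inner_smul_right, real_inner_comm n0 w, hwn]; ring
    rw [i1, i2, inner_neg_right, inner_add_right, inner_sub_right, real_inner_smul_right,
      real_inner_smul_right, real_inner_smul_right, real_inner_smul_right]
    ring
  rw [hconv] at hzero
  linarith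

end Layers

/-- For a radial weight the rotation fields are orthogonal to gradients. -/
theorem vector_bound {G : EE d → ℝ} {V : EE d → EE d} (hG : IsPot G V) {κ : EE d → ℝ}
    (hκm : Measurable κ) {Cκ s : ℝ} (hκb : ∀ z, |κ z| ≤ Cκ)
    (hκs : ∀ z, s ≤ ‖z - x‖ → κ z = 0)
    (hκr : ∀ z z', ‖z - x‖ = ‖z' - x‖ → κ z = κ z') (hn0 : ‖n0‖ = 1) (hr : 0 < r) :
    ‖(∫ z, κ z • V z) - (∫ z, κ z * ⟪V z, qq x r z⟫) • n0‖ ≤
      3 * ∫ z, |κ z| * (‖V z‖ * wdir x r n0 z) := by
  set U := ∫ z, κ z • V z with hU
  set W := wdir x r n0 with hW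
  have hi := hG.intv
  have hκb' : ∀ z, ‖κ z‖ ≤ Cκ := hκb
  have hWt := isWt_wdir (x := x) (n0 := n0) hr
  have hC0 : 0 ≤ Cκ := (abs_nonneg _).trans (hκb x)
  have hκW : ∀ z, ‖|κ z| * W z‖ ≤ Cκ * (W x + 1 / r * |s|) := fun z => by
    by_cases h : ‖z - x‖ < s
    · have := hWt.le_of_mem (ball_subset_closedBall (x := x) (ε := s)) z
      rw [indicator_of_mem (mem_ball_norm.2 h)] at this
      rw [norm_mul, Real.norm_eq_abs, abs_abs]
      exact mul_le_mul (hκb z) this (norm_nonneg _) hC0
    · rw [hκs z (not_lt.1 h)]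
      simp only [abs_zero, zero_mul, norm_zero]
      exact mul_nonneg hC0 (add_nonneg (hWt.nonneg x) (by positivity))
  have hIW : Integrable fun z => |κ z| * (‖V z‖ * W z) := by
    refine (integ_mul (κ := fun z => |κ z| * W z) (hκm.abs.mul hWt.continuous.measurable) hκW
      hi.norm).congr (.of_forall fun z => ?_)
    ring
  set I := ∫ z, |κ z| * (‖V z‖ * W z) with hI
  have hI0 : 0 ≤ I := integral_nonneg fun z =>
    mul_nonneg (abs_nonneg _) (mul_nonneg (norm_nonneg _) (norm_nonneg _))
  have hq : ∀ z, ‖qq x r z - n0‖ = W z := fun z => rfl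
  have hκq : ∀ z, ‖κ z • qq x r z‖ ≤ Cκ * (|s| / r) := fun z => by
    rw [norm_smul, qq, norm_smul, norm_inv, Real.norm_of_nonneg hr.le, inv_mul_eq_div]
    by_cases h : ‖z - x‖ < s
    · refine mul_le_mul (hκb' z) ?_ (by positivity) hC0
      gcongr
      exact h.le.trans (le_abs_self s)
    · rw [hκs z (not_lt.1 h)]
      simp only [norm_zero, zero_mul]
      positivity
  have iq : Integrable fun z => κ z * ⟪V z, qq x r z⟫ := by
    refine (integ_inner (hκm.smul (by unfold qq; fun_prop : Measurable (qq x r))) hκq hi).congr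
      (.of_forall fun z => ?_)
    simp only [Pi.smul_apply', real_inner_smul_right]
  set A := ∫ z, κ z * ⟪V z, qq x r z⟫ with hA
  have hn : |⟪U, n0⟫ - A| ≤ I := by
    rw [hU, ← pair_e hκm hκb' hi n0]
    have ie : Integrable fun z => κ z * ⟪V z, n0⟫ := integ_mul hκm hκb' (hi.inner_const n0)
    have e1 : ∫ z, κ z * ⟪V z, n0⟫ = (∫ z, κ z * ⟪V z, qq x r z⟫) -
        ∫ z, (κ z * ⟪V z, qq x r z⟫ - κ z * ⟪V z, n0⟫) := by
      rw [integral_sub iq ie]; ring
    rw [e1, hA, sub_sub_cancel_left, abs_neg]
    rw [← Real.norm_eq_abs]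
    refine norm_integral_le_of_norm_le hIW (.of_forall fun z => ?_)
    rw [← mul_sub, ← inner_sub_right, norm_mul, Real.norm_eq_abs]
    refine mul_le_mul_of_nonneg_left ?_ (abs_nonneg _)
    rw [← hq]
    exact norm_inner_le_norm _ _
  set U' := U - ⟪U, n0⟫ • n0 with hU'
  have hperp : ⟪n0, U'⟫ = 0 := by
    rw [hU', inner_sub_right, real_inner_smul_right, real_inner_self_eq_norm_sq, hn0,
      real_inner_comm]
    ring
  have hsplit : ‖U - A • n0‖ ≤ |⟪U, n0⟫ - A| + ‖U'‖ := by
    calc ‖U - A • n0‖ = ‖(⟪U, n0⟫ - A) • n0 + U'‖ := by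
          rw [hU']; congr 1; module
      _ ≤ _ := by
        refine (norm_add_le _ _).trans ?_
        rw [norm_smul, hn0, mul_one, Real.norm_eq_abs]
  rcases eq_or_ne U' 0 with h0 | h0
  · rw [h0, norm_zero] at hsplit
    linarith
  set w := ‖U'‖⁻¹ • U' with hw
  clear_value w
  have hw1 : ‖w‖ = 1 := hw ▸ norm_smul_inv_norm h0
  have hwn : ⟪n0, w⟫ = 0 := by rw [hw, real_inner_smul_right, hperp, mul_zero]
  have hUw : ⟪U, w⟫ = ‖U'‖ := by
    have hUU : U = ⟪U, n0⟫ • n0 + U' := by rw [hU', add_sub_cancel]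
    conv_lhs => rw [hUU]
    rw [inner_add_left, real_inner_smul_left, hwn, mul_zero, zero_add, hw,
      real_inner_smul_right, real_inner_self_eq_norm_sq]
    field_simp
  have hrot := rot_zero hG hκm hκb hκs hκr hn0 hw1 hwn
  have hperpb : ‖U'‖ ≤ 2 * I := by
    rw [← hUw, hU, ← pair_e hκm hκb' hi w]
    set T : EE d → EE d := fun z => ⟪n0, qq x r z⟫ • w - ⟪w, qq x r z⟫ • n0 with hT
    have hTm : Continuous T := by
      rw [hT]; unfold qq; fun_prop
    have hz0 : ∫ z, κ z * ⟪V z, T z⟫ = 0 := by
      have : ∀ z, κ z * ⟪V z, T z⟫ =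
          r⁻¹ * (κ z * ⟪V z, ⟪n0, z - x⟫ • w - ⟪w, z - x⟫ • n0⟫) := fun z => by
        simp only [hT, qq, real_inner_smul_right, inner_sub_right]
        ring
      simp only [this, integral_const_mul, hrot, mul_zero]
    have hpt : ∀ z, ‖w - T z‖ ≤ 2 * W z := fun z => by
      have hnn : ⟪n0, n0⟫ = (1 : ℝ) := by rw [real_inner_self_eq_norm_sq, hn0, one_pow]
      have e : w - T z = ⟪n0, n0 - qq x r z⟫ • w + ⟪w, qq x r z - n0⟫ • n0 := by
        rw [inner_sub_right, inner_sub_right, hnn, real_inner_comm n0 w, hwn, sub_zero, hT]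
        simp only
        module
      rw [e]
      refine (norm_add_le _ _).trans ?_
      rw [norm_smul, norm_smul, hw1, hn0, mul_one, mul_one, Real.norm_eq_abs, Real.norm_eq_abs]
      have h1 := abs_real_inner_le_norm n0 (n0 - qq x r z)
      have h2 := abs_real_inner_le_norm w (qq x r z - n0)
      rw [hn0, one_mul, norm_sub_rev, hq] at h1
      rw [hw1, one_mul, hq] at h2
      linarith
    have iw : Integrable fun z => κ z * ⟪V z, w⟫ := integ_mul hκm hκb' (hi.inner_const w)
    have hT_b : ∀ z, ‖κ z • T z‖ ≤ Cκ * 1 + 2 * (Cκ * (W x + 1 / r * |s|)) := fun z => by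
      have h1 : ‖T z‖ ≤ 1 + 2 * W z := by
        calc ‖T z‖ = ‖w - (w - T z)‖ := by rw [sub_sub_cancel]
          _ ≤ ‖w‖ + ‖w - T z‖ := norm_sub_le _ _
          _ ≤ _ := by rw [hw1]; linarith [hpt z]
      have h2 := hκW z
      rw [norm_mul, Real.norm_eq_abs, abs_abs, Real.norm_of_nonneg (hWt.nonneg z)] at h2
      rw [norm_smul, Real.norm_eq_abs]
      nlinarith [hκb z, abs_nonneg (κ z), norm_nonneg (T z)]
    have iT : Integrable fun z => κ z * ⟪V z, T z⟫ := by
      refine (integ_inner (hκm.smul hTm.measurable) hT_b hi).congr (.of_forall fun z => ?_)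
      simp only [Pi.smul_apply', real_inner_smul_right]
    rw [show ∫ z, κ z * ⟪V z, w⟫ = ∫ z, (κ z * ⟪V z, w⟫ - κ z * ⟪V z, T z⟫) by
      rw [integral_sub iw iT, hz0, sub_zero], hI, ← integral_const_mul]
    refine integral_mono (iw.sub iT) (hIW.const_mul 2) fun z => ?_
    simp only [← mul_sub, ← inner_sub_right]
    refine (le_abs_self _).trans ?_
    rw [abs_mul]
    have h3 := (abs_real_inner_le_norm (V z) (w - T z)).trans
      (mul_le_mul_of_nonneg_left (hpt z) (norm_nonneg _))
    calc |κ z| * |⟪V z, w - T z⟫| ≤ |κ z| * (‖V z‖ * (2 * W z)) :=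
          mul_le_mul_of_nonneg_left h3 (abs_nonneg _)
      _ = _ := by ring
  linarith

namespace Layers

theorem chiq_meas (ε : ℝ) (J : ℕ) (x : EE d) (r : ℝ) (n : ℕ) :
    Measurable fun z => chiK ε J x r n z • qq x r z :=
  (chi_meas ..).smul (by unfold qq; fun_prop : Measurable (qq x r))

theorem chiq_bdd (hε : 0 < ε) (hr : 0 < r) (J : ℕ) (x : EE d) (n : ℕ) (z : EE d) :
    ‖chiK ε J x r n z • qq x r z‖ ≤ 1 := by
  unfold chiK
  by_cases h : z ∈ ball x (coreRad ε J r n)
  · rw [indicator_of_mem h, one_smul, qq, norm_smul, norm_inv, Real.norm_of_nonneg hr.le,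
      inv_mul_le_iff₀ hr, mul_one]
    rw [mem_ball_norm] at h
    linarith [coreRad_le (J := J) hε r n]
  · simp [indicator_of_notMem h]

theorem radial_eq (ε : ℝ) (v : EE d → EE d) (J : ℕ) (x : EE d) (r : ℝ) (n : ℕ) :
    radial ε v J x r n = ∫ z, ⟪vv ε v J n z, chiK ε J x r n z • qq x r z⟫ := by
  simp only [radial, real_inner_smul_right]

end Layers

open Layers

/-- The radial parts of consecutive cores differ by the radial part of the layer. -/
theorem radial_succ (hp : IsPot g v) (hε : 0 < ε) (hn : n < J) (hr : 0 < r) :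
    |radial ε v J x r (n + 1) - radial ε v J x r n -
        ∫ z, omega1 ε J x r n z * ⟪vv ε v J (n + 1) z, qq x r z⟫| ≤
      uu ε J n / r * massB ε v J x (n + 1) r := by
  set u := uu ε J n with hu'
  have hu : 0 < u := uu_pos hε J n
  have hc := contv hp hε J (n + 1)
  have hi := intv hp hε J (n + 1)
  set Φ := fun z => chiK ε J x r n z • qq x r z with hΦ
  have hΦm : Measurable Φ := chiq_meas ..
  have hΦb : ∀ z, ‖Φ z‖ ≤ 1 := chiq_bdd hε hr J x n
  have e0 : radial ε v J x r n = ∫ z, ⟪vv ε v J (n + 1) z, ballAvg u Φ z⟫ := by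
    rw [radial_eq, vv_succ ε v hn]
    exact adj_inner hΦm hΦb hc hi u
  have i1 := integ_inner (chiq_meas ε J x r (n + 1)) (chiq_bdd hε hr J x (n + 1)) hi
  have i2 := integ_inner (meas_avg u hΦm) (fun z => norm_avg_le hu fun w _ => hΦb (z + w)) hi
  have hω : ∀ z, ‖omega1 ε J x r n z • qq x r z‖ ≤ 1 := fun z => by
    by_cases h : omega1 ε J x r n z = 0
    · simp [h]
    · rw [norm_smul, Real.norm_of_nonneg (omega1_mem hε hn z).1, qq, norm_smul, norm_inv,
        Real.norm_of_nonneg hr.le]
      refine mul_le_one₀ (omega1_mem hε hn z).2 (by positivity) ?_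
      rw [inv_mul_le_iff₀ hr, mul_one]
      exact (omega1_support hε hn h).2.le
  have i3 : Integrable fun z => ⟪vv ε v J (n + 1) z, omega1 ε J x r n z • qq x r z⟫ :=
    integ_inner ((omega_meas ε J x r n).smul (by unfold qq; fun_prop : Measurable (qq x r))) hω hi
  have i12 : Integrable fun z => ⟪vv ε v J (n + 1) z, chiK ε J x r (n + 1) z • qq x r z⟫ -
      ⟪vv ε v J (n + 1) z, ballAvg u Φ z⟫ := i1.sub i2
  rw [e0, radial_eq, show (∫ z, omega1 ε J x r n z * ⟪vv ε v J (n + 1) z, qq x r z⟫) =
      ∫ z, ⟪vv ε v J (n + 1) z, omega1 ε J x r n z • qq x r z⟫ by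
    simp only [real_inner_smul_right], ← integral_sub i1 i2,
    ← integral_sub i12 i3, massB, ← integral_indicator measurableSet_ball,
    ← integral_const_mul, ← Real.norm_eq_abs]
  refine norm_integral_le_of_norm_le ((hi.norm.indicator measurableSet_ball).const_mul _)
    (.of_forall fun z => ?_)
  simp only [← inner_sub_right]
  refine (norm_inner_le_norm _ _).trans ?_
  have hdiff : ‖chiK ε J x r (n + 1) z • qq x r z - ballAvg u Φ z -
      omega1 ε J x r n z • qq x r z‖ ≤ u / r * (ball x r).indicator (fun _ => (1 : ℝ)) z := by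
    have e1 : chiK ε J x r (n + 1) z • qq x r z - ballAvg u Φ z -
        omega1 ε J x r n z • qq x r z =
        ballAvg u (chiK ε J x r n) z • qq x r z - ballAvg u Φ z := by
      simp only [omega1, ← hu']
      module
    have e2 : ballAvg u (chiK ε J x r n) z • qq x r z =
        ballAvg u (fun y => chiK ε J x r n y • qq x r z) z := by
      simp only [ballAvg]
      rw [integral_smul_const, smul_eq_mul, mul_smul]
    rw [e1, e2, ← avg_sub ((chi_meas ε J x r n).smul_const _) hΦm (A := ‖qq x r z‖)
      (fun y => by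
        rw [norm_smul]
        exact mul_le_of_le_one_left (norm_nonneg _) (chi_bdd ε J x r n y)) hΦb u z]
    refine norm_avg_le hu fun w hw => ?_
    by_cases h : z + w ∈ ball x (coreRad ε J r n)
    · have hzr : z ∈ ball x r := by
        rw [coreRad, if_pos hn, mem_ball_norm] at h
        rw [mem_ball_norm, show z - x = (z + w - x) - w by abel]
        linarith [norm_sub_le (z + w - x) w]
      simp only [hΦ, chiK, indicator_of_mem h, indicator_of_mem hzr, one_smul, mul_one, qq]
      rw [← smul_sub, show z - x - (z + w - x) = -w by abel, norm_smul, norm_neg, norm_inv,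
        Real.norm_of_nonneg hr.le, inv_mul_eq_div]
      gcongr
    · simp only [hΦ, chiK, indicator_of_notMem h, zero_smul, sub_self, norm_zero]
      exact mul_nonneg (by positivity) (indicator_nonneg (fun _ _ => zero_le_one) z)
  refine (mul_le_mul_of_nonneg_left hdiff (norm_nonneg _)).trans (le_of_eq ?_)
  by_cases h : z ∈ ball x r
  · simp only [indicator_of_mem h]; ring
  · simp [indicator_of_notMem h]

theorem radial_top (hr : 0 < r) :
    radial ε v J x r J = r⁻¹ * ∫ z in ball x r, ⟪v z, z - x⟫ := by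
  have _ := hr
  rw [radial, ← integral_indicator measurableSet_ball, ← integral_const_mul]
  refine integral_congr_ae (.of_forall fun z => ?_)
  simp only [chiK, coreRad, lt_irrefl, if_false, vv, Nat.sub_self, lad, qq,
    real_inner_smul_right]
  by_cases h : z ∈ ball x r <;> simp [h]

/-- Pairings with a Lipschitz field change little along the ladder. -/
theorem pairing_transfer (hp : IsPot g v) (hε : 0 < ε) (hNM : N ≤ M) (hM : M ≤ J)
    {Φ : EE d → EE d} {L s : ℝ} (hL : 0 ≤ L) (hΦ : ∀ z z', ‖Φ z - Φ z'‖ ≤ L * ‖z - z'‖)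
    (hΦs : ∀ z, s ≤ ‖z - x‖ → Φ z = 0) :
    |(∫ z, ⟪vv ε v J N z, Φ z⟫) - ∫ z, ⟪vv ε v J M z, Φ z⟫| ≤
      L * ∑ n ∈ Finset.Ico N M, uu ε J n * massB ε v J x (n + 1) (s + uu ε J n) := by
  have hΦc : Continuous Φ := (LipschitzWith.of_dist_le_mul (K := L.toNNReal) fun a b => by
    rw [dist_eq_norm, dist_eq_norm, Real.coe_toNNReal _ hL]; exact hΦ a b).continuous
  obtain ⟨C, hC⟩ := (isCompact_closedBall x |s|).exists_bound_of_continuousOn hΦc.continuousOn
  have hΦb : ∀ z, ‖Φ z‖ ≤ max C 0 := fun z => by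
    by_cases h : ‖z - x‖ < s
    · exact (hC z (by
        rw [mem_closedBall, dist_eq_norm]; exact h.le.trans (le_abs_self s))).trans (le_max_left _ _)
    · rw [hΦs z (not_lt.1 h), norm_zero]; exact le_max_right _ _
  have step : ∀ k, k < J → |(∫ z, ⟪vv ε v J k z, Φ z⟫) - ∫ z, ⟪vv ε v J (k + 1) z, Φ z⟫| ≤
      L * (uu ε J k * massB ε v J x (k + 1) (s + uu ε J k)) := by
    intro k hk
    set u := uu ε J k with hu'
    have hu : 0 < u := uu_pos hε J k
    have hc := contv hp hε J (k + 1)
    have hi := intv hp hε J (k + 1)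
    rw [vv_succ ε v hk, ← hu', adj_inner hΦc.measurable hΦb hc hi u,
      ← integral_sub (integ_inner (meas_avg u hΦc.measurable)
        (fun z => norm_avg_le hu fun w _ => hΦb (z + w)) hi) (integ_inner hΦc.measurable hΦb hi),
      massB, ← integral_indicator measurableSet_ball, ← mul_assoc, ← integral_const_mul,
      ← Real.norm_eq_abs]
    refine norm_integral_le_of_norm_le ((hi.norm.indicator measurableSet_ball).const_mul _)
      (.of_forall fun z => ?_)
    rw [← inner_sub_right]
    refine (norm_inner_le_norm _ _).trans ?_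
    by_cases h : z ∈ ball x (s + u)
    · rw [indicator_of_mem h, mul_comm]
      refine mul_le_mul_of_nonneg_right ?_ (norm_nonneg _)
      rw [show Φ z = ballAvg u (fun _ => Φ z) z from (avg_congr hu fun _ _ => rfl).symm,
        ← avg_sub hΦc.measurable measurable_const hΦb (B := ‖Φ z‖) (fun _ => le_rfl)]
      refine norm_avg_le hu fun w hw => (hΦ _ _).trans ?_
      rw [add_sub_cancel_left]
      exact mul_le_mul_of_nonneg_left hw.le hL
    · rw [mem_ball_norm, not_lt] at h
      rw [hΦs z (by linarith), avg_congr hu (c := (0 : EE d)) fun w hw => hΦs _ ?_]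
      · simp only [sub_self, norm_zero, mul_zero]
        exact mul_nonneg (mul_nonneg hL hu.le) (indicator_nonneg (fun _ _ => norm_nonneg _) z)
      · rw [show z + w - x = (z - x) - -w by abel]
        linarith [norm_sub_norm_le (z - x) (-w), norm_neg w]
  induction M, hNM using Nat.le_induction with
  | base => simp
  | succ k hk ih =>
    rw [Finset.sum_Ico_succ_top hk, mul_add]
    exact (abs_sub_le _ _ _).trans (add_le_add (ih (by omega)) (step k (by omega)))

namespace Layers

theorem weight_int {a b : ℝ} (ha : 0 < a) (hab : a ≤ b) :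
    IntervalIntegrable (fun s => (s * volume.real (ball x s))⁻¹) volume a b := by
  refine ContinuousOn.intervalIntegrable ?_
  rw [uIcc_of_le hab]
  refine ContinuousOn.congr (f := fun s => (s * (s ^ d * volume.real (ball (0 : EE d) 1)))⁻¹)
    ?_ fun s hs => by rw [vol_ball x (ha.trans_le hs.1)]
  refine ContinuousOn.inv₀ (by fun_prop) fun s hs => ?_
  have := ha.trans_le hs.1
  have := volball_pos (d := d) one_pos
  positivity

theorem weight_pos (x : EE d) {s : ℝ} (hs : 0 < s) : 0 < (s * volume.real (ball x s))⁻¹ := by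
  rw [vol_ball x hs]
  have := volball_pos (d := d) one_pos
  positivity

theorem weight_anti (x : EE d) {s t : ℝ} (hs : 0 < s) (hst : s ≤ t) :
    (t * volume.real (ball x t))⁻¹ ≤ (s * volume.real (ball x s))⁻¹ := by
  rw [vol_ball x hs, vol_ball x (hs.trans_le hst)]
  have := volball_pos (d := d) one_pos
  have := hs.trans_le hst
  gcongr

theorem den_lb {a b : ℝ} (ha : 0 < a) (hab : a ≤ b) :
    (b - a) * (b * volume.real (ball x b))⁻¹ ≤ ∫ s in a..b, (s * volume.real (ball x s))⁻¹ := by
  have h := intervalIntegral.integral_mono_on hab intervalIntegrable_const (weight_int ha hab)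
    fun s hs => weight_anti x (ha.trans_le hs.1) hs.2
  simpa [mul_comm, mul_assoc, mul_left_comm] using h

theorem num_meas (x : EE d) : Measurable (Function.uncurry fun (s : ℝ) (z : EE d) =>
    (ball x s).indicator (fun _ => (s * (s ^ d * volume.real (ball (0 : EE d) 1)))⁻¹) z) := by
  classical
  simp only [Function.uncurry_def, indicator_apply, mem_ball_norm]
  exact Measurable.ite (measurableSet_lt (by fun_prop) measurable_fst) (by fun_prop)
    measurable_const

theorem num_int {a b : ℝ} (ha : 0 < a) (hab : a ≤ b) (z : EE d) :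
    IntervalIntegrable (fun s => (ball x s).indicator
      (fun _ => (s * volume.real (ball x s))⁻¹) z) volume a b := by
  rw [intervalIntegrable_iff_integrableOn_Ioc_of_le hab]
  refine Integrable.mono' ((intervalIntegrable_iff_integrableOn_Ioc_of_le hab).1
    (weight_int (x := x) ha hab)) ?_ ?_
  · refine (((num_meas x).comp (measurable_id.prodMk (measurable_const (a := z))))
      |>.aestronglyMeasurable).congr ?_
    filter_upwards [ae_restrict_mem measurableSet_Ioc] with s hs
    simp only [Function.comp_apply, Function.uncurry, id, vol_ball x (ha.trans hs.1)]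
  · filter_upwards [ae_restrict_mem measurableSet_Ioc] with s hs
    have h0 := (weight_pos x (ha.trans hs.1)).le
    by_cases h : z ∈ ball x s
    · rw [indicator_of_mem h, Real.norm_of_nonneg h0]
    · rw [indicator_of_notMem h, norm_zero]; exact h0

theorem shellK_spec {a b : ℝ} (ha : 0 < a) (hab : a < b) :
    (∀ z, shellK x a b z ∈ Icc (0 : ℝ) 1) ∧ (∀ z, ‖z - x‖ ≤ a → shellK x a b z = 1) ∧
      (∀ z, b ≤ ‖z - x‖ → shellK x a b z = 0) ∧
      ∀ z z', |shellK x a b z - shellK x a b z'| ≤
        (b / a) ^ (d + 1) / (b - a) * ‖z - z'‖ := by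
  set den := ∫ s in a..b, (s * volume.real (ball x s))⁻¹ with hden
  have hden0 : 0 < den := lt_of_lt_of_le
    (mul_pos (sub_pos.2 hab) (weight_pos x (ha.trans hab))) (den_lb ha hab.le)
  have h0 : ∀ z, ∀ s ∈ Icc a b, 0 ≤ (ball x s).indicator
      (fun _ => (s * volume.real (ball x s))⁻¹) z := fun z s hs =>
    indicator_nonneg (fun _ _ => (weight_pos x (ha.trans_le hs.1)).le) z
  have h1 : ∀ z, ∀ s ∈ Icc a b, (ball x s).indicator
      (fun _ => (s * volume.real (ball x s))⁻¹) z ≤ (s * volume.real (ball x s))⁻¹ := fun z s hs =>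
    indicator_le_self' (fun _ _ => (weight_pos x (ha.trans_le hs.1)).le) z
  refine ⟨fun z => ⟨div_nonneg (intervalIntegral.integral_nonneg hab.le (h0 z)) hden0.le,
    (div_le_one hden0).2 (intervalIntegral.integral_mono_on hab.le (num_int ha hab.le z)
      (weight_int ha hab.le) (h1 z))⟩, fun z hz => ?_, fun z hz => ?_, ?_⟩
  · rw [shellK, ← hden, div_eq_one_iff_eq hden0.ne', hden, intervalIntegral.integral_of_le hab.le,
      intervalIntegral.integral_of_le hab.le]
    refine setIntegral_congr_fun measurableSet_Ioc fun s hs => indicator_of_mem ?_ _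
    rw [mem_ball_norm]; linarith [hs.1]
  · rw [shellK, intervalIntegral.integral_of_le hab.le,
      setIntegral_congr_fun measurableSet_Ioc (g := fun _ => (0 : ℝ)) fun s hs =>
        indicator_of_notMem ?_ _]
    · simp
    · rw [mem_ball_norm]; linarith [hs.2]
  · intro z z'
    wlog h : ‖z - x‖ ≤ ‖z' - x‖ generalizing z z'
    · rw [abs_sub_comm, norm_sub_rev]; exact this z' z (le_of_not_ge h)
    have hA := weight_pos x ha
    rw [shellK, shellK, ← hden, ← sub_div, abs_div, abs_of_pos hden0,
      ← intervalIntegral.integral_sub (num_int ha hab.le z) (num_int ha hab.le z'),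
      intervalIntegral.integral_of_le hab.le]
    have hnum : |∫ s in Ioc a b, ((ball x s).indicator
        (fun _ => (s * volume.real (ball x s))⁻¹) z -
        (ball x s).indicator (fun _ => (s * volume.real (ball x s))⁻¹) z')| ≤
        (a * volume.real (ball x a))⁻¹ * ‖z - z'‖ := by
      rw [← Real.norm_eq_abs]
      have hdom : Integrable ((Ioc ‖z - x‖ ‖z' - x‖).indicator
          fun _ => (a * volume.real (ball x a))⁻¹) :=
        (integrableOn_const measure_Ioc_lt_top.ne).integrable_indicator measurableSet_Ioc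
      refine (norm_integral_le_of_norm_le hdom.integrableOn ?_).trans ?_
      · filter_upwards [ae_restrict_mem measurableSet_Ioc] with s hs
        by_cases h1 : ‖z - x‖ < s
        · by_cases h2 : ‖z' - x‖ < s
          · rw [indicator_of_mem (mem_ball_norm.2 h1), indicator_of_mem (mem_ball_norm.2 h2),
              sub_self, norm_zero]
            exact indicator_nonneg (fun _ _ => hA.le) s
          · rw [indicator_of_mem (mem_ball_norm.2 h1),
              indicator_of_notMem (fun h' => h2 (mem_ball_norm.1 h')), sub_zero,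
              indicator_of_mem (show s ∈ Ioc ‖z - x‖ ‖z' - x‖ from ⟨h1, not_lt.1 h2⟩),
              Real.norm_of_nonneg (weight_pos x (ha.trans hs.1)).le]
            exact weight_anti x ha hs.1.le
        · rw [indicator_of_notMem (fun h' => h1 (mem_ball_norm.1 h')),
            indicator_of_notMem (fun h' => h1 (h.trans_lt (mem_ball_norm.1 h'))), sub_self,
            norm_zero]
          exact indicator_nonneg (fun _ _ => hA.le) s
      · refine (setIntegral_le_integral hdom
          (.of_forall fun s => indicator_nonneg (fun _ _ => hA.le) s)).trans ?_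
        rw [integral_indicator measurableSet_Ioc, setIntegral_const, measureReal_def,
          Real.volume_Ioc, ENNReal.toReal_ofReal (sub_nonneg.2 h), smul_eq_mul, mul_comm]
        refine mul_le_mul_of_nonneg_left ((le_abs_self _).trans ?_) hA.le
        rw [norm_sub_rev z z']
        refine (abs_norm_sub_norm_le _ _).trans (le_of_eq ?_)
        rw [sub_sub_sub_cancel_right]
    refine (div_le_div₀ (mul_nonneg hA.le (norm_nonneg _)) hnum
      (mul_pos (sub_pos.2 hab) (weight_pos x (ha.trans hab))) (den_lb ha hab.le)).trans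
      (le_of_eq ?_)
    have := volball_pos (d := d) one_pos
    have := ha.trans hab
    have := sub_pos.2 hab
    rw [vol_ball x ha, vol_ball x (ha.trans hab), div_pow, pow_succ, pow_succ]
    field_simp

end Layers

open Layers

/-- The difference of two averages with the same centre as a pairing with a shell weight. -/
theorem avg_sub_avg (hp : IsPot g v) {a b : ℝ} (ha : 0 < a) (hab : a < b) :
    avg g x b - avg g x a = (∫ s in a..b, (s * volume.real (ball x s))⁻¹) *
      ∫ z, shellK x a b z * ⟪v z, z - x⟫ := by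
  set φ : ℝ → EE d → ℝ := fun s z =>
    (ball x s).indicator (fun _ => (s * volume.real (ball x s))⁻¹) z * ⟪v z, z - x⟫ with hφ
  have hv := hp.contv
  have hA := weight_pos x ha
  have hB : IntegrableOn (fun z => ‖v z‖ * ‖z - x‖) (ball x b) :=
    ((by fun_prop : Continuous fun z => ‖v z‖ * ‖z - x‖).continuousOn.integrableOn_compact
      (isCompact_closedBall x b)).mono_set ball_subset_closedBall
  have hprod : Integrable (Function.uncurry φ)
      ((volume.restrict (Ioc a b)).prod volume) := by
    refine Integrable.mono' (g := fun p => (a * volume.real (ball x a))⁻¹ *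
      (ball x b).indicator (fun z => ‖v z‖ * ‖z - x‖) p.2)
      (((hB.integrable_indicator measurableSet_ball).const_mul _).comp_snd _) ?_ ?_
    · have hm : Measurable fun p : ℝ × EE d => ⟪v p.2, p.2 - x⟫ :=
        Continuous.measurable (by fun_prop)
      refine (((num_meas x).mul hm).aestronglyMeasurable).congr ?_
      filter_upwards [Measure.quasiMeasurePreserving_fst.ae (ae_restrict_mem measurableSet_Ioc)]
        with p hp'
      simp only [hφ, Function.uncurry, Pi.mul_apply, vol_ball x (ha.trans hp'.1)]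
    · filter_upwards [Measure.quasiMeasurePreserving_fst.ae (ae_restrict_mem measurableSet_Ioc)]
        with p hp'
      simp only [hφ, Function.uncurry, norm_mul]
      by_cases h : p.2 ∈ ball x p.1
      · rw [indicator_of_mem h, indicator_of_mem (ball_subset_ball hp'.2 h),
          Real.norm_of_nonneg (weight_pos x (ha.trans hp'.1)).le]
        exact mul_le_mul (weight_anti x ha hp'.1.le) (norm_inner_le_norm _ _) (norm_nonneg _)
          hA.le
      · rw [indicator_of_notMem h, norm_zero, zero_mul]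
        exact mul_nonneg hA.le
          (indicator_nonneg (fun _ _ => mul_nonneg (norm_nonneg _) (norm_nonneg _)) _)
  have hderiv : ∀ s ∈ uIcc a b, HasDerivAt (fun t => avg g x t) (∫ z, φ s z) s := by
    intro s hs
    rw [uIcc_of_le hab.le] at hs
    refine (hasDerivAt_avg_radius hp (ha.trans_le hs.1) x).congr_deriv ?_
    rw [← integral_indicator measurableSet_ball, ← integral_const_mul]
    refine integral_congr_ae (.of_forall fun z => ?_)
    by_cases h : z ∈ ball x s <;> simp [hφ, h]
  have hI : IntervalIntegrable (fun s => ∫ z, φ s z) volume a b := by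
    rw [intervalIntegrable_iff_integrableOn_Ioc_of_le hab.le]
    exact hprod.integral_prod_left
  rw [← intervalIntegral.integral_eq_sub_of_hasDerivAt hderiv hI,
    intervalIntegral.integral_of_le hab.le, integral_integral_swap hprod, ← integral_const_mul]
  refine integral_congr_ae (.of_forall fun z => ?_)
  have hden0 : 0 < ∫ s in a..b, (s * volume.real (ball x s))⁻¹ := lt_of_lt_of_le
    (mul_pos (sub_pos.2 hab) (weight_pos x (ha.trans hab))) (den_lb ha hab.le)
  simp only [hφ, shellK, ← intervalIntegral.integral_of_le hab.le,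
    intervalIntegral.integral_mul_const]
  rw [← mul_assoc, mul_div_assoc', mul_comm (∫ s in a..b, (s * volume.real (ball x s))⁻¹) _,
    mul_div_cancel_right₀ _ hden0.ne']

/-- At a radius not beaten at distance `h` on either side, the radial part at a coarse depth is
controlled by the shell mass and the commutators. -/
theorem radial_test (hd : 1 ≤ d) : ∃ C : ℝ, 0 < C ∧ ∀ {ε : ℝ} {g : EE d → ℝ} {v : EE d → EE d},
    IsPot g v → 0 < ε → ∀ {x : EE d} {r h : ℝ} {J n : ℕ}, n ≤ J → 0 < h → 2 * uu ε J n ≤ h →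
      4 * h ≤ r → avg g x (r - h) ≤ avg g x r → avg g x (r + h) ≤ avg g x r →
      |radial ε v J x r n| ≤ 2 * (∫ z in band x r h, ‖vv ε v J n z‖) +
        C / h * ∑ m ∈ Finset.Ico n J, uu ε J m * massB ε v J x (m + 1) (r + h + uu ε J m) := by
  have _ := hd
  refine ⟨2 * 2 ^ (d + 1) + 1, by positivity,
    fun {ε g v} hp hε {x r h J n} hn hh hun hhr hT1 hT2 => ?_⟩
  have hr : 0 < r := by linarith
  set Cd : ℝ := 2 * 2 ^ (d + 1) + 1 with hCd
  set S := ∑ m ∈ Finset.Ico n J, uu ε J m * massB ε v J x (m + 1) (r + h + uu ε J m) with hS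
  set B := ∫ z in band x r h, ‖vv ε v J n z‖ with hB
  have main : ∀ a b, 0 < a → a < b → b - a = h → r - h ≤ a → b ≤ r + h → b ≤ 2 * a →
      |radial ε v J x r n - r⁻¹ * ∫ z, shellK x a b z * ⟪v z, z - x⟫| ≤ 2 * B + Cd / h * S := by
    intro a b ha hab hba hra hbr hb2
    obtain ⟨h01, hone, hzero, hlip⟩ := shellK_spec (x := x) ha hab
    set Φ : EE d → EE d := fun z => shellK x a b z • qq x r z with hΦ
    have hqb : ∀ z, ‖z - x‖ < r + h → ‖qq x r z‖ ≤ 2 := fun z hz => by
      rw [qq, norm_smul, norm_inv, Real.norm_of_nonneg hr.le, inv_mul_le_iff₀ hr]; linarith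
    have hΦ0 : ∀ z, r + h ≤ ‖z - x‖ → Φ z = 0 := fun z hz => by
      simp only [hΦ, hzero z (hbr.trans hz), zero_smul]
    have hKb : (b / a) ^ (d + 1) / (b - a) ≤ 2 ^ (d + 1) / h := by
      rw [hba]
      refine div_le_div_of_nonneg_right (pow_le_pow_left₀ (div_nonneg (ha.trans hab).le ha.le) ?_ _)
        hh.le
      rw [div_le_iff₀ ha]; exact hb2
    have hL : ∀ z z', ‖Φ z - Φ z'‖ ≤ Cd / h * ‖z - z'‖ := by
      intro z z'
      wlog hz : ‖z - x‖ ≤ ‖z' - x‖ generalizing z z'
      · rw [norm_sub_rev, norm_sub_rev z z']; exact this z' z (le_of_not_ge hz)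
      have hCd0 : 0 ≤ Cd / h := by positivity
      by_cases hb' : r + h ≤ ‖z - x‖
      · rw [hΦ0 z hb', hΦ0 z' (hb'.trans hz), sub_self, norm_zero]
        exact mul_nonneg hCd0 (norm_nonneg _)
      rw [show Φ z - Φ z' = (shellK x a b z - shellK x a b z') • qq x r z +
        shellK x a b z' • (qq x r z - qq x r z') by simp only [hΦ]; module]
      refine (norm_add_le _ _).trans ?_
      rw [norm_smul, norm_smul, Real.norm_eq_abs, Real.norm_of_nonneg (h01 z').1]
      have h1 := mul_le_mul ((hlip z z').trans (mul_le_mul_of_nonneg_right hKb (norm_nonneg _)))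
        (hqb z (not_le.1 hb')) (norm_nonneg _) (by positivity)
      have h2 : shellK x a b z' * ‖qq x r z - qq x r z'‖ ≤ 1 / h * ‖z - z'‖ := by
        refine (mul_le_of_le_one_left (norm_nonneg _) (h01 z').2).trans ?_
        rw [qq, qq, ← smul_sub, sub_sub_sub_cancel_right, norm_smul, norm_inv,
          Real.norm_of_nonneg hr.le, one_div]
        gcongr
        linarith
      refine (add_le_add h1 h2).trans (le_of_eq ?_)
      rw [hCd]; ring
    have hΦc : Continuous Φ := (LipschitzWith.of_dist_le_mul (K := (Cd / h).toNNReal)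
      fun p q => by
        rw [dist_eq_norm, dist_eq_norm, Real.coe_toNNReal _ (by positivity)]
        exact hL p q).continuous
    have hΦb : ∀ z, ‖Φ z‖ ≤ 2 := fun z => by
      by_cases hz : r + h ≤ ‖z - x‖
      · rw [hΦ0 z hz, norm_zero]; norm_num
      · simp only [hΦ, norm_smul, Real.norm_of_nonneg (h01 z).1]
        exact (mul_le_of_le_one_left (norm_nonneg _) (h01 z).2).trans (hqb z (not_le.1 hz))
    have htr := pairing_transfer hp hε hn le_rfl (x := x) (by positivity : 0 ≤ Cd / h) hL hΦ0
    have hfine : ∫ z, ⟪vv ε v J J z, Φ z⟫ = r⁻¹ * ∫ z, shellK x a b z * ⟪v z, z - x⟫ := by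
      rw [← integral_const_mul]
      refine integral_congr_ae (.of_forall fun z => ?_)
      simp only [hΦ, vv, Nat.sub_self, lad, qq, real_inner_smul_right]
      ring
    have hcore : |(∫ z, ⟪vv ε v J n z, Φ z⟫) - radial ε v J x r n| ≤ 2 * B := by
      rw [radial_eq, ← integral_sub (integ_inner hΦc.measurable hΦb (intv hp hε J n))
          (integ_inner (chiq_meas ..) (chiq_bdd hε hr J x n) (intv hp hε J n)),
        hB, ← integral_indicator (meas_band x r h), ← integral_const_mul, ← Real.norm_eq_abs]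
      refine norm_integral_le_of_norm_le
        (((intv hp hε J n).norm.indicator (meas_band x r h)).const_mul 2) (.of_forall fun z => ?_)
      rw [← inner_sub_right]
      refine (norm_inner_le_norm _ _).trans ?_
      by_cases hz : z ∈ band x r h
      · rw [indicator_of_mem hz, mul_comm]
        refine mul_le_mul_of_nonneg_right ?_ (norm_nonneg _)
        simp only [hΦ, ← sub_smul, norm_smul]
        have hz' : |‖z - x‖ - r| ≤ h := hz
        have hq2 : ‖qq x r z‖ ≤ 2 := by
          rw [qq, norm_smul, norm_inv, Real.norm_of_nonneg hr.le, inv_mul_le_iff₀ hr]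
          linarith [(abs_le.1 hz').2]
        have hc := chi_mem ε J x r n z
        refine (mul_le_of_le_one_left (norm_nonneg _) ?_).trans hq2
        rw [Real.norm_eq_abs, abs_le]
        constructor <;> linarith [(h01 z).1, (h01 z).2, hc.1, hc.2]
      · rw [indicator_of_notMem hz, mul_zero]
        refine le_of_eq (mul_eq_zero_of_right _ ?_)
        have hz' : ¬|‖z - x‖ - r| ≤ h := hz
        rw [abs_le, not_and_or] at hz'
        rw [norm_eq_zero, sub_eq_zero]
        simp only [hΦ]
        rcases hz' with hz' | hz'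
        · rw [hone z (by linarith), chiK, indicator_of_mem]
          rw [mem_ball_norm]
          linarith [coreRad_lb (J := J) hε r n]
        · rw [hzero z (by linarith), chiK, indicator_of_notMem]
          rw [mem_ball_norm]
          linarith [coreRad_le (J := J) hε r n]
    rw [hfine] at htr
    have hcore' := abs_sub_comm (∫ z, ⟪vv ε v J n z, Φ z⟫) (radial ε v J x r n) ▸ hcore
    exact (abs_sub_le _ _ _).trans (add_le_add hcore' htr)
  have hwpos : ∀ a b : ℝ, 0 < a → a < b → 0 < ∫ s in a..b, (s * volume.real (ball x s))⁻¹ :=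
    fun a b ha hab => lt_of_lt_of_le
      (mul_pos (sub_pos.2 hab) (weight_pos x (ha.trans hab))) (den_lb ha hab.le)
  have hin : 0 ≤ r⁻¹ * ∫ z, shellK x (r - h) r z * ⟪v z, z - x⟫ := by
    refine mul_nonneg (inv_nonneg.2 hr.le) (nonneg_of_mul_nonneg_right ?_
      (hwpos (r - h) r (by linarith) (by linarith)))
    rw [← avg_sub_avg hp (by linarith) (by linarith)]
    linarith
  have hout : r⁻¹ * ∫ z, shellK x r (r + h) z * ⟪v z, z - x⟫ ≤ 0 := by
    refine mul_nonpos_iff.2 (Or.inl ⟨inv_nonneg.2 hr.le, ?_⟩)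
    by_contra hc
    have := mul_pos (hwpos r (r + h) hr (by linarith)) (not_le.1 hc)
    rw [← avg_sub_avg hp hr (by linarith)] at this
    linarith
  have m1 := abs_le.1 (main (r - h) r (by linarith) (by linarith) (by ring) le_rfl (by linarith)
    (by linarith))
  have m2 := abs_le.1 (main r (r + h) hr (by linarith) (by ring) (by linarith) le_rfl (by linarith))
  rw [abs_le]
  constructor <;> linarith

end Vale.Agent.P137
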