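import Vale.Agent.P137.Centred.Params
import Vale.Agent.P137.Centred.Layers

/-!
Group, test and monotonicity bounds at a good point, and the elementary facts of all depths.

At the start depth `m` put `j = m / 16`.  The mass of depth `j` in the shell of half width
`6 b_m` is small: away from the good point by the absence of a jump, near it by the cap bound.
The mass of every finer depth in the ball is then at most the core mass of depth `j` plus
deficits, so all commutators decay.  The layers above `j` are, up to their coherent mass, parallel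
to the direction `n0`, and their radial parts telescope.
-/

namespace Vale.Agent.P137

open MeasureTheory Metric Filter Topology Set
open scoped RealInnerProductSpace ENNReal

variable {d : ℕ} {ε : ℝ} {g : EE d → ℝ} {v : EE d → EE d} {e : EE d} {J N1 m : ℕ}
  {e1 e2 : ℝ} {x y : EE d} {r Cc : ℝ}

/-- The deficit at depth `n` in the large ball. -/
noncomputable def GG (ε : ℝ) (v : EE d → EE d) (e : EE d) (J : ℕ) (x : EE d) (n : ℕ) : ℝ :=
  (GE ε v e J n x (512 * rho ε J)).toReal

namespace Analytic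

theorem qpow_le {a b : ℕ} (h : a ≤ b) : qC ^ b ≤ qC ^ a :=
  pow_le_pow_of_le_one qC_pos.le qC_lt_one.le h

theorem qpow_le_one (a : ℕ) : qC ^ a ≤ 1 := pow_le_one₀ qC_pos.le qC_lt_one.le

theorem qpow_small (hN : Deep N1) {n a b : ℕ} (hn : N1 ≤ n) (h : b + n ≤ a) {c : ℝ} (hc0 : 0 ≤ c)
    (hc : c ≤ 10 ^ 9) : c * qC ^ a ≤ qC ^ b := by
  calc c * qC ^ a ≤ c * qC ^ (b + n) := mul_le_mul_of_nonneg_left (qpow_le h) hc0
    _ = qC ^ b * (c * qC ^ n) := by rw [pow_add]; ring
    _ ≤ qC ^ b := mul_le_of_le_one_right (pow_nonneg qC_pos.le b)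
        ((mul_le_mul_of_nonneg_right hc (pow_nonneg qC_pos.le n)).trans (hN.2 n hn))

theorem qpow_small_one (hN : Deep N1) {n a : ℕ} (hn : N1 ≤ n) (h : n ≤ a) {c : ℝ} (hc0 : 0 ≤ c)
    (hc : c ≤ 10 ^ 9) : c * qC ^ a ≤ 1 := by
  simpa using qpow_small hN hn (b := 0) (a := a) (by omega) hc0 hc

theorem sc_pos (hε : 0 < ε) (k n : ℕ) : 0 < sc ε J k n :=
  mul_pos (rho_pos hε J) (pow_pos qC_pos _)

theorem uu_le_rho (hε : 0 < ε) (n : ℕ) : uu ε J n ≤ rho ε J := by
  rw [uu, rho, rho]
  exact mul_le_mul_of_nonneg_left (pow_le_pow_right₀ (by norm_num) (Nat.sub_le J n)) hε.le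

theorem uu_le_sc (hε : 0 < ε) {n k a : ℕ} (hn : n ≤ J) (h : k * a ≤ 65536 * n) :
    uu ε J n ≤ sc ε J k a := by
  rw [uu_eq_qC hn]
  exact mul_le_mul_of_nonneg_left (qpow_le h) (rho_pos hε J).le

theorem uu_band (hε : 0 < ε) {n : ℕ} (hn : n < J) : 3 * uu ε J n ≤ 64 * bb ε J (n + 1) := by
  rw [Layers.uu_succ ε hn]
  have := uu_le_sc (ε := ε) hε (J := J) (n := n + 1) (k := 3200) (a := n + 1) hn (by omega)
  have := sc_pos (J := J) hε 3200 (n + 1)
  linarith

theorem uu_band' (hε : 0 < ε) {n : ℕ} (hn : n ≤ J) : 2 * uu ε J n ≤ 64 * bb ε J n := by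
  have := uu_le_sc (ε := ε) hε (J := J) (n := n) (k := 3200) (a := n) hn (by omega)
  have := sc_pos (J := J) hε 3200 n
  linarith

theorem band_mono {b b' : ℝ} (h : b ≤ b') : band x r b ⊆ band x r b' := fun _ hz => le_trans hz h

theorem intB (hp : IsPot g v) (hε : 0 < ε) (n : ℕ) (S : Set (EE d)) :
    IntegrableOn (fun z => ‖vv ε v J n z‖) S :=
  (Layers.intv hp hε J n).norm.integrableOn

theorem gint (hp : IsPot g v) (hε : 0 < ε) (he : ‖e‖ = 1) (n : ℕ) {S : Set (EE d)}
    (hS : S ⊆ ball x (512 * rho ε J)) :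
    ∫ z in S, gg ε v e J n z ≤ GG ε v e J x n := by
  have h0 := Layers.gg_nonneg ε v he J n
  have hi := Layers.gg_int hp hε e J n
  rw [GG, GE, ← integral_eq_lintegral_of_nonneg_ae (.of_forall h0) hi.restrict.aestronglyMeasurable]
  exact setIntegral_mono_set hi.integrableOn (.of_forall h0) hS.eventuallyLE

theorem GG_nonneg (n : ℕ) : 0 ≤ GG ε v e J x n := ENNReal.toReal_nonneg

theorem DD_nonneg (he : ‖e‖ = 1) (n : ℕ) : 0 ≤ DD ε v e J x r n :=
  integral_nonneg fun z => Layers.gg_nonneg ε v he J n z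

theorem ZZ_eq (n : ℕ) :
    ZZ ε v J x r n = ∫ z in ball x (coreRad ε J r n), ‖vv ε v J n z‖ := by
  rw [ZZ, ← integral_indicator measurableSet_ball]
  refine integral_congr_ae (.of_forall fun z => ?_)
  by_cases h : z ∈ ball x (coreRad ε J r n) <;> simp [chiK, h]

theorem ZZ_nonneg (n : ℕ) : 0 ≤ ZZ ε v J x r n := by
  rw [ZZ_eq]; exact integral_nonneg fun z => norm_nonneg _

theorem coreVec_eq (n : ℕ) :
    coreVec ε v J x r n = ∫ z in ball x (coreRad ε J r n), vv ε v J n z := by
  rw [coreVec, ← integral_indicator measurableSet_ball]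
  refine integral_congr_ae (.of_forall fun z => ?_)
  by_cases h : z ∈ ball x (coreRad ε J r n) <;> simp [chiK, h]

/-- The core mass exceeds the component of the core vector by at most the deficit. -/
theorem core_le (hp : IsPot g v) (hε : 0 < ε) (n : ℕ) :
    ZZ ε v J x r n = ⟪coreVec ε v J x r n, e⟫ + ∫ z in ball x (coreRad ε J r n), gg ε v e J n z := by
  have hi := Layers.intv hp hε J n
  rw [ZZ_eq, coreVec_eq, real_inner_comm, ← integral_inner hi.restrict e,
    ← integral_add (hi.restrict.const_inner e) (Layers.gg_int hp hε e J n).restrict]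
  refine integral_congr_ae (.of_forall fun z => ?_)
  simp only [gg, gdef, vv]
  rw [real_inner_comm]
  ring

theorem base_le (hp : IsPot g v) (hε : 0 < ε) (he : ‖e‖ = 1) (hr1 : r ≤ 64 * rho ε J) :
    ‖coreVec ε v J x r 0‖ ≤ ⟪coreVec ε v J x r 0, e⟫ + 2 * DD ε v e J x r 0 := by
  have h1 : ‖coreVec ε v J x r 0‖ ≤ ZZ ε v J x r 0 := by
    rw [ZZ_eq, coreVec_eq]; exact norm_integral_le_integral_norm _
  have h2 : ∫ z in ball x (coreRad ε J r 0), gg ε v e J 0 z ≤ DD ε v e J x r 0 := by
    refine setIntegral_mono_set (Layers.gg_int hp hε e J 0).integrableOn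
      (.of_forall fun z => Layers.gg_nonneg ε v he J 0 z) (LE.le.eventuallyLE fun z hz => ?_)
    rw [Layers.mem_ball_norm] at hz
    have := Layers.coreRad_le (J := J) hε r 0
    show |‖z - x‖ - r| ≤ _
    simp only [bb, sc, mul_zero, pow_zero, mul_one, abs_le]
    constructor <;> linarith [norm_nonneg (z - x)]
  have := DD_nonneg (ε := ε) (v := v) (J := J) (x := x) (r := r) he 0
  rw [core_le (e := e) hp hε 0] at h1
  linarith

theorem Z_le (hp : IsPot g v) (hε : 0 < ε) (he : ‖e‖ = 1) (hr1 : r ≤ 64 * rho ε J) (n : ℕ) :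
    ZZ ε v J x r n ≤ ⟪coreVec ε v J x r n, e⟫ + GG ε v e J x n := by
  rw [core_le (e := e) hp hε n]
  have := gint hp hε he n (x := x) (S := ball x (coreRad ε J r n))
    (ball_subset_ball (by linarith [Layers.coreRad_le (J := J) hε r n, rho_pos hε J]))
  linarith

theorem layer_le (hp : IsPot g v) (hε : 0 < ε) (he : ‖e‖ = 1) {n : ℕ} (hn : n < J) :
    ‖coreVec ε v J x r (n + 1) - coreVec ε v J x r n‖ ≤
      ⟪coreVec ε v J x r (n + 1) - coreVec ε v J x r n, e⟫ + 2 * DD ε v e J x r (n + 1) := by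
  rw [coreVec_succ hp hε hn, add_sub_cancel_left]
  have h := layer_excess (x := x) (r := r) hp hε he hn (uu_band hε hn)
  have h' : bandDef ε v e J x r (64 * bb ε J (n + 1)) (n + 1) = DD ε v e J x r (n + 1) := rfl
  have := DD_nonneg (ε := ε) (v := v) (J := J) (x := x) (r := r) he (n + 1)
  linarith

end Analytic

/-- The data at a good point of depth `m`. -/
structure AtGood (ε : ℝ) (g : EE d → ℝ) (v : EE d → EE d) (e : EE d) (J N1 m : ℕ) (e1 e2 : ℝ)
    (x y : EE d) (r Cc : ℝ) : Prop where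
  hp : IsPot g v
  hε : 0 < ε
  he : ‖e‖ = 1
  deep : Deep N1
  m_ge : N1 ≤ m
  m_le : m ≤ J
  r_ge : rho ε J / 64 ≤ r
  r_le : r ≤ 64 * rho ε J
  good : GoodPt ε v e J m e1 e2 x r y
  Cc_ge : 1 ≤ Cc
  cap : ∫ z in ball y (zz ε J m), ‖vv ε v J (m / 16) z‖ ≤
    Cc * (DD ε v e J x r (m / 16) + qC ^ (2 * m) * GG ε v e J x (m / 16) +
      qC ^ m * ZZ ε v J x r (m / 16))

/-- Bounds on `T` used at a good point. -/
structure TBound (ε : ℝ) (v : EE d → EE d) (e : EE d) (J : ℕ) (x : EE d) (T : ℕ → ℝ) : Prop where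
  nonneg : ∀ n, 0 ≤ T n
  le : ∀ n, n ≤ J → qC ^ n * GG ε v e J x n ≤ T n

namespace AtGood

open Analytic

variable {T : ℕ → ℝ}

/-- The error allowed at a good point. -/
noncomputable def err (ε : ℝ) (v : EE d → EE d) (e : EE d) (J m : ℕ) (x : EE d) (r : ℝ)
    (T : ℕ → ℝ) : ℝ :=
  qC ^ m * ZZ ε v J x r (m / 16) + T m + DD ε v e J x r (m / 16) / qC ^ m +
    qC ^ m * ∑ k ∈ Finset.range (J + 1), T k

variable (A : AtGood ε g v e J N1 m e1 e2 x y r Cc) (hT : TBound ε v e J x T)

include A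

theorem m256 : 256 ≤ m := A.deep.1.trans A.m_ge

theorem r_pos : 0 < r := by
  have := rho_pos A.hε J
  linarith [A.r_ge]

theorem b_small : 1000 * bb ε J m ≤ rho ε J := by
  have h := qpow_small_one A.deep A.m_ge (a := 3200 * m) (by omega) (c := 1000) (by norm_num)
    (by norm_num)
  have := mul_le_mul_of_nonneg_left h (rho_pos A.hε J).le
  simp only [bb, sc]
  linarith

theorem uj_le : uu ε J (m / 16) ≤ sc ε J 3300 m :=
  uu_le_sc A.hε (by have := A.m_le; omega) (by have := A.m256; omega)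

theorem uj_b : 2 * uu ε J (m / 16) ≤ bb ε J m := by
  have h := qpow_small A.deep A.m_ge (a := 3300 * m) (b := 3200 * m) (by omega) (c := 2)
    (by norm_num) (by norm_num)
  have := mul_le_mul_of_nonneg_left h (rho_pos A.hε J).le
  have := A.uj_le
  simp only [sc, bb] at *
  linarith

theorem uu_anti {n : ℕ} (hn : m / 16 ≤ n) : uu ε J n ≤ uu ε J (m / 16) := by
  rw [uu, uu, rho, rho]
  exact mul_le_mul_of_nonneg_left (pow_le_pow_right₀ (by norm_num) (by omega)) A.hε.le

include hT

theorem err_nonneg : 0 ≤ err ε v e J m x r T := by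
  have h0 := pow_pos qC_pos m
  have h1 := Finset.sum_nonneg fun k (_ : k ∈ Finset.range (J + 1)) => hT.nonneg k
  have h2 := div_nonneg (DD_nonneg (v := v) (x := x) (r := r) (ε := ε) (J := J) A.he (m / 16)) h0.le
  have := hT.nonneg m
  have := mul_nonneg h0.le (ZZ_nonneg (ε := ε) (v := v) (J := J) (x := x) (r := r) (m / 16))
  have := mul_nonneg h0.le h1
  unfold err
  linarith

/-- The mass of the start depth in the thin shell is small. -/
theorem shell_mass {b : ℝ} (hb : b ≤ 6 * bb ε J m) :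
    ∫ z in band x r b, ‖vv ε v J (m / 16) z‖ ≤ 2 * Cc * err ε v e J m x r T := by
  set j := m / 16 with hj
  have hi := intB A.hp A.hε (J := J) j
  set B := band x r (6 * bb ε J m) with hB
  have hBm : MeasurableSet B := Layers.meas_band x r _
  have h1 : ∫ z in band x r b, ‖vv ε v J j z‖ ≤ ∫ z in B, ‖vv ε v J j z‖ :=
    setIntegral_mono_set (hi B) (.of_forall fun z => norm_nonneg _) (band_mono hb).eventuallyLE
  have h2 : ∫ z in B, ‖vv ε v J j z‖ ≤ (∫ z in B \ ball y (zz ε J m), ‖vv ε v J j z‖) +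
      ∫ z in ball y (zz ε J m), ‖vv ε v J j z‖ := by
    rw [← setIntegral_union disjoint_sdiff_left measurableSet_ball (hi _) (hi _)]
    exact setIntegral_mono_set (hi _) (.of_forall fun z => norm_nonneg _)
      (LE.le.eventuallyLE fun z hz => by
        by_cases h : z ∈ ball y (zz ε J m)
        · exact Or.inr h
        · exact Or.inl ⟨hz, h⟩)
  have hq := pow_pos qC_pos m
  have hGm : qC ^ (2 * m) * GG ε v e J x m ≤ T m :=
    (mul_le_mul_of_nonneg_right (qpow_le (by omega)) (GG_nonneg _)).trans (hT.le m A.m_le)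
  have hGj : qC ^ (2 * m) * GG ε v e J x j ≤ qC ^ m * ∑ k ∈ Finset.range (J + 1), T k := by
    have hjJ : j ≤ J := by have := A.m_le; omega
    calc qC ^ (2 * m) * GG ε v e J x j ≤ qC ^ m * qC ^ j * GG ε v e J x j := by
          rw [← pow_add]; exact mul_le_mul_of_nonneg_right (qpow_le (by omega)) (GG_nonneg _)
      _ ≤ qC ^ m * T j := by rw [mul_assoc]; exact mul_le_mul_of_nonneg_left (hT.le j hjJ) hq.le
      _ ≤ _ := mul_le_mul_of_nonneg_left (Finset.single_le_sum (fun k _ => hT.nonneg k)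
          (Finset.mem_range.2 (by omega))) hq.le
  have hD : DD ε v e J x r j ≤ DD ε v e J x r j / qC ^ m :=
    le_div_self (DD_nonneg A.he j) hq (qpow_le_one m)
  have hC := A.Cc_ge
  have hsh : ∫ z in B \ ball y (zz ε J m), ‖vv ε v J j z‖ ≤ Cc * err ε v e J m x r T := by
    refine (A.good.shell.trans hGm).trans ?_
    refine le_trans ?_ (le_mul_of_one_le_left (A.err_nonneg hT) hC)
    unfold err
    have := mul_nonneg hq.le (ZZ_nonneg (ε := ε) (v := v) (J := J) (x := x) (r := r) j)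
    have := div_nonneg (DD_nonneg (v := v) (x := x) (r := r) (ε := ε) (J := J) A.he j) hq.le
    have := mul_nonneg hq.le (Finset.sum_nonneg fun k (_ : k ∈ Finset.range (J + 1)) => hT.nonneg k)
    linarith
  have hcap : ∫ z in ball y (zz ε J m), ‖vv ε v J j z‖ ≤ Cc * err ε v e J m x r T := by
    refine A.cap.trans (mul_le_mul_of_nonneg_left ?_ (by linarith))
    unfold err
    have := hT.nonneg m
    linarith
  linarith

omit hT in
omit A in
theorem tsum_geo {a : ℝ} (ha0 : 0 ≤ a) (ha : a ≤ 1 / 2) (j M : ℕ) :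
    ∑ n ∈ Finset.Ico j M, a ^ n ≤ 2 * a ^ j :=
  (geom_sum_Ico_le_of_lt_one ha0 (by linarith)).trans (by
    rw [div_le_iff₀ (by linarith)]; nlinarith [pow_nonneg ha0 j])

omit hT in
theorem ball_big {s : ℝ} (hs : s ≤ 80 * rho ε J) (n : ℕ) :
    band x s (3 * uu ε J n) ⊆ ball x (512 * rho ε J) ∧
      ball x (s + 3 * uu ε J n) ⊆ ball x (512 * rho ε J) := by
  have := uu_le_rho (J := J) A.hε n
  have := rho_pos A.hε J
  refine ⟨fun z hz => ?_, ball_subset_ball (by linarith)⟩
  rw [Layers.mem_ball_norm]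
  linarith [(abs_le.1 (show |‖z - x‖ - s| ≤ _ from hz)).2]

/-- Finer masses are bounded by the start mass and deficits. -/
theorem mass_le {k : ℕ} (hk : m / 16 ≤ k) (hkJ : k ≤ J) {s : ℝ}
    (hs : s ≤ r + 4 * bb ε J m) :
    massB ε v J x k s ≤ ZZ ε v J x r (m / 16) + 2 * Cc * err ε v e J m x r T +
      2 * ∑ i ∈ Finset.range (k + 1), GG ε v e J x i := by
  set j := m / 16 with hj
  have hb := sc_pos (J := J) A.hε 3200 m
  have hs80 : s ≤ 80 * rho ε J := by linarith [A.r_le, A.b_small, rho_pos A.hε J]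
  have h := massB_le (x := x) A.hp A.hε A.he hk hkJ s
  have h1 : massB ε v J x j (s + 2 * uu ε J j) ≤
      ZZ ε v J x r j + 2 * Cc * err ε v e J m x r T := by
    have hi := intB A.hp A.hε (J := J) j
    refine le_trans ?_ (add_le_add (le_of_eq (ZZ_eq j).symm) (A.shell_mass hT le_rfl))
    refine le_trans (setIntegral_mono_set (hi _) (.of_forall fun z => norm_nonneg _)
      (t := ball x (coreRad ε J r j) ∪ (band x r (6 * bb ε J m) \ ball x (coreRad ε J r j)))
      (LE.le.eventuallyLE fun z hz => ?_)) ?_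
    · by_cases hc : z ∈ ball x (coreRad ε J r j)
      · exact Or.inl hc
      refine Or.inr ⟨?_, hc⟩
      rw [Layers.mem_ball_norm] at hz hc
      show |‖z - x‖ - r| ≤ _
      rw [abs_le]
      constructor <;> linarith [Layers.coreRad_lb (J := J) A.hε r j, A.uj_b]
    · rw [setIntegral_union disjoint_sdiff_right
        ((Layers.meas_band x r _).diff measurableSet_ball) (hi _) (hi _)]
      exact add_le_add le_rfl (setIntegral_mono_set (hi _) (.of_forall fun z => norm_nonneg _)
        sdiff_subset.eventuallyLE)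
  have h2 : ∀ n, bandDef ε v e J x s (3 * uu ε J n) (n + 1) ≤ GG ε v e J x (n + 1) := fun n =>
    gint A.hp A.hε A.he (n + 1) (A.ball_big hs80 n).1
  have h3 : ∑ n ∈ Finset.Ico j k, bandDef ε v e J x s (3 * uu ε J n) (n + 1) ≤
      ∑ i ∈ Finset.range (k + 1), GG ε v e J x i := by
    refine (Finset.sum_le_sum fun n _ => h2 n).trans ?_
    rw [Finset.sum_Ico_add' (fun i => GG ε v e J x i)]
    refine Finset.sum_le_sum_of_subset_of_nonneg (fun i hi => ?_) fun i _ _ => GG_nonneg i
    simp only [Finset.mem_Ico, Finset.mem_range] at hi ⊢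
    omega
  have h4 : ∫ z in ball x (s + 2 * uu ε J k), gg ε v e J k z ≤
      ∑ i ∈ Finset.range (k + 1), GG ε v e J x i :=
    (gint A.hp A.hε A.he k ((ball_subset_ball (by linarith [Layers.uu_pos A.hε J k])).trans
      (A.ball_big hs80 k).2)).trans
      (Finset.single_le_sum (fun i _ => GG_nonneg i) (by simp))
  linarith

/-- All commutators beyond the start depth decay. -/
theorem mass_sum {M : ℕ} (hM : M ≤ J) {s : ℕ → ℝ} (hs : ∀ n, m / 16 ≤ n → n < M →
    s n ≤ r + 4 * bb ε J m) :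
    ∑ n ∈ Finset.Ico (m / 16) M, uu ε J n * (massB ε v J x (n + 1) (s n) + GG ε v e J x (n + 1)) ≤
      8 * sc ε J 3300 m * (ZZ ε v J x r (m / 16) + 2 * Cc * err ε v e J m x r T +
        ∑ k ∈ Finset.range (J + 1), T k) := by
  set j := m / 16 with hj
  set K0 := ZZ ε v J x r j + 2 * Cc * err ε v e J m x r T with hK0
  set tot := ∑ k ∈ Finset.range (J + 1), T k with htot
  have hR := rho_pos A.hε J
  have hC := A.Cc_ge
  have hK0p : 0 ≤ K0 := by
    have := ZZ_nonneg (ε := ε) (v := v) (J := J) (x := x) (r := r) j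
    have := mul_nonneg (show 0 ≤ 2 * Cc by linarith) (A.err_nonneg hT)
    linarith
  have htot0 : 0 ≤ tot := Finset.sum_nonneg fun k _ => hT.nonneg k
  set a : ℝ := qC ^ (65535 : ℕ) with ha
  have ha0 : 0 ≤ a := pow_nonneg qC_pos.le _
  have ha2 : a ≤ 1 / 2 := by
    have h1 : a * a ≤ qC ^ (65536 : ℕ) := by
      rw [ha, ← pow_add]; exact qpow_le (by omega)
    rw [qC_pow] at h1
    nlinarith
  have key : ∀ n ∈ Finset.Ico j M, uu ε J n * (massB ε v J x (n + 1) (s n) +
      GG ε v e J x (n + 1)) ≤ rho ε J * (a ^ n * (K0 + 3 * (qC⁻¹ * tot))) := by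
    intro n hn
    rw [Finset.mem_Ico] at hn
    have hu := Layers.uu_pos A.hε J n
    have h1 := A.mass_le hT (k := n + 1) (by omega) (by omega) (hs n hn.1 hn.2)
    have h2 : GG ε v e J x (n + 1) ≤ ∑ i ∈ Finset.range (n + 1 + 1), GG ε v e J x i :=
      Finset.single_le_sum (fun i _ => GG_nonneg i) (by simp)
    refine (mul_le_mul_of_nonneg_left (show _ ≤ K0 + 3 * ∑ i ∈ Finset.range (n + 1 + 1),
      GG ε v e J x i by linarith) hu.le).trans ?_
    have h3 : qC ^ (n + 1) * ∑ i ∈ Finset.range (n + 1 + 1), GG ε v e J x i ≤ tot := by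
      rw [Finset.mul_sum]
      refine (Finset.sum_le_sum fun i hi => ?_).trans
        (Finset.sum_le_sum_of_subset_of_nonneg (f := T) (Finset.range_subset_range.2 (by omega))
          fun i _ _ => hT.nonneg i)
      simp only [Finset.mem_range] at hi
      exact (mul_le_mul_of_nonneg_right (qpow_le (by omega)) (GG_nonneg i)).trans
        (hT.le i (by omega))
    rw [uu_eq_qC (by omega), mul_assoc]
    refine mul_le_mul_of_nonneg_left ?_ hR.le
    rw [mul_add _ K0, mul_add _ K0]
    have e1 : qC ^ (65536 * n) ≤ a ^ n := by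
      rw [ha, ← pow_mul]; exact qpow_le (by omega)
    have e2 : qC ^ (65536 * n) = a ^ n * (qC⁻¹ * qC ^ (n + 1)) := by
      rw [pow_succ', inv_mul_cancel_left₀ qC_pos.ne', ha, ← pow_mul, ← pow_add]
      congr 1; omega
    refine add_le_add (mul_le_mul_of_nonneg_right e1 hK0p) ?_
    rw [e2]
    have := mul_le_mul_of_nonneg_left h3 (mul_nonneg (pow_nonneg ha0 n) (inv_nonneg.2 qC_pos.le))
    linarith
  refine (Finset.sum_le_sum key).trans ?_
  rw [← Finset.mul_sum, ← Finset.sum_mul]
  refine (mul_le_mul_of_nonneg_left (mul_le_mul_of_nonneg_right (tsum_geo ha0 ha2 j M)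
    (add_nonneg hK0p (mul_nonneg (by norm_num) (mul_nonneg (inv_nonneg.2 qC_pos.le) htot0))))
    hR.le).trans ?_
  have hm := A.m256
  have e3 : a ^ j ≤ qC ^ (3300 * m) := by
    rw [ha, ← pow_mul]; exact qpow_le (by omega)
  have e4 : a ^ j * qC⁻¹ ≤ qC ^ (3300 * m) := by
    rw [mul_inv_le_iff₀ qC_pos, ← pow_succ, ha, ← pow_mul]; exact qpow_le (by omega)
  simp only [sc]
  have := mul_le_mul_of_nonneg_right e3 hK0p
  have := mul_le_mul_of_nonneg_right e4 htot0
  have := mul_nonneg hR.le (mul_nonneg (pow_nonneg qC_pos.le (3300 * m)) hK0p)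
  have := mul_nonneg hR.le (mul_nonneg (pow_nonneg qC_pos.le (3300 * m)) htot0)
  nlinarith

/-- A decaying multiple of the start mass is an allowed error. -/
theorem decay_le {c : ℝ} (hc0 : 0 ≤ c) (hc : c ≤ qC ^ m) :
    c * (ZZ ε v J x r (m / 16) + 2 * Cc * err ε v e J m x r T +
      ∑ k ∈ Finset.range (J + 1), T k) ≤ 3 * Cc * err ε v e J m x r T := by
  have hE := A.err_nonneg hT
  have hC := A.Cc_ge
  have hq := pow_pos qC_pos m
  have hZ := ZZ_nonneg (ε := ε) (v := v) (J := J) (x := x) (r := r) (m / 16)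
  have htot := Finset.sum_nonneg fun k (_ : k ∈ Finset.range (J + 1)) => hT.nonneg k
  have h1 := mul_le_mul_of_nonneg_right hc hZ
  have h2 := mul_le_mul_of_nonneg_right hc htot
  have h3 : c * (2 * Cc * err ε v e J m x r T) ≤ 2 * Cc * err ε v e J m x r T :=
    mul_le_of_le_one_left (by positivity) (hc.trans (qpow_le_one m))
  have h4 : qC ^ m * ZZ ε v J x r (m / 16) + qC ^ m * ∑ k ∈ Finset.range (J + 1), T k ≤
      Cc * err ε v e J m x r T := by
    refine le_trans ?_ (le_mul_of_one_le_left hE hC)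
    unfold err
    have := hT.nonneg m
    have := div_nonneg (DD_nonneg (v := v) (x := x) (r := r) (ε := ε) (J := J) A.he (m / 16)) hq.le
    linarith
  linarith

theorem mono_le {i : ℕ} (hi : m / 16 ≤ i) (hiJ : i ≤ J) :
    ZZ ε v J x r i ≤ 3 * Cc * (ZZ ε v J x r (m / 16) + T m + DD ε v e J x r (m / 16) / qC ^ m +
      ∑ k ∈ Finset.range (J + 1), T k + ∑ k ∈ Finset.range (i + 1), GG ε v e J x k) := by
  have h := A.mass_le hT hi hiJ (s := r) (by linarith [sc_pos (J := J) A.hε 3200 m])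
  have h1 : ZZ ε v J x r i ≤ massB ε v J x i r := by
    rw [ZZ_eq]
    exact setIntegral_mono_set (intB A.hp A.hε i _) (.of_forall fun z => norm_nonneg _)
      (ball_subset_ball (Layers.coreRad_le A.hε r i)).eventuallyLE
  have hC := A.Cc_ge
  have hq := pow_pos qC_pos m
  have hZ := ZZ_nonneg (ε := ε) (v := v) (J := J) (x := x) (r := r) (m / 16)
  have htot := Finset.sum_nonneg fun k (_ : k ∈ Finset.range (J + 1)) => hT.nonneg k
  have hG := Finset.sum_nonneg fun k (_ : k ∈ Finset.range (i + 1)) =>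
    GG_nonneg (ε := ε) (v := v) (e := e) (J := J) (x := x) k
  have := hT.nonneg m
  have := div_nonneg (DD_nonneg (v := v) (x := x) (r := r) (ε := ε) (J := J) A.he (m / 16)) hq.le
  have h2 : err ε v e J m x r T ≤ ZZ ε v J x r (m / 16) + T m +
      DD ε v e J x r (m / 16) / qC ^ m + ∑ k ∈ Finset.range (J + 1), T k := by
    unfold err
    have := mul_le_of_le_one_left hZ (qpow_le_one m)
    have := mul_le_of_le_one_left htot (qpow_le_one m)
    linarith
  have h3 := mul_le_mul_of_nonneg_left h2 (show 0 ≤ 2 * Cc by linarith)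
  nlinarith

/-- The radial test at the start depth. -/
theorem test_le {Cr : ℝ} (hCr : 0 < Cr)
    (htest : |radial ε v J x r (m / 16)| ≤ 2 * (∫ z in band x r (bb ε J m), ‖vv ε v J (m / 16) z‖) +
      Cr / bb ε J m * ∑ n ∈ Finset.Ico (m / 16) J,
        uu ε J n * massB ε v J x (n + 1) (r + bb ε J m + uu ε J n)) :
    |radial ε v J x r (m / 16)| ≤ (4 + 3 * Cr) * Cc * err ε v e J m x r T := by
  have hb := sc_pos (J := J) A.hε 3200 m
  have h1 := A.shell_mass hT (b := bb ε J m) (by linarith)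
  have hsum := A.mass_sum hT (M := J) le_rfl (s := fun n => r + bb ε J m + uu ε J n)
    fun n hn _ => by linarith [A.uu_anti hn, A.uj_b, Layers.uu_pos A.hε J n]
  have hle : ∑ n ∈ Finset.Ico (m / 16) J, uu ε J n * massB ε v J x (n + 1) (r + bb ε J m + uu ε J n)
      ≤ _ := le_trans (Finset.sum_le_sum fun n _ => mul_le_mul_of_nonneg_left
        (le_add_of_nonneg_right (GG_nonneg (n + 1))) (Layers.uu_pos A.hε J n).le) hsum
  have h2 := mul_le_mul_of_nonneg_left hle (div_nonneg hCr.le hb.le)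
  have hc : Cr / bb ε J m * (8 * sc ε J 3300 m) = Cr * (8 * qC ^ (100 * m)) := by
    simp only [bb, sc]
    rw [show 3300 * m = 100 * m + 3200 * m by ring, pow_add]
    field_simp [(rho_pos A.hε J).ne', (pow_pos qC_pos (3200 * m)).ne']
  have h3 := A.decay_le hT (c := 8 * qC ^ (100 * m)) (by have := qC_pos; positivity)
    (qpow_small A.deep A.m_ge (by omega) (by norm_num) (by norm_num))
  have h4 := mul_le_mul_of_nonneg_left h3 hCr.le
  rw [← mul_assoc, hc, mul_assoc] at h2
  linarith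

omit hT in
theorem wdir_le {n0 : EE d} (hn0 : ‖n0‖ = 1) {z : EE d} (hz : ‖z - x‖ ≤ 2 * r) :
    wdir x r n0 z ≤ 3 := by
  have hr := A.r_pos
  have h1 : ‖qq x r z‖ ≤ 2 := by
    rw [qq, norm_smul, Real.norm_of_nonneg (inv_nonneg.2 hr.le), inv_mul_le_iff₀ hr]
    linarith
  refine (norm_sub_le _ _).trans ?_
  rw [hn0]
  linarith

/-- The layers beyond the start depth, as a vector. -/
theorem group_le {j' : ℕ} (hj : m / 16 < j') (hj' : j' ≤ J) {n0 : EE d} (hn0 : ‖n0‖ = 1) :
    ‖coreVec ε v J x r j' - coreVec ε v J x r (m / 16)‖ ≤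
      40 * Cc * (|radial ε v J x r (m / 16)| + |radial ε v J x r j'| + err ε v e J m x r T +
        ∑ k ∈ Finset.Ioc (m / 16) j', WD ε v e J x r k n0) := by
  set j := m / 16 with hjdef
  have hr := A.r_pos
  have hR := rho_pos A.hε J
  set a : ℕ → EE d := fun n => ∫ z, omega1 ε J x r n z • vv ε v J (n + 1) z
  set ρ' : ℕ → ℝ := fun n => ∫ z, omega1 ε J x r n z * ⟪vv ε v J (n + 1) z, qq x r z⟫
  set w : ℕ → ℝ := fun n =>
    ∫ z, omega1 ε J x r n z * (wdir x r n0 z * ‖vv ε v J (n + 1) z‖) with hw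
  have hP : coreVec ε v J x r j' - coreVec ε v J x r j = ∑ n ∈ Finset.Ico j j', a n := by
    rw [coreVec_sum A.hp A.hε hj.le hj', add_sub_cancel_left]
  have hv : ∀ n ∈ Finset.Ico j j', ‖a n - ρ' n • n0‖ ≤ 3 * w n := by
    intro n hn
    rw [Finset.mem_Ico] at hn
    have hnJ : n < J := by omega
    refine (vector_bound (G := lad ε g (J - (n + 1))) (isPot_lad A.hε A.hp _)
      (Layers.omega_meas ε J x r n) (Cκ := 1) (s := r)
      (fun z => by have := omega1_mem (x := x) (r := r) A.hε hnJ z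
                   rw [abs_of_nonneg this.1]; exact this.2)
      (fun z hz => by_contra fun h => absurd (omega1_support A.hε hnJ h).2 (not_lt.2 hz))
      (fun z z' h => omega1_radial h) hn0 hr).trans (le_of_eq ?_)
    rw [hw]
    congr 1
    refine integral_congr_ae (.of_forall fun z => ?_)
    show |omega1 ε J x r n z| * _ = _
    rw [abs_of_nonneg (omega1_mem A.hε hnJ z).1]
    simp only [vv]
    ring
  have hcomm : ∑ n ∈ Finset.Ico j j', uu ε J n * (massB ε v J x (n + 1) r +
      GG ε v e J x (n + 1)) ≤ _ :=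
    A.mass_sum hT hj' (s := fun _ => r) fun n _ _ => by linarith [sc_pos (J := J) A.hε 3200 m]
  set S := ∑ n ∈ Finset.Ico j j', uu ε J n * (massB ε v J x (n + 1) r + GG ε v e J x (n + 1))
  have hS : S / r ≤ 3 * Cc * err ε v e J m x r T := by
    refine le_trans ?_ (A.decay_le hT (c := 512 * qC ^ (3300 * m))
      (by have := qC_pos; positivity)
      (qpow_small A.deep A.m_ge (by omega) (by norm_num) (by norm_num)))
    rw [div_le_iff₀ hr]
    refine hcomm.trans ?_
    have hE := A.err_nonneg hT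
    have hC := A.Cc_ge
    have h0 : 0 ≤ qC ^ (3300 * m) * (ZZ ε v J x r j + 2 * Cc * err ε v e J m x r T +
        ∑ k ∈ Finset.range (J + 1), T k) := by
      refine mul_nonneg (pow_nonneg qC_pos.le _) ?_
      have := ZZ_nonneg (ε := ε) (v := v) (J := J) (x := x) (r := r) j
      have := Finset.sum_nonneg fun k (_ : k ∈ Finset.range (J + 1)) => hT.nonneg k
      have := mul_nonneg (show 0 ≤ 2 * Cc by linarith) hE
      linarith
    have := mul_le_mul_of_nonneg_right A.r_ge h0
    simp only [sc]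
    linarith
  have hrad : |∑ n ∈ Finset.Ico j j', ρ' n| ≤
      |radial ε v J x r j| + |radial ε v J x r j'| + S / r := by
    have h1 : ∀ n ∈ Finset.Ico j j', |ρ' n - (radial ε v J x r (n + 1) - radial ε v J x r n)| ≤
        uu ε J n * (massB ε v J x (n + 1) r + GG ε v e J x (n + 1)) / r := fun n hn => by
      rw [Finset.mem_Ico] at hn
      rw [abs_sub_comm]
      refine (radial_succ A.hp A.hε (by omega) hr).trans ?_
      rw [div_mul_eq_mul_div]
      exact div_le_div_of_nonneg_right (mul_le_mul_of_nonneg_left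
        (le_add_of_nonneg_right (GG_nonneg (n + 1))) (Layers.uu_pos A.hε J n).le) hr.le
    have h2 := (Finset.abs_sum_le_sum_abs _ _).trans (Finset.sum_le_sum h1)
    rw [Finset.sum_sub_distrib, Finset.sum_Ico_sub (fun n => radial ε v J x r n) hj.le,
      ← Finset.sum_div] at h2
    have h3 := abs_sub (radial ε v J x r j') (radial ε v J x r j)
    have h4 := abs_sub_abs_le_abs_sub (∑ n ∈ Finset.Ico j j', ρ' n)
      (radial ε v J x r j' - radial ε v J x r j)
    linarith
  have hWt := isWt_wdir (x := x) (n0 := n0) hr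
  have hcoh := coherent_sum (x := x) (r := r) A.hp A.hε A.he hWt hj.le hj'
  have hb := sc_pos (J := J) A.hε 3200 m
  have hfirst : ∫ z in band x r (2 * uu ε J j), wdir x r n0 z * ‖vv ε v J j z‖ ≤
      6 * Cc * err ε v e J m x r T := by
    have h1 : ∫ z in band x r (2 * uu ε J j), wdir x r n0 z * ‖vv ε v J j z‖ ≤
        ∫ z in band x r (2 * uu ε J j), 3 * ‖vv ε v J j z‖ := by
      refine setIntegral_mono_on
        (Layers.integ_wt A.hp A.hε hWt (Layers.meas_band x r _) (Layers.band_bounded ..) J j e).2.1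
        ((intB A.hp A.hε j _).const_mul 3) (Layers.meas_band x r _) fun z hz =>
        mul_le_mul_of_nonneg_right (A.wdir_le hn0 ?_) (norm_nonneg _)
      linarith [(abs_le.1 (show |‖z - x‖ - r| ≤ _ from hz)).2, A.uj_b, A.b_small, A.r_ge]
    rw [integral_const_mul] at h1
    linarith [A.shell_mass hT (b := 2 * uu ε J j) (by linarith [A.uj_b])]
  have hWD : ∀ k n, n ≤ k → ∀ b, b ≤ 64 * bb ε J n →
      ∫ z in band x r b, wdir x r n0 z * gg ε v e J n z ≤ WD ε v e J x r n n0 := by
    intro k n _ b hb'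
    refine setIntegral_mono_set (Layers.integ_wt A.hp A.hε hWt (Layers.meas_band x r _)
      (Layers.band_bounded ..) J n e).2.2 ?_ (band_mono hb').eventuallyLE
    exact .of_forall fun z => mul_nonneg (norm_nonneg _) (Layers.gg_nonneg ε v A.he J n z)
  have hWsum : ∑ n ∈ Finset.Ico j j',
      ∫ z in band x r (3 * uu ε J n), wdir x r n0 z * gg ε v e J (n + 1) z ≤
      ∑ k ∈ Finset.Ioc j j', WD ε v e J x r k n0 := by
    refine (Finset.sum_le_sum fun n hn =>
      hWD (n + 1) (n + 1) le_rfl _ (uu_band A.hε (by simp at hn; omega))).trans (le_of_eq ?_)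
    rw [Finset.sum_Ico_add' (fun k => WD ε v e J x r k n0)]
    exact Finset.sum_congr (by ext k; simp only [Finset.mem_Ico, Finset.mem_Ioc]; omega)
      fun _ _ => rfl
  have hlast : ∫ z in band x r (2 * uu ε J j'), wdir x r n0 z * gg ε v e J j' z ≤
      ∑ k ∈ Finset.Ioc j j', WD ε v e J x r k n0 := by
    refine (hWD j' j' le_rfl _ (uu_band' A.hε hj')).trans
      (Finset.single_le_sum (f := fun k => WD ε v e J x r k n0) (fun k _ => ?_)
        (Finset.mem_Ioc.2 ⟨hj, le_rfl⟩))
    exact integral_nonneg fun z => mul_nonneg (norm_nonneg _) (Layers.gg_nonneg ε v A.he J k z)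
  have hcm : ∑ n ∈ Finset.Ico j j', 1 / r * uu ε J n *
      ((∫ z in ball x (r + 3 * uu ε J n), gg ε v e J (n + 1) z) + massB ε v J x (n + 1) r) ≤
      S / r := by
    rw [Finset.sum_div]
    refine Finset.sum_le_sum fun n hn => ?_
    rw [one_div_mul_eq_div, div_mul_eq_mul_div, add_comm (∫ z in _, _)]
    refine div_le_div_of_nonneg_right (mul_le_mul_of_nonneg_left (add_le_add le_rfl
      (gint A.hp A.hε A.he (n + 1)
        (A.ball_big (s := r) (by linarith [A.r_le]) n).2)) (Layers.uu_pos A.hε J n).le) hr.le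
  rw [hP]
  have htri : ‖∑ n ∈ Finset.Ico j j', a n‖ ≤
      3 * ∑ n ∈ Finset.Ico j j', w n + |∑ n ∈ Finset.Ico j j', ρ' n| := by
    have h1 : ∑ n ∈ Finset.Ico j j', a n = ∑ n ∈ Finset.Ico j j', (a n - ρ' n • n0) +
        (∑ n ∈ Finset.Ico j j', ρ' n) • n0 := by
      rw [Finset.sum_smul, ← Finset.sum_add_distrib]; simp
    rw [h1, Finset.mul_sum]
    refine (norm_add_le _ _).trans (add_le_add ((norm_sum_le _ _).trans
      (Finset.sum_le_sum hv)) ?_)
    rw [norm_smul, hn0, mul_one, Real.norm_eq_abs]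
  simp only [Finset.sum_add_distrib, ← Finset.mul_sum] at hcoh
  have hW0 : 0 ≤ ∑ k ∈ Finset.Ioc j j', WD ε v e J x r k n0 := Finset.sum_nonneg fun k _ =>
    integral_nonneg fun z => mul_nonneg (norm_nonneg _) (Layers.gg_nonneg ε v A.he J k z)
  have hE := A.err_nonneg hT
  have hC := A.Cc_ge
  have hCE : err ε v e J m x r T ≤ Cc * err ε v e J m x r T := le_mul_of_one_le_left hE hC
  have hs0 := abs_nonneg (radial ε v J x r j)
  have hs1 := abs_nonneg (radial ε v J x r j')
  have m1 := le_mul_of_one_le_left hs0 hC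
  have m2 := le_mul_of_one_le_left hs1 hC
  have m3 := le_mul_of_one_le_left hW0 hC
  linarith

end AtGood

end Vale.Agent.P137
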