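import Vale.Agent.P137.Ladder
import Vale.Agent.P137.Centred.Defs

/-!
Averages over a band of radii compared with the ladder at the band scale.
-/

namespace Vale.Agent.P137

open MeasureTheory Metric Filter Topology Set
open scoped RealInnerProductSpace

variable {d : ℕ}

/-- The error between averages at radii comparable to `ρ_l` and the ladder value at level `l`. -/
noncomputable def bandErr (ε : ℝ) (v : EE d → EE d) (K : ℝ) (l : ℕ) (x : EE d) : ℝ :=
  rho ε l * ∑ i ∈ Finset.range l,
    (1 / 4 : ℝ) ^ (l - 1 - i) * ballAvg (K * rho ε l) (fun y => ‖lad ε v i y‖) x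

namespace Band

theorem intOn {F : Type*} [NormedAddCommGroup F] {H : EE d → F} (hH : Continuous H) (p : EE d)
    (r : ℝ) : IntegrableOn H (ball p r) :=
  (hH.continuousOn.integrableOn_compact (isCompact_closedBall p r)).mono_set
    ball_subset_closedBall

theorem vol_eq (x : EE d) {r : ℝ} (hr : 0 < r) :
    volume.real (ball x r) = r ^ d * volume.real (ball (0 : EE d) 1) := by
  rw [measureReal_def, measureReal_def, Measure.addHaar_ball_of_pos volume x hr,
    finrank_euclideanSpace_fin, ENNReal.toReal_mul, ENNReal.toReal_ofReal (pow_nonneg hr.le d)]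

theorem vol_pos (x : EE d) {r : ℝ} (hr : 0 < r) : 0 < volume.real (ball x r) :=
  ENNReal.toReal_pos (measure_ball_pos _ _ hr).ne' measure_ball_lt_top.ne

/-- An average around a point as an integral over a ball. -/
theorem ballAvg_eq {F : Type*} [NormedAddCommGroup F] [NormedSpace ℝ F] (r : ℝ) (g : EE d → F)
    (x : EE d) : ballAvg r g x = (volume.real (ball x r))⁻¹ • ∫ y in ball x r, g y := by
  rw [ballAvg, show volume.real (ball x r) = volume.real (ball (0 : EE d) r) by
    rw [measureReal_def, measureReal_def, Measure.addHaar_ball_center],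
    ← (measurePreserving_add_left volume x).setIntegral_preimage_emb
      (measurableEmbedding_addLeft x) g (ball x r)]
  simp

theorem ballAvg_nonneg (r : ℝ) {g : EE d → ℝ} (hg : ∀ y, 0 ≤ g y) (x : EE d) :
    0 ≤ ballAvg r g x :=
  mul_nonneg (inv_nonneg.2 measureReal_nonneg)
    (setIntegral_nonneg measurableSet_ball fun _ _ => hg _)

theorem shift_le {g : EE d → ℝ} {v : EE d → EE d} (hp : IsPot g v) (u x : EE d) {r ρ : ℝ}
    (hu : ‖u‖ ≤ ρ) :
    ∫ z in ball x r, |g (z + u) - g z| ≤ ρ * ∫ z in ball x (r + ρ), ‖v z‖ := by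
  have hv := hp.contv
  have hg := hp.cont
  have hint : Integrable (Function.uncurry fun (z : EE d) (s : ℝ) => ‖v (z + s • u)‖)
      ((volume.restrict (ball x r)).prod (volume.restrict (uIoc (0 : ℝ) 1))) := by
    rw [Measure.prod_restrict]
    have hc : Continuous (Function.uncurry fun (z : EE d) (s : ℝ) => ‖v (z + s • u)‖) := by
      unfold Function.uncurry
      fun_prop
    exact (hc.continuousOn.integrableOn_compact
      ((isCompact_closedBall x r).prod isCompact_uIcc)).mono_set
      (prod_mono ball_subset_closedBall uIoc_subset_uIcc)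
  have h0 : 0 ≤ ∫ z in ball x (r + ρ), ‖v z‖ :=
    setIntegral_nonneg measurableSet_ball fun _ _ => norm_nonneg _
  have hseg : ∀ z, |g (z + u) - g z| ≤ ρ * ∫ s in uIoc (0 : ℝ) 1, ‖v (z + s • u)‖ := by
    intro z
    rw [hp.seg, ← Real.norm_eq_abs, ← integral_const_mul]
    refine (intervalIntegral.norm_integral_le_abs_of_norm_le
      (g := fun s => ρ * ‖v (z + s • u)‖) (.of_forall fun s => ?_)
      (Continuous.intervalIntegrable (by fun_prop) _ _)).trans (le_of_eq ?_)
    · refine (norm_inner_le_norm _ _).trans ?_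
      rw [mul_comm]
      exact mul_le_mul_of_nonneg_right hu (norm_nonneg _)
    · rw [abs_of_nonneg, intervalIntegral.integral_of_le zero_le_one, uIoc_of_le zero_le_one]
      exact intervalIntegral.integral_nonneg zero_le_one fun s _ =>
        mul_nonneg ((norm_nonneg u).trans hu) (norm_nonneg _)
  calc ∫ z in ball x r, |g (z + u) - g z|
      ≤ ∫ z in ball x r, ρ * ∫ s in uIoc (0 : ℝ) 1, ‖v (z + s • u)‖ :=
        setIntegral_mono_on (intOn (by fun_prop) x r) (hint.integral_prod_left.const_mul ρ)
          measurableSet_ball fun z _ => hseg z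
    _ = ρ * ∫ s in uIoc (0 : ℝ) 1, ∫ z in ball x r, ‖v (z + s • u)‖ := by
        rw [integral_const_mul, integral_integral_swap hint]
    _ ≤ ρ * ∫ _ in uIoc (0 : ℝ) 1, ∫ z in ball x (r + ρ), ‖v z‖ := by
        refine mul_le_mul_of_nonneg_left (setIntegral_mono_on hint.integral_prod_right
          (integrableOn_const (by simp)) measurableSet_uIoc fun s hs => ?_) ((norm_nonneg u).trans hu)
        rw [uIoc_of_le zero_le_one] at hs
        rw [← (measurePreserving_add_right volume (-(s • u))).setIntegral_preimage_emb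
          (measurableEmbedding_addRight _) (fun z => ‖v (z + s • u)‖) (ball x r)]
        simp only [neg_add_cancel_right]
        refine setIntegral_mono_set (intOn (by fun_prop) x (r + ρ))
          (.of_forall fun z => norm_nonneg _) (LE.le.eventuallyLE fun z hz => ?_)
        simp only [mem_preimage, mem_ball, dist_eq_norm] at hz ⊢
        calc ‖z - x‖ = ‖(z + -(s • u) - x) + s • u‖ := by congr 1; abel
          _ ≤ ‖z + -(s • u) - x‖ + ‖s • u‖ := norm_add_le _ _
          _ < r + ρ := by
            rw [norm_smul, Real.norm_of_nonneg hs.1.le]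
            have := mul_le_of_le_one_left (norm_nonneg u) hs.2
            linarith
    _ = ρ * ∫ z in ball x (r + ρ), ‖v z‖ := by simp

/-- One smoothing step in `L¹` of a ball. -/
theorem smooth_le {g : EE d → ℝ} {v : EE d → EE d} (hp : IsPot g v) {ρ : ℝ} (hρ : 0 < ρ)
    (x : EE d) (r : ℝ) :
    ∫ z in ball x r, |ballAvg ρ g z - g z| ≤ ρ * ∫ z in ball x (r + ρ), ‖v z‖ := by
  have hg := hp.cont
  set c := volume.real (ball (0 : EE d) ρ)
  have hc : 0 < c := vol_pos 0 hρ
  have hint : Integrable (Function.uncurry fun (z u : EE d) => |g (z + u) - g z|)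
      ((volume.restrict (ball x r)).prod (volume.restrict (ball (0 : EE d) ρ))) := by
    rw [Measure.prod_restrict]
    have hcont : Continuous (Function.uncurry fun (z u : EE d) => |g (z + u) - g z|) := by
      unfold Function.uncurry
      fun_prop
    exact (hcont.continuousOn.integrableOn_compact
      ((isCompact_closedBall x r).prod (isCompact_closedBall 0 ρ))).mono_set
      (prod_mono ball_subset_closedBall ball_subset_closedBall)
  have hpt : ∀ z, |ballAvg ρ g z - g z| ≤ c⁻¹ * ∫ u in ball 0 ρ, |g (z + u) - g z| := by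
    intro z
    have e : ballAvg ρ g z - g z = c⁻¹ * ∫ u in ball 0 ρ, (g (z + u) - g z) := by
      rw [integral_sub (intOn (by fun_prop) 0 ρ) (intOn continuous_const 0 ρ), setIntegral_const,
        smul_eq_mul, mul_sub]
      rw [inv_mul_cancel_left₀ hc.ne']
      rfl
    rw [e, abs_mul, abs_of_pos (inv_pos.2 hc)]
    exact mul_le_mul_of_nonneg_left abs_integral_le_integral_abs (inv_nonneg.2 hc.le)
  calc ∫ z in ball x r, |ballAvg ρ g z - g z|
      ≤ ∫ z in ball x r, c⁻¹ * ∫ u in ball 0 ρ, |g (z + u) - g z| :=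
        integral_mono_of_nonneg (.of_forall fun z => abs_nonneg _)
          (hint.integral_prod_left.const_mul _) (.of_forall hpt)
    _ = c⁻¹ * ∫ u in ball 0 ρ, ∫ z in ball x r, |g (z + u) - g z| := by
        rw [integral_const_mul, integral_integral_swap hint]
    _ ≤ c⁻¹ * ∫ _ in ball (0 : EE d) ρ, ρ * ∫ z in ball x (r + ρ), ‖v z‖ :=
        mul_le_mul_of_nonneg_left (setIntegral_mono_on hint.integral_prod_right
          (integrableOn_const measure_ball_lt_top.ne) measurableSet_ball fun u hu =>
            shift_le hp u x (mem_ball_zero_iff.1 hu).le) (inv_nonneg.2 hc.le)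
    _ = ρ * ∫ z in ball x (r + ρ), ‖v z‖ := by
        rw [setIntegral_const, smul_eq_mul, inv_mul_cancel_left₀ hc.ne']

theorem rho_eq (ε : ℝ) {i l : ℕ} (h : i < l) :
    rho ε (i + 1) = rho ε l * (1 / 4 : ℝ) ^ (l - 1 - i) := by
  obtain ⟨k, rfl⟩ := Nat.exists_eq_add_of_lt h
  have e : (4 : ℝ) ^ (i + k + 1) = 4 ^ (i + 1) * 4 ^ k := by
    rw [← pow_add]; congr 1; omega
  rw [show i + k + 1 - 1 - i = k by omega, rho, rho, e, mul_assoc ε, mul_assoc ((4 : ℝ) ^ (i + 1)),
    ← mul_pow]
  norm_num

/-- An average over radii comparable to `ρ_l` differs from the ladder by the band error. -/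
theorem band_bound {ε : ℝ} (hε : 0 < ε) {g : EE d → ℝ} {v : EE d → EE d} (hp : IsPot g v) {K : ℝ}
    (hK : 1 ≤ K) {l : ℕ} (hl : 1 ≤ l) (x : EE d) {r : ℝ} (hr1 : rho ε l / K ≤ r)
    (hr2 : r ≤ K * rho ε l) :
    |avg g x r - lad ε g l x| ≤ 2 * K * (K * (K + 1)) ^ d * bandErr ε v (K + 1) l x := by
  have hρ : 0 < rho ε l := rho_pos hε l
  have hr : 0 < r := (div_pos hρ (by linarith)).trans_le hr1
  set ρ := rho ε l with hρdef
  set R := (K + 1) * ρ with hR
  have hR0 : 0 < R := by positivity
  set G := fun i => lad ε g i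
  set V := fun i => lad ε v i
  have hpot : ∀ i, IsPot (G i) (V i) := fun i => isPot_lad hε hp i
  have hG : ∀ i, Continuous (G i) := fun i => (hpot i).cont
  have hV : ∀ i, Continuous fun y => ‖V i y‖ := fun i => (hpot i).contv.norm
  set A := fun i => ballAvg R (fun y => ‖V i y‖) x
  have hA : ∀ i, ∫ z in ball x R, ‖V i z‖ = volume.real (ball x R) * A i := fun i => by
    simp only [A, ballAvg_eq, smul_eq_mul]
    rw [mul_inv_cancel_left₀ (vol_pos x hR0).ne']
  have hA0 : ∀ i, 0 ≤ A i := fun i => ballAvg_nonneg R (fun y => norm_nonneg _) x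
  have hvol1 := vol_pos (0 : EE d) one_pos
  have hsize : ∀ {s : ℝ}, 0 < s → ρ ≤ K * s →
      volume.real (ball x R) ≤ (K * (K + 1)) ^ d * volume.real (ball x s) := fun {s} hs hle => by
    rw [vol_eq x hR0, vol_eq x hs, ← mul_assoc, ← mul_pow]
    refine mul_le_mul_of_nonneg_right (pow_le_pow_left₀ hR0.le ?_ _) hvol1.le
    calc R = (K + 1) * ρ := hR
      _ ≤ (K + 1) * (K * s) := mul_le_mul_of_nonneg_left hle (by linarith)
      _ = K * (K + 1) * s := by ring
  have hsmall : ∀ i, i < l → rho ε (i + 1) ≤ ρ := fun i hi => by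
    rw [rho_eq ε hi]
    exact mul_le_of_le_one_right hρ.le (pow_le_one₀ (by norm_num) (by norm_num))
  -- the smoothing steps
  have hsteps : |avg g x r - avg (G l) x r| ≤
      (K * (K + 1)) ^ d * ∑ i ∈ Finset.range l, rho ε (i + 1) * A i := by
    have hb := vol_pos x hr
    have hints : ∀ i, IntegrableOn (fun z => |G (i + 1) z - G i z|) (ball x r) := fun i =>
      intOn ((hG (i + 1)).sub (hG i)).abs x r
    have h1 : |avg g x r - avg (G l) x r| ≤ (volume.real (ball x r))⁻¹ *
        ∑ i ∈ Finset.range l, ∫ z in ball x r, |G (i + 1) z - G i z| := by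
      rw [avg, avg, ← mul_sub, abs_mul, abs_of_pos (inv_pos.2 hb), abs_sub_comm,
        ← integral_sub (intOn (hG l) x r) (intOn hp.cont x r),
        ← integral_finsetSum _ fun i _ => hints i]
      refine mul_le_mul_of_nonneg_left (abs_integral_le_integral_abs.trans ?_) (inv_nonneg.2 hb.le)
      refine setIntegral_mono_on (intOn ((hG l).sub hp.cont).abs x r)
        (integrable_finsetSum _ fun i _ => hints i)
        measurableSet_ball fun z _ => ?_
      rw [show G l z - g z = ∑ i ∈ Finset.range l, (G (i + 1) z - G i z) by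
        rw [Finset.sum_range_sub fun i => G i z]; rfl]
      exact Finset.abs_sum_le_sum_abs _ _
    refine h1.trans ?_
    rw [Finset.mul_sum, Finset.mul_sum]
    refine Finset.sum_le_sum fun i hi => ?_
    rw [Finset.mem_range] at hi
    have hρi := rho_pos hε (i + 1)
    have h2 : ∫ z in ball x r, |G (i + 1) z - G i z| ≤
        rho ε (i + 1) * ∫ z in ball x R, ‖V i z‖ := by
      refine (smooth_le (hpot i) hρi x r).trans (mul_le_mul_of_nonneg_left ?_ hρi.le)
      refine setIntegral_mono_set (intOn (hV i) x R) (.of_forall fun z => norm_nonneg _)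
        (LE.le.eventuallyLE (ball_subset_ball ?_))
      rw [hR, add_mul, one_mul]
      linarith [hsmall i hi]
    rw [hA] at h2
    refine (mul_le_mul_of_nonneg_left h2 (inv_nonneg.2 hb.le)).trans ?_
    rw [inv_mul_le_iff₀ hb]
    have := mul_le_mul_of_nonneg_right (hsize hr (by
      rwa [div_le_iff₀' (by linarith)] at hr1)) (mul_nonneg hρi.le (hA0 i))
    linarith
  -- the mean of the smooth function
  have hmean : |avg (G l) x r - G l x| ≤ K * (K * (K + 1)) ^ d * (ρ * A (l - 1)) := by
    obtain ⟨k, rfl⟩ : ∃ k, l = k + 1 := ⟨l - 1, by omega⟩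
    simp only [Nat.add_sub_cancel]
    have hsup : ∀ y, ‖y - x‖ ≤ r → ‖V (k + 1) y‖ ≤ (K * (K + 1)) ^ d * A k := by
      intro y hy
      show ‖ballAvg ρ (V k) y‖ ≤ _
      rw [ballAvg_eq, norm_smul, Real.norm_of_nonneg (inv_nonneg.2 measureReal_nonneg),
        inv_mul_le_iff₀ (vol_pos y hρ)]
      refine (norm_integral_le_integral_norm _).trans ?_
      refine (setIntegral_mono_set (intOn (hV k) x R) (.of_forall fun z => norm_nonneg _)
        (LE.le.eventuallyLE (ball_subset_ball' ?_))).trans ?_
      · rw [dist_eq_norm, hR, add_mul, one_mul]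
        linarith
      · rw [hA, vol_eq y hρ, ← vol_eq x hρ]
        have := mul_le_mul_of_nonneg_right (hsize hρ (le_mul_of_one_le_left hρ.le hK)) (hA0 k)
        linarith
    have hB : ∀ z ∈ ball x r, ‖G (k + 1) z - G (k + 1) x‖ ≤ (K * (K + 1)) ^ d * A k * r := by
      intro z hz
      rw [mem_ball, dist_eq_norm] at hz
      have e := (hpot (k + 1)).seg x (z - x)
      rw [add_sub_cancel] at e
      rw [e]
      refine (intervalIntegral.norm_integral_le_of_norm_le_const
        (C := (K * (K + 1)) ^ d * A k * r) fun s hs => ?_).trans (le_of_eq (by simp))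
      rw [uIoc_of_le zero_le_one] at hs
      refine (norm_inner_le_norm _ _).trans (mul_le_mul (hsup _ ?_) hz.le (norm_nonneg _)
        (mul_nonneg (by positivity) (hA0 k)))
      rw [add_sub_cancel_left, norm_smul, Real.norm_of_nonneg hs.1.le]
      exact (mul_le_of_le_one_left (norm_nonneg _) hs.2).trans hz.le
    have hb := vol_pos x hr
    have e : avg (G (k + 1)) x r - G (k + 1) x =
        (volume.real (ball x r))⁻¹ * ∫ z in ball x r, (G (k + 1) z - G (k + 1) x) := by
      rw [integral_sub (intOn (hG _) x r) (intOn continuous_const x r), setIntegral_const,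
        smul_eq_mul, mul_sub, inv_mul_cancel_left₀ hb.ne']
      rfl
    rw [e, abs_mul, abs_of_pos (inv_pos.2 hb), inv_mul_le_iff₀ hb, ← Real.norm_eq_abs]
    refine (norm_setIntegral_le_of_norm_le_const measure_ball_lt_top hB).trans ?_
    rw [mul_comm]
    refine mul_le_mul_of_nonneg_left ?_ hb.le
    calc (K * (K + 1)) ^ d * A k * r ≤ (K * (K + 1)) ^ d * A k * (K * ρ) :=
          mul_le_mul_of_nonneg_left hr2 (mul_nonneg (by positivity) (hA0 k))
      _ = _ := by ring
  have hS : bandErr ε v (K + 1) l x = ∑ i ∈ Finset.range l, rho ε (i + 1) * A i := by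
    rw [bandErr, Finset.mul_sum]
    refine Finset.sum_congr rfl fun i hi => ?_
    rw [rho_eq ε (Finset.mem_range.1 hi)]
    ring
  rw [hS]
  have hlast : ρ * A (l - 1) ≤ ∑ i ∈ Finset.range l, rho ε (i + 1) * A i := by
    have h := Finset.single_le_sum (f := fun i => rho ε (i + 1) * A i)
      (fun i _ => mul_nonneg (rho_pos hε (i + 1)).le (hA0 i))
      (Finset.mem_range.2 (show l - 1 < l by omega))
    rwa [show l - 1 + 1 = l by omega] at h
  have h3 := mul_le_mul_of_nonneg_left hlast (show 0 ≤ K * (K * (K + 1)) ^ d by positivity)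
  have h4 : 0 ≤ ∑ i ∈ Finset.range l, rho ε (i + 1) * A i :=
    Finset.sum_nonneg fun i _ => mul_nonneg (rho_pos hε (i + 1)).le (hA0 i)
  have h5 := mul_le_mul_of_nonneg_right (le_mul_of_one_le_left
    (show 0 ≤ (K * (K + 1)) ^ d by positivity) hK) h4
  have := abs_sub_le (avg g x r) (avg (G l) x r) (G l x)
  show |avg g x r - G l x| ≤ _
  linarith

end Band

end Vale.Agent.P137
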