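import Vale.Agent.P137.Centred.Kernel

/-!
A lower bound for composite kernels on almost the whole support, and the resulting window bound
for the deficits in a ball of radius larger than the top radius.

Proof notes.  Seven levels below the top the kernel has mass one in a small ball, so one average
makes it constant on a ball; each further average with radius `ρ` extends the ball by almost `ρ`.
-/

namespace Vale.Agent.P137

open MeasureTheory Metric Filter Topology Set Kernel
open scoped RealInnerProductSpace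

variable {d : ℕ}

namespace Reach

/-- The lower bound constant. -/
noncomputable def etaW (d : ℕ) : ℝ := ((1 / 1000 : ℝ) ^ d) ^ 6

theorem etaW_pos (d : ℕ) : 0 < etaW d := by unfold etaW; positivity

/-- One average with the mass in a small ball. -/
theorem avg_mass {ρ s : ℝ} {f : EE d → ℝ} {R M : ℝ} (hf : IsKer f R M)
    (hs : s + R ≤ ρ) {z : EE d} (hz : ‖z‖ ≤ s) :
    ballAvg ρ f z = (volume.real (ball (0 : EE d) ρ))⁻¹ := by
  rw [Kernel.ballAvg_def, setIntegral_eq_integral_of_forall_compl_eq_zero, integral_add_left_eq_self,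
    hf.mass, mul_one]
  intro u hu
  rw [mem_ball_zero_iff, not_lt] at hu
  refine hf.supp _ ?_
  linarith [norm_sub_norm_le u (-z), norm_neg z, show ‖u - -z‖ = ‖z + u‖ by congr 1; abel]

/-- One average extends a lower bound by almost its radius. -/
theorem avg_extend {ρ s c : ℝ} (hρ : 0 < ρ) {f : EE d → ℝ} (hf : LB f) (hf0 : ∀ x, 0 ≤ f x)
    (hd : RadDecr f) (hd1 : 1 ≤ d) (hs : ρ / 1000 ≤ s) (h : ∀ x, ‖x‖ ≤ s → c ≤ f x) {z : EE d}
    (hz : ‖z‖ ≤ s + 998 / 1000 * ρ) : (1 / 1000 : ℝ) ^ d * c ≤ ballAvg ρ f z := by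
  set x : EE d := s • EuclideanSpace.single ⟨0, hd1⟩ (1 : ℝ)
  have hs0 : 0 ≤ s := by linarith
  have hx : ‖x‖ = s := by simp [x, norm_smul, abs_of_nonneg hs0]
  refine le_trans (mul_le_mul_of_nonneg_left (h x hx.le) (by positivity))
    (avg_lower hρ (θ := 999 / 1000) (by norm_num) (by norm_num) (by norm_num) hf hf0 hd ?_)
  rw [hx]
  rcases max_cases (‖z‖ - 999 / 1000 * ρ) 0 with ⟨e, -⟩ | ⟨e, -⟩ <;> rw [e] <;> linarith

theorem kern_lower_bound {ε : ℝ} (hε : 0 < ε) (hd : 1 ≤ d) {l T : ℕ} (h : l + 7 ≤ T) {z : EE d}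
    (hz : ‖z‖ ≤ 132 / 100 * rho ε T) :
    etaW d * (volume.real (ball (0 : EE d) (rho ε T)))⁻¹ ≤ kern ε l T z := by
  obtain ⟨b, rfl⟩ : ∃ b, T = b + 7 := ⟨T - 7, by omega⟩
  have hlb : l ≤ b := by omega
  set P := rho ε (b + 1)
  set c := (volume.real (ball (0 : EE d) P))⁻¹
  have hP : 0 < P := rho_pos hε _
  have h4 : ∀ i, rho ε (b + i + 1) = 4 * rho ε (b + i) := fun i => rho_succ' ε (b + i)
  have base : ∀ z : EE d, ‖z‖ ≤ 2 / 3 * P → c ≤ kern ε l (b + 1) z := by
    intro z hz
    rcases eq_or_lt_of_le hlb with rfl | hlt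
    · rw [kern_base, ker1, indicator_of_mem (by rw [mem_ball_zero_iff]; linarith)]
    · rw [kern_step ε hlt]
      refine (avg_mass (isKer_kern hε hlt) ?_ hz).ge
      have := rho_succ' ε b
      simp only [rad, P] at *
      linarith [rho_pos hε l]
  have step : ∀ i (s e : ℝ), (∀ z : EE d, ‖z‖ ≤ s → e ≤ kern ε l (b + (i + 1)) z) →
      rho ε (b + (i + 2)) / 1000 ≤ s → ∀ z : EE d, ‖z‖ ≤ s + 998 / 1000 * rho ε (b + (i + 2)) →
      (1 / 1000 : ℝ) ^ d * e ≤ kern ε l (b + (i + 2)) z := by
    intro i s e hi hs z hz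
    rw [show b + (i + 2) = b + (i + 1) + 1 by omega] at hs hz ⊢
    rw [kern_step ε (by omega : l < b + (i + 1))]
    have hk := isKer_kern (d := d) hε (by omega : l < b + (i + 1))
    exact avg_extend (rho_pos hε _) hk.lb hk.nonneg (radDecr_kern hε (by omega)) hd hs hi hz
  have e1 := h4 1; have e2 := h4 2; have e3 := h4 3; have e4 := h4 4; have e5 := h4 5
  have e6 := h4 6
  simp only [add_assoc, Nat.reduceAdd] at e1 e2 e3 e4 e5 e6
  simp only [P] at *
  have s2 := step 0 _ _ base (by simp only [zero_add]; linarith)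
  have s3 := step 1 _ _ s2 (by simp only [zero_add, Nat.reduceAdd]; linarith)
  have s4 := step 2 _ _ s3 (by simp only [zero_add, Nat.reduceAdd]; linarith)
  have s5 := step 3 _ _ s4 (by simp only [zero_add, Nat.reduceAdd]; linarith)
  have s6 := step 4 _ _ s5 (by simp only [zero_add, Nat.reduceAdd]; linarith)
  have s7 := step 5 _ _ s6 (by simp only [zero_add, Nat.reduceAdd]; linarith)
  simp only [zero_add, Nat.reduceAdd] at s7
  refine le_trans ?_ (s7 z (by linarith))
  have hvol : volume.real (ball (0 : EE d) (rho ε (b + 1))) ≤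
      volume.real (ball (0 : EE d) (rho ε (b + 7))) :=
    measureReal_mono (ball_subset_ball (by linarith)) measure_ball_lt_top.ne
  calc etaW d * (volume.real (ball (0 : EE d) (rho ε (b + 7))))⁻¹ ≤ etaW d * c :=
        mul_le_mul_of_nonneg_left (inv_anti₀ (volBall_pos hP) hvol) (etaW_pos d).le
    _ = _ := by simp only [etaW]; ring

/-- Averaging the deficit gives the average of the norm minus the component of the average. -/
theorem chain_gdef_eq {ε : ℝ} (hε : 0 < ε) {g : EE d → ℝ} {v : EE d → EE d} (hp : IsPot g v)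
    (e : EE d) (l : ℕ) : ∀ k x,
    chain ε (gdef ε v e l) l k x =
      chain ε (fun y => ‖lad ε v l y‖) l k x - ⟪lad ε v (l + k) x, e⟫
  | 0, x => rfl
  | k + 1, x => by
    have ih := funext (chain_gdef_eq hε hp e l k)
    have hV : Continuous (lad ε v (l + k)) := (isPot_lad hε hp _).contv
    have hN : ∀ k, LB (chain ε (fun y => ‖lad ε v l y‖) l k) := fun k => by
      induction k with
      | zero => exact .of_continuous (isPot_lad hε hp l).contv.norm
      | succ k ih => exact ih.avg (rho_pos hε _)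
    show ballAvg _ (chain ε (gdef ε v e l) l k) x = ballAvg _ _ x -
      ⟪ballAvg (rho ε (l + k + 1)) (lad ε v (l + k)) x, e⟫
    rw [ih, show (fun x => chain ε (fun y => ‖lad ε v l y‖) l k x - ⟪lad ε v (l + k) x, e⟫) =
      fun x => chain ε (fun y => ‖lad ε v l y‖) l k x - (fun y => ⟪lad ε v (l + k) y, e⟫) x from rfl,
      ballAvg]
    rw [ballAvg, ballAvg]
    have hL : IntegrableOn (fun u : EE d => lad ε v (l + k) (x + u))
        (ball 0 (rho ε (l + k + 1))) :=
      ((hV.comp (continuous_const.add continuous_id)).continuousOn.integrableOn_compact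
        (isCompact_closedBall _ _)).mono_set ball_subset_closedBall
    rw [integral_sub ((hN k).intOn x _)
      ((Kernel.LB.of_continuous (hV.inner continuous_const)).intOn x _), smul_sub,
      real_inner_smul_left, real_inner_comm e, ← integral_inner hL e]
    simp only [real_inner_comm e, smul_eq_mul]

/-- The deficit in a ball of radius above the top radius is at most the defect at the centre. -/
theorem deficit_window {ε : ℝ} (hε : 0 < ε) (hd : 1 ≤ d) {g : EE d → ℝ} {v : EE d → EE d}
    (hp : IsPot g v) {l T : ℕ} (hlT : l + 7 ≤ T) {y e : EE d} (he : ‖e‖ = 1)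
    (hdir : lad ε v T y = ‖lad ε v T y‖ • e) :
    ∫ z in ball y (132 / 100 * rho ε T), gdef ε v e l z ≤
      (etaW d)⁻¹ * volume.real (ball (0 : EE d) (rho ε T)) * dd ε v l T y := by
  obtain ⟨hGc, -⟩ := gdef_continuous_integrable hε hp.contv hp.intv e l
  have hG0 := gdef_nonneg ε v he l
  have hinner : ⟪lad ε v T y, e⟫ = ‖lad ε v T y‖ := by
    conv_lhs => rw [hdir]
    rw [real_inner_smul_left, real_inner_self_eq_norm_sq, he, one_pow, mul_one]
  have hdd : dd ε v l T y = conv (kern ε l T) (gdef ε v e l) y := by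
    rw [← chain_eq_conv hε (.of_continuous hGc) (by omega), chain_gdef_eq hε hp e l,
      show l + (T - l) = T by omega, hinner]
    rfl
  have hk := isKer_kern (d := d) hε (show l < T by omega)
  set Q := (etaW d)⁻¹ * volume.real (ball (0 : EE d) (rho ε T)) with hQ
  have hQ0 : 0 < Q := mul_pos (inv_pos.2 (etaW_pos d)) (volBall_pos (rho_pos hε T))
  rw [hdd, Kernel.conv, ← (measurePreserving_add_left volume y).setIntegral_preimage_emb
    (measurableEmbedding_addLeft y) (gdef ε v e l) (ball y (132 / 100 * rho ε T)),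
    ← integral_const_mul]
  have hint : Integrable fun z => Q * (kern ε l T z * gdef ε v e l (y + z)) :=
    (hk.toIsSub.integrable_mul (.of_continuous hGc) y).const_mul _
  have hset : (fun z => y + z) ⁻¹' ball y (132 / 100 * rho ε T) =
      ball (0 : EE d) (132 / 100 * rho ε T) := by
    ext z; simp
  rw [hset]
  refine le_trans ?_ (setIntegral_le_integral hint (s := ball (0 : EE d) (132 / 100 * rho ε T))
    (.of_forall fun z => mul_nonneg hQ0.le (mul_nonneg (hk.nonneg z) (hG0 _))))
  refine setIntegral_mono_on ((Kernel.LB.of_continuous hGc).intOn y _) hint.integrableOn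
    measurableSet_ball fun z hz => ?_
  have hlow := kern_lower_bound hε hd hlT (mem_ball_zero_iff.1 hz).le
  have h1 : 1 ≤ Q * kern ε l T z := by
    refine le_trans (le_of_eq ?_) (mul_le_mul_of_nonneg_left hlow hQ0.le)
    rw [hQ]
    have := (etaW_pos d).ne'
    have := (volBall_pos (d := d) (rho_pos hε T)).ne'
    field_simp
  nlinarith [hG0 (y + z)]

end Reach

end Vale.Agent.P137
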