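import Vale.Agent.P137.Centred.Conv

/-!
The states: weights on a finite net of directions, updated every second level.

Proof notes.  The state at step `j` lives at the level `T0 - 2 j`.  Mass in a direction that is not
nearly parallel to `v` is moved to the first near direction, new mass is born there, and the result
is averaged over the next two balls.  The total misalignment `∫ Σ w gdef` grows by at most the
defects and loses a fixed multiple of `|v|` on the moved mass; hence moved mass costs at most the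
drop of `phi` and the births.
-/

namespace Vale.Agent.P137.Weights

open MeasureTheory Metric Filter Topology Set Kernel
open scoped RealInnerProductSpace

variable {d M : ℕ}

/-- A finite net of unit directions. -/
structure Net (δ : ℝ) (dir : Fin M → EE d) : Prop where
  pos : 0 < δ
  unit : ∀ k, ‖dir k‖ = 1
  dense : ∀ e : EE d, ‖e‖ = 1 → ∃ k, 1 - ⟪dir k, e⟫ ≤ δ / 2

/-- The direction is tolerable for the vector. -/
def Good (δ : ℝ) (dir : Fin M → EE d) (k : Fin M) (u : EE d) : Prop :=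
  ‖u‖ - ⟪u, dir k⟫ ≤ δ * ‖u‖

/-- The first near direction of the vector. -/
def First (δ : ℝ) (dir : Fin M → EE d) (k : Fin M) (u : EE d) : Prop :=
  ‖u‖ - ⟪u, dir k⟫ ≤ δ / 2 * ‖u‖ ∧ ∀ k' < k, ¬ (‖u‖ - ⟪u, dir k'⟫ ≤ δ / 2 * ‖u‖)

open scoped Classical in
/-- The weight leaving bad directions. -/
noncomputable def swI (δ : ℝ) (dir : Fin M → EE d) (w : Fin M → EE d → ℝ) (u : EE d → EE d)
    (x : EE d) : ℝ :=
  ∑ k, if Good δ dir k (u x) then 0 else w k x

open scoped Classical in
/-- One update. -/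
noncomputable def upd (δ : ℝ) (dir : Fin M → EE d) (w : Fin M → EE d → ℝ) (u : EE d → EE d)
    (b : EE d → ℝ) (k : Fin M) (x : EE d) : ℝ :=
  (if Good δ dir k (u x) then w k x else 0) +
    if First δ dir k (u x) then swI δ dir w u x + max 0 (b x - ∑ k', w k' x) else 0

/-- The data of the construction. -/
structure Data (d M : ℕ) where
  ε : ℝ
  δ : ℝ
  dir : Fin M → EE d
  v : EE d → EE d
  T0 : ℕ
  β : ℕ → EE d → ℝ

variable (D : Data d M)

/-- The level of a step. -/
def Data.lv (j : ℕ) : ℕ := D.T0 - 2 * j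

/-- The states. -/
noncomputable def Data.W : ℕ → Fin M → EE d → ℝ
  | 0 => fun _ _ => 0
  | j + 1 => fun k => ballAvg (rho D.ε (D.lv j - 1)) (ballAvg (rho D.ε (D.lv j))
      (upd D.δ D.dir (Data.W j) (lad D.ε D.v (D.lv j)) (D.β j) k))

/-- The updated state before averaging. -/
noncomputable def Data.q (j : ℕ) : Fin M → EE d → ℝ :=
  upd D.δ D.dir (D.W j) (lad D.ε D.v (D.lv j)) (D.β j)

/-- The moved mass. -/
noncomputable def Data.sw (j : ℕ) (x : EE d) : ℝ :=
  swI D.δ D.dir (D.W j) (lad D.ε D.v (D.lv j)) x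

/-- The births. -/
noncomputable def Data.birth (j : ℕ) (x : EE d) : ℝ := max 0 (D.β j x - ∑ k, D.W j k x)

/-- The sources. -/
noncomputable def Data.src (j : ℕ) (x : EE d) : ℝ := D.sw j x + D.birth j x

/-- The change at a step. -/
noncomputable def Data.sig (j : ℕ) (k : Fin M) (x : EE d) : ℝ := D.q j k x - D.W j k x

/-- The standing hypotheses. -/
structure Ok : Prop where
  εpos : 0 < D.ε
  net : Net D.δ D.dir
  contv : Continuous D.v
  intv : Integrable D.v
  meas : ∀ j, Measurable (D.β j)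
  nonneg : ∀ j x, 0 ≤ D.β j x
  le_one : ∀ j x, D.β j x ≤ 1

variable {D}

theorem Ok.contLad (h : Ok D) : ∀ l : ℕ, Continuous (lad D.ε D.v l : EE d → EE d)
  | 0 => h.contv
  | l + 1 => by
    have hc := h.contLad l
    suffices hI : Continuous fun x : EE d =>
        ∫ u in ball (0 : EE d) (rho D.ε (l + 1)), lad D.ε D.v l (x + u) from
      hI.const_smul ((volume.real (ball (0 : EE d) (rho D.ε (l + 1))))⁻¹ : ℝ)
    rw [continuous_iff_continuousAt]
    intro x₀
    obtain ⟨C, hC⟩ := (isCompact_closedBall x₀ (1 + rho D.ε (l + 1))).exists_bound_of_continuousOn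
      hc.continuousOn
    have : Fact (volume (ball (0 : EE d) (rho D.ε (l + 1))) < ⊤) := ⟨measure_ball_lt_top⟩
    refine continuousAt_of_dominated (bound := fun _ => C)
      (.of_forall fun x => (hc.comp (continuous_const.add continuous_id)).aestronglyMeasurable)
      ?_ (integrable_const C)
      (.of_forall fun u => (hc.comp (continuous_id.add continuous_const)).continuousAt)
    filter_upwards [ball_mem_nhds x₀ one_pos] with x hx
    filter_upwards [ae_restrict_mem measurableSet_ball] with u hu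
    refine hC _ ?_
    rw [mem_ball_zero_iff] at hu
    rw [mem_ball, dist_eq_norm] at hx
    rw [mem_closedBall, dist_eq_norm]
    calc ‖x + u - x₀‖ = ‖(x - x₀) + u‖ := by congr 1; abel
      _ ≤ ‖x - x₀‖ + ‖u‖ := norm_add_le _ _
      _ ≤ 1 + rho D.ε (l + 1) := by linarith

theorem exists_first {δ : ℝ} {dir : Fin M → EE d} (hn : Net δ dir) (hd : 1 ≤ d) (u : EE d) :
    ∃ k, First δ dir k u ∧ ∀ k', First δ dir k' u → k' = k := by
  classical
  obtain ⟨e, he, hu⟩ := exists_dir hd u
  obtain ⟨k0, hk0⟩ := hn.dense e he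
  have hne : ∃ k, ‖u‖ - ⟪u, dir k⟫ ≤ δ / 2 * ‖u‖ := by
    refine ⟨k0, ?_⟩
    have : ⟪u, dir k0⟫ = ‖u‖ * ⟪dir k0, e⟫ := by
      conv_lhs => rw [hu]
      rw [real_inner_smul_left, real_inner_comm]
    rw [this]
    nlinarith [mul_le_mul_of_nonneg_left hk0 (norm_nonneg u)]
  set s := Finset.univ.filter fun k => ‖u‖ - ⟪u, dir k⟫ ≤ δ / 2 * ‖u‖
  have hs : s.Nonempty := let ⟨k, hk⟩ := hne; ⟨k, Finset.mem_filter.2 ⟨Finset.mem_univ _, hk⟩⟩
  refine ⟨s.min' hs, ⟨(Finset.mem_filter.1 (s.min'_mem hs)).2, fun k' hk' hc => ?_⟩, ?_⟩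
  · exact absurd (s.min'_le k' (Finset.mem_filter.2 ⟨Finset.mem_univ _, hc⟩)) (not_le.2 hk')
  · intro k' hk'
    refine le_antisymm ?_ (s.min'_le k' (Finset.mem_filter.2 ⟨Finset.mem_univ _, hk'.1⟩))
    by_contra hc
    exact hk'.2 _ (not_le.1 hc) (Finset.mem_filter.1 (s.min'_mem hs)).2

theorem first_good {δ : ℝ} {dir : Fin M → EE d} (hn : Net δ dir) {k : Fin M} {u : EE d}
    (h : First δ dir k u) : Good δ dir k u :=
  h.1.trans (mul_le_mul_of_nonneg_right (by linarith [hn.pos]) (norm_nonneg u))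

section step

variable {δ : ℝ} {dir : Fin M → EE d} {w : Fin M → EE d → ℝ} {u : EE d → EE d} {b : EE d → ℝ}

theorem swI_nonneg (hw : ∀ k x, 0 ≤ w k x) (x : EE d) : 0 ≤ swI δ dir w u x :=
  Finset.sum_nonneg fun k _ => by split_ifs <;> [exact le_rfl; exact hw k x]

theorem upd_nonneg (hw : ∀ k x, 0 ≤ w k x) (k : Fin M) (x : EE d) :
    0 ≤ upd δ dir w u b k x := by
  unfold upd
  refine add_nonneg ?_ ?_ <;> split_ifs
  · exact hw k x
  · exact le_rfl
  · exact add_nonneg (swI_nonneg hw x) (le_max_left _ _)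
  · exact le_rfl

theorem sum_upd (hn : Net δ dir) (hd : 1 ≤ d) (x : EE d) :
    ∑ k, upd δ dir w u b k x = max (b x) (∑ k, w k x) := by
  classical
  obtain ⟨k0, hk0, huniq⟩ := exists_first hn hd (u x)
  have e : ∀ X : ℝ, ∑ k, (if First δ dir k (u x) then X else 0) = X := fun X => by
    rw [Finset.sum_eq_single k0 (fun k _ hne => if_neg fun hh => hne (huniq k hh))
      (fun hh => absurd (Finset.mem_univ k0) hh), if_pos hk0]
  have e2 : ∑ k, (if Good δ dir k (u x) then w k x else 0) + swI δ dir w u x = ∑ k, w k x := by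
    rw [swI, ← Finset.sum_add_distrib]
    exact Finset.sum_congr rfl fun k _ => by split_ifs <;> simp
  simp only [upd, Finset.sum_add_distrib, e]
  rw [← add_assoc, e2]
  rcases max_cases 0 (b x - ∑ k, w k x) with ⟨h1, h2⟩ | ⟨h1, h2⟩ <;> rw [h1]
  · rw [add_zero, max_eq_right (by linarith)]
  · rw [max_eq_left (by linarith)]; ring

theorem upd_sub_le (hw : ∀ k x, 0 ≤ w k x) (k : Fin M) (x : EE d) :
    |upd δ dir w u b k x - w k x| ≤ swI δ dir w u x + max 0 (b x - ∑ k', w k' x) := by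
  classical
  have h1 := swI_nonneg (δ := δ) (dir := dir) (u := u) hw x
  have h2 : 0 ≤ max 0 (b x - ∑ k', w k' x) := le_max_left _ _
  have h3 := hw k x
  by_cases hg : Good δ dir k (u x)
  · simp only [upd, if_pos hg]
    split_ifs <;> rw [abs_le] <;> constructor <;> linarith
  · have hle : w k x ≤ swI δ dir w u x := by
      refine le_trans (le_of_eq ?_) (Finset.single_le_sum
        (f := fun k' => if Good δ dir k' (u x) then 0 else w k' x)
        (fun k' _ => by split_ifs <;> [exact le_rfl; exact hw k' x]) (Finset.mem_univ k))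
      rw [if_neg hg]
    simp only [upd, if_neg hg]
    split_ifs <;> rw [abs_le] <;> constructor <;> linarith

theorem measurable_upd (hu : Continuous u) (hw : ∀ k, Measurable (w k)) (hb : Measurable b)
    (k : Fin M) : Measurable (upd δ dir w u b k) ∧ Measurable (swI δ dir w u) := by
  classical
  have hm : ∀ (c : ℝ) k', MeasurableSet {x | ‖u x‖ - ⟪u x, dir k'⟫ ≤ c * ‖u x‖} := fun c k' =>
    measurableSet_le (hu.norm.sub (hu.inner continuous_const)).measurable
      (continuous_const.mul hu.norm).measurable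
  have hsw : Measurable (swI δ dir w u) :=
    Finset.measurable_sum _ fun k' _ => Measurable.ite (hm δ k') measurable_const (hw k')
  refine ⟨(Measurable.ite (hm δ k) (hw k) measurable_const).add (Measurable.ite ?_
    (hsw.add (measurable_const.max (hb.sub (Finset.measurable_sum _ fun k' _ => hw k'))))
    measurable_const), hsw⟩
  simp only [First]
  refine (hm (δ / 2) k).inter ?_
  have : {x | ∀ k' < k, ¬ (‖u x‖ - ⟪u x, dir k'⟫ ≤ δ / 2 * ‖u x‖)} =
      ⋂ k' ∈ Finset.univ.filter (· < k), {x | ‖u x‖ - ⟪u x, dir k'⟫ ≤ δ / 2 * ‖u x‖}ᶜ := by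
    ext x; simp
  show MeasurableSet {x | ∀ k' < k, ¬ (‖u x‖ - ⟪u x, dir k'⟫ ≤ δ / 2 * ‖u x‖)}
  rw [this]
  exact MeasurableSet.biInter (Finset.countable_toSet _) fun k' _ => (hm (δ / 2) k').compl

end step

theorem lv_rho_pos (h : Ok D) (l : ℕ) : 0 < rho D.ε l := rho_pos h.εpos l

theorem W_prop (h : Ok D) (hd : 1 ≤ d) : ∀ j, (∀ k, Measurable (D.W j k)) ∧
    (∀ k x, 0 ≤ D.W j k x) ∧ ∀ x, ∑ k, D.W j k x ≤ 1
  | 0 => ⟨fun _ => measurable_const, fun _ _ => le_rfl, fun x => by simp [Data.W]⟩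
  | j + 1 => by
    obtain ⟨hm, h0, h1⟩ := W_prop h hd j
    have hqm : ∀ k, Measurable (D.q j k) := fun k => (measurable_upd (h.contLad _) hm (h.meas j) k).1
    have hq0 : ∀ k x, 0 ≤ D.q j k x := fun k x => upd_nonneg h0 k x
    have hq1 : ∀ x, ∑ k, D.q j k x ≤ 1 := fun x => by
      rw [Data.q, sum_upd h.net hd]; exact max_le (h.le_one j x) (h1 x)
    have hqb : ∀ k x, |D.q j k x| ≤ 1 := fun k x => by
      rw [abs_of_nonneg (hq0 k x)]
      exact (Finset.single_le_sum (fun k' _ => hq0 k' x) (Finset.mem_univ k)).trans (hq1 x)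
    refine ⟨fun k => measurable_ballAvg _ (measurable_ballAvg _ (hqm k)),
      fun k x => ballAvg_nonneg _ (fun y => ballAvg_nonneg _ (hq0 k) y) x, fun x => ?_⟩
    have hlb : ∀ k, LB (D.q j k) := fun k => .of_bound (hqm k) (hqb k)
    show ∑ k, ballAvg _ (ballAvg _ (D.q j k)) x ≤ 1
    rw [← ballAvg_sum _ Finset.univ (fun k _ => (hlb k).avg (lv_rho_pos h _)) x,
      ← ballAvg_const (lv_rho_pos h (D.lv j - 1)) 1 x]
    refine ballAvg_mono _ (LB.sum Finset.univ fun k _ => (hlb k).avg (lv_rho_pos h _))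
      (.of_bound measurable_const (C := 1) (by simp)) (fun y => ?_) x
    rw [← ballAvg_sum _ Finset.univ (fun k _ => hlb k) y, ← ballAvg_const (lv_rho_pos h (D.lv j)) 1 y]
    exact ballAvg_mono _ (LB.sum Finset.univ fun k _ => hlb k)
      (.of_bound measurable_const (C := 1) (by simp)) hq1 y

theorem W_nonneg (h : Ok D) (hd : 1 ≤ d) (j : ℕ) (k : Fin M) (x : EE d) : 0 ≤ D.W j k x :=
  (W_prop h hd j).2.1 k x

theorem measurable_W (h : Ok D) (hd : 1 ≤ d) (j : ℕ) (k : Fin M) : Measurable (D.W j k) :=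
  (W_prop h hd j).1 k

theorem W_le_one (h : Ok D) (hd : 1 ≤ d) (j : ℕ) (k : Fin M) (x : EE d) : D.W j k x ≤ 1 :=
  (Finset.single_le_sum (fun k' _ => W_nonneg h hd j k' x) (Finset.mem_univ k)).trans
    ((W_prop h hd j).2.2 x)

theorem q_prop (h : Ok D) (hd : 1 ≤ d) (j : ℕ) (k : Fin M) :
    Measurable (D.q j k) ∧ ∀ x, 0 ≤ D.q j k x ∧ D.q j k x ≤ 1 := by
  obtain ⟨hm, h0, h1⟩ := W_prop h hd j
  refine ⟨(measurable_upd (h.contLad _) hm (h.meas j) k).1, fun x => ⟨upd_nonneg h0 k x, ?_⟩⟩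
  refine (Finset.single_le_sum (fun k' _ => upd_nonneg h0 k' x) (Finset.mem_univ k)).trans ?_
  rw [sum_upd h.net hd]
  exact max_le (h.le_one j x) (h1 x)

theorem lb_q (h : Ok D) (hd : 1 ≤ d) (j : ℕ) (k : Fin M) : LB (D.q j k) :=
  .of_bound (q_prop h hd j k).1 fun x => by
    rw [abs_of_nonneg ((q_prop h hd j k).2 x).1]; exact ((q_prop h hd j k).2 x).2

theorem lb_W (h : Ok D) (hd : 1 ≤ d) (j : ℕ) (k : Fin M) : LB (D.W j k) :=
  .of_bound (measurable_W h hd j k) fun x => by
    rw [abs_of_nonneg (W_nonneg h hd j k x)]; exact W_le_one h hd j k x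

theorem birth_prop (h : Ok D) (hd : 1 ≤ d) (j : ℕ) :
    Measurable (D.birth j) ∧ ∀ x, 0 ≤ D.birth j x ∧ D.birth j x ≤ 1 :=
  ⟨measurable_const.max ((h.meas j).sub (Finset.measurable_sum _ fun k _ => measurable_W h hd j k)),
    fun x => ⟨le_max_left _ _, max_le zero_le_one (by
      have := h.le_one j x
      have : 0 ≤ ∑ k, D.W j k x := Finset.sum_nonneg fun k _ => W_nonneg h hd j k x
      linarith)⟩⟩

theorem src_prop (h : Ok D) (hd : 1 ≤ d) (j : ℕ) :
    Measurable (D.src j) ∧ Measurable (D.sw j) ∧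
      ∀ x, (0 ≤ D.sw j x ∧ D.sw j x ≤ 1) ∧ 0 ≤ D.src j x ∧ D.src j x ≤ 1 := by
  classical
  obtain ⟨hbm, hb⟩ := birth_prop h hd j
  have hsw : Measurable (D.sw j) := by
    rcases Nat.eq_zero_or_pos M with hM | hM
    · obtain ⟨e, he, -⟩ := exists_dir hd (0 : EE d)
      obtain ⟨k, -⟩ := h.net.dense e he
      exact absurd k.isLt (by omega)
    · exact (measurable_upd (h.contLad _) (measurable_W h hd j) (h.meas j) ⟨0, hM⟩).2
  refine ⟨hsw.add hbm, hsw, fun x => ?_⟩
  have h0 : 0 ≤ D.sw j x := swI_nonneg (W_nonneg h hd j) x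
  have h1 : D.sw j x ≤ ∑ k, D.W j k x := by
    show ∑ k, (if Good D.δ D.dir k (lad D.ε D.v (D.lv j) x) then 0 else D.W j k x) ≤ _
    exact Finset.sum_le_sum fun k _ => by split_ifs <;> [exact W_nonneg h hd j k x; exact le_rfl]
  have h2 := (W_prop h hd j).2.2 x
  refine ⟨⟨h0, h1.trans h2⟩, add_nonneg h0 (hb x).1, ?_⟩
  unfold Data.src Data.birth
  rcases max_cases 0 (D.β j x - ∑ k, D.W j k x) with ⟨e, _⟩ | ⟨e, _⟩ <;> rw [e] <;>
    linarith [h.le_one j x]

theorem abs_sig_le (h : Ok D) (hd : 1 ≤ d) (j : ℕ) (k : Fin M) (x : EE d) :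
    |D.sig j k x| ≤ D.src j x :=
  upd_sub_le (W_nonneg h hd j) k x

theorem sig_prop (h : Ok D) (hd : 1 ≤ d) (j : ℕ) (k : Fin M) :
    Measurable (D.sig j k) ∧ LB (D.sig j k) ∧ ∀ x, |D.sig j k x| ≤ 1 := by
  have hb : ∀ x, |D.sig j k x| ≤ 1 := fun x =>
    (abs_sig_le h hd j k x).trans ((src_prop h hd j).2.2 x).2.2
  have hm : Measurable (D.sig j k) := (q_prop h hd j k).1.sub (measurable_W h hd j k)
  exact ⟨hm, .of_bound hm hb, hb⟩

/-- The total weight after a step. -/
theorem sum_W_succ (h : Ok D) (hd : 1 ≤ d) (j : ℕ) (x : EE d) :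
    ∑ k, D.W (j + 1) k x = ballAvg (rho D.ε (D.lv j - 1)) (ballAvg (rho D.ε (D.lv j))
      fun y => max (D.β j y) (∑ k, D.W j k y)) x := by
  show ∑ k, ballAvg _ (ballAvg _ (D.q j k)) x = _
  rw [← ballAvg_sum _ Finset.univ (fun k _ => (lb_q h hd j k).avg (lv_rho_pos h _)) x]
  congr 1
  funext y
  rw [← ballAvg_sum _ Finset.univ (fun k _ => lb_q h hd j k) y]
  congr 1
  funext z
  exact sum_upd h.net hd z

/-- Weight at a point comes from a nearby point where the direction is good. -/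
theorem W_dir (h : Ok D) (hd : 1 ≤ d) (j : ℕ) (k : Fin M) {x : EE d}
    (hx : D.W (j + 1) k x ≠ 0) :
    ∃ y, ‖y - x‖ < rho D.ε (D.lv j - 1) + rho D.ε (D.lv j) ∧
      gdef D.ε D.v (D.dir k) (D.lv j) y ≤ D.δ * ‖lad D.ε D.v (D.lv j) y‖ := by
  by_contra hc
  push Not at hc
  refine hx ?_
  show ballAvg _ (ballAvg _ (D.q j k)) x = 0
  rw [ballAvg_def, setIntegral_eq_zero_of_forall_eq_zero, mul_zero]
  intro u hu
  rw [ballAvg_def, setIntegral_eq_zero_of_forall_eq_zero, mul_zero]
  intro u' hu'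
  rw [mem_ball_zero_iff] at hu hu'
  have hfar := hc (x + u + u') (by
    rw [show x + u + u' - x = u + u' by abel]; linarith [norm_add_le u u'])
  have hng : ¬ Good D.δ D.dir k (lad D.ε D.v (D.lv j) (x + u + u')) := fun hg => by
    unfold Good at hg
    unfold gdef at hfar
    linarith
  simp only [Data.q, upd, if_neg hng, zero_add]
  exact if_neg fun hf => hng (first_good h.net hf)

/-- A state is the sum of the smoothed changes. -/
theorem W_eq (h : Ok D) (hd : 1 ≤ d) : ∀ j, 2 * j ≤ D.T0 → ∀ (k : Fin M) (x : EE d),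
    D.W j k x = ∑ i ∈ Finset.range j, conv (kern D.ε (D.lv j) (D.lv i)) (D.sig i k) x
  | 0, _, k, x => by simp [Data.W]
  | j + 1, hj, k, x => by
    have ih : D.W j k = fun y => ∑ i ∈ Finset.range j,
        conv (kern D.ε (D.lv j) (D.lv i)) (D.sig i k) y := funext (W_eq h hd j (by omega) k)
    set a := D.lv (j + 1) with ha
    have e1 : D.lv j = a + 2 := by rw [ha]; simp only [Data.lv]; omega
    have hker : ∀ i ∈ Finset.range j, a + 2 < D.lv i := fun i hi => by
      rw [ha]; simp only [Data.lv]; have := Finset.mem_range.1 hi; omega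
    have hq : D.q j k = fun y => (∑ i ∈ Finset.range j,
        conv (kern D.ε (D.lv j) (D.lv i)) (D.sig i k) y) + D.sig j k y := by
      funext y
      have := congrFun ih y
      simp only [Data.sig] at this ⊢
      linarith
    have hlb : ∀ i ∈ Finset.range j, LB (conv (kern D.ε (D.lv j) (D.lv i)) (D.sig i k)) :=
      fun i hi => (sig_prop h hd i k).2.1.conv (isKer_kern h.εpos (e1 ▸ hker i hi))
    show ballAvg _ (ballAvg _ (D.q j k)) x = _
    rw [hq, Finset.sum_range_succ]
    have hp : ∀ (f : EE d → ℝ), LB f → ∀ T, a + 2 < T → ∀ y,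
        ballAvg (rho D.ε (a + 1)) (ballAvg (rho D.ε (a + 2)) (conv (kern D.ε (a + 2) T) f)) y =
          conv (kern D.ε a T) f y := fun f hf T hT y => by
      rw [funext (ballAvg_conv (isKer_kern h.εpos hT).toIsSub hf (rho D.ε (a + 2))),
        ← kern_lower h.εpos hT,
        ballAvg_conv (isKer_kern h.εpos (by omega : a + 1 < T)).toIsSub hf,
        ← kern_lower h.εpos (by omega : a + 1 < T)]
    have hinner : (ballAvg (rho D.ε (D.lv j)) fun y => (∑ i ∈ Finset.range j,
        conv (kern D.ε (D.lv j) (D.lv i)) (D.sig i k) y) + D.sig j k y) = fun y =>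
        (∑ i ∈ Finset.range j, ballAvg (rho D.ε (D.lv j))
          (conv (kern D.ε (D.lv j) (D.lv i)) (D.sig i k)) y) +
        ballAvg (rho D.ε (D.lv j)) (D.sig j k) y := by
      funext y
      rw [ballAvg_add _ (LB.sum _ hlb) (sig_prop h hd j k).2.1, ballAvg_sum _ _ hlb]
    rw [hinner, ballAvg_add _ (LB.sum _ fun i hi => (hlb i hi).avg (lv_rho_pos h _))
      ((sig_prop h hd j k).2.1.avg (lv_rho_pos h _)),
      ballAvg_sum _ _ fun i hi => (hlb i hi).avg (lv_rho_pos h _), e1]
    refine congrArg₂ (· + ·) (Finset.sum_congr rfl fun i hi => ?_) ?_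
    · exact hp _ (sig_prop h hd i k).2.1 _ (hker i hi) x
    · show ballAvg (rho D.ε (a + 1)) (ballAvg (rho D.ε (a + 1 + 1)) (D.sig j k)) x =
        conv (kern D.ε a (a + 2)) (D.sig j k) x
      rw [← funext (conv_ker1 (rho D.ε (a + 1 + 1)) (D.sig j k)),
        ballAvg_conv (isKer_ker1 (lv_rho_pos h _)).toIsSub (sig_prop h hd j k).2.1,
        kern_lower h.εpos (by omega : a + 1 < a + 2), kern_base]

/-! ### The cost of moving -/

theorem integrable_gdef (h : Ok D) (e : EE d) (l : ℕ) :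
    Continuous (gdef D.ε D.v e l) ∧ Integrable (gdef D.ε D.v e l) :=
  gdef_continuous_integrable h.εpos h.contv h.intv e l

theorem integrable_normLad (h : Ok D) (hd : 1 ≤ d) (l : ℕ) :
    Integrable fun x => ‖lad D.ε D.v l x‖ := by
  obtain ⟨e, -, -⟩ := exists_dir hd (0 : EE d)
  have h1 := (integrable_gdef h e l).2
  have h2 := (integrable_gdef h (-e) l).2
  have : (fun x => ‖lad D.ε D.v l x‖) =
      fun x => (gdef D.ε D.v e l x + gdef D.ε D.v (-e) l x) / 2 := by
    funext x; simp [gdef]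
  rw [this]
  exact (h1.add h2).div_const 2

/-- The misalignment. -/
noncomputable def Data.mis (D : Data d M) (j : ℕ) : ℝ :=
  ∫ x, ∑ k, D.W j k x * gdef D.ε D.v (D.dir k) (D.lv j) x

theorem chain2_gdef (h : Ok D) (e : EE d) (a : ℕ) (x : EE d) :
    ballAvg (rho D.ε (a + 2)) (ballAvg (rho D.ε (a + 1)) (gdef D.ε D.v e a)) x =
      dd D.ε D.v a (a + 2) x + gdef D.ε D.v e (a + 2) x := by
  have hstep : ∀ l y, ballAvg (rho D.ε (l + 1)) (fun z => ⟪lad D.ε D.v l z, e⟫) y =
      ⟪lad D.ε D.v (l + 1) y, e⟫ := fun l y => by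
    show _ = ⟪(volume.real (ball (0 : EE d) (rho D.ε (l + 1))))⁻¹ •
      ∫ u in ball (0 : EE d) (rho D.ε (l + 1)), lad D.ε D.v l (y + u), e⟫
    have hc : Continuous fun u => lad D.ε D.v l (y + u) :=
      (h.contLad l).comp (continuous_const.add continuous_id)
    rw [ballAvg_def, real_inner_smul_left, real_inner_comm,
      ← integral_inner ((hc.continuousOn.integrableOn_compact
        (isCompact_closedBall _ _)).mono_set ball_subset_closedBall) e]
    simp only [real_inner_comm e]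
  have hN : LB fun z => ‖lad D.ε D.v a z‖ := .of_continuous (h.contLad a).norm
  have hI : LB fun z => ⟪lad D.ε D.v a z, e⟫ :=
    .of_continuous ((h.contLad a).inner continuous_const)
  have e1 : ballAvg (rho D.ε (a + 1)) (gdef D.ε D.v e a) = fun y =>
      ballAvg (rho D.ε (a + 1)) (fun z => ‖lad D.ε D.v a z‖) y - ⟪lad D.ε D.v (a + 1) y, e⟫ := by
    funext y
    rw [← hstep a y]
    exact ballAvg_sub _ hN hI y
  rw [e1, ballAvg_sub _ (hN.avg (lv_rho_pos h _))
    (.of_continuous ((h.contLad _).inner continuous_const)), hstep]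
  simp only [dd, gdef, Nat.add_sub_cancel_left]
  show _ = ballAvg (rho D.ε (a + 1 + 1)) (chain D.ε _ a 1) x - _ + _
  rw [show (chain D.ε (fun y => ‖lad D.ε D.v a y‖) a 1) =
    ballAvg (rho D.ε (a + 1)) (fun z => ‖lad D.ε D.v a z‖) from rfl]
  ring

theorem mis_succ (h : Ok D) (hd : 1 ≤ d) (j : ℕ) (hj : 2 * (j + 1) ≤ D.T0) :
    D.mis (j + 1) + D.δ / 2 * ∫ x, D.sw j x * ‖lad D.ε D.v (D.lv j) x‖ ≤
      D.mis j + (phi D.ε D.v (D.lv (j + 1)) - phi D.ε D.v (D.lv j)) +
        D.δ / 2 * ∫ x, D.birth j x * ‖lad D.ε D.v (D.lv j) x‖ := by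
  classical
  set a := D.lv (j + 1) with ha
  have e1 : D.lv j = a + 2 := by rw [ha]; simp only [Data.lv]; omega
  set G := fun (k : Fin M) (l : ℕ) => gdef D.ε D.v (D.dir k) l
  set V := fun x => ‖lad D.ε D.v (a + 2) x‖
  have hG0 : ∀ k l x, 0 ≤ G k l x := fun k l x => gdef_nonneg _ _ (h.net.unit k) l x
  have hGi : ∀ k l, Continuous (G k l) ∧ Integrable (G k l) := fun k l => integrable_gdef h _ l
  obtain ⟨hddc, hddi, hdd0, hddint⟩ :=
    dd_spec h.εpos h.contv h.intv (show a ≤ a + 2 by omega)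
  have hqm := fun k => (q_prop h hd j k).1
  have hq := fun k => (q_prop h hd j k).2
  have hqb : ∀ k x, |D.q j k x| ≤ 1 := fun k x => by
    rw [abs_of_nonneg (hq k x).1]; exact (hq k x).2
  have hint : ∀ k (f : EE d → ℝ), Integrable f → Integrable fun x => D.q j k x * f x :=
    fun k f hf => hf.bdd_mul (hqm k).aestronglyMeasurable (.of_forall (hqb k))
  -- move the averages onto the deficits
  have step1 : D.mis (j + 1) =
      ∫ x, ∑ k, D.q j k x * (dd D.ε D.v a (a + 2) x + G k (a + 2) x) := by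
    show ∫ x, ∑ k, D.W (j + 1) k x * G k a x = _
    have hIW : ∀ k, Integrable fun x => D.W (j + 1) k x * G k a x := fun k =>
      (hGi k a).2.bdd_mul (measurable_W h hd _ k).aestronglyMeasurable (.of_forall fun x => by
        rw [Real.norm_of_nonneg (W_nonneg h hd _ k x)]; exact W_le_one h hd _ k x)
    rw [integral_finsetSum _ fun k _ => hIW k,
      integral_finsetSum _ fun k _ => hint k (fun x => dd D.ε D.v a (a + 2) x + G k (a + 2) x)
        (hddi.add (hGi k _).2)]
    refine Finset.sum_congr rfl fun k _ => ?_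
    show ∫ x, ballAvg (rho D.ε (D.lv j - 1)) (ballAvg (rho D.ε (D.lv j)) (D.q j k)) x * G k a x = _
    rw [e1, show a + 2 - 1 = a + 1 by omega,
      ballAvg_dual _ (measurable_ballAvg _ (hqm k)) (C := 1)
        (fun x => abs_ballAvg_le (lv_rho_pos h _) (lb_q h hd j k) x fun u _ => hqb k _)
        (hGi k a).1.measurable (hGi k a).2]
    have hgi2 : Integrable (ballAvg (rho D.ε (a + 1)) (G k a)) := by
      rw [← funext (conv_ker1 (rho D.ε (a + 1)) (G k a))]
      exact (integrable_conv (isKer_ker1 (lv_rho_pos h _)).toIsSub (hGi k a).1.measurable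
        (hGi k a).2).1
    rw [ballAvg_dual _ (hqm k) (hqb k) (measurable_ballAvg _ (hGi k a).1.measurable) hgi2]
    exact integral_congr_ae (.of_forall fun x => congrArg _ (chain2_gdef h _ a x))
  rw [step1, e1]
  have hbm := birth_prop h hd j
  have hsm := src_prop h hd j
  have hVi : Integrable V := integrable_normLad h hd _
  have hi1 : Integrable fun x => D.sw j x * V x :=
    hVi.bdd_mul hsm.2.1.aestronglyMeasurable (.of_forall fun x => by
      rw [Real.norm_of_nonneg (hsm.2.2 x).1.1]; exact (hsm.2.2 x).1.2)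
  have hi2 : Integrable fun x => D.birth j x * V x :=
    hVi.bdd_mul hbm.1.aestronglyMeasurable (.of_forall fun x => by
      rw [Real.norm_of_nonneg (hbm.2 x).1]; exact (hbm.2 x).2)
  have hiW : Integrable fun x => ∑ k, D.W j k x * G k (a + 2) x :=
    integrable_finsetSum _ fun k _ => (hGi k _).2.bdd_mul (measurable_W h hd _ k).aestronglyMeasurable
      (.of_forall fun x => by
        rw [Real.norm_of_nonneg (W_nonneg h hd _ k x)]; exact W_le_one h hd _ k x)
  have hiL : Integrable fun x => ∑ k, D.q j k x * (dd D.ε D.v a (a + 2) x + G k (a + 2) x) :=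
    integrable_finsetSum _ fun k _ => hint k _ (hddi.add (hGi k _).2)
  have hpt : ∀ x, (∑ k, D.q j k x * (dd D.ε D.v a (a + 2) x + G k (a + 2) x)) +
      D.δ / 2 * (D.sw j x * V x) ≤ (∑ k, D.W j k x * G k (a + 2) x) + dd D.ε D.v a (a + 2) x +
      D.δ / 2 * (D.birth j x * V x) := by
    intro x
    simp only [mul_add, Finset.sum_add_distrib, ← Finset.sum_mul]
    have hsum : ∑ k, D.q j k x ≤ 1 := by
      rw [Data.q, sum_upd h.net hd]
      exact max_le (h.le_one j x) ((W_prop h hd j).2.2 x)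
    have hdd1 := mul_le_mul_of_nonneg_right hsum (hdd0 x)
    obtain ⟨k0, hk0, huniq⟩ := exists_first h.net hd (lad D.ε D.v (a + 2) x)
    have hk0' : G k0 (a + 2) x ≤ D.δ / 2 * V x := hk0.1
    set s := D.sw j x + D.birth j x
    have hqg : ∑ k, D.q j k x * G k (a + 2) x ≤
        (∑ k, if Good D.δ D.dir k (lad D.ε D.v (a + 2) x) then D.W j k x * G k (a + 2) x else 0) +
          s * (D.δ / 2 * V x) := by
      refine le_trans (le_of_eq ?_) (add_le_add le_rfl
        (mul_le_mul_of_nonneg_left hk0' (hsm.2.2 x).2.1))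
      simp only [Data.q, upd, e1, add_mul, ite_mul, zero_mul, Finset.sum_add_distrib]
      refine congrArg₂ (· + ·) rfl ?_
      rw [Finset.sum_eq_single k0 (fun k _ hne => if_neg fun hh => hne (huniq k hh))
        (fun hh => absurd (Finset.mem_univ k0) hh), if_pos hk0]
      simp only [s, Data.sw, Data.birth, e1]
      ring
    have hgood : (∑ k, if Good D.δ D.dir k (lad D.ε D.v (a + 2) x) then
        D.W j k x * G k (a + 2) x else 0) + D.δ * (D.sw j x * V x) ≤
        ∑ k, D.W j k x * G k (a + 2) x := by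
      simp only [Data.sw, swI, e1, Finset.sum_mul, Finset.mul_sum, ← Finset.sum_add_distrib]
      refine Finset.sum_le_sum fun k _ => ?_
      by_cases hg : Good D.δ D.dir k (lad D.ε D.v (a + 2) x)
      · simp [hg]
      · have hlt : D.δ * V x < G k (a + 2) x := not_le.1 hg
        simp only [hg, if_false, zero_add]
        calc D.δ * (D.W j k x * V x) = D.W j k x * (D.δ * V x) := by ring
          _ ≤ D.W j k x * G k (a + 2) x :=
            mul_le_mul_of_nonneg_left hlt.le (W_nonneg h hd j k x)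
    simp only [s] at hqg
    linarith
  have hiWd : Integrable fun x =>
      (∑ k, D.W j k x * G k (a + 2) x) + dd D.ε D.v a (a + 2) x := hiW.add hddi
  have h1 := integral_mono (hiL.add (hi1.const_mul _)) (hiWd.add (hi2.const_mul _)) hpt
  simp only [Pi.add_apply] at h1
  rw [integral_add hiL (hi1.const_mul _), integral_add hiWd (hi2.const_mul _),
    integral_add hiW hddi, hddint, integral_const_mul, integral_const_mul] at h1
  have hmis : D.mis j = ∫ x, ∑ k, D.W j k x * G k (a + 2) x := by rw [Data.mis, e1]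
  rw [hmis]
  exact h1

/-- The total cost of the sources. -/
theorem sum_src_le (h : Ok D) (hd : 1 ≤ d) {N : ℕ} (hN : 2 * N ≤ D.T0) :
    ∑ j ∈ Finset.range N, ∫ x, D.src j x * ‖lad D.ε D.v (D.lv j) x‖ ≤
      2 / D.δ * (phi D.ε D.v (D.lv N) - phi D.ε D.v D.T0) +
        2 * ∑ j ∈ Finset.range N, ∫ x, D.birth j x * ‖lad D.ε D.v (D.lv j) x‖ := by
  have hδ := h.net.pos
  have hmis0 : D.mis 0 = 0 := by simp [Data.mis, Data.W]
  have hmisN : 0 ≤ D.mis N := integral_nonneg fun x => Finset.sum_nonneg fun k _ =>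
    mul_nonneg (W_nonneg h hd N k x) (gdef_nonneg _ _ (h.net.unit k) _ x)
  have hmain : ∀ N', 2 * N' ≤ D.T0 →
      D.mis N' + D.δ / 2 * ∑ j ∈ Finset.range N', ∫ x, D.sw j x * ‖lad D.ε D.v (D.lv j) x‖ ≤
        phi D.ε D.v (D.lv N') - phi D.ε D.v D.T0 +
          D.δ / 2 * ∑ j ∈ Finset.range N', ∫ x, D.birth j x * ‖lad D.ε D.v (D.lv j) x‖ := by
    intro N'
    induction N' with
    | zero => intro _; simp [hmis0, Data.lv]
    | succ N' ih =>
      intro hN'
      have a1 := ih (by omega)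
      have a2 := mis_succ h hd N' hN'
      rw [Finset.sum_range_succ, Finset.sum_range_succ, mul_add, mul_add]
      linarith
  have hm := hmain N hN
  have hb := fun j => birth_prop h hd j
  have hs := fun j => src_prop h hd j
  have e : ∀ j, ∫ x, D.src j x * ‖lad D.ε D.v (D.lv j) x‖ =
      (∫ x, D.sw j x * ‖lad D.ε D.v (D.lv j) x‖) + ∫ x, D.birth j x * ‖lad D.ε D.v (D.lv j) x‖ := by
    intro j
    simp only [Data.src, add_mul]
    exact integral_add
      ((integrable_normLad h hd _).bdd_mul (hs j).2.1.aestronglyMeasurable (.of_forall fun x => by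
        rw [Real.norm_of_nonneg ((hs j).2.2 x).1.1]; exact ((hs j).2.2 x).1.2))
      ((integrable_normLad h hd _).bdd_mul (hb j).1.aestronglyMeasurable (.of_forall fun x => by
        rw [Real.norm_of_nonneg ((hb j).2 x).1]; exact ((hb j).2 x).2))
  simp only [e, Finset.sum_add_distrib]
  set S := ∑ j ∈ Finset.range N, ∫ x, D.sw j x * ‖lad D.ε D.v (D.lv j) x‖
  set B := ∑ j ∈ Finset.range N, ∫ x, D.birth j x * ‖lad D.ε D.v (D.lv j) x‖
  have hS : S ≤ 2 / D.δ * (phi D.ε D.v (D.lv N) - phi D.ε D.v D.T0) + B := by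
    rw [← sub_le_iff_le_add, div_mul_eq_mul_div, le_div_iff₀ hδ]
    linarith
  linarith

end Vale.Agent.P137.Weights
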