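import Vale.Agent.P137.Centred.ExcessBand
import Vale.Agent.P137.Centred.Reach
import Vale.Agent.P137.Centred.Band
import Vale.Agent.P137.Centred.Trunc
import Vale.Agent.P137.Centred.States

/-!
The misdirected part of the gradient of a band maximal function, integrated against a weight that
lives near points where the direction is good seven levels above the band.

Proof notes.  The excess bound holds in each ball of centres with any direction; for a good point
`y` the direction of the vector at `y` is used in all balls near `y`, and the deficits there are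
bounded by the defects at `y`.  The balls are averaged over their centres, so none is selected.
-/

namespace Vale.Agent.P137

open MeasureTheory Metric Filter Topology Set
open scoped RealInnerProductSpace ENNReal

variable {d M : ℕ}

/-- The part of the derivative of `F` which is not forward along `k`. -/
noncomputable def misD (F : EE d → ℝ) (k x : EE d) : ℝ :=
  max 0 (max (‖fderiv ℝ F x‖ - 6 * max (fderiv ℝ F x k) 0) (-(fderiv ℝ F x k)))

/-- The points where `k` is a good direction at level `T`. -/
def goodPts (ε : ℝ) (v : EE d → EE d) (δ : ℝ) (k : EE d) (T : ℕ) : Set (EE d) :=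
  {y | gdef ε v k T y ≤ δ * ‖lad ε v T y‖}

namespace BandInt

theorem measurable_misD (F : EE d → ℝ) (k : EE d) : Measurable (misD F k) := by
  have h1 : Measurable fun x => fderiv ℝ F x k := measurable_fderiv_apply_const ℝ F k
  exact measurable_const.max
    (((measurable_fderiv ℝ F).norm.sub ((h1.max measurable_const).const_mul 6)).max h1.neg)

theorem misD_nonneg (F : EE d → ℝ) (k x : EE d) : 0 ≤ misD F k x := le_max_left _ _

/-- Balls of centres and balls of points exchanged. -/
theorem lintegral_ball_swap {f : EE d → ℝ≥0∞} (hf : Measurable f) (S : Set (EE d))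
    (r : ℝ) :
    ∫⁻ c in S, ∫⁻ x in ball c r, f x = ∫⁻ x, f x * volume (S ∩ ball x r) := by
  have hU : MeasurableSet {p : EE d × EE d | p.2 ∈ ball p.1 r} :=
    (isOpen_lt (continuous_snd.dist continuous_fst) continuous_const).measurableSet
  have hm : Measurable (Function.uncurry fun c x : EE d => (ball c r).indicator f x) := by
    have e : (Function.uncurry fun c x : EE d => (ball c r).indicator f x) =
        {p : EE d × EE d | p.2 ∈ ball p.1 r}.indicator (fun p => f p.2) := by
      funext p; rfl
    rw [e]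
    exact (hf.comp measurable_snd).indicator hU
  simp only [← lintegral_indicator measurableSet_ball]
  rw [lintegral_lintegral_swap hm.aemeasurable]
  refine lintegral_congr fun x => ?_
  have e : (fun c => (ball c r).indicator f x) = (ball x r).indicator fun _ => f x := by
    funext c
    by_cases hx : x ∈ ball c r
    · rw [indicator_of_mem hx, indicator_of_mem (mem_ball_comm.1 hx)]
    · rw [indicator_of_notMem hx, indicator_of_notMem fun hh => hx (mem_ball_comm.1 hh)]
  rw [e, setLIntegral_indicator measurableSet_ball, setLIntegral_const, Set.inter_comm]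

theorem ofReal_gdef_int {ε : ℝ} {g : EE d → ℝ} {v : EE d → EE d} (hε : 0 < ε) (hp : IsPot g v)
    {e : EE d} (he : ‖e‖ = 1) (l : ℕ) (y : EE d) (s : ℝ) :
    ∫⁻ z in ball y s, ENNReal.ofReal (gdef ε v e l z) =
      ENNReal.ofReal (∫ z in ball y s, gdef ε v e l z) :=
  (ofReal_integral_eq_lintegral_ofReal
    (gdef_continuous_integrable hε hp.contv hp.intv e l).2.integrableOn
    (.of_forall (gdef_nonneg ε v he l))).symm

/-- The direction of the vector at a good point is close to `k`. -/
theorem good_dir {δ : ℝ} (hd : 1 ≤ d) (hδ : δ ≤ 1 / 72) {k u : EE d} (hk : ‖k‖ = 1)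
    (hu : ‖u‖ - ⟪u, k⟫ ≤ δ * ‖u‖) : ∃ e : EE d, ‖e‖ = 1 ∧ u = ‖u‖ • e ∧ ‖e - k‖ ≤ 1 / 6 := by
  obtain ⟨e, he, hue⟩ := exists_dir hd u
  rcases eq_or_lt_of_le (norm_nonneg u) with h0 | h0
  · refine ⟨k, hk, ?_, by simp⟩
    rw [← h0, zero_smul]
    exact norm_eq_zero.1 h0.symm
  refine ⟨e, he, hue, ?_⟩
  have h1 : ⟪u, k⟫ = ‖u‖ * ⟪e, k⟫ := by
    conv_lhs => rw [hue]
    rw [real_inner_smul_left]
  have h2 : 1 - δ ≤ ⟪e, k⟫ := by
    rw [h1] at hu
    nlinarith
  have h3 : ‖e - k‖ ^ 2 ≤ (1 / 6) ^ 2 := by
    rw [norm_sub_sq_real, he, hk]; linarith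
  exact le_of_pow_le_pow_left₀ two_ne_zero (by norm_num) h3

/-- The misdirected part of a gradient is at most twice the excess of a nearby direction. -/
theorem mis_le_excess {e k a : EE d} (hek : ‖e - k‖ ≤ 1 / 6) :
    max 0 (max (‖a‖ - 6 * max ⟪a, k⟫ 0) (-⟪a, k⟫)) ≤ 2 * excess 3 e a := by
  have h1 : ⟪a, e⟫ ≤ ⟪a, k⟫ + ‖a‖ / 6 := by
    have := real_inner_le_norm a (e - k)
    rw [inner_sub_right] at this
    nlinarith [norm_nonneg a]
  have h2 := le_max_right (0 : ℝ) (‖a‖ - 3 * ⟪a, e⟫)
  have h3 := le_max_left (0 : ℝ) (‖a‖ - 3 * ⟪a, e⟫)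
  have h4 := le_max_left ⟪a, k⟫ 0
  have h5 := le_max_right ⟪a, k⟫ 0
  have h6 := norm_nonneg a
  unfold excess
  refine max_le (by linarith) (max_le (by linarith) ?_)
  rcases le_total 0 ⟪a, k⟫ with h | h <;> linarith

/-- The states live near good points. -/
theorem W_le_goodPts {D : Weights.Data d M} (h : Weights.Ok D) (hd : 1 ≤ d) {j : ℕ}
    (hj : 1 ≤ D.lv j) (k : Fin M) (x : EE d) :
    D.W (j + 1) k x ≤ (volume.real (ball (0 : EE d) (rho D.ε (D.lv j))))⁻¹ *
      volume.real (goodPts D.ε D.v D.δ (D.dir k) (D.lv j) ∩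
        ball x (5 / 4 * rho D.ε (D.lv j))) := by
  set T := D.lv j
  set A := goodPts D.ε D.v D.δ (D.dir k) T
  set ρ := rho D.ε T
  set c := (volume.real (ball (0 : EE d) ρ))⁻¹ * volume.real (A ∩ ball x (5 / 4 * ρ))
  have hρ : 0 < ρ := rho_pos h.εpos T
  have hρ' : rho D.ε (T - 1) = ρ / 4 := by
    obtain ⟨b, hb⟩ : ∃ b, T = b + 1 := ⟨T - 1, by omega⟩
    simp only [ρ, hb, Nat.add_sub_cancel, Kernel.rho_succ']
    ring
  have hA : MeasurableSet A := by
    obtain ⟨hg, -⟩ := Weights.integrable_gdef h (D.dir k) T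
    exact (isClosed_le hg (continuous_const.mul (h.contLad T).norm)).measurableSet
  have hq0 : ∀ z ∉ A, D.q j k z = 0 := fun z hz => by
    have hng : ¬ Weights.Good D.δ D.dir k (lad D.ε D.v T z) := hz
    have hnf : ¬ Weights.First D.δ D.dir k (lad D.ε D.v T z) :=
      fun hf => hng (Weights.first_good h.net hf)
    simp only [Weights.Data.q, Weights.upd, T, if_neg hng, if_neg hnf, zero_add] at hng hnf ⊢
  show ballAvg (rho D.ε (T - 1)) (ballAvg ρ (D.q j k)) x ≤ c
  rw [← Kernel.ballAvg_const (rho_pos h.εpos (T - 1)) c x]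
  have hint : ∀ z ∈ ball (0 : EE d) (rho D.ε (T - 1)), ballAvg ρ (D.q j k) (x + z) ≤ c := by
    intro z hz
    rw [mem_ball_zero_iff, hρ'] at hz
    rw [Band.ballAvg_eq, smul_eq_mul, Band.vol_eq (x + z) hρ, ← Band.vol_eq 0 hρ]
    refine mul_le_mul_of_nonneg_left ?_ (inv_nonneg.2 measureReal_nonneg)
    have hfin : volume (A ∩ ball x (5 / 4 * ρ)) < ⊤ :=
      lt_of_le_of_lt (measure_mono inter_subset_right) measure_ball_lt_top
    have hqi : IntegrableOn (D.q j k) (ball (x + z) ρ) :=
      Measure.integrableOn_of_bounded (M := 1) measure_ball_lt_top.ne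
        (Weights.q_prop h hd j k).1.aestronglyMeasurable (.of_forall fun u => by
          rw [Real.norm_of_nonneg ((Weights.q_prop h hd j k).2 u).1]
          exact ((Weights.q_prop h hd j k).2 u).2)
    calc ∫ u in ball (x + z) ρ, D.q j k u
        ≤ ∫ u in ball (x + z) ρ, (A ∩ ball x (5 / 4 * ρ)).indicator (fun _ => (1 : ℝ)) u := by
          refine setIntegral_mono_on hqi
            ((integrable_indicator_iff (hA.inter measurableSet_ball)).2
              (integrableOn_const hfin.ne)).integrableOn measurableSet_ball fun u hu => ?_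
          by_cases huA : u ∈ A
          · have hu' : u ∈ ball x (5 / 4 * ρ) := by
              rw [mem_ball, dist_eq_norm] at hu ⊢
              have e : u - x = (u - (x + z)) + z := by abel
              rw [e]
              linarith [norm_add_le (u - (x + z)) z]
            rw [indicator_of_mem (show u ∈ A ∩ ball x (5 / 4 * ρ) from ⟨huA, hu'⟩)]
            exact ((Weights.q_prop h hd j k).2 u).2
          · rw [hq0 u huA]; exact indicator_nonneg (fun _ _ => zero_le_one) u
      _ ≤ ∫ u, (A ∩ ball x (5 / 4 * ρ)).indicator (fun _ => (1 : ℝ)) u :=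
          setIntegral_le_integral ((integrable_indicator_iff (hA.inter measurableSet_ball)).2
            (integrableOn_const hfin.ne)) (.of_forall fun u =>
              indicator_nonneg (fun _ _ => zero_le_one) u)
      _ = _ := by rw [integral_indicator_const _ (hA.inter measurableSet_ball), smul_eq_mul, mul_one]
  rw [Kernel.ballAvg_def, Kernel.ballAvg_def]
  exact mul_le_mul_of_nonneg_left (setIntegral_mono_on
    ((Weights.lb_q h hd j k).avg hρ |>.intOn x _) (integrableOn_const measure_ball_lt_top.ne)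
    measurableSet_ball hint) (inv_nonneg.2 measureReal_nonneg)

end BandInt

open BandInt in
/-- The misdirected gradient of a band against a weight near good points. -/
theorem band_int (hd : 2 ≤ d) {δ : ℝ} (hδ : δ ≤ 1 / 72) : ∃ C : ℝ≥0∞, C ≠ ⊤ ∧
    ∀ {ε : ℝ} {g : EE d → ℝ} {v : EE d → EE d}, IsPot g v → 0 < ε → ∀ {k : EE d}, ‖k‖ = 1 →
    ∀ (J : ℕ) (e1 e2 : ℝ), rho ε J ≤ e1 → e1 ≤ e2 → e2 ≤ 16 * rho ε J →
    ∀ W : EE d → ℝ, (∀ x, W x ≤ (volume.real (ball (0 : EE d) (rho ε (J + 7))))⁻¹ *
      volume.real (goodPts ε v δ k (J + 7) ∩ ball x (5 / 4 * rho ε (J + 7)))) →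
    ∫⁻ x, ENNReal.ofReal (W x) * ENNReal.ofReal (misD (Fsup e1 e2 g) k x) ≤
      C * ∑ m ∈ Finset.range (J + 1),
        ENNReal.ofReal (qC ^ m * (phi ε v (J - m) - phi ε v (J + 7))) := by
  obtain ⟨C, hC, hex⟩ := excess_band hd
  set V1 := volume.real (ball (0 : EE d) 1)
  have hV1 : 0 < V1 := Band.vol_pos 0 one_pos
  set C' := (5 / 4 * 4 ^ 7 + 1 : ℝ) ^ d * (2 / V1) * (Reach.etaW d)⁻¹
  refine ⟨C * ENNReal.ofReal C', ENNReal.mul_ne_top hC ENNReal.ofReal_ne_top,
    fun {ε g v} hp hε {k} hk J e1 e2 h1 h12 h2 W hW => ?_⟩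
  set T := J + 7 with hT
  set A := goodPts ε v δ k T
  set ρ := rho ε J with hρdef
  have hρ : 0 < ρ := rho_pos hε J
  have hρT : rho ε T = 4 ^ 7 * ρ := by simp only [hT, hρdef, rho, pow_add]; ring
  set R1 := 5 / 4 * rho ε T with hR1
  set R2 := R1 + ρ with hR2
  set F := Fsup e1 e2 g
  have he1 : 0 < e1 := hρ.trans_le h1
  set f := fun x => ENNReal.ofReal (misD F k x) with hf
  have hfm : Measurable f := (measurable_misD F k).ennreal_ofReal
  set VT := volume.real (ball (0 : EE d) (rho ε T))
  have hVT : 0 < VT := Band.vol_pos 0 (rho_pos hε T)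
  have hA : MeasurableSet A := by
    obtain ⟨hg, -⟩ := gdef_continuous_integrable hε hp.contv hp.intv k T
    exact (isClosed_le hg (continuous_const.mul (isPot_lad hε hp T).contv.norm)).measurableSet
  set S := fun y => ∑ m ∈ Finset.range (J + 1),
    ENNReal.ofReal (qC ^ m) * ENNReal.ofReal (dd ε v (J - m) T y)
  -- near a good point
  have hball : ∀ y ∈ A, ∫⁻ x in ball y R1, f x ≤
      C * ENNReal.ofReal C' * ENNReal.ofReal VT * S y := by
    intro y hy
    obtain ⟨e, he, hdir, hek⟩ := good_dir (by omega : 1 ≤ d) hδ hk hy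
    set K1 := 2 / (V1 * ρ ^ d)
    set Z := ENNReal.ofReal K1 * (C * ENNReal.ofReal (ρ ^ d) *
      (ENNReal.ofReal ((Reach.etaW d)⁻¹ * VT) * S y))
    have hcentre : ∀ c ∈ ball y R2, ∫⁻ x in ball c ρ, f x ≤ Z := by
      intro c hc
      obtain ⟨Tot, hTm, hTot, hint⟩ := hex hp hε he J e1 e2 c
      have hae : ∀ᵐ x ∂(volume : Measure (EE d)), f x ≤ ENNReal.ofReal K1 * Tot x := by
        filter_upwards [ae_gradient_Fsup hp he1 h12] with x hx
        obtain ⟨r, hr, hmax⟩ := exists_Fsup hp he1 h12 x
        have hD := (hx r hr hmax).fderiv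
        have hloc : LocMax g v ρ e1 e2 x r := by
          refine ⟨by linarith [hr.1], by linarith [hr.2], fun h h0 _ ha hb => ?_, fun hr1 hr2 =>
            moment_eq_zero hp he1 ⟨lt_of_le_of_ne hr.1 (Ne.symm hr1), lt_of_le_of_ne hr.2 hr2⟩ hmax⟩
          rw [abs_of_nonneg (by linarith [hr.1])] at ha
          rw [abs_of_nonpos (by linarith [hr.2])] at hb
          rw [hmax]
          exact ⟨avg_le_Fsup hp he1 ⟨by linarith, by linarith [hr.2]⟩ x,
            avg_le_Fsup hp he1 ⟨by linarith [hr.1], by linarith⟩ x⟩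
        have hr0 : 0 < r := he1.trans_le hr.1
        set a := avgV v x r
        have hmis : misD F k x ≤ 2 * excess 3 e a := by
          have := mis_le_excess (a := a) hek
          have hD' : fderiv ℝ F x = innerSL ℝ a := hD
          simpa [misD, hD', innerSL_apply_norm] using this
        have hexc : excess 3 e a = (volume.real (ball x r))⁻¹ *
            excess 3 e (∫ z in ball x r, v z) := by
          simp only [a, avgV, excess, norm_smul, Real.norm_of_nonneg
            (inv_nonneg.2 (measureReal_nonneg (μ := volume) (s := ball x r))),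
            real_inner_smul_left]
          rw [mul_max_of_nonneg _ _ (inv_nonneg.2 measureReal_nonneg), mul_zero]
          ring_nf
        have hvol : V1 * ρ ^ d ≤ volume.real (ball x r) := by
          rw [Band.vol_eq x hr0, mul_comm]
          exact mul_le_mul_of_nonneg_right (pow_le_pow_left₀ hρ.le (h1.trans hr.1) d) hV1.le
        have hEx : (0 : ℝ) ≤ excess 3 e (∫ z in ball x r, v z) := le_max_left _ _
        calc f x ≤ ENNReal.ofReal (K1 * excess 3 e (∫ z in ball x r, v z)) := by
              refine ENNReal.ofReal_le_ofReal (hmis.trans ?_)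
              rw [hexc]
              simp only [K1]
              rw [← mul_assoc, div_eq_mul_inv]
              exact mul_le_mul_of_nonneg_right
                (mul_le_mul_of_nonneg_left (inv_anti₀ (by positivity) hvol) two_pos.le) hEx
          _ ≤ _ := by
              rw [ENNReal.ofReal_mul (by positivity)]
              exact mul_le_mul' le_rfl (hTot x r hloc)
      refine (lintegral_mono_ae (ae_restrict_of_ae hae)).trans ?_
      rw [lintegral_const_mul _ hTm]
      refine mul_le_mul' le_rfl (hint.trans (mul_le_mul' le_rfl ?_))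
      rw [Finset.mul_sum]
      refine Finset.sum_le_sum fun m hm => ?_
      rw [mul_left_comm]
      refine mul_le_mul' le_rfl ?_
      rw [mem_ball, dist_eq_norm] at hc
      have hsub : ball c (1024 * ρ) ⊆ ball y (132 / 100 * rho ε T) := by
        refine ball_subset_ball' ?_
        rw [dist_eq_norm]
        simp only [hR2, hR1, hρT] at hc
        rw [hρT]
        linarith
      refine (lintegral_mono_set hsub).trans ?_
      simp only [gg]
      rw [ofReal_gdef_int hε hp he (J - m) y, ← ENNReal.ofReal_mul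
        (mul_nonneg (inv_nonneg.2 (Reach.etaW_pos d).le) hVT.le)]
      exact ENNReal.ofReal_le_ofReal
        (Reach.deficit_window hε (by omega) hp (by omega) he hdir)
    set Vρ := volume (ball (0 : EE d) ρ)
    have hVρ0 : Vρ ≠ 0 := (measure_ball_pos _ _ hρ).ne'
    have hVρt : Vρ ≠ ⊤ := measure_ball_lt_top.ne
    have hstep : (∫⁻ x in ball y R1, f x) * Vρ ≤ Z * volume (ball y R2) := by
      calc (∫⁻ x in ball y R1, f x) * Vρ = ∫⁻ x in ball y R1, f x * Vρ :=
            (lintegral_mul_const _ hfm).symm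
        _ ≤ ∫⁻ x, f x * volume (ball y R2 ∩ ball x ρ) := by
            rw [← lintegral_indicator measurableSet_ball]
            refine lintegral_mono fun x => ?_
            by_cases hx : x ∈ ball y R1
            swap
            · rw [indicator_of_notMem hx]; exact zero_le
            rw [indicator_of_mem hx, inter_eq_right.2 (ball_subset_ball' (by
              rw [mem_ball] at hx; simp only [hR2]; linarith)), Measure.addHaar_ball_center]
        _ = ∫⁻ c in ball y R2, ∫⁻ x in ball c ρ, f x :=
            (lintegral_ball_swap hfm _ ρ).symm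
        _ ≤ ∫⁻ _c in ball y R2, Z := setLIntegral_mono measurable_const hcentre
        _ = _ := setLIntegral_const _ _
    have hratio : volume (ball y R2) = ENNReal.ofReal ((5 / 4 * 4 ^ 7 + 1) ^ d) * Vρ := by
      rw [show R2 = (5 / 4 * 4 ^ 7 + 1) * ρ by simp only [hR2, hR1, hρT]; ring,
        Measure.addHaar_ball_mul_of_pos volume y (by norm_num) ρ, finrank_euclideanSpace_fin]
    rw [hratio, ← mul_assoc, ENNReal.mul_le_mul_iff_left hVρ0 hVρt] at hstep
    refine hstep.trans (le_of_eq ?_)
    simp only [Z]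
    have e : ENNReal.ofReal K1 * ENNReal.ofReal (ρ ^ d) * ENNReal.ofReal ((Reach.etaW d)⁻¹ * VT) *
        ENNReal.ofReal ((5 / 4 * 4 ^ 7 + 1) ^ d) = ENNReal.ofReal C' * ENNReal.ofReal VT := by
      have hη := Reach.etaW_pos d
      have hC'0 : 0 ≤ C' := by positivity
      rw [← ENNReal.ofReal_mul (by positivity), ← ENNReal.ofReal_mul (by positivity),
        ← ENNReal.ofReal_mul (by positivity), ← ENNReal.ofReal_mul hC'0]
      congr 1
      simp only [K1, C']
      field_simp
    rw [mul_assoc C (ENNReal.ofReal C'), ← e]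
    ring
  -- all good points
  have hW' : ∀ x, ENNReal.ofReal (W x) * f x ≤
      ENNReal.ofReal VT⁻¹ * (f x * volume (A ∩ ball x R1)) := fun x => by
    rw [← mul_assoc, mul_comm _ (f x), mul_comm _ (f x), mul_assoc]
    refine mul_le_mul' le_rfl ((ENNReal.ofReal_le_ofReal (hW x)).trans (le_of_eq ?_))
    rw [ENNReal.ofReal_mul (inv_nonneg.2 measureReal_nonneg), measureReal_def _ (A ∩ ball x R1),
      ENNReal.ofReal_toReal
        (lt_of_le_of_lt (measure_mono inter_subset_right) measure_ball_lt_top).ne]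
  have hdd : ∀ m, Measurable fun y => ENNReal.ofReal (qC ^ m) * ENNReal.ofReal (dd ε v (J - m) T y) :=
    fun m => ((dd_spec hε hp.contv hp.intv (by omega : J - m ≤ T)).1.measurable.ennreal_ofReal).const_mul _
  calc ∫⁻ x, ENNReal.ofReal (W x) * f x
      ≤ ∫⁻ x, ENNReal.ofReal VT⁻¹ * (f x * volume (A ∩ ball x R1)) := lintegral_mono hW'
    _ = ENNReal.ofReal VT⁻¹ * ∫⁻ y in A, ∫⁻ x in ball y R1, f x := by
        rw [lintegral_const_mul' _ _ ENNReal.ofReal_ne_top, lintegral_ball_swap hfm A R1]
    _ ≤ ENNReal.ofReal VT⁻¹ * ∫⁻ y, C * ENNReal.ofReal C' * ENNReal.ofReal VT * S y :=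
        mul_le_mul' le_rfl ((setLIntegral_mono
          ((Finset.measurable_sum _ fun m _ => hdd m).const_mul _) hball).trans
          (setLIntegral_le_lintegral _ _))
    _ = _ := by
        rw [lintegral_const_mul _ (Finset.measurable_sum _ fun m _ => hdd m),
          lintegral_finsetSum _ fun m _ => hdd m, ← mul_assoc, mul_comm (ENNReal.ofReal VT⁻¹),
          mul_assoc (C * ENNReal.ofReal C'), ← ENNReal.ofReal_mul hVT.le,
          mul_inv_cancel₀ hVT.ne', ENNReal.ofReal_one, mul_one]
        refine congrArg _ (Finset.sum_congr rfl fun m _ => ?_)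
        obtain ⟨-, hi, h0, hint⟩ := dd_spec hε hp.contv hp.intv (by omega : J - m ≤ T)
        rw [lintegral_const_mul' _ _ ENNReal.ofReal_ne_top,
          ← ofReal_integral_eq_lintegral_ofReal hi (.of_forall h0), hint,
          ← ENNReal.ofReal_mul (pow_nonneg qC_pos.le _)]

end Vale.Agent.P137
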