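import Vale.Agent.P137.Centred.States
import Vale.Agent.P137.Centred.Band
import Vale.Agent.P137.MaxBasic

/-!
The births of the states: either everything is born at the top, or weight is born where the
averages of the large part of the field are large.

Proof notes.  All weight stays within a ball of radius `2 ρ` around a birth at radius `ρ`, hence in
the set where the maximal function of the large part is large, and the total birth is the final
mass.  Where something is born below the top, the coarser average of the large part is small, so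
the vector there is at most a multiple of the threshold.
-/

namespace Vale.Agent.P137

open MeasureTheory Metric Filter Topology Set
open scoped RealInnerProductSpace ENNReal

variable {d M : ℕ}

/-- The part of the norm above a threshold. -/
noncomputable def bigPart (v : EE d → EE d) (L : ℝ) (x : EE d) : ℝ := max 0 (‖v x‖ - L)

/-- The threshold factor for births. -/
noncomputable def cB (d : ℕ) : ℝ := ((1 / 2 : ℝ) * (1 / 4) ^ 7) ^ d

/-- Births where the coarse average of the large part is large. -/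
noncomputable def betaT (ε : ℝ) (v : EE d → EE d) (L : ℝ) (T0 : ℕ) (j : ℕ) : EE d → ℝ :=
  {y | cB d * L < ballAvg (2 * rho ε (T0 - 2 * j)) (bigPart v L) y}.indicator fun _ => 1

namespace Births

open Weights Kernel

theorem cB_pos (d : ℕ) : 0 < cB d := by unfold cB; positivity

theorem cB_le_one (d : ℕ) : cB d ≤ 1 := pow_le_one₀ (by norm_num) (by norm_num)

theorem avg_ne_zero {ρ : ℝ} {f : EE d → ℝ} {x : EE d} (h : ballAvg ρ f x ≠ 0) :
    ∃ u : EE d, ‖u‖ < ρ ∧ f (x + u) ≠ 0 := by
  by_contra hc
  push Not at hc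
  refine h ?_
  rw [Kernel.ballAvg_def, setIntegral_eq_zero_of_forall_eq_zero, mul_zero]
  exact fun u hu => hc u (mem_ball_zero_iff.1 hu)

theorem avg_one {ρ : ℝ} (hρ : 0 < ρ) {f : EE d → ℝ} {x : EE d}
    (h : ∀ u : EE d, ‖u‖ < ρ → f (x + u) = 1) : ballAvg ρ f x = 1 := by
  rw [Kernel.ballAvg_def, setIntegral_congr_fun measurableSet_ball
    (g := fun _ => (1 : ℝ)) fun u hu => h u (mem_ball_zero_iff.1 hu),
    setIntegral_const, smul_eq_mul, mul_one, inv_mul_cancel₀ (volBall_pos hρ).ne']

theorem integral_avg {ρ : ℝ} (hρ : 0 < ρ) {f : EE d → ℝ} (hm : Measurable f) (hi : Integrable f) :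
    Integrable (ballAvg ρ f) ∧ ∫ x, ballAvg ρ f x = ∫ x, f x := by
  have hk := isKer_ker1 (d := d) hρ
  obtain ⟨h1, h2⟩ := integrable_conv hk.toIsSub hm hi
  rw [hk.mass, one_mul] at h2
  rw [← funext (conv_ker1 ρ f)]
  exact ⟨h1, h2⟩

theorem rho_step {D : Data d M} {j : ℕ} (h : 2 * (j + 1) ≤ D.T0) :
    rho D.ε (D.lv j - 1) + rho D.ε (D.lv j) =
        4 / 3 * (rho D.ε (D.lv j) - rho D.ε (D.lv (j + 1))) ∧
      rho D.ε (D.lv j - 1) + rho D.ε (D.lv j) = 5 / 4 * rho D.ε (D.lv j) := by
  have e1 : D.lv j - 1 = D.lv (j + 1) + 1 := by simp only [Data.lv]; omega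
  have e2 : D.lv j = D.lv (j + 1) + 1 + 1 := by simp only [Data.lv]; omega
  rw [e1, e2, rho_succ' D.ε (D.lv (j + 1) + 1), rho_succ' D.ε (D.lv (j + 1))]
  constructor <;> ring

/-- The total weight is one where births fill a ball. -/
theorem cover {D : Data d M} (h : Ok D) (hd : 1 ≤ d) {j : ℕ} (hj : 2 * (j + 1) ≤ D.T0) {x : EE d}
    (hβ : ∀ y, ‖y - x‖ < 5 / 4 * rho D.ε (D.lv j) → D.β j y = 1) :
    ∑ k, D.W (j + 1) k x = 1 := by
  rw [sum_W_succ h hd]
  refine avg_one (rho_pos h.εpos _) fun u hu => avg_one (rho_pos h.εpos _) fun u' hu' => ?_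
  have := hβ (x + u + u') (by
    rw [show x + u + u' - x = u + u' by abel, ← (rho_step hj).2]
    linarith [norm_add_le u u'])
  rw [this]
  exact max_eq_left ((W_prop h hd j).2.2 _)

/-- With births equal to one everything is born at the top. -/
theorem full {D : Data d M} (h : Ok D) (hd : 1 ≤ d) (hβ : D.β = fun _ _ => 1) {N : ℕ}
    (hN : 2 * N ≤ D.T0) :
    (∀ j, 1 ≤ j → j ≤ N → ∀ x, ∑ k, D.W j k x = 1) ∧
      ∑ j ∈ Finset.range N, ∫ x, D.birth j x * ‖lad D.ε D.v (D.lv j) x‖ ≤
        phi D.ε D.v D.T0 := by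
  have h1 : ∀ j, 1 ≤ j → j ≤ N → ∀ x, ∑ k, D.W j k x = 1 := fun j hj hjN x => by
    obtain ⟨i, rfl⟩ : ∃ i, j = i + 1 := ⟨j - 1, by omega⟩
    exact cover h hd (by omega) fun y _ => by rw [hβ]
  refine ⟨h1, ?_⟩
  refine (Finset.sum_le_sum fun j hj => ?_).trans
    (le_of_eq (Finset.sum_ite_eq' (Finset.range N) 0 fun _ => phi D.ε D.v D.T0)) |>.trans ?_
  · rw [Finset.mem_range] at hj
    rcases Nat.eq_zero_or_pos j with rfl | hj0
    · rw [if_pos rfl]
      refine le_of_eq (integral_congr_ae (.of_forall fun x => ?_))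
      simp [Data.birth, Data.W, Data.lv, hβ]
    · rw [if_neg (by omega)]
      refine le_of_eq (integral_eq_zero_of_ae (.of_forall fun x => ?_))
      simp only [Data.birth, hβ, h1 j hj0 hj.le x, sub_self, max_self, zero_mul, Pi.zero_apply]
  · split_ifs
    · exact le_rfl
    · exact integral_nonneg fun x => norm_nonneg _

theorem bigPart_spec {v : EE d → EE d} (hc : Continuous v) (hi : Integrable v) {L : ℝ}
    (hL : 0 ≤ L) : Continuous (bigPart v L) ∧ Integrable (bigPart v L) ∧
      (∀ x, 0 ≤ bigPart v L x) ∧ ∀ x, ‖v x‖ ≤ L + bigPart v L x := by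
  have hcu : Continuous (bigPart v L) := continuous_const.max (hc.norm.sub continuous_const)
  refine ⟨hcu, hi.norm.mono' hcu.aestronglyMeasurable (.of_forall fun x => ?_),
    fun x => le_max_left _ _, fun x => ?_⟩
  · simp only [bigPart]
    rw [Real.norm_of_nonneg (le_max_left _ _)]
    exact max_le (norm_nonneg _) (by linarith)
  · simp only [bigPart]
    linarith [le_max_right (0 : ℝ) (‖v x‖ - L)]

theorem betaT_ok (ε : ℝ) {v : EE d → EE d} (hc : Continuous v) (L : ℝ) (T0 j : ℕ) :
    Measurable (betaT ε v L T0 j) ∧ (∀ x, 0 ≤ betaT ε v L T0 j x) ∧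
      ∀ x, betaT ε v L T0 j x ≤ 1 := by
  refine ⟨measurable_const.indicator (measurableSet_lt measurable_const
    (Kernel.measurable_ballAvg _ (continuous_const.max (hc.norm.sub continuous_const)).measurable)),
    fun x => indicator_nonneg (fun _ _ => zero_le_one) x,
    fun x => indicator_le_self' (fun _ _ => zero_le_one) x⟩

/-- A large average over a comparable ball makes the total weight one. -/
theorem cover_tail {D : Data d M} (h : Ok D) (hd : 1 ≤ d) {L : ℝ} (hL : 0 < L)
    (hβ : D.β = betaT D.ε D.v L D.T0) {j : ℕ} (hj : 2 * (j + 1) ≤ D.T0) {x : EE d} {r : ℝ}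
    (hr0 : rho D.ε (D.lv j) ≤ 4 ^ 7 * r) (hr1 : 4 * r ≤ rho D.ε (D.lv j))
    (hbig : volume.real (ball x r) * L < ∫ y in ball x r, bigPart D.v L y) :
    ∑ k, D.W (j + 1) k x = 1 := by
  obtain ⟨hcu, -, hu0, -⟩ := bigPart_spec h.contv h.intv hL.le
  refine cover h hd hj fun y hy => ?_
  set T := D.lv j with hT
  set ρ := rho D.ε T
  have hρ : 0 < ρ := rho_pos h.εpos T
  have hr : 0 < r := by
    by_contra hc
    rw [not_lt] at hc
    nlinarith
  rw [hβ]
  refine indicator_of_mem ?_ _
  show cB d * L < ballAvg (2 * rho D.ε (D.T0 - 2 * j)) (bigPart D.v L) y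
  rw [show D.T0 - 2 * j = T from rfl, Band.ballAvg_eq, smul_eq_mul,
    lt_inv_mul_iff₀ (Band.vol_pos y (by positivity))]
  refine lt_of_le_of_lt ?_ (hbig.trans_le (setIntegral_mono_set (Band.intOn hcu y _)
    (.of_forall hu0) (LE.le.eventuallyLE (ball_subset_ball' ?_))))
  · rw [Band.vol_eq y (by positivity : (0 : ℝ) < 2 * ρ), Band.vol_eq x hr, cB, ← mul_assoc,
      mul_right_comm _ _ (((1 / 2 : ℝ) * (1 / 4) ^ 7) ^ d), ← mul_pow]
    refine mul_le_mul_of_nonneg_right (mul_le_mul_of_nonneg_right
      (pow_le_pow_left₀ (by positivity) ?_ d) measureReal_nonneg) hL.le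
    have h47 : ((1 : ℝ) / 4) ^ 7 * 4 ^ 7 = 1 := by norm_num
    nlinarith
  · rw [dist_eq_norm, norm_sub_rev]
    linarith

/-- The births cost at most a multiple of the large part. -/
theorem tail (hd : 1 ≤ d) : ∃ C : ℝ, 0 ≤ C ∧ ∀ {M : ℕ} {D : Data d M}, Ok D → ∀ {L : ℝ}, 0 < L →
    D.β = betaT D.ε D.v L D.T0 → ∀ N : ℕ, 2 * N ≤ D.T0 →
      ∑ j ∈ Finset.range N, ∫ x, D.birth j x * ‖lad D.ε D.v (D.lv j) x‖ ≤
        C * ∫ x, bigPart D.v L x := by
  obtain ⟨Cw, hCw, hweak⟩ := mu_weak d
  obtain ⟨K, hK⟩ : ∃ K : ℝ, K = 2 ^ d + 32 ^ d := ⟨_, rfl⟩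
  refine ⟨K * (Cw.toReal / cB d) + 1, by
    have := cB_pos d; rw [hK]; positivity, fun {M D} h {L} hL hβ N hN => ?_⟩
  obtain ⟨hcu, hiu, hu0, hvu⟩ := bigPart_spec h.contv h.intv hL.le
  set u := bigPart D.v L with hu
  have hε := h.εpos
  set U := {x | ENNReal.ofReal (cB d * L) < Mu u x}
  have hUm : MeasurableSet U := measurableSet_lt measurable_const (measurable_mu u)
  have hcL : 0 < cB d * L := mul_pos (cB_pos d) hL
  have hIu : ∫⁻ x, ‖u x‖ₑ = ENNReal.ofReal (∫ x, u x) := by
    rw [← ofReal_integral_norm_eq_lintegral_enorm hiu]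
    simp only [Real.norm_of_nonneg (hu0 _)]
  have hUvol : volume U ≤ Cw * ENNReal.ofReal (∫ x, u x) / ENNReal.ofReal (cB d * L) := by
    rw [← hIu]; exact hweak u hiu _ hcL
  have hUfin : volume U ≠ ⊤ := ne_top_of_le_ne_top
    (ENNReal.div_ne_top (ENNReal.mul_ne_top hCw ENNReal.ofReal_ne_top) (by simp [hcL])) hUvol
  have hUreal : volume.real U ≤ Cw.toReal * (∫ x, u x) / (cB d * L) := by
    have := ENNReal.toReal_mono
      (ENNReal.div_ne_top (ENNReal.mul_ne_top hCw ENNReal.ofReal_ne_top) (by simp [hcL])) hUvol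
    rwa [ENNReal.toReal_div, ENNReal.toReal_mul, ENNReal.toReal_ofReal (integral_nonneg hu0),
      ENNReal.toReal_ofReal hcL.le] at this
  -- births happen in `U`
  have hmem : ∀ i z (x : EE d), D.β i z ≠ 0 → ‖x - z‖ < 2 * rho D.ε (D.lv i) → x ∈ U := by
    intro i z x hz hxz
    rw [hβ] at hz
    unfold betaT at hz
    have hzS := mem_of_indicator_ne_zero hz
    have hz' : cB d * L < ballAvg (2 * rho D.ε (D.lv i)) u z := hzS
    set R := 2 * rho D.ε (D.lv i)
    have hR : 0 < R := mul_pos two_pos (rho_pos hε _)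
    show ENNReal.ofReal (cB d * L) < Mu u x
    have hRv := Band.vol_pos z hR
    refine lt_of_lt_of_le ((ENNReal.ofReal_lt_ofReal_iff (hcL.trans hz')).2 hz')
      (le_iSup_of_le z (le_iSup_of_le R (le_iSup_of_le (by rwa [mem_ball, dist_eq_norm]) ?_)))
    rw [Band.ballAvg_eq, smul_eq_mul, inv_mul_eq_div, ENNReal.ofReal_div_of_pos hRv,
      measureReal_def, ENNReal.ofReal_toReal measure_ball_lt_top.ne]
    gcongr
    rw [ofReal_integral_eq_lintegral_ofReal (Band.intOn hcu z R) (.of_forall hu0)]
    exact lintegral_mono fun y => ENNReal.ofReal_le_ofReal (le_abs_self _)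
  have hβ0 : ∀ j x, x ∉ U → D.β j x = 0 := fun j x hx => by
    by_contra hc
    exact hx (hmem j x x hc (by simpa using rho_pos hε (D.lv j)))
  -- all weight stays near a birth
  have hsupp : ∀ j, 2 * j ≤ D.T0 → ∀ x, ∑ k, D.W j k x ≠ 0 → ∃ i < j, ∃ z, D.β i z ≠ 0 ∧
      ‖x - z‖ < 4 / 3 * (rho D.ε (D.lv i) - rho D.ε (D.lv j)) := by
    intro j
    induction j with
    | zero => intro _ x hx; simp [Data.W] at hx
    | succ j ih =>
      intro hj x hx
      rw [sum_W_succ h hd] at hx
      obtain ⟨a, ha, hx⟩ := avg_ne_zero hx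
      obtain ⟨a', ha', hx⟩ := avg_ne_zero hx
      have hstep := (rho_step hj).1
      set y := x + a + a'
      have hxy : ‖x - y‖ < 4 / 3 * (rho D.ε (D.lv j) - rho D.ε (D.lv (j + 1))) := by
        rw [show x - y = -(a + a') by simp only [y]; abel, norm_neg, ← hstep]
        linarith [norm_add_le a a']
      by_cases hb : D.β j y = 0
      · have hS : ∑ k, D.W j k y ≠ 0 := fun hS => hx (by rw [hb, hS, max_self])
        obtain ⟨i, hi, z, hz, hd'⟩ := ih (by omega) y hS
        exact ⟨i, by omega, z, hz, by linarith [norm_sub_le_norm_sub_add_norm_sub x y z]⟩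
      · exact ⟨j, by omega, y, hb, hxy⟩
  have hSU : ∀ j, 2 * j ≤ D.T0 → ∀ x, x ∉ U → ∑ k, D.W j k x = 0 := fun j hj x hx => by
    by_contra hc
    obtain ⟨i, -, z, hz, hd'⟩ := hsupp j hj x hc
    refine hx (hmem i z x hz ?_)
    linarith [rho_pos hε (D.lv i), rho_pos hε (D.lv j)]
  -- the total birth is the final mass
  have hbddU : ∀ f : EE d → ℝ, Measurable f → (∀ x, |f x| ≤ 1) → (∀ x, x ∉ U → f x = 0) →
      Integrable f := fun f hm hb h0 => by
    refine ((integrable_indicator_iff hUm).2 (integrableOn_const (C := (1 : ℝ)) hUfin)).mono'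
      hm.aestronglyMeasurable (.of_forall fun x => ?_)
    by_cases hx : x ∈ U
    · rw [indicator_of_mem hx]; exact hb x
    · rw [indicator_of_notMem hx, h0 x hx, norm_zero]
  have hSm : ∀ j, Measurable fun x => ∑ k, D.W j k x := fun j =>
    Finset.measurable_sum _ fun k _ => measurable_W h hd j k
  have hS01 : ∀ j x, 0 ≤ ∑ k, D.W j k x ∧ ∑ k, D.W j k x ≤ 1 := fun j x =>
    ⟨Finset.sum_nonneg fun k _ => W_nonneg h hd j k x, (W_prop h hd j).2.2 x⟩
  have hSi : ∀ j, 2 * j ≤ D.T0 → Integrable fun x => ∑ k, D.W j k x := fun j hj =>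
    hbddU _ (hSm j) (fun x => by rw [abs_of_nonneg (hS01 j x).1]; exact (hS01 j x).2) (hSU j hj)
  have hbi : ∀ j, 2 * j ≤ D.T0 → Integrable (D.birth j) := fun j _ =>
    hbddU _ (birth_prop h hd j).1
      (fun x => by rw [abs_of_nonneg ((birth_prop h hd j).2 x).1]; exact ((birth_prop h hd j).2 x).2)
      fun x hx => by
        simp only [Data.birth, hβ0 j x hx, zero_sub]
        exact max_eq_left (neg_nonpos.2 (hS01 j x).1)
  have hsum : ∀ j, 2 * j ≤ D.T0 → ∑ i ∈ Finset.range j, ∫ x, D.birth i x ≤ volume.real U := by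
    suffices hs : ∀ j, 2 * j ≤ D.T0 →
        ∑ i ∈ Finset.range j, ∫ x, D.birth i x = ∫ x, ∑ k, D.W j k x by
      intro j hj
      rw [hs j hj]
      calc ∫ x, ∑ k, D.W j k x ≤ ∫ x, U.indicator (fun _ => (1 : ℝ)) x := by
            refine integral_mono (hSi j hj)
              ((integrable_indicator_iff hUm).2 (integrableOn_const hUfin)) fun x => ?_
            by_cases hx : x ∈ U
            · rw [indicator_of_mem hx]; exact (hS01 j x).2
            · rw [indicator_of_notMem hx]; exact (hSU j hj x hx).le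
        _ = volume.real U := by rw [integral_indicator_const _ hUm, smul_eq_mul, mul_one]
    intro j
    induction j with
    | zero => intro _; simp [Data.W]
    | succ j ih =>
      intro hj
      rw [Finset.sum_range_succ, ih (by omega), funext (sum_W_succ h hd j),
        ← integral_add (hSi j (by omega)) (hbi j (by omega))]
      have e : (fun x => max (D.β j x) (∑ k, D.W j k x)) =
          fun x => (∑ k, D.W j k x) + D.birth j x := by
        funext x
        simp only [Data.birth]
        rcases le_total (D.β j x) (∑ k, D.W j k x) with hle | hle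
        · rw [max_eq_right hle, max_eq_left (by linarith), add_zero]
        · rw [max_eq_left hle, max_eq_right (by linarith)]; ring
      have hi : Integrable fun x => (∑ k, D.W j k x) + D.birth j x :=
        (hSi j (by omega)).add (hbi j (by omega))
      have hm : Measurable fun x => (∑ k, D.W j k x) + D.birth j x :=
        (hSm j).add (birth_prop h hd j).1
      obtain ⟨hi1, he1⟩ := integral_avg (rho_pos hε (D.lv j)) hm hi
      obtain ⟨-, he2⟩ := integral_avg (rho_pos hε (D.lv j - 1))
        (Kernel.measurable_ballAvg _ hm) hi1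
      rw [e, he2, he1]
  -- the vector at a birth
  have hv : ∀ j < N, ∀ y, ‖lad D.ε D.v (D.lv j) y‖ ≤ conv (kern D.ε 0 (D.lv j)) (fun z => ‖D.v z‖) y := by
    intro j hj y
    have hT : 0 < D.lv j := by simp only [Data.lv]; omega
    rw [← chain_eq_conv hε (.of_continuous h.contv.norm) hT]
    exact sub_nonneg.1 ((dd_spec hε h.contv h.intv (Nat.zero_le (D.lv j))).2.2.1 y)
  have hlow : ∀ j, j + 1 < N → ∀ y, D.birth (j + 1) y ≠ 0 →
      ‖lad D.ε D.v (D.lv (j + 1)) y‖ ≤ K * L := by
    intro j hj y hy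
    have hlt : ∑ k, D.W (j + 1) k y ≠ 1 := by
      intro heq
      refine hy ?_
      simp only [Data.birth, heq]
      exact max_eq_left (by linarith [h.le_one (j + 1) y])
    obtain ⟨y', hy', hb⟩ : ∃ y', ‖y' - y‖ < 5 / 4 * rho D.ε (D.lv j) ∧ D.β j y' ≠ 1 := by
      by_contra hc
      push Not at hc
      exact hlt (cover h hd (by omega) hc)
    rw [hβ] at hb
    have hy'' : ballAvg (2 * rho D.ε (D.lv j)) u y' ≤ cB d * L :=
      not_lt.1 fun hc => hb (indicator_of_mem (by exact hc) _)
    refine (hv (j + 1) hj y).trans ?_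
    set T := D.lv (j + 1) with hT
    have hρj : rho D.ε (D.lv j) = 16 * rho D.ε T := by
      rw [show D.lv j = T + 1 + 1 by simp only [hT, Data.lv]; omega, rho_succ', rho_succ']; ring
    set ρ := rho D.ε T
    have hρ : 0 < ρ := rho_pos hε T
    have hT0 : 0 < T := by simp only [hT, Data.lv]; omega
    have hk := isKer_kern (d := d) hε hT0
    set B := ball (0 : EE d) (4 / 3 * ρ)
    have hrad : rad D.ε 0 T ≤ 4 / 3 * ρ := by
      simp only [rad, ρ]; linarith [rho_pos hε 0]
    set c := (volume.real (ball (0 : EE d) ρ))⁻¹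
    have hc0 : 0 ≤ c := inv_nonneg.2 measureReal_nonneg
    have hint : IntegrableOn (fun z => c * (L + u (y + z))) B :=
      (LB.of_continuous (f := fun z => c * (L + u z)) (by fun_prop)).intOn y _
    calc conv (kern D.ε 0 T) (fun z => ‖D.v z‖) y
        = ∫ z in B, kern D.ε 0 T z * ‖D.v (y + z)‖ :=
          (setIntegral_eq_integral_of_forall_compl_eq_zero fun z hz => by
            rw [mem_ball_zero_iff, not_lt] at hz
            rw [hk.supp z (hrad.trans hz), zero_mul]).symm
      _ ≤ ∫ z in B, c * (L + u (y + z)) := by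
          refine setIntegral_mono_on
            (hk.toIsSub.integrable_mul (.of_continuous h.contv.norm) y).integrableOn hint
            measurableSet_ball fun z _ => mul_le_mul (hk.le z) (hvu _) (norm_nonneg _) hc0
      _ = c * (volume.real B * L + ∫ z in ball y (4 / 3 * ρ), u z) := by
          rw [integral_const_mul, integral_add (f := fun _ => L)
            (g := fun a => u (y + a)) (integrableOn_const measure_ball_lt_top.ne)
            ((LB.of_continuous hcu).intOn y _), setIntegral_const, smul_eq_mul,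
            ← (measurePreserving_add_left volume y).setIntegral_preimage_emb
              (measurableEmbedding_addLeft y) u (ball y (4 / 3 * ρ))]
          simp [B]
      _ ≤ c * (volume.real B * L + volume.real (ball y' (32 * ρ)) * (cB d * L)) := by
          refine mul_le_mul_of_nonneg_left (add_le_add le_rfl ?_) hc0
          refine (setIntegral_mono_set (Band.intOn hcu y' (32 * ρ)) (.of_forall hu0)
            (LE.le.eventuallyLE (ball_subset_ball' ?_))).trans ?_
          · rw [hρj] at hy'
            rw [dist_eq_norm, norm_sub_rev]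
            linarith
          · rw [hρj, ← mul_assoc, show (2 : ℝ) * 16 = 32 by norm_num, Band.ballAvg_eq, smul_eq_mul,
              inv_mul_le_iff₀ (Band.vol_pos y' (by positivity))] at hy''
            exact hy''
      _ ≤ K * L := by
          simp only [c, B, hK]
          rw [Band.vol_eq 0 hρ, Band.vol_eq 0 (by positivity : (0 : ℝ) < 4 / 3 * ρ),
            Band.vol_eq y' (by positivity : (0 : ℝ) < 32 * ρ)]
          have hV := Band.vol_pos (0 : EE d) one_pos
          rw [inv_mul_le_iff₀ (by positivity), mul_pow, mul_pow]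
          have h43 : ((4 : ℝ) / 3) ^ d ≤ 2 ^ d := pow_le_pow_left₀ (by norm_num) (by norm_num) d
          have h32 : (0 : ℝ) ≤ 32 ^ d := by positivity
          nlinarith [mul_le_mul_of_nonneg_left (cB_le_one d)
            (mul_nonneg (mul_nonneg (mul_nonneg h32 (pow_nonneg hρ.le d)) hV.le) hL.le),
            mul_le_mul_of_nonneg_right h43 (mul_nonneg (mul_nonneg (pow_nonneg hρ.le d) hV.le) hL.le)]
  -- summation
  have hK1 : 1 ≤ K := by
    have : (1 : ℝ) ≤ 2 ^ d := one_le_pow₀ (by norm_num)
    have : (0 : ℝ) ≤ 32 ^ d := by positivity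
    linarith
  have hI0 : 0 ≤ ∫ x, u x := integral_nonneg hu0
  have hbV : ∀ j, Integrable fun x => D.birth j x * ‖lad D.ε D.v (D.lv j) x‖ := fun j =>
    (integrable_normLad h hd _).bdd_mul (birth_prop h hd j).1.aestronglyMeasurable
      (.of_forall fun x => by
        rw [Real.norm_of_nonneg ((birth_prop h hd j).2 x).1]; exact ((birth_prop h hd j).2 x).2)
  have hstep : ∀ j < N, ∫ x, D.birth j x * ‖lad D.ε D.v (D.lv j) x‖ ≤
      K * L * (∫ x, D.birth j x) + if j = 0 then ∫ x, u x else 0 := by
    intro j hj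
    rw [← integral_const_mul (K * L)]
    rcases j with - | j
    · rw [if_pos rfl]
      have hT : 0 < D.lv 0 := by simp only [Data.lv]; omega
      have hk := isKer_kern (d := d) hε hT
      obtain ⟨hci, hce⟩ := integrable_conv hk.toIsSub hcu.measurable hiu
      rw [hk.mass, one_mul] at hce
      rw [← hce, ← integral_add ((hbi 0 (by omega)).const_mul _) hci]
      refine integral_mono (hbV 0) (((hbi 0 (by omega)).const_mul _).add hci) fun x => ?_
      have hb := (birth_prop h hd 0).2 x
      have h1 : ‖lad D.ε D.v (D.lv 0) x‖ ≤ L + conv (kern D.ε 0 (D.lv 0)) u x := by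
        refine (hv 0 hj x).trans ((conv_mono hk.toIsSub (.of_continuous h.contv.norm)
          (.of_continuous (continuous_const.add hcu)) hvu x).trans (le_of_eq ?_))
        refine (conv_add hk.toIsSub (f := fun _ => L) (g := u) (.of_continuous continuous_const)
          (.of_continuous hcu) x).trans ?_
        congr 1
        simp only [conv, integral_mul_const, hk.mass, one_mul]
      have h2 : 0 ≤ conv (kern D.ε 0 (D.lv 0)) u x := hk.toIsSub.conv_nonneg hu0 x
      calc D.birth 0 x * ‖lad D.ε D.v (D.lv 0) x‖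
          ≤ D.birth 0 x * (L + conv (kern D.ε 0 (D.lv 0)) u x) :=
            mul_le_mul_of_nonneg_left h1 hb.1
        _ ≤ _ := by
            have a1 := mul_le_mul_of_nonneg_right hK1 (mul_nonneg hb.1 hL.le)
            have a2 := mul_le_mul_of_nonneg_right hb.2 h2
            linarith
    · rw [if_neg (by omega), add_zero]
      refine integral_mono (hbV _) ((hbi _ (by omega)).const_mul _) fun x => ?_
      rcases eq_or_ne (D.birth (j + 1) x) 0 with he | he
      · simp [he]
      · have := mul_le_mul_of_nonneg_left (hlow j hj x he) ((birth_prop h hd (j + 1)).2 x).1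
        linarith
  refine (Finset.sum_le_sum fun j hj => hstep j (Finset.mem_range.1 hj)).trans ?_
  rw [Finset.sum_add_distrib, ← Finset.mul_sum, Finset.sum_ite_eq' (Finset.range N) 0,
    add_mul, one_mul]
  refine add_le_add ?_ ?_
  · refine (mul_le_mul_of_nonneg_left ((hsum N hN).trans hUreal)
      (mul_nonneg (zero_le_one.trans hK1) hL.le)).trans (le_of_eq ?_)
    have := (cB_pos d).ne'
    field_simp
  · split_ifs <;> [exact le_rfl; exact hI0]

end Births

end Vale.Agent.P137
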