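import Vale.Agent.P137.Centred.Defs
import Vale.Agent.P137.Pair

/-!
The cap bound: the mass near a point of a sphere that is not a pole is moved inwards.

Proof notes.  On a cylinder with axis `e`, the mass is the deficit plus the increase of the
potential between the two ends.  The ends are moved by `ρ (p + κ e)` and `ρ (p - κ e)`, `p ⟂ e`,
at the cost of deficits (`cone_ineq`, weight `1 / κ`); what remains is the mass of the translated
segments, averaged over `ρ ∈ [ρ₀, 2 ρ₀]`, of weight `l / ρ₀`.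
-/

namespace Vale.Agent.P137

open MeasureTheory Metric Filter Topology Set
open scoped ENNReal RealInnerProductSpace

variable {d : ℕ}

/-- The cylinder around `y` with axis `e`, radius `l` and half height `a`. -/
def capCyl (e y : EE d) (l a : ℝ) : Set (EE d) :=
  {z | ‖(z - y) - ⟪z - y, e⟫ • e‖ ≤ l ∧ |⟪z - y, e⟫| ≤ a}

theorem measurableSet_capCyl (e y : EE d) (l a : ℝ) : MeasurableSet (capCyl e y l a) := by
  have h1 : Continuous fun z : EE d => ‖(z - y) - ⟪z - y, e⟫ • e‖ := by fun_prop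
  have h2 : Continuous fun z : EE d => |⟪z - y, e⟫| := by fun_prop
  exact ((isClosed_le h1 continuous_const).inter (isClosed_le h2 continuous_const)).measurableSet

theorem capCyl_subset {e : EE d} (he : ‖e‖ = 1) (y : EE d) (l a : ℝ) :
    capCyl e y l a ⊆ closedBall y (l + a) := by
  intro z hz
  rw [mem_closedBall, dist_eq_norm,
    show z - y = ((z - y) - ⟪z - y, e⟫ • e) + ⟪z - y, e⟫ • e by abel]
  refine (norm_add_le _ _).trans (add_le_add hz.1 ?_)
  rw [norm_smul, he, mul_one, Real.norm_eq_abs]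
  exact hz.2

private theorem abs_inner_le_of_mem {e p y z : EE d} (hp1 : ‖p‖ = 1) (hpe : ⟪p, e⟫ = 0)
    {l a : ℝ} (hz : z ∈ capCyl e y l a) : |⟪z - y, p⟫| ≤ l := by
  have h : ⟪(z - y) - ⟪z - y, e⟫ • e, p⟫ = ⟪z - y, p⟫ := by
    rw [inner_sub_left, inner_smul_left, real_inner_comm p e, hpe]; simp
  rw [← h]
  exact (abs_real_inner_le_norm _ _).trans (by rw [hp1, mul_one]; exact hz.1)

/-- Fubini for a moving point. -/
private theorem line_eq {F : EE d → ℝ≥0∞} (hF : Measurable F) {A : Set (EE d)}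
    (hA : MeasurableSet A) {I : Set ℝ} (w : EE d) :
    ∫⁻ z in A, ∫⁻ s in I, F (z + s • w) =
      ∫⁻ x, F x * volume ({s : ℝ | x - s • w ∈ A} ∩ I) := by
  have hsm : ∀ x : EE d, MeasurableSet {s : ℝ | x - s • w ∈ A} := fun x =>
    hA.preimage (measurable_const.sub (measurable_id.smul_const w))
  have hKm : Measurable fun q : EE d × ℝ => A.indicator 1 q.1 * F (q.1 + q.2 • w) :=
    ((measurable_one.indicator hA).comp measurable_fst).mul
      (hF.comp (measurable_fst.add (measurable_snd.smul_const w)))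
  calc ∫⁻ z in A, ∫⁻ s in I, F (z + s • w)
      = ∫⁻ z, ∫⁻ s in I, A.indicator 1 z * F (z + s • w) := by
        rw [← lintegral_indicator hA]
        refine lintegral_congr fun z => ?_
        by_cases hz : z ∈ A <;> simp [hz]
    _ = ∫⁻ s in I, ∫⁻ x, A.indicator 1 (x - s • w) * F x := by
        rw [lintegral_lintegral_swap hKm.aemeasurable]
        refine lintegral_congr fun s => ?_
        rw [← lintegral_sub_right_eq_self (fun z => A.indicator 1 z * F (z + s • w)) (s • w)]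
        simp
    _ = ∫⁻ x, ∫⁻ s in I, A.indicator 1 (x - s • w) * F x :=
        lintegral_lintegral_swap (((measurable_one.indicator hA).comp
          (measurable_snd.sub (measurable_fst.smul_const w))).mul
          (hF.comp measurable_snd)).aemeasurable
    _ = ∫⁻ x, F x * volume ({s : ℝ | x - s • w ∈ A} ∩ I) := by
        refine lintegral_congr fun x => ?_
        have e1 : ∀ s : ℝ, A.indicator (1 : EE d → ℝ≥0∞) (x - s • w) =
            {s : ℝ | x - s • w ∈ A}.indicator 1 s := fun s => by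
          by_cases h : x - s • w ∈ A <;> simp [h]
        simp only [e1]
        rw [lintegral_mul_const _ (measurable_one.indicator (hsm x)), lintegral_indicator_one (hsm x),
          Measure.restrict_apply (hsm x), mul_comm]

/-- A moving point is in `A` for a short time. -/
private theorem line_le {F : EE d → ℝ≥0∞} (hF : Measurable F) {A U : Set (EE d)}
    (hA : MeasurableSet A) (hU : MeasurableSet U) {I : Set ℝ} {w : EE d} {τ : ℝ≥0∞}
    (hin : ∀ z ∈ A, ∀ s ∈ I, z + s • w ∈ U)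
    (htime : ∀ x, volume ({s : ℝ | x - s • w ∈ A} ∩ I) ≤ τ) :
    ∫⁻ z in A, ∫⁻ s in I, F (z + s • w) ≤ τ * ∫⁻ x in U, F x := by
  rw [line_eq hF hA w, ← lintegral_indicator hU, ← lintegral_const_mul _ (hF.indicator hU)]
  refine lintegral_mono fun x => ?_
  by_cases hx : x ∈ U
  · rw [indicator_of_mem hx, mul_comm τ]
    gcongr
    exact htime x
  · have : {s : ℝ | x - s • w ∈ A} ∩ I = ∅ := eq_empty_iff_forall_notMem.2 fun s hs =>
      hx (by simpa using hin _ hs.1 s hs.2)
    simp [this]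

private theorem seg_sub {g : EE d → ℝ} {v : EE d → EE d} (hp : IsPot g v) (x q : EE d) (a b : ℝ) :
    g (x + b • q) - g (x + a • q) = ∫ s in a..b, ⟪v (x + s • q), q⟫ := by
  have h : ∀ t : ℝ, g (x + t • q) - g x = ∫ s in (0 : ℝ)..t, ⟪v (x + s • q), q⟫ := by
    intro t
    have h1 := intervalIntegral.mul_integral_comp_mul_left (a := (0 : ℝ)) (b := 1)
      (f := fun s => ⟪v (x + s • q), q⟫) t
    rw [mul_zero, mul_one] at h1
    rw [hp.seg x (t • q), ← h1, ← intervalIntegral.integral_const_mul]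
    refine intervalIntegral.integral_congr fun s _ => ?_
    rw [inner_smul_right, smul_smul, mul_comm s t]
  have hc : Continuous fun s : ℝ => ⟪v (x + s • q), q⟫ :=
    (hp.contv.comp (continuous_const.add (continuous_id.smul continuous_const))).inner
      continuous_const
  rw [← intervalIntegral.integral_interval_sub_left (hc.intervalIntegrable 0 b)
    (hc.intervalIntegrable 0 a), ← h b, ← h a]
  ring

private theorem ofReal_line {f : ℝ → ℝ} (hf : Continuous f) (hf0 : ∀ s, 0 ≤ f s) {a b : ℝ}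
    (hab : a ≤ b) : ENNReal.ofReal (∫ s in a..b, f s) = ∫⁻ s in Ioc a b, ENNReal.ofReal (f s) := by
  rw [intervalIntegral.integral_of_le hab]
  exact ofReal_integral_eq_lintegral_ofReal
    (hf.continuousOn.integrableOn_Icc.mono_set Ioc_subset_Icc_self)
    (Filter.Eventually.of_forall hf0)

/-- The increase between the ends of one segment, after moving both ends by `ρ p`. -/
private theorem ends_le {g : EE d → ℝ} {v : EE d → EE d} (hp : IsPot g v) {e p : EE d}
    (he : ‖e‖ = 1) (hp1 : ‖p‖ = 1) (hpe : ⟪p, e⟫ = 0) {kap : ℝ} (hk : 0 < kap) (hk1 : kap ≤ 1)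
    {ρ0 ρ τ : ℝ} (hρ0 : 0 ≤ ρ) (hρ : ρ ≤ 2 * ρ0) (hτ : 0 ≤ τ) (z : EE d) :
    (∫ s in (-τ)..τ, ‖v (z + s • e)‖) ≤ (∫ s in (-τ)..τ, (‖v (z + s • e)‖ - ⟪v (z + s • e), e⟫)) +
      kap⁻¹ * ((∫ s in (0 : ℝ)..2 * ρ0, (‖v (z + τ • e + s • (p + kap • e))‖ -
          ⟪v (z + τ • e + s • (p + kap • e)), e⟫)) +
        ∫ s in (-(2 * ρ0))..0, (‖v (z - τ • e + s • (-p + kap • e))‖ -
          ⟪v (z - τ • e + s • (-p + kap • e)), e⟫)) +
      ∫ s in (-(τ + 2 * ρ0 * kap))..(τ + 2 * ρ0 * kap), ‖v (z + ρ • p + s • e)‖ := by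
  set γ : EE d → ℝ := fun z => ‖v z‖ - ⟪v z, e⟫ with hγdef
  have hγ0 : ∀ z, 0 ≤ γ z := fun z => by
    have := real_inner_le_norm (v z) e
    rw [he, mul_one] at this
    simp only [hγdef]; linarith
  have hc : ∀ x q : EE d, Continuous fun s : ℝ => v (x + s • q) := fun x q =>
    hp.contv.comp (continuous_const.add (continuous_id.smul continuous_const))
  have hcγ : ∀ x q : EE d, Continuous fun s : ℝ => γ (x + s • q) := fun x q =>
    (hc x q).norm.sub ((hc x q).inner continuous_const)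
  have hci : ∀ x q : EE d, Continuous fun s : ℝ => ⟪v (x + s • q), q⟫ := fun x q =>
    (hc x q).inner continuous_const
  have e1 : (∫ s in (-τ)..τ, ‖v (z + s • e)‖) =
      (∫ s in (-τ)..τ, γ (z + s • e)) + (g (z + τ • e) - g (z + (-τ) • e)) := by
    rw [seg_sub hp z e (-τ) τ, ← intervalIntegral.integral_add ((hcγ z e).intervalIntegrable _ _)
      ((hci z e).intervalIntegrable _ _)]
    refine intervalIntegral.integral_congr fun s _ => ?_
    simp only [hγdef]; ring
  have desc : ∀ q : EE d, (q = p + kap • e ∨ q = -p + kap • e) → ∀ x (a b : ℝ), a ≤ b →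
      g (x + a • q) - g (x + b • q) ≤ kap⁻¹ * ∫ s in a..b, γ (x + s • q) := by
    intro q hq x a b hab
    have hqq : ‖q‖ ^ 2 ≤ 2 * kap⁻¹ * ⟪q, e⟫ := by
      have h1 : ⟪e, e⟫ = 1 := by rw [real_inner_self_eq_norm_sq, he, one_pow]
      have h2 : 2 * kap⁻¹ * kap = 2 := by field_simp
      rcases hq with rfl | rfl
      · rw [norm_add_sq_real, inner_smul_right, hpe, norm_smul, Real.norm_of_nonneg hk.le, he, hp1,
          inner_add_left, inner_smul_left, hpe, h1]
        simp only [conj_trivial, mul_one, mul_zero, zero_add, add_zero, h2]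
        nlinarith
      · rw [norm_add_sq_real, inner_smul_right, inner_neg_left, hpe, norm_smul,
          Real.norm_of_nonneg hk.le, he, norm_neg, hp1, inner_add_left, inner_smul_left,
          inner_neg_left, hpe, h1]
        simp only [conj_trivial, neg_zero, mul_one, mul_zero, zero_add, add_zero, h2]
        nlinarith
    rw [← neg_sub, seg_sub hp x q a b, ← intervalIntegral.integral_neg,
      ← intervalIntegral.integral_const_mul]
    exact intervalIntegral.integral_mono_on hab ((hci x q).neg.intervalIntegrable _ _)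
      (((hcγ x q).const_smul kap⁻¹).intervalIntegrable _ _)
      fun s _ => cone_ineq (v (x + s • q)) he (inv_nonneg.2 hk.le) hqq
  have t1 := desc _ (Or.inl rfl) (z + τ • e) 0 ρ hρ0
  have t2 := desc _ (Or.inr rfl) (z - τ • e) (-ρ) 0 (by linarith)
  have m1 : ∫ s in (0 : ℝ)..ρ, γ (z + τ • e + s • (p + kap • e)) ≤
      ∫ s in (0 : ℝ)..2 * ρ0, γ (z + τ • e + s • (p + kap • e)) :=
    intervalIntegral.integral_mono_interval le_rfl hρ0 hρ
      (Filter.Eventually.of_forall fun s => hγ0 _) ((hcγ _ _).intervalIntegrable _ _)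
  have m2 : ∫ s in (-ρ)..0, γ (z - τ • e + s • (-p + kap • e)) ≤
      ∫ s in (-(2 * ρ0))..0, γ (z - τ • e + s • (-p + kap • e)) :=
    intervalIntegral.integral_mono_interval (by linarith) (by linarith) le_rfl
      (Filter.Eventually.of_forall fun s => hγ0 _) ((hcγ _ _).intervalIntegrable _ _)
  have hL : τ + ρ * kap ≤ τ + 2 * ρ0 * kap := by nlinarith
  have hL0 : 0 ≤ τ + ρ * kap := by positivity
  have t3 : g (z + ρ • p + (τ + ρ * kap) • e) - g (z + ρ • p + (-(τ + ρ * kap)) • e) ≤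
      ∫ s in (-(τ + 2 * ρ0 * kap))..(τ + 2 * ρ0 * kap), ‖v (z + ρ • p + s • e)‖ := by
    rw [seg_sub hp]
    refine (intervalIntegral.integral_mono_on (by linarith) ((hci _ _).intervalIntegrable _ _)
      ((hc _ _).norm.intervalIntegrable _ _) fun s _ => ?_).trans
      (intervalIntegral.integral_mono_interval (by linarith) (by linarith) hL
        (Filter.Eventually.of_forall fun s => norm_nonneg _) ((hc _ _).norm.intervalIntegrable _ _))
    exact (real_inner_le_norm _ _).trans_eq (by rw [he, mul_one])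
  have p1 : z + τ • e + ρ • (p + kap • e) = z + ρ • p + (τ + ρ * kap) • e := by module
  have p2 : z - τ • e + (-ρ) • (-p + kap • e) = z + ρ • p + (-(τ + ρ * kap)) • e := by module
  have p3 : z + (-τ) • e = z - τ • e := by module
  simp only [zero_smul, add_zero, p1] at t1
  simp only [zero_smul, add_zero, p2] at t2
  rw [p3] at e1
  have k1 := mul_le_mul_of_nonneg_left (add_le_add m1 m2) (inv_nonneg.2 hk.le)
  show _ ≤ (∫ s in (-τ)..τ, γ (z + s • e)) + kap⁻¹ *
    ((∫ s in (0 : ℝ)..2 * ρ0, γ (z + τ • e + s • (p + kap • e))) +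
      ∫ s in (-(2 * ρ0))..0, γ (z - τ • e + s • (-p + kap • e))) + _
  linarith

private theorem cap_cyl_lintegral {g : EE d → ℝ} {v : EE d → EE d} (hp : IsPot g v) {e p y : EE d}
    (he : ‖e‖ = 1) (hp1 : ‖p‖ = 1) (hpe : ⟪p, e⟫ = 0) {l Th kap ρ0 : ℝ} (hl : 0 < l)
    (hlT : l ≤ Th) (hk : 0 < kap) (hk1 : kap ≤ 1) (hρ0 : 0 < ρ0) {U : Set (EE d)}
    (hU : MeasurableSet U)
    (hin : ∀ ρ ∈ Icc ρ0 (2 * ρ0), ∀ z ∈ capCyl e y l (2 * Th + 2 * kap * ρ0), z + ρ • p ∈ U) :
    ENNReal.ofReal ρ0 * (ENNReal.ofReal Th * ∫⁻ z in closedBall y l, ENNReal.ofReal ‖v z‖) ≤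
      ENNReal.ofReal ρ0 *
          (ENNReal.ofReal Th * ∫⁻ z in capCyl e y l (2 * Th), ENNReal.ofReal (‖v z‖ - ⟪v z, e⟫)) +
        ENNReal.ofReal ρ0 * (ENNReal.ofReal kap⁻¹ * (ENNReal.ofReal (4 * l) *
          ∫⁻ z in closedBall y (3 * (ρ0 + Th)), ENNReal.ofReal (‖v z‖ - ⟪v z, e⟫))) +
        ENNReal.ofReal Th * (ENNReal.ofReal (2 * l) * ∫⁻ z in U, ENNReal.ofReal ‖v z‖) := by
  have hT : 0 < Th := hl.trans_le hlT
  set γ : EE d → ℝ := fun z => ‖v z‖ - ⟪v z, e⟫ with hγdef
  have hγ0 : ∀ z, 0 ≤ γ z := fun z => by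
    have := real_inner_le_norm (v z) e
    rw [he, mul_one] at this
    simp only [hγdef]; linarith
  have hγc : Continuous γ := hp.contv.norm.sub (hp.contv.inner continuous_const)
  set μE : EE d → ℝ≥0∞ := fun z => ENNReal.ofReal ‖v z‖ with hμE
  set γE : EE d → ℝ≥0∞ := fun z => ENNReal.ofReal (γ z) with hγE
  have hμm : Measurable μE := hp.contv.norm.measurable.ennreal_ofReal
  have hγm : Measurable γE := hγc.measurable.ennreal_ofReal
  set τ : ℝ := 3 / 2 * Th with hτ
  set L : ℝ := τ + 2 * ρ0 * kap with hL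
  set Z : Set (EE d) := capCyl e y l (Th / 2) with hZ
  have hZm : MeasurableSet Z := measurableSet_capCyl _ _ _ _
  have hsh : ∀ {x : EE d} {s : ℝ}, x + s • e - y - ⟪x + s • e - y, e⟫ • e =
      x - y - ⟪x - y, e⟫ • e ∧ ⟪x + s • e - y, e⟫ = ⟪x - y, e⟫ + s := by
    intro x s
    have h : ⟪x + s • e - y, e⟫ = ⟪x - y, e⟫ + s := by
      rw [show x + s • e - y = (x - y) + s • e by abel, inner_add_left, inner_smul_left,
        real_inner_self_eq_norm_sq, he]
      simp
    refine ⟨?_, h⟩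
    rw [h, add_smul]; abel
  -- times spent in `Z`
  have time_e : ∀ x : EE d, ∀ I : Set ℝ,
      volume ({s : ℝ | x - s • e ∈ Z} ∩ I) ≤ ENNReal.ofReal Th := by
    intro x I
    refine (measure_mono (t := Icc (⟪x - y, e⟫ - Th / 2) (⟪x - y, e⟫ + Th / 2)) ?_).trans
      (by rw [Real.volume_Icc]; exact ENNReal.ofReal_le_ofReal (by linarith))
    rintro s ⟨⟨-, hs⟩, -⟩
    rw [sub_eq_add_neg x (s • e), ← neg_smul, (hsh).2] at hs
    obtain ⟨h1, h2⟩ := abs_le.1 hs
    constructor <;> linarith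
  have time_p : ∀ q : EE d, ∀ σ : ℝ, |σ| = 1 → ⟪q, p⟫ = σ → ∀ (x : EE d) (a : ℝ) (I : Set ℝ),
      volume ({s : ℝ | x - s • q ∈ capCyl e y l a} ∩ I) ≤ ENNReal.ofReal (2 * l) := by
    intro q σ hσ hq x a I
    refine (measure_mono (t := Icc (σ * ⟪x - y, p⟫ - l) (σ * ⟪x - y, p⟫ + l)) ?_).trans
      (by rw [Real.volume_Icc]; exact ENNReal.ofReal_le_ofReal (by linarith))
    rintro s ⟨hs, -⟩
    have h := abs_inner_le_of_mem hp1 hpe hs
    rw [show x - s • q - y = (x - y) - s • q by abel, inner_sub_left, inner_smul_left, hq,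
      conj_trivial] at h
    have hσ2 : σ * σ = 1 := by
      rw [← abs_mul_abs_self, hσ, one_mul]
    have h' : |σ * ⟪x - y, p⟫ - s| ≤ l := by
      rw [show σ * ⟪x - y, p⟫ - s = σ * (⟪x - y, p⟫ - s * σ) by linear_combination s * hσ2,
        abs_mul, hσ, one_mul]
      exact h
    obtain ⟨h1, h2⟩ := abs_le.1 h'
    constructor <;> linarith
  -- lower bound
  have low : ENNReal.ofReal Th * ∫⁻ z in closedBall y l, μE z ≤
      ∫⁻ z in Z, ∫⁻ s in Ioc (-τ) τ, μE (z + s • e) := by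
    rw [line_eq hμm hZm e, ← lintegral_indicator measurableSet_closedBall,
      ← lintegral_const_mul _ (hμm.indicator measurableSet_closedBall)]
    refine lintegral_mono fun x => ?_
    by_cases hx : x ∈ closedBall y l
    · rw [indicator_of_mem hx, mul_comm]
      gcongr
      rw [mem_closedBall, dist_eq_norm] at hx
      have ha : |⟪x - y, e⟫| ≤ l :=
        ((abs_real_inner_le_norm _ _).trans_eq (by rw [he, mul_one])).trans hx
      obtain ⟨h1, h2⟩ := abs_le.1 ha
      refine le_trans (le_of_eq ?_) (measure_mono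
        (s := Ioc (⟪x - y, e⟫ - Th / 2) (⟪x - y, e⟫ + Th / 2)) fun s hs => ⟨?_, ?_, ?_⟩)
      · rw [Real.volume_Ioc]; congr 1; ring
      · rw [mem_ofPred_eq, sub_eq_add_neg x (s • e), ← neg_smul]
        refine ⟨?_, ?_⟩
        · rw [(hsh).1]
          refine le_trans ?_ hx
          refine (pow_le_pow_iff_left₀ (norm_nonneg _) (norm_nonneg _) two_ne_zero).1 ?_
          rw [norm_sub_sq_real, norm_smul, inner_smul_right, he, mul_one, Real.norm_eq_abs, sq_abs]
          nlinarith [sq_nonneg ⟪x - y, e⟫]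
        · rw [(hsh).2, abs_le]
          constructor <;> linarith [hs.1, hs.2]
      · linarith [hs.1]
      · linarith [hs.2]
    · simp [indicator_of_notMem hx]
  -- upper bounds
  have q1 : ⟪p + kap • e, p⟫ = 1 := by
    rw [inner_add_left, inner_smul_left, real_inner_self_eq_norm_sq, hp1, real_inner_comm p e, hpe]
    simp
  have q2 : ⟪-p + kap • e, p⟫ = -1 := by
    rw [inner_add_left, inner_neg_left, inner_smul_left, real_inner_self_eq_norm_sq, hp1,
      real_inner_comm p e, hpe]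
    simp
  have up1 : ∫⁻ z in Z, ∫⁻ s in Ioc (-τ) τ, γE (z + s • e) ≤
      ENNReal.ofReal Th * ∫⁻ x in capCyl e y l (2 * Th), γE x := by
    refine line_le hγm hZm (measurableSet_capCyl _ _ _ _) (fun z hz s hs => ?_) fun x => time_e x _
    obtain ⟨h1, h2⟩ := abs_le.1 hz.2
    refine ⟨by rw [(hsh).1]; exact hz.1, ?_⟩
    rw [(hsh).2, abs_le]
    constructor <;> linarith [hs.1, hs.2]
  -- `3 (ρ₀ + Th)` has to accommodate `‖p ± κ e‖ ≤ 3 / 2`
  have hqn : ∀ q : EE d, (q = p + kap • e ∨ q = -p + kap • e) → ‖q‖ ≤ 3 / 2 := by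
    intro q hq
    refine (pow_le_pow_iff_left₀ (norm_nonneg _) (by norm_num) two_ne_zero).1 ?_
    rcases hq with rfl | rfl
    · rw [norm_add_sq_real, inner_smul_right, hpe, norm_smul, Real.norm_of_nonneg hk.le, he, hp1]
      nlinarith
    · rw [norm_add_sq_real, inner_smul_right, inner_neg_left, hpe, norm_smul,
        Real.norm_of_nonneg hk.le, he, norm_neg, hp1]
      nlinarith
  have hball : ∀ q : EE d, ‖q‖ ≤ 3 / 2 → ∀ z ∈ Z, ∀ t : ℝ, |t| ≤ τ → ∀ s : ℝ, |s| ≤ 2 * ρ0 →
      z + t • e + s • q ∈ closedBall y (3 * (ρ0 + Th)) := by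
    intro q hq z hz t ht s hs
    have h1 := capCyl_subset he y l (Th / 2) hz
    rw [mem_closedBall, dist_eq_norm] at h1 ⊢
    have hn : ‖s • q‖ ≤ 2 * ρ0 * (3 / 2) := by
      rw [norm_smul, Real.norm_eq_abs]
      exact mul_le_mul hs hq (norm_nonneg _) (by linarith)
    rw [show z + t • e + s • q - y = (z - y) + t • e + s • q by abel]
    refine (norm_add₃_le).trans ?_
    rw [norm_smul t e, he, mul_one, Real.norm_eq_abs]
    linarith
  have hτ0 : (0 : ℝ) ≤ τ := by positivity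
  have up2 : ∫⁻ z in Z, ∫⁻ s in Ioc 0 (2 * ρ0), γE (z + τ • e + s • (p + kap • e)) ≤
      ENNReal.ofReal (2 * l) * ∫⁻ x in closedBall y (3 * (ρ0 + Th)), γE x := by
    have hm : Measurable fun z => γE (z + τ • e) := hγm.comp (measurable_id.add_const _)
    have e1 : ∀ z : EE d, ∀ s : ℝ, z + τ • e + s • (p + kap • e) = z + s • (p + kap • e) + τ • e :=
      fun z s => by abel
    simp only [e1]
    refine (line_le (F := fun z => γE (z + τ • e)) hm hZm
      (U := (fun z => z + τ • e) ⁻¹' closedBall y (3 * (ρ0 + Th)))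
      (measurableSet_closedBall.preimage (measurable_id.add_const _)) (fun z hz s hs => ?_)
      fun x => time_p _ 1 abs_one q1 x _ _).trans (mul_le_mul' le_rfl (le_of_eq ?_))
    · rw [mem_preimage, ← e1]
      exact hball _ (hqn _ (Or.inl rfl)) z hz τ (abs_of_nonneg hτ0).le s
        (by rw [abs_of_nonneg hs.1.le]; exact hs.2)
    · exact (measurePreserving_add_right volume (τ • e)).setLIntegral_comp_preimage
        measurableSet_closedBall hγm
  have up3 : ∫⁻ z in Z, ∫⁻ s in Ioc (-(2 * ρ0)) 0, γE (z - τ • e + s • (-p + kap • e)) ≤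
      ENNReal.ofReal (2 * l) * ∫⁻ x in closedBall y (3 * (ρ0 + Th)), γE x := by
    have hm : Measurable fun z => γE (z + (-τ) • e) := hγm.comp (measurable_id.add_const _)
    have e1 : ∀ z : EE d, ∀ s : ℝ,
        z - τ • e + s • (-p + kap • e) = z + s • (-p + kap • e) + (-τ) • e :=
      fun z s => by module
    simp only [e1]
    refine (line_le (F := fun z => γE (z + (-τ) • e)) hm hZm
      (U := (fun z => z + (-τ) • e) ⁻¹' closedBall y (3 * (ρ0 + Th)))
      (measurableSet_closedBall.preimage (measurable_id.add_const _)) (fun z hz s hs => ?_)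
      fun x => time_p _ (-1) (by simp) q2 x _ _).trans (mul_le_mul' le_rfl (le_of_eq ?_))
    · rw [mem_preimage, add_assoc, add_comm (s • _), ← add_assoc]
      exact hball _ (hqn _ (Or.inr rfl)) z hz (-τ) (by rw [abs_neg, abs_of_nonneg hτ0]) s
        (by rw [abs_of_nonpos hs.2]; linarith [hs.1])
    · exact (measurePreserving_add_right volume ((-τ) • e)).setLIntegral_comp_preimage
        measurableSet_closedBall hγm
  have hG : Measurable fun x => ∫⁻ ρ in Ioc ρ0 (2 * ρ0), μE (x + ρ • p) :=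
    Measurable.lintegral_prod_right' (hμm.comp (measurable_fst.add (measurable_snd.smul_const p)))
  have up4 : ∫⁻ z in Z, ∫⁻ ρ in Ioc ρ0 (2 * ρ0), ∫⁻ s in Ioc (-L) L, μE (z + ρ • p + s • e) ≤
      ENNReal.ofReal Th * (ENNReal.ofReal (2 * l) * ∫⁻ x in U, μE x) := by
    have hsw : ∀ z : EE d, ∫⁻ ρ in Ioc ρ0 (2 * ρ0), ∫⁻ s in Ioc (-L) L, μE (z + ρ • p + s • e) =
        ∫⁻ s in Ioc (-L) L, ∫⁻ ρ in Ioc ρ0 (2 * ρ0), μE (z + s • e + ρ • p) := by
      intro z
      have hm : Measurable fun q : ℝ × ℝ => μE (z + q.1 • p + q.2 • e) :=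
        hμm.comp ((measurable_const.add (measurable_fst.smul_const p)).add
          (measurable_snd.smul_const e))
      rw [lintegral_lintegral_swap hm.aemeasurable]
      refine lintegral_congr fun s => lintegral_congr fun ρ => ?_
      rw [add_right_comm]
    simp only [hsw]
    refine (line_le hG hZm (measurableSet_capCyl e y l (2 * Th + 2 * kap * ρ0))
      (fun z hz s hs => ?_) fun x => time_e x _).trans (mul_le_mul' le_rfl ?_)
    · obtain ⟨h1, h2⟩ := abs_le.1 hz.2
      refine ⟨by rw [(hsh).1]; exact hz.1, ?_⟩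
      rw [(hsh).2, abs_le]
      constructor <;> linarith [hs.1, hs.2]
    · exact line_le hμm (measurableSet_capCyl _ _ _ _) hU
        (fun z hz ρ hρ => hin ρ (Ioc_subset_Icc_self hρ) z hz)
        fun x => time_p p 1 abs_one (by rw [real_inner_self_eq_norm_sq, hp1, one_pow]) x _ _
  -- pointwise
  have hc : ∀ x q : EE d, Continuous fun s : ℝ => v (x + s • q) := fun x q =>
    hp.contv.comp (continuous_const.add (continuous_id.smul continuous_const))
  have hcγ : ∀ x q : EE d, Continuous fun s : ℝ => γ (x + s • q) := fun x q =>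
    (hc x q).norm.sub ((hc x q).inner continuous_const)
  have point : ∀ z, ENNReal.ofReal ρ0 * ∫⁻ s in Ioc (-τ) τ, μE (z + s • e) ≤
      ENNReal.ofReal ρ0 * (∫⁻ s in Ioc (-τ) τ, γE (z + s • e)) +
      ENNReal.ofReal ρ0 * (ENNReal.ofReal kap⁻¹ *
        ((∫⁻ s in Ioc 0 (2 * ρ0), γE (z + τ • e + s • (p + kap • e))) +
          ∫⁻ s in Ioc (-(2 * ρ0)) 0, γE (z - τ • e + s • (-p + kap • e)))) +
      ∫⁻ ρ in Ioc ρ0 (2 * ρ0), ∫⁻ s in Ioc (-L) L, μE (z + ρ • p + s • e) := by
    intro z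
    have hvol : volume (Ioc ρ0 (2 * ρ0)) = ENNReal.ofReal ρ0 := by
      rw [Real.volume_Ioc]; congr 1; ring
    have hconst : ∀ X : ℝ≥0∞, ENNReal.ofReal ρ0 * X = ∫⁻ _ρ in Ioc ρ0 (2 * ρ0), X := fun X => by
      rw [setLIntegral_const, hvol, mul_comm]
    rw [← mul_add, hconst, hconst, ← lintegral_add_left measurable_const]
    refine setLIntegral_mono' measurableSet_Ioc fun ρ hρ => ?_
    have h := ends_le hp he hp1 hpe hk hk1 (hρ0.le.trans hρ.1.le) hρ.2 hτ0 z
    have hL0 : 0 ≤ L := by positivity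
    simp only [hμE, hγE]
    rw [← ofReal_line (hc z e).norm (fun s => norm_nonneg _) (by linarith),
      ← ofReal_line (hcγ z e) (fun s => hγ0 _) (by linarith),
      ← ofReal_line (hcγ _ _) (fun s => hγ0 _) (by linarith),
      ← ofReal_line (hcγ _ _) (fun s => hγ0 _) (by linarith),
      ← ofReal_line (hc (z + ρ • p) e).norm (fun s => norm_nonneg _) (by linarith)]
    refine (ENNReal.ofReal_le_ofReal h).trans (ENNReal.ofReal_add_le.trans (add_le_add ?_ le_rfl))
    refine ENNReal.ofReal_add_le.trans (add_le_add le_rfl ?_)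
    rw [ENNReal.ofReal_mul (inv_nonneg.2 hk.le)]
    exact mul_le_mul' le_rfl ENNReal.ofReal_add_le
  have mA : ∀ (a b : ℝ) (q c : EE d) {F : EE d → ℝ≥0∞}, Measurable F →
      Measurable fun z => ∫⁻ s in Ioc a b, F (z + c + s • q) := fun a b q c _ hF =>
    Measurable.lintegral_prod_right'
      (hF.comp ((measurable_fst.add_const c).add (measurable_snd.smul_const q)))
  have m1 : Measurable fun z => ∫⁻ s in Ioc (-τ) τ, μE (z + s • e) := by
    simpa using mA (-τ) τ e 0 hμm
  have m2 : Measurable fun z => ∫⁻ s in Ioc (-τ) τ, γE (z + s • e) := by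
    simpa using mA (-τ) τ e 0 hγm
  have m3 := mA 0 (2 * ρ0) (p + kap • e) (τ • e) hγm
  have m4 : Measurable fun z =>
      ∫⁻ s in Ioc (-(2 * ρ0)) 0, γE (z - τ • e + s • (-p + kap • e)) := by
    simpa [sub_eq_add_neg] using mA (-(2 * ρ0)) 0 (-p + kap • e) (-(τ • e)) hγm
  calc ENNReal.ofReal ρ0 * (ENNReal.ofReal Th * ∫⁻ z in closedBall y l, μE z)
      ≤ ENNReal.ofReal ρ0 * ∫⁻ z in Z, ∫⁻ s in Ioc (-τ) τ, μE (z + s • e) :=
        mul_le_mul' le_rfl low
    _ ≤ _ := by
        rw [← lintegral_const_mul _ m1]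
        refine (lintegral_mono point).trans ?_
        rw [lintegral_add_left ((m2.const_mul _).fun_add (((m3.fun_add m4).const_mul _).const_mul _)),
          lintegral_add_left (m2.const_mul _), lintegral_const_mul _ m2,
          lintegral_const_mul _ ((m3.fun_add m4).const_mul _),
          lintegral_const_mul _ (m3.fun_add m4), lintegral_add_left m3]
        refine add_le_add (add_le_add (mul_le_mul' le_rfl up1)
          (mul_le_mul' le_rfl (mul_le_mul' le_rfl ?_))) up4
        refine (add_le_add up2 up3).trans (le_of_eq ?_)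
        rw [show 4 * l = 2 * l + 2 * l by ring, ENNReal.ofReal_add (by linarith) (by linarith),
          add_mul]

/-- The mass in a small ball is paid by deficits and by the mass of the translates along `p`. -/
theorem cap_cyl {g : EE d → ℝ} {v : EE d → EE d} (hp : IsPot g v) {e p y : EE d}
    (he : ‖e‖ = 1) (hp1 : ‖p‖ = 1) (hpe : ⟪p, e⟫ = 0) {l Th kap ρ0 : ℝ} (hl : 0 < l)
    (hlT : l ≤ Th) (hk : 0 < kap) (hk1 : kap ≤ 1) (hρ0 : 0 < ρ0) {U : Set (EE d)}
    (hU : MeasurableSet U)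
    (hin : ∀ ρ ∈ Icc ρ0 (2 * ρ0), ∀ z ∈ capCyl e y l (2 * Th + 2 * kap * ρ0), z + ρ • p ∈ U) :
    ∫ z in closedBall y l, ‖v z‖ ≤ (∫ z in capCyl e y l (2 * Th), (‖v z‖ - ⟪v z, e⟫)) +
      4 * l / (kap * Th) * (∫ z in closedBall y (3 * (ρ0 + Th)), (‖v z‖ - ⟪v z, e⟫)) +
      2 * l / ρ0 * ∫ z in U, ‖v z‖ := by
  have hT : 0 < Th := hl.trans_le hlT
  have h := cap_cyl_lintegral hp he hp1 hpe hl hlT hk hk1 hρ0 hU hin
  have hγ0 : ∀ z, 0 ≤ ‖v z‖ - ⟪v z, e⟫ := fun z => by
    have := real_inner_le_norm (v z) e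
    rw [he, mul_one] at this
    linarith
  have eμ : ∀ A : Set (EE d), ∫⁻ z in A, ENNReal.ofReal ‖v z‖ =
      ENNReal.ofReal (∫ z in A, ‖v z‖) := fun A =>
    (ofReal_integral_eq_lintegral_ofReal hp.intv.norm.integrableOn
      (Filter.Eventually.of_forall fun z => norm_nonneg _)).symm
  have eγ : ∀ A : Set (EE d), ∫⁻ z in A, ENNReal.ofReal (‖v z‖ - ⟪v z, e⟫) =
      ENNReal.ofReal (∫ z in A, (‖v z‖ - ⟪v z, e⟫)) := fun A =>
    (ofReal_integral_eq_lintegral_ofReal (hp.intv.norm.sub (hp.intv.inner_const e)).integrableOn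
      (Filter.Eventually.of_forall hγ0)).symm
  rw [eμ, eμ, eγ, eγ] at h
  have h' := ENNReal.toReal_mono (by finiteness) h
  rw [ENNReal.toReal_add (by finiteness) (by finiteness),
    ENNReal.toReal_add (by finiteness) (by finiteness)] at h'
  have hμ0 : ∀ A : Set (EE d), 0 ≤ ∫ z in A, ‖v z‖ := fun A =>
    integral_nonneg fun z => norm_nonneg _
  have hI0 : ∀ A : Set (EE d), 0 ≤ ∫ z in A, (‖v z‖ - ⟪v z, e⟫) := fun A => integral_nonneg hγ0
  simp only [ENNReal.toReal_mul, ENNReal.toReal_ofReal (hμ0 _), ENNReal.toReal_ofReal (hI0 _),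
    ENNReal.toReal_ofReal hρ0.le, ENNReal.toReal_ofReal hT.le,
    ENNReal.toReal_ofReal (inv_nonneg.2 hk.le),
    ENNReal.toReal_ofReal (show (0 : ℝ) ≤ 4 * l by linarith),
    ENNReal.toReal_ofReal (show (0 : ℝ) ≤ 2 * l by linarith)] at h'
  refine le_of_mul_le_mul_left ?_ (mul_pos hρ0 hT)
  refine le_of_eq_of_le (mul_assoc _ _ _) (h'.trans_eq ?_)
  field_simp

/-- The cap bound away from the poles: the translates lie inside the ball. -/
theorem cap_ball {g : EE d → ℝ} {v : EE d → EE d} (hp : IsPot g v) {e x y : EE d} (he : ‖e‖ = 1)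
    {θ l Th ρ0 R : ℝ} (hθ : 0 < θ) (hpole : |⟪y - x, e⟫| ≤ (1 - θ) * ‖y - x‖) (hl : 0 < l)
    (hlT : l ≤ Th) (hρ0 : 0 < ρ0) (hTh : l + 2 * Th ≤ ρ0 * √θ / 4)
    (hn : 18 * ρ0 ≤ ‖y - x‖ * √θ) (hR : ‖y - x‖ ≤ R + ρ0 * √θ / 4) :
    ∫ z in closedBall y l, ‖v z‖ ≤ (∫ z in capCyl e y l (2 * Th), (‖v z‖ - ⟪v z, e⟫)) +
      32 * l / (√θ * Th) * (∫ z in closedBall y (3 * (ρ0 + Th)), (‖v z‖ - ⟪v z, e⟫)) +
      2 * l / ρ0 * ∫ z in closedBall x R, ‖v z‖ := by
  set n : ℝ := ‖y - x‖ with hndef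
  have hsθ : 0 < √θ := Real.sqrt_pos.2 hθ
  have hn0 : 0 < n := by
    by_contra hc
    nlinarith [mul_nonpos_of_nonpos_of_nonneg (not_lt.1 hc) hsθ.le]
  have hθ1 : θ ≤ 1 := by
    by_contra hc
    nlinarith [abs_nonneg ⟪y - x, e⟫]
  have hsθ1 : √θ ≤ 1 := Real.sqrt_le_one.2 hθ1
  set qp : EE d := (y - x) - ⟪y - x, e⟫ • e with hqp
  have hqp2 : ‖qp‖ ^ 2 = n ^ 2 - ⟪y - x, e⟫ ^ 2 := by
    rw [hqp, norm_sub_sq_real, norm_smul, inner_smul_right, he, mul_one, Real.norm_eq_abs, sq_abs]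
    ring
  have hc1 : √θ * n ≤ ‖qp‖ := by
    refine (pow_le_pow_iff_left₀ (by positivity) (norm_nonneg _) two_ne_zero).1 ?_
    rw [mul_pow, Real.sq_sqrt hθ.le, hqp2]
    have h1 := pow_le_pow_left₀ (abs_nonneg _) hpole 2
    rw [sq_abs, mul_pow] at h1
    nlinarith [mul_nonneg (mul_nonneg hθ.le (sub_nonneg.2 hθ1)) (sq_nonneg n)]
  have hc0 : 0 < ‖qp‖ := lt_of_lt_of_le (mul_pos hsθ hn0) hc1
  set p : EE d := (-‖qp‖⁻¹) • qp with hpdef
  have hp1 : ‖p‖ = 1 := by
    rw [hpdef, norm_smul, norm_neg, Real.norm_of_nonneg (by positivity), inv_mul_cancel₀ hc0.ne']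
  have hqe : ⟪qp, e⟫ = 0 := by
    rw [hqp, inner_sub_left, inner_smul_left, real_inner_self_eq_norm_sq, he]
    simp
  have hpe : ⟪p, e⟫ = 0 := by rw [hpdef, inner_smul_left, hqe]; simp
  have hpy : ⟪y - x, p⟫ = -‖qp‖ := by
    have : ⟪y - x, qp⟫ = ‖qp‖ ^ 2 := by
      rw [hqp2, hqp, inner_sub_right, inner_smul_right, real_inner_self_eq_norm_sq]
      ring
    rw [hpdef, inner_smul_right, this]
    field_simp
  refine (cap_cyl hp he hp1 hpe hl hlT (kap := √θ / 8) (by positivity) (by linarith) hρ0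
    measurableSet_closedBall (U := closedBall x R) fun ρ hρ z hz => ?_).trans (le_of_eq ?_)
  · have h1 := capCyl_subset he y l _ hz
    rw [mem_closedBall, dist_eq_norm] at h1 ⊢
    have h2 : ⟪y - x, z - y + ρ • p⟫ ≤ -(n * (ρ0 * √θ / 2)) := by
      rw [inner_add_right, inner_smul_right, hpy]
      have h3 := (real_inner_le_norm (y - x) (z - y)).trans
        (mul_le_mul_of_nonneg_left h1 (norm_nonneg _))
      have h4 := mul_le_mul hρ.1 hc1 (by positivity) (hρ0.le.trans hρ.1)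
      have h5 := mul_le_mul_of_nonneg_left hTh hn0.le
      rw [← hndef] at h3
      linarith
    have h6 : ‖z - y + ρ • p‖ ≤ 3 * ρ0 := by
      refine (norm_add_le _ _).trans ?_
      rw [norm_smul, hp1, mul_one, Real.norm_of_nonneg (hρ0.le.trans hρ.1)]
      have := mul_le_mul_of_nonneg_left hsθ1 hρ0.le
      linarith [hρ.2]
    have h7 : ‖(y - x) + (z - y + ρ • p)‖ ≤ n - ρ0 * √θ / 4 := by
      have h8 : 0 ≤ n - ρ0 * √θ / 4 := by
        nlinarith [mul_le_mul_of_nonneg_left hsθ1 hn0.le, mul_le_mul_of_nonneg_left hsθ1 hρ0.le]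
      refine (pow_le_pow_iff_left₀ (norm_nonneg _) h8 two_ne_zero).1 ?_
      rw [norm_add_sq_real]
      have h9 := pow_le_pow_left₀ (norm_nonneg _) h6 2
      have h10 := mul_le_mul_of_nonneg_right hn hρ0.le
      rw [← hndef]
      nlinarith [sq_nonneg (ρ0 * √θ)]
    rw [show z + ρ • p - x = (y - x) + (z - y + ρ • p) by abel]
    linarith
  · field_simp
    ring

end Vale.Agent.P137
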