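import Vale.Agent.P137.Centred.Params
import Vale.Agent.P137.Centred.CapShift

/-!
The mass in a small ball around a point of the sphere away from the poles.

Proof notes.  `cap_ball` at depth `n = m / 16` with `l = zz m`, `Th = sc 200 m`, `ρ₀ = sc 40 m`,
`θ = qC ^ (40 m)` and the radius `r - 3 u_n`: the cylinder lies in the band of depth `n` as
`3200 n ≤ 200 m`, and `u_n ≤ qC ^ (61 m) ρ_J` as `32 n ≥ m`.
-/

namespace Vale.Agent.P137

open MeasureTheory Metric Filter Topology Set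
open scoped RealInnerProductSpace ENNReal

variable {d : ℕ}

/-- The cap lemma at the scales of depth `m`, applied at depth `m / 16`. -/
theorem cap_band (hd : 2 ≤ d) : ∃ C : ℝ, 1 ≤ C ∧ ∀ {ε : ℝ} {g : EE d → ℝ} {v : EE d → EE d},
    IsPot g v → 0 < ε → ∀ {e : EE d}, ‖e‖ = 1 → ∀ {N1 J m : ℕ}, Deep N1 → N1 ≤ m → m ≤ J →
    ∀ {x y : EE d} {r : ℝ}, rho ε J / 64 ≤ r → r ≤ 64 * rho ε J →
      y ∈ band x r (64 * bb ε J m) → |⟪x - y, e⟫| < (1 - qC ^ (40 * m)) * ‖x - y‖ →
      ∫ z in ball y (zz ε J m), ‖vv ε v J (m / 16) z‖ ≤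
        C * (DD ε v e J x r (m / 16) +
          qC ^ (2 * m) * (GE ε v e J (m / 16) x (512 * rho ε J)).toReal +
          qC ^ m * ZZ ε v J x r (m / 16)) := by
  have _ := hd
  refine ⟨1, le_rfl, ?_⟩
  intro ε g v hp hε e he N1 J m hN hNm hmJ x y r hr1 hr2 hy hpole
  obtain ⟨hN1, hdeep⟩ := hN
  set n : ℕ := m / 16 with hn
  set R : ℝ := rho ε J with hRdef
  have hR : 0 < R := rho_pos hε J
  have hnJ : n < J := by omega
  have hn1 : 16 * n ≤ m := by omega
  have hn2 : m ≤ 32 * n := by omega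
  have hpow : ∀ {a b : ℕ}, a ≤ b → qC ^ b ≤ qC ^ a := fun h =>
    pow_le_pow_of_le_one qC_pos.le qC_lt_one.le h
  have hsmall : ∀ {a : ℕ}, m ≤ a → 10 ^ 9 * qC ^ a ≤ 1 := fun h =>
    le_trans (mul_le_mul_of_nonneg_left (hpow h) (by norm_num)) (hdeep m hNm)
  -- comparisons of scales
  have hb : 64 * bb ε J m ≤ R * qC ^ (200 * m) := by
    have h1 : 64 * qC ^ (3000 * m) ≤ 1 := by
      nlinarith [hsmall (show m ≤ 3000 * m by omega), pow_pos qC_pos (3000 * m)]
    calc 64 * bb ε J m = R * qC ^ (200 * m) * (64 * qC ^ (3000 * m)) := by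
          rw [bb, sc, ← hRdef, show 3200 * m = 200 * m + 3000 * m by ring, pow_add]; ring
      _ ≤ _ := mul_le_of_le_one_right (mul_nonneg hR.le (pow_pos qC_pos _).le) h1
  have hu : uu ε J n ≤ R * qC ^ (200 * m) := by
    rw [uu_eq_qC (by omega)]
    exact mul_le_mul_of_nonneg_left (hpow (by omega)) hR.le
  have h200 : R * qC ^ (200 * m) ≤ R * qC ^ (60 * m) / 1000 := by
    have h1 : 1000 * qC ^ (140 * m) ≤ 1 := by
      nlinarith [hsmall (show m ≤ 140 * m by omega), pow_pos qC_pos (140 * m)]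
    have h2 : R * qC ^ (60 * m) * (1000 * qC ^ (140 * m)) ≤ R * qC ^ (60 * m) :=
      mul_le_of_le_one_right (mul_nonneg hR.le (pow_pos qC_pos _).le) h1
    rw [show 200 * m = 60 * m + 140 * m by ring, pow_add]
    linarith
  have h40 : R * qC ^ (40 * m) ≤ R * qC ^ (20 * m) / 4000 := by
    have h1 : 4000 * qC ^ (20 * m) ≤ 1 := by
      nlinarith [hsmall (show m ≤ 20 * m by omega), pow_pos qC_pos (20 * m)]
    have h2 : R * qC ^ (20 * m) * (4000 * qC ^ (20 * m)) ≤ R * qC ^ (20 * m) :=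
      mul_le_of_le_one_right (mul_nonneg hR.le (pow_pos qC_pos _).le) h1
    rw [show 40 * m = 20 * m + 20 * m by ring, pow_add]
    linarith
  have hq20 : qC ^ (20 * m) ≤ 1 := pow_le_one₀ qC_pos.le qC_lt_one.le
  have hq60 : qC ^ (60 * m) ≤ 1 := pow_le_one₀ qC_pos.le qC_lt_one.le
  have hθ : √(qC ^ (40 * m)) = qC ^ (20 * m) := by
    rw [show 40 * m = 20 * m * 2 by ring, pow_mul, Real.sqrt_sq (pow_pos qC_pos _).le]
  obtain ⟨hy1, hy2⟩ := abs_le.1 (show |‖y - x‖ - r| ≤ 64 * bb ε J m from hy)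
  have h200' : R * qC ^ (200 * m) ≤ R / 1000 :=
    h200.trans (div_le_div_of_nonneg_right (mul_le_of_le_one_right hR.le hq60) (by norm_num))
  have hny : R / 128 ≤ ‖y - x‖ := by linarith
  have hzz : zz ε J m ≤ R * qC ^ (200 * m) :=
    mul_le_mul_of_nonneg_left (hpow (by omega)) hR.le
  -- the cap lemma at depth `n`
  have key := cap_ball (isPot_lad hε hp (J - n)) (e := e) (x := x) (y := y) he
    (θ := qC ^ (40 * m)) (l := zz ε J m) (Th := sc ε J 200 m) (ρ0 := sc ε J 40 m)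
    (R := r - 3 * uu ε J n) (pow_pos qC_pos _) ?_ (mul_pos hR (pow_pos qC_pos _)) hzz
    (mul_pos hR (pow_pos qC_pos _)) ?_ ?_ ?_
  rotate_left
  · have e1 : |⟪y - x, e⟫| = |⟪x - y, e⟫| := by
      rw [← abs_neg, ← inner_neg_left, neg_sub]
    rw [e1, norm_sub_rev y x]
    exact hpole.le
  · rw [hθ, sc, sc, ← hRdef, mul_assoc, ← pow_add, show 40 * m + 20 * m = 60 * m by ring]
    linarith [mul_pos hR (pow_pos qC_pos (60 * m))]
  · rw [hθ, sc, ← hRdef]
    have h1 := mul_le_mul_of_nonneg_right hny (pow_pos qC_pos (20 * m)).le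
    linarith [mul_pos hR (pow_pos qC_pos (20 * m))]
  · rw [hθ, sc, ← hRdef, mul_assoc R, ← pow_add, show 40 * m + 20 * m = 60 * m by ring]
    linarith [mul_pos hR (pow_pos qC_pos (60 * m))]
  have hvi : Integrable fun z => ‖vv ε v J n z‖ := (isPot_lad hε hp (J - n)).intv.norm
  have hgi : Integrable fun z => gg ε v e J n z :=
    hvi.sub ((isPot_lad hε hp (J - n)).intv.inner_const e)
  have hg0 : ∀ z, 0 ≤ gg ε v e J n z := fun z => gdef_nonneg ε v he (J - n) z
  have hleft : ∫ z in ball y (zz ε J m), ‖vv ε v J n z‖ ≤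
      ∫ z in closedBall y (zz ε J m), ‖vv ε v J n z‖ :=
    setIntegral_mono_set hvi.integrableOn (Eventually.of_forall fun z => norm_nonneg _)
      ball_subset_closedBall.eventuallyLE
  have t1 : ∫ z in capCyl e y (zz ε J m) (2 * sc ε J 200 m), gg ε v e J n z ≤
      DD ε v e J x r n := by
    refine setIntegral_mono_set hgi.integrableOn (Eventually.of_forall hg0)
      (HasSubset.Subset.eventuallyLE fun z hz => ?_)
    have h1 := capCyl_subset he y _ _ hz
    rw [mem_closedBall, dist_eq_norm, sc, ← hRdef] at h1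
    have h2 : R * qC ^ (200 * m) ≤ bb ε J n := mul_le_mul_of_nonneg_left (hpow (by omega)) hR.le
    have h3 : |‖z - x‖ - ‖y - x‖| ≤ ‖z - y‖ :=
      (abs_norm_sub_norm_le _ _).trans_eq (by rw [sub_sub_sub_cancel_right])
    obtain ⟨h4, h5⟩ := abs_le.1 h3
    show |‖z - x‖ - r| ≤ 64 * bb ε J n
    rw [abs_le]
    constructor <;> linarith [mul_pos hR (pow_pos qC_pos (200 * m))]
  have t2 : ∫ z in closedBall y (3 * (sc ε J 40 m + sc ε J 200 m)), gg ε v e J n z ≤
      (GE ε v e J n x (512 * R)).toReal := by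
    rw [GE, ← integral_eq_lintegral_of_nonneg_ae (Eventually.of_forall hg0)
      hgi.integrableOn.aestronglyMeasurable]
    refine setIntegral_mono_set hgi.integrableOn (Eventually.of_forall hg0)
      (HasSubset.Subset.eventuallyLE fun z hz => ?_)
    rw [mem_closedBall, dist_eq_norm, sc, sc, ← hRdef] at hz
    rw [mem_ball, dist_eq_norm]
    have h1 : R * qC ^ (40 * m) ≤ R := mul_le_of_le_one_right hR.le
      (pow_le_one₀ qC_pos.le qC_lt_one.le)
    linarith [norm_sub_le_norm_sub_add_norm_sub z y x]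
  have t3 : ∫ z in closedBall x (r - 3 * uu ε J n), ‖vv ε v J n z‖ ≤ ZZ ε v J x r n := by
    have h1 : ∀ z, chiK ε J x r n z * ‖vv ε v J n z‖ =
        (ball x (coreRad ε J r n)).indicator (fun z => ‖vv ε v J n z‖) z := fun z => by
      by_cases hz : z ∈ ball x (coreRad ε J r n) <;> simp [chiK, hz]
    rw [ZZ]
    simp only [h1]
    rw [integral_indicator measurableSet_ball]
    refine setIntegral_mono_set hvi.integrableOn (Eventually.of_forall fun z => norm_nonneg _)
      (HasSubset.Subset.eventuallyLE (closedBall_subset_ball ?_))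
    rw [coreRad, if_pos hnJ]
    linarith [show 0 < uu ε J n from rho_pos hε (J - n)]
  have c2 : 32 * zz ε J m / (√(qC ^ (40 * m)) * sc ε J 200 m) ≤ qC ^ (2 * m) := by
    rw [hθ, zz, sc, sc, ← hRdef, div_le_iff₀ (mul_pos (pow_pos qC_pos _)
      (mul_pos hR (pow_pos qC_pos _))),
      show 800 * m = 20 * m + 200 * m + 2 * m + 578 * m by ring, pow_add, pow_add, pow_add]
    have h1 : 32 * qC ^ (578 * m) ≤ 1 := by
      nlinarith [hsmall (show m ≤ 578 * m by omega), pow_pos qC_pos (578 * m)]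
    have h2 := mul_le_of_le_one_right (show 0 ≤ R * (qC ^ (20 * m) * qC ^ (200 * m) * qC ^ (2 * m))
      from mul_nonneg hR.le (mul_nonneg (mul_nonneg (pow_pos qC_pos _).le (pow_pos qC_pos _).le)
        (pow_pos qC_pos _).le)) h1
    linarith
  have c3 : 2 * zz ε J m / sc ε J 40 m ≤ qC ^ m := by
    rw [zz, sc, sc, ← hRdef, div_le_iff₀ (mul_pos hR (pow_pos qC_pos _)),
      show 800 * m = 40 * m + m + 759 * m by ring, pow_add, pow_add]
    have h1 : 2 * qC ^ (759 * m) ≤ 1 := by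
      nlinarith [hsmall (show m ≤ 759 * m by omega), pow_pos qC_pos (759 * m)]
    have h2 := mul_le_of_le_one_right (show 0 ≤ R * (qC ^ (40 * m) * qC ^ m)
      from mul_nonneg hR.le (mul_nonneg (pow_pos qC_pos _).le (pow_pos qC_pos _).le)) h1
    linarith
  have s2 := mul_le_mul c2 t2 (integral_nonneg hg0) (pow_pos qC_pos (2 * m)).le
  have s3 := mul_le_mul c3 t3 (integral_nonneg fun z => norm_nonneg _) (pow_pos qC_pos m).le
  rw [one_mul]
  change ∫ z in closedBall y (zz ε J m), ‖vv ε v J n z‖ ≤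
      (∫ z in capCyl e y (zz ε J m) (2 * sc ε J 200 m), gg ε v e J n z) +
      32 * zz ε J m / (√(qC ^ (40 * m)) * sc ε J 200 m) *
        (∫ z in closedBall y (3 * (sc ε J 40 m + sc ε J 200 m)), gg ε v e J n z) +
      2 * zz ε J m / sc ε J 40 m * ∫ z in closedBall x (r - 3 * uu ε J n), ‖vv ε v J n z‖ at key
  linarith

end Vale.Agent.P137
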