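import Vale.Agent.P137.Centred.Params
import Vale.Agent.P137.Centred.Layers

/-!
Classification of the depths at one centre and radius.

A first moment gives, at each depth with positive band deficit, a cell carrying all but a pair
term.  A depth whose cell is far from that of a comparable heavier depth is paid by pair terms; one
whose cell is seen only from removed centres by the removed term; one with a large mass inside a
tangent ball by the core mass.  The other depths are survivors.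
-/

namespace Vale.Agent.P137

open MeasureTheory Metric Filter Topology Set
open Layers
open scoped RealInnerProductSpace ENNReal

variable {d : ℕ} {ε : ℝ} {g : EE d → ℝ} {v : EE d → EE d} {e : EE d} {J N1 : ℕ}
  {e1 e2 : ℝ} {x : EE d} {r : ℝ}

/-- The deficit density as an extended number. -/
private noncomputable def GD (ε : ℝ) (v : EE d → EE d) (e : EE d) (J n : ℕ) (z : EE d) : ℝ≥0∞ :=
  ENNReal.ofReal (gg ε v e J n z)

/-- The band at depth `n`. -/
private noncomputable def BS (ε : ℝ) (J : ℕ) (x : EE d) (r : ℝ) (n : ℕ) : Set (EE d) :=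
  band x r (64 * bb ε J n)

private theorem lin_eq (hp : IsPot g v) (hε : 0 < ε) (he : ‖e‖ = 1) (n : ℕ) (A : Set (EE d)) :
    ∫⁻ z in A, GD ε v e J n z = ENNReal.ofReal (∫ z in A, gg ε v e J n z) :=
  (ofReal_integral_eq_lintegral_ofReal (gg_int hp hε e J n).integrableOn
    (Eventually.of_forall fun z => gg_nonneg ε v he J n z)).symm

private theorem GE_eq (hp : IsPot g v) (hε : 0 < ε) (he : ‖e‖ = 1) (n : ℕ) (x : EE d) (s : ℝ) :
    (GE ε v e J n x s).toReal = ∫ z in ball x s, gg ε v e J n z := by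
  rw [show GE ε v e J n x s = _ from lin_eq hp hε he n (ball x s), ENNReal.toReal_ofReal]
  exact setIntegral_nonneg measurableSet_ball fun z _ => gg_nonneg ε v he J n z

theorem GE_ne_top (hp : IsPot g v) (hε : 0 < ε) (he : ‖e‖ = 1) (n : ℕ) (x : EE d) (s : ℝ) :
    GE ε v e J n x s ≠ ⊤ := by
  rw [show GE ε v e J n x s = _ from lin_eq hp hε he n (ball x s)]
  exact ENNReal.ofReal_ne_top

private theorem lin_ne_top (hp : IsPot g v) (hε : 0 < ε) (he : ‖e‖ = 1) (n : ℕ) :
    ∫⁻ z, GD ε v e J n z ≠ ⊤ := by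
  rw [← setLIntegral_univ, lin_eq hp hε he n]
  exact ENNReal.ofReal_ne_top

private theorem pairT_ne_top (hp : IsPot g v) (hε : 0 < ε) (he : ‖e‖ = 1) (m n n' : ℕ) :
    pairT ε v e J m n n' x ≠ ⊤ := by
  refine ENNReal.rpow_ne_top_of_nonneg (by norm_num) (ne_top_of_le_ne_top
    (ENNReal.mul_ne_top (lin_ne_top (J := J) hp hε he n) (lin_ne_top (J := J) hp hε he n')) ?_)
  refine le_trans (lintegral_mono fun y => ?_)
    (le_of_eq (lintegral_mul_const' _ _ (lin_ne_top (J := J) hp hε he n')))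
  refine le_trans (lintegral_mono fun y' => indicator_le_self _ _ _) ?_
  exact le_of_eq (lintegral_const_mul' (GD ε v e J n y) (GD ε v e J n') ENNReal.ofReal_ne_top)

private theorem remT_ne_top (hp : IsPot g v) (hε : 0 < ε) (he : ‖e‖ = 1) (n : ℕ) :
    remT ε v e J n e1 e2 x ≠ ⊤ :=
  ne_top_of_le_ne_top (lin_ne_top hp hε he n) (lintegral_mono fun _ => indicator_le_self _ _ _)

theorem TE_ne_top (hp : IsPot g v) (hε : 0 < ε) (he : ‖e‖ = 1) (n : ℕ) :
    TE ε v e J N1 e1 e2 n x ≠ ⊤ := by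
  unfold TE
  refine ENNReal.add_ne_top.2
    ⟨ENNReal.mul_ne_top ENNReal.ofReal_ne_top (GE_ne_top hp hε he n x _), ?_⟩
  split_ifs
  · exact ENNReal.mul_ne_top ENNReal.ofReal_ne_top (GE_ne_top hp hε he n x _)
  · refine ENNReal.mul_ne_top ENNReal.ofReal_ne_top (ENNReal.add_ne_top.2
      ⟨ENNReal.add_ne_top.2 ⟨pairT_ne_top hp hε he _ _ _, remT_ne_top hp hε he n⟩, ?_⟩)
    exact ENNReal.sum_ne_top.2 fun k _ =>
      ENNReal.add_ne_top.2 ⟨pairT_ne_top hp hε he _ _ _, pairT_ne_top hp hε he _ _ _⟩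

private theorem sc_pos (hε : 0 < ε) (k n : ℕ) : 0 < sc ε J k n :=
  mul_pos (rho_pos hε _) (pow_pos qC_pos _)

private theorem sc_le_rho (hε : 0 < ε) (k n : ℕ) : sc ε J k n ≤ rho ε J :=
  mul_le_of_le_one_right (rho_pos hε _).le (pow_le_one₀ qC_pos.le qC_lt_one.le)

private theorem sc_anti (hε : 0 < ε) {k n n' : ℕ} (h : n ≤ n') :
    sc ε J k n' ≤ sc ε J k n :=
  mul_le_mul_of_nonneg_left (pow_le_pow_of_le_one qC_pos.le qC_lt_one.le
    (Nat.mul_le_mul_left k h)) (rho_pos hε _).le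

private theorem sc_deep (hε : 0 < ε) (hN : Deep N1) {k n : ℕ} (hk : 1 ≤ k) (hn : N1 ≤ n) :
    10 ^ 9 * sc ε J k n ≤ rho ε J := by
  have h1 : qC ^ (k * n) ≤ qC ^ n := pow_le_pow_of_le_one qC_pos.le qC_lt_one.le
    (Nat.le_mul_of_pos_left n hk)
  have h2 := hN.2 n hn
  calc 10 ^ 9 * sc ε J k n = rho ε J * (10 ^ 9 * qC ^ (k * n)) := by unfold sc; ring
    _ ≤ rho ε J * 1 := mul_le_mul_of_nonneg_left (by linarith) (rho_pos hε _).le
    _ = rho ε J := mul_one _

private theorem band_norm (hε : 0 < ε) (hr : r ≤ 64 * rho ε J) {n : ℕ} {z : EE d}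
    (hz : z ∈ BS ε J x r n) : ‖z - x‖ ≤ 128 * rho ε J := by
  have h : |‖z - x‖ - r| ≤ 64 * bb ε J n := hz
  have := sc_le_rho (J := J) hε 3200 n
  linarith [le_abs_self (‖z - x‖ - r)]

theorem DD_le_GE (hp : IsPot g v) (hε : 0 < ε) (he : ‖e‖ = 1) (hr : r ≤ 64 * rho ε J) (n : ℕ) :
    DD ε v e J x r n ≤ (GE ε v e J n x (512 * rho ε J)).toReal := by
  rw [GE_eq hp hε he]
  refine setIntegral_mono_set (gg_int hp hε e J n).integrableOn
    (Eventually.of_forall fun z => gg_nonneg ε v he J n z) (LE.le.eventuallyLE fun z hz => ?_)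
  rw [mem_ball, dist_eq_norm]
  linarith [band_norm hε hr hz, rho_pos hε J]

theorem GE_le_TT (hp : IsPot g v) (hε : 0 < ε) (he : ‖e‖ = 1) (n : ℕ) :
    qC ^ n * (GE ε v e J n x (512 * rho ε J)).toReal ≤ TT ε v e J N1 e1 e2 n x := by
  refine le_of_eq_of_le ?_ (ENNReal.toReal_mono (TE_ne_top hp hε he n) le_self_add)
  rw [ENNReal.toReal_mul, ENNReal.toReal_ofReal (pow_nonneg qC_pos.le n)]

private theorem DD_nonneg (ε : ℝ) (v : EE d → EE d) (he : ‖e‖ = 1) (J : ℕ) (x : EE d) (r : ℝ)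
    (n : ℕ) : 0 ≤ DD ε v e J x r n :=
  setIntegral_nonneg (meas_band x r _) fun z _ => gg_nonneg ε v he J n z

private theorem wdir_le (hε : 0 < ε) (hr0 : rho ε J / 64 ≤ r) {n : ℕ} {z n0 : EE d}
    (hz : z ∈ BS ε J x r n) (hn0 : ‖n0‖ = 1) : wdir x r n0 z ≤ 4098 := by
  have h : |‖z - x‖ - r| ≤ 64 * bb ε J n := hz
  have := sc_le_rho (J := J) hε 3200 n
  have hrp : 0 < r := by linarith [rho_pos hε J]
  refine (norm_sub_le _ _).trans ?_
  rw [qq, norm_smul, norm_inv, Real.norm_of_nonneg hrp.le, hn0]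
  have : r⁻¹ * ‖z - x‖ ≤ 4097 := by
    rw [inv_mul_le_iff₀ hrp]
    linarith [le_abs_self (‖z - x‖ - r)]
  linarith

private theorem wdir_int (hp : IsPot g v) (hε : 0 < ε) (hr0 : rho ε J / 64 ≤ r) {n : ℕ} {n0 : EE d}
    (hn0 : ‖n0‖ = 1) {A : Set (EE d)} (hA : A ⊆ BS ε J x r n) (hAm : MeasurableSet A) :
    IntegrableOn (fun z => wdir x r n0 z * gg ε v e J n z) A := by
  refine (gg_int hp hε e J n).integrableOn.bdd_mul (c := 4098) ?_ ?_
  · exact Continuous.aestronglyMeasurable (by unfold wdir qq; fun_prop)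
  · refine (ae_restrict_iff' hAm).2 (Eventually.of_forall fun z hz => ?_)
    rw [Real.norm_of_nonneg (show 0 ≤ wdir x r n0 z from norm_nonneg _)]
    exact wdir_le hε hr0 (hA hz) hn0

private theorem WD_part (hp : IsPot g v) (hε : 0 < ε) (he : ‖e‖ = 1) (hr0 : rho ε J / 64 ≤ r)
    {n : ℕ} {n0 : EE d} (hn0 : ‖n0‖ = 1) {A : Set (EE d)} (hA : A ⊆ BS ε J x r n)
    (hAm : MeasurableSet A) {K : ℝ} (hK : ∀ z ∈ A, wdir x r n0 z ≤ K) :
    ∫ z in A, wdir x r n0 z * gg ε v e J n z ≤ K * ∫ z in A, gg ε v e J n z := by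
  rw [← integral_const_mul]
  exact setIntegral_mono_on (wdir_int hp hε hr0 hn0 hA hAm)
    ((gg_int hp hε e J n).integrableOn.const_mul K) hAm
    fun z hz => mul_le_mul_of_nonneg_right (hK z hz) (gg_nonneg ε v he J n z)

theorem WD_le (hp : IsPot g v) (hε : 0 < ε) (he : ‖e‖ = 1) (hr0 : rho ε J / 64 ≤ r)
    (hr : r ≤ 64 * rho ε J) (n : ℕ) {n0 : EE d} (hn0 : ‖n0‖ = 1) :
    WD ε v e J x r n n0 ≤ 10000 * DD ε v e J x r n := by
  have h := WD_part (x := x) hp hε he hr0 hn0 (Subset.refl (BS ε J x r n))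
    (meas_band x r _) (K := 4098) fun z hz => wdir_le hε hr0 hz hn0
  have h0 := DD_nonneg ε v he J x r n
  have h1 : WD ε v e J x r n n0 ≤ 4098 * DD ε v e J x r n := h
  linarith

/-- Two sets carrying separated pairs on the band. -/
private theorem pair_mass (hm : ℕ) {n n' : ℕ} {A A' : Set (EE d)} (hA : MeasurableSet A)
    (hA' : MeasurableSet A') (hP : ∀ y ∈ A, ∀ y' ∈ A', (y, y') ∈ Pairs ε J hm x) :
    (∫⁻ y in A, GD ε v e J n y) * ∫⁻ y' in A', GD ε v e J n' y' ≤
      pairT ε v e J hm n n' x * pairT ε v e J hm n n' x := by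
  rw [pairT, ← ENNReal.rpow_add_of_nonneg _ _ (by norm_num) (by norm_num),
    show (1 / 2 : ℝ) + 1 / 2 = 1 by norm_num, ENNReal.rpow_one, ← lintegral_indicator hA,
    ← lintegral_indicator hA']
  refine (lintegral_mul_const_le _ _).trans (lintegral_mono fun y => ?_)
  refine (lintegral_const_mul_le _ _).trans (lintegral_mono fun y' => ?_)
  by_cases h1 : y ∈ A
  · by_cases h2 : y' ∈ A'
    · rw [indicator_of_mem h1, indicator_of_mem h2, indicator_of_mem (hP y h1 y' h2)]
      exact le_rfl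
    · simp [indicator_of_notMem h2]
  · simp [indicator_of_notMem h1]

/-- The first moment: a cell carrying all but the pair term. -/
private theorem exists_cen (hp : IsPot g v) (hε : 0 < ε) (he : ‖e‖ = 1) (hr : r ≤ 64 * rho ε J)
    (n : ℕ) (hD : 0 < DD ε v e J x r n) :
    ∃ c ∈ BS ε J x r n,
      ∫⁻ z in BS ε J x r n \ ball c (tl ε J n), GD ε v e J n z ≤ pairT ε v e J n n n x := by
  by_contra hno
  push Not at hno
  set B := BS ε J x r n
  set t := pairT ε v e J n n n x
  have hBm : MeasurableSet B := meas_band x r _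
  have hDB : ENNReal.ofReal (DD ε v e J x r n) = ∫⁻ z in B, GD ε v e J n z :=
    (lin_eq hp hε he n B).symm
  have hD0 : ∫⁻ z in B, GD ε v e J n z ≠ 0 := by rw [← hDB]; simpa using hD
  have hsum : ∫⁻ y in B, ∫⁻ z in B \ ball y (tl ε J n), GD ε v e J n y * GD ε v e J n z ≤ t * t := by
    simp only [t, pairT]
    rw [← ENNReal.rpow_add_of_nonneg _ _ (by norm_num) (by norm_num),
      show (1 / 2 : ℝ) + 1 / 2 = 1 by norm_num, ENNReal.rpow_one, ← lintegral_indicator hBm]
    refine lintegral_mono fun y => ?_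
    by_cases hy : y ∈ B
    · rw [indicator_of_mem hy, ← lintegral_indicator (hBm.diff measurableSet_ball)]
      refine lintegral_mono fun z => ?_
      by_cases hz : z ∈ B \ ball y (tl ε J n)
      · have hP : (y, z) ∈ Pairs ε J n x := by
          obtain ⟨hzB, hzy⟩ := hz
          rw [mem_ball, not_lt, dist_comm, dist_eq_norm] at hzy
          refine ⟨?_, ?_, hzy, ?_⟩
          · rw [norm_sub_rev]; linarith [band_norm hε hr hy, rho_pos hε J]
          · rw [norm_sub_rev]; linarith [band_norm hε hr hzB, rho_pos hε J]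
          · have a1 : |‖y - x‖ - r| ≤ 64 * bb ε J n := hy
            have a2 : |‖z - x‖ - r| ≤ 64 * bb ε J n := hzB
            obtain ⟨a1l, a1r⟩ := abs_le.1 a1
            obtain ⟨a2l, a2r⟩ := abs_le.1 a2
            rw [norm_sub_rev x y, norm_sub_rev x z]
            exact abs_le.2 ⟨by linarith, by linarith⟩
        rw [indicator_of_mem hz, indicator_of_mem hP]
        exact le_rfl
      · simp [indicator_of_notMem hz]
    · simp [indicator_of_notMem hy]
  simp_rw [lintegral_const_mul' _ _ (show GD ε v e J n _ ≠ ⊤ from ENNReal.ofReal_ne_top)] at hsum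
  by_cases ht : t = 0
  · rw [ht, mul_zero, nonpos_iff_eq_zero] at hsum
    apply hD0
    -- the inner integral is positive on the band
    have hGm : Measurable (GD ε v e J n) :=
      (gdef_continuous_integrable hε hp.contv hp.intv e _).1.measurable.ennreal_ofReal
    have hSm : MeasurableSet {q : EE d × EE d | q.2 ∈ B ∧ tl ε J n ≤ dist q.2 q.1} :=
      (measurable_snd hBm).inter (measurableSet_le (g := fun q : EE d × EE d => dist q.2 q.1)
        measurable_const (by fun_prop))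
    have hh : Measurable fun y => ∫⁻ z in B \ ball y (tl ε J n), GD ε v e J n z := by
      convert ((hGm.comp measurable_snd).indicator hSm).lintegral_prod_right'
        (ν := (volume : Measure (EE d))) using 1
      ext y
      rw [← lintegral_indicator (hBm.diff measurableSet_ball)]
      refine lintegral_congr fun z => ?_
      by_cases hz : z ∈ B
      · by_cases hd : tl ε J n ≤ dist z y
        · rw [indicator_of_mem (show z ∈ B \ ball y (tl ε J n) from ⟨hz, not_lt.2 hd⟩),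
            indicator_of_mem (show (y, z) ∈ {q : EE d × EE d | q.2 ∈ B ∧ tl ε J n ≤ dist q.2 q.1}
              from ⟨hz, hd⟩)]
          rfl
        · rw [indicator_of_notMem (fun h => hd (not_lt.1 h.2)),
            indicator_of_notMem (fun h => hd h.2)]
      · rw [indicator_of_notMem (fun h => hz h.1), indicator_of_notMem (fun h => hz h.1)]
    have hae : ∀ᵐ y, y ∈ B → GD ε v e J n y = 0 := by
      filter_upwards [(setLIntegral_eq_zero_iff hBm (hGm.mul hh)).1 hsum] with y hy hyB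
      rcases mul_eq_zero.1 (hy hyB) with h | h
      · exact h
      · exact absurd h (pos_of_gt (hno y hyB)).ne'
    rw [setLIntegral_congr_fun_ae hBm hae, lintegral_zero]
  · have hlow : t * ∫⁻ z in B, GD ε v e J n z ≤ t * t := by
      refine le_trans ?_ hsum
      rw [← lintegral_const_mul' _ _ (pairT_ne_top hp hε he _ _ _)]
      refine setLIntegral_mono' hBm fun y hy => ?_
      rw [mul_comm]
      exact mul_le_mul_right (hno y hy).le _
    obtain ⟨y, hy⟩ : B.Nonempty := by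
      rw [Set.nonempty_iff_ne_empty]; intro h; simp [h] at hD0
    have hlt : t < ∫⁻ z in B, GD ε v e J n z :=
      (hno y hy).trans_le (lintegral_mono_set sdiff_subset)
    exact absurd hlow (not_le.2 (ENNReal.mul_lt_mul_right ht (pairT_ne_top hp hε he _ _ _) hlt))

/-- The core contains the tangent inner ball, away from the point. -/
private theorem PhiJ_le_ZZ (hp : IsPot g v) (hε : 0 < ε) (hN : Deep N1) (hr0 : rho ε J / 64 ≤ r)
    (hr : r ≤ 64 * rho ε J) {n : ℕ} (hn : N1 ≤ n) (hnJ : n ≤ J) {y : EE d}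
    (hy : y ∈ BS ε J x r n) :
    PhiJ ε v J n y (y + (1 - jw n) • (x - y)) ≤ ZZ ε v J x r (n / 16) := by
  set b := bb ε J n with hb
  set R := rho ε J with hR
  have hR0 : 0 < R := rho_pos hε J
  have hb0 : 0 < b := sc_pos hε _ _
  have hbR : 10 ^ 9 * b ≤ R := sc_deep hε hN (by norm_num) hn
  have hjs : jw n * zz ε J n ^ 2 = 73000 * (R * b) := by
    simp only [jw, hb, hR, sc]
    rw [show qC ^ (3200 * n) = qC ^ (1600 * n) * (qC ^ (800 * n) * qC ^ (800 * n)) by
      rw [← pow_add, ← pow_add]; ring_nf]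
    ring
  have hju : jw n < 1 := by
    have h2 : qC ^ (1600 * n) ≤ qC ^ n :=
      pow_le_pow_of_le_one qC_pos.le qC_lt_one.le (by omega)
    have := hN.2 n hn
    unfold jw
    linarith [pow_pos qC_pos n]
  have hju0 : 0 < jw n := mul_pos (by norm_num) (pow_pos qC_pos _)
  have hu : uu ε J (n / 16) ≤ b := by
    rw [uu_eq_qC (show n / 16 ≤ J by omega)]
    refine mul_le_mul_of_nonneg_left (pow_le_pow_of_le_one qC_pos.le qC_lt_one.le ?_) hR0.le
    have := hN.1
    omega
  have hy' : |‖y - x‖ - r| ≤ 64 * b := hy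
  obtain ⟨hyl, hyr⟩ := abs_le.1 hy'
  have hcore := coreRad_lb (J := J) hε r (n / 16)
  set ζ := zz ε J n
  have hsub : ball (y + (1 - jw n) • (x - y)) ‖(y + (1 - jw n) • (x - y)) - y‖ \ ball y ζ ⊆
      ball x (coreRad ε J r (n / 16)) := by
    rintro z ⟨hz1, hz2⟩
    rw [mem_ball, dist_eq_norm] at hz1 ⊢
    rw [mem_ball, dist_eq_norm, not_lt] at hz2
    rw [add_sub_cancel_left, norm_smul, Real.norm_of_nonneg (by linarith : (0:ℝ) ≤ 1 - jw n),
      show z - (y + (1 - jw n) • (x - y)) = (z - y) - (1 - jw n) • (x - y) by abel] at hz1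
    rw [norm_sub_rev x y] at hz1
    have h1 := mul_self_lt_mul_self (norm_nonneg _) hz1
    rw [← sq, norm_sub_sq_real, norm_smul, Real.norm_of_nonneg (by linarith : (0:ℝ) ≤ 1 - jw n),
      real_inner_smul_right, norm_sub_rev x y] at h1
    have h2 : ‖z - x‖ ^ 2 = ‖z - y‖ ^ 2 - 2 * ⟪z - y, x - y⟫ + ‖y - x‖ ^ 2 := by
      rw [show z - x = (z - y) - (x - y) by abel, norm_sub_sq_real, norm_sub_rev x y]
    have hζ : ζ ^ 2 ≤ ‖z - y‖ ^ 2 := pow_le_pow_left₀ (sc_pos hε _ _).le hz2 2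
    have h3 : jw n * ζ ^ 2 ≤ jw n * ‖z - y‖ ^ 2 := mul_le_mul_of_nonneg_left hζ hju0.le
    have h4 : ‖z - y‖ ^ 2 < 2 * (1 - jw n) * ⟪z - y, x - y⟫ := by nlinarith
    have h5 : (1 - jw n) * ‖z - x‖ ^ 2 ≤
        (1 - jw n) * ‖y - x‖ ^ 2 - jw n * ζ ^ 2 := by rw [h2]; nlinarith
    have h6 : ‖z - x‖ ^ 2 ≤ ‖y - x‖ ^ 2 - 73000 * (R * b) := by
      have : 0 ≤ jw n * ‖z - x‖ ^ 2 := by positivity
      have h7 : (1 - jw n) * (‖z - x‖ ^ 2 - ‖y - x‖ ^ 2) ≤ -(73000 * (R * b)) := by
        rw [← hjs]; linarith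
      nlinarith [mul_nonneg hR0.le hb0.le]
    have hs : ‖y - x‖ ≤ 128 * R := band_norm hε hr hy
    refine lt_of_lt_of_le ?_ hcore
    have h8 : 0 < r - 2 * uu ε J (n / 16) := by linarith
    refine lt_of_pow_lt_pow_left₀ 2 h8.le ?_
    have h9 : (‖y - x‖ - 67 * b) ^ 2 ≤ (r - 2 * uu ε J (n / 16)) ^ 2 :=
      pow_le_pow_left₀ (by linarith) (by linarith) 2
    have h10 : ‖y - x‖ * b ≤ 128 * R * b := mul_le_mul_of_nonneg_right hs hb0.le
    nlinarith [mul_pos hR0 hb0]
  have hw := (intv hp hε J (n / 16)).norm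
  have hc : ∀ z, chiK ε J x r (n / 16) z * ‖vv ε v J (n / 16) z‖ =
      (ball x (coreRad ε J r (n / 16))).indicator (fun z => ‖vv ε v J (n / 16) z‖) z := fun z => by
    by_cases h : z ∈ ball x (coreRad ε J r (n / 16)) <;> simp [chiK, h]
  simp only [PhiJ, radMass, ZZ, hc]
  rw [integral_indicator measurableSet_ball]
  exact setIntegral_mono_set hw.integrableOn (Eventually.of_forall fun z => norm_nonneg _)
    hsub.eventuallyLE

/-- A point in no removed set, with a small inner mass, is a good point. -/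
private theorem goodPt_of (hp : IsPot g v) (hε : 0 < ε) (he : ‖e‖ = 1) (hN : Deep N1)
    (hr0 : rho ε J / 64 ≤ r) (hr : r ≤ 64 * rho ε J) {n : ℕ} (hn : N1 ≤ n) {y : EE d}
    (hy : y ∈ BS ε J x r n) (hL : 0 < LL ε v e J n y)
    (hPhi : PhiJ ε v J n y (y + (1 - jw n) • (x - y)) ≤ (qC ^ (20 * n))⁻¹ * LL ε v e J n y)
    (hR : ¬(Pole ε e J n y x ∨ EndPt ε J n e1 e2 y x ∨ Jump ε v e J n y x)) :
    GoodPt ε v e J n e1 e2 x r y := by
  have : Nonempty (Fin d) := by
    rcases isEmpty_or_nonempty (Fin d) with h | h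
    · have : Subsingleton (EE d) := ⟨fun a b => by ext i; exact isEmptyElim i⟩
      rw [Subsingleton.elim e 0, norm_zero] at he
      exact absurd he zero_ne_one
    · exact h
  simp only [not_or] at hR
  obtain ⟨hP, hE, hJ⟩ := hR
  set b := bb ε J n with hb
  set R := rho ε J with hR'
  have hR0 : 0 < R := rho_pos hε J
  have hb0 : 0 < b := sc_pos hε _ _
  have hbR : 10 ^ 9 * b ≤ R := sc_deep hε hN (by norm_num) hn
  have hy' : |‖y - x‖ - r| ≤ 64 * b := hy
  obtain ⟨hyl, hyr⟩ := abs_le.1 hy'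
  rw [norm_sub_rev] at hyl hyr
  have hs : ‖x - y‖ ≤ 128 * R := by rw [norm_sub_rev]; exact band_norm hε hr hy
  have h130 : ‖x - y‖ ≤ 130 * R := by linarith
  refine ⟨hy, not_le.1 fun h => hP ⟨h130, h⟩, ?_, ?_, ?_⟩
  · by_contra h
    refine hE ⟨h130, Or.inl ?_⟩
    obtain ⟨h1, h2⟩ := abs_le.1 (not_lt.1 h)
    exact abs_le.2 ⟨by linarith, by linarith⟩
  · by_contra h
    refine hE ⟨h130, Or.inr ?_⟩
    obtain ⟨h1, h2⟩ := abs_le.1 (not_lt.1 h)
    exact abs_le.2 ⟨by linarith, by linarith⟩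
  have hjump := not_le.1 fun h => hJ ⟨h130, hL, hPhi, h⟩
  have hd : 1 ≤ d := Fin.pos_iff_nonempty.2 inferInstance
  have hju : jw n ≤ 1 := by
    have h2 : qC ^ (1600 * n) ≤ qC ^ n :=
      pow_le_pow_of_le_one qC_pos.le qC_lt_one.le (by omega)
    have := hN.2 n hn
    unfold jw
    linarith [pow_pos qC_pos n]
  have hju0 : 0 ≤ jw n := mul_nonneg (by norm_num) (pow_pos qC_pos _).le
  have hjs : jw n * zz ε J n ^ 2 = 73000 * (R * b) := by
    simp only [jw, hb, hR', sc]
    rw [show qC ^ (3200 * n) = qC ^ (1600 * n) * (qC ^ (800 * n) * qC ^ (800 * n)) by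
      rw [← pow_add, ← pow_add]; ring_nf]
    ring
  have hw := (intv hp hε J (n / 16)).norm.locallyIntegrable
  have hT : 8 * (70 * b) * ‖x - y‖ ≤ jw n * zz ε J n ^ 2 := by
    rw [hjs]; nlinarith [mul_le_mul_of_nonneg_left hs hb0.le]
  have h1 := shell_le_radMass hd hw (fun z => norm_nonneg _) (x := x) (y := y)
    (h := 70 * b) (by positivity) (by linarith) (sc_pos hε 800 n).le hju0 hju hT
  refine le_trans ?_ (h1.trans (hjump.le.trans ?_))
  · refine setIntegral_mono_set ((intv hp hε J (n / 16)).norm.integrableOn)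
      (Eventually.of_forall fun z => norm_nonneg _) (LE.le.eventuallyLE fun z hz => ?_)
    obtain ⟨hz1, hz2⟩ := hz
    have hz1' : |‖z - x‖ - r| ≤ 6 * b := hz1
    rw [mem_ball, not_lt, dist_eq_norm] at hz2
    obtain ⟨hzl, hzr⟩ := abs_le.1 hz1'
    exact ⟨abs_le.2 ⟨by linarith, by linarith⟩, hz2⟩
  · refine mul_le_mul_of_nonneg_left ?_ (pow_nonneg qC_pos.le _)
    refine ENNReal.toReal_mono (GE_ne_top hp hε he n x _) (lintegral_mono_set fun z hz => ?_)
    rw [mem_ball, dist_eq_norm] at hz ⊢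
    rw [show z - x = (z - y) - (x - y) by abel]
    linarith [norm_sub_le (z - y) (x - y)]

/-- The survivors at `x`, each with a good point near which its band deficit concentrates. -/
theorem classify (hp : IsPot g v) (hε : 0 < ε) (he : ‖e‖ = 1) (hN : Deep N1)
    (hr0 : rho ε J / 64 ≤ r) (hr : r ≤ 64 * rho ε J) :
    ∃ (S : ℕ → Prop) (dir : ℕ → EE d),
      (∀ n, S n → N1 ≤ n ∧ n ≤ J) ∧
      (∀ n, S n → ‖dir n‖ = 1) ∧
      (∀ n, S n → ∃ y, GoodPt ε v e J n e1 e2 x r y) ∧
      (∀ n, n ≤ J → ¬S n → DD ε v e J x r n ≤ qC ^ (17 * n) *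
        (TT ε v e J N1 e1 e2 n x + if N1 ≤ n then qC ^ n * ZZ ε v J x r (n / 16) else 0)) ∧
      (∀ n n', S n → S n' → n < n' → n' ≤ 64 * n → ‖dir n - dir n'‖ ≤ qC ^ n) ∧
      (∀ n, S n → ∀ n0 : EE d, ‖n0‖ = 1 → WD ε v e J x r n n0 ≤
        10000 * ((qC ^ n + ‖dir n - n0‖) * DD ε v e J x r n + TT ε v e J N1 e1 e2 n x)) := by
  classical
  set D := DD ε v e J x r with hDdef
  set T := TT ε v e J N1 e1 e2 with hTdef
  set R := rho ε J with hRdef
  have hR0 : 0 < R := rho_pos hε J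
  have hDL : ∀ n, ENNReal.ofReal (D n) = ∫⁻ z in BS ε J x r n, GD ε v e J n z := fun n =>
    (lin_eq hp hε he n _).symm
  have hD0 : ∀ n, 0 ≤ D n := DD_nonneg ε v he J x r
  have hT0 : ∀ n, 0 ≤ T n x := fun n => ENNReal.toReal_nonneg
  -- bounds through the terms
  have key : ∀ n, N1 ≤ n → ∀ (a : ℝ) (X : ℝ≥0∞), ENNReal.ofReal a ≤ X →
      X ≤ pairT ε v e J n n n x + remT ε v e J n e1 e2 x +
        ∑ k ∈ window J N1 n, (pairT ε v e J k k k x + pairT ε v e J (min n k) n k x) →
      4 * a ≤ qC ^ (17 * n) * T n x := by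
    intro n hn a X ha hX
    have h1 : ENNReal.ofReal (4 * (qC ^ (17 * n))⁻¹) * ENNReal.ofReal a ≤
        TE ε v e J N1 e1 e2 n x := by
      unfold TE
      rw [if_neg (not_lt.2 hn)]
      refine le_trans ?_ le_add_self
      gcongr
      exact ha.trans hX
    rw [← ENNReal.ofReal_mul (by positivity [qC_pos]),
      ENNReal.ofReal_le_iff_le_toReal (TE_ne_top hp hε he n)] at h1
    have h2 : 4 * (qC ^ (17 * n))⁻¹ * a ≤ T n x := h1
    rw [mul_comm (4 : ℝ), mul_assoc, inv_mul_le_iff₀ (pow_pos qC_pos _)] at h2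
    exact h2
  -- the cells
  have hc : ∀ n, ∃ c, 0 < D n → c ∈ BS ε J x r n ∧
      ∫⁻ z in BS ε J x r n \ ball c (tl ε J n), GD ε v e J n z ≤ pairT ε v e J n n n x := fun n => by
    by_cases h : 0 < D n
    · obtain ⟨c, h1, h2⟩ := exists_cen hp hε he hr n h
      exact ⟨c, fun _ => ⟨h1, h2⟩⟩
    · exact ⟨x, fun h' => absurd h' h⟩
  choose cen hcen using hc
  let A : ℕ → Set (EE d) := fun n => BS ε J x r n ∩ ball (cen n) (tl ε J n)
  have hAm : ∀ n, MeasurableSet (A n) := fun n => (meas_band x r _).inter measurableSet_ball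
  have hsplit : ∀ n, 0 < D n →
      ENNReal.ofReal (D n) ≤ (∫⁻ z in A n, GD ε v e J n z) + pairT ε v e J n n n x := by
    intro n hn
    rw [hDL]
    calc ∫⁻ z in BS ε J x r n, GD ε v e J n z =
        (∫⁻ z in A n, GD ε v e J n z) +
          ∫⁻ z in BS ε J x r n \ ball (cen n) (tl ε J n), GD ε v e J n z := by
          exact (lintegral_inter_add_sdiff _ _ measurableSet_ball).symm
      _ ≤ _ := add_le_add le_rfl (hcen n hn).2
  let Conf : ℕ → Prop := fun n => ∃ k ∈ window J N1 n, D n ≤ D k ∧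
    3 * tl ε J (min n k) ≤ ‖cen n - cen k‖
  let S : ℕ → Prop := fun n => (N1 ≤ n ∧ n ≤ J) ∧ 0 < D n ∧ ¬Conf n ∧
    ∃ y ∈ A n, GoodPt ε v e J n e1 e2 x r y
  have hy : ∀ n, ∃ y, S n → y ∈ A n ∧ GoodPt ε v e J n e1 e2 x r y := fun n => by
    by_cases h : S n
    · obtain ⟨y, h1, h2⟩ := h.2.2.2
      exact ⟨y, fun _ => ⟨h1, h2⟩⟩
    · exact ⟨x, fun h' => absurd h' h⟩
  choose pt hpt using hy
  have hs : ∀ n, S n → R / 128 ≤ ‖pt n - x‖ ∧ |‖pt n - x‖ - r| ≤ 64 * bb ε J n ∧
      ‖pt n - cen n‖ < tl ε J n := by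
    intro n hn
    obtain ⟨⟨h1, h2⟩, -⟩ := hpt n hn
    have h1' : |‖pt n - x‖ - r| ≤ 64 * bb ε J n := h1
    rw [mem_ball, dist_eq_norm] at h2
    have := sc_deep (J := J) hε hN (k := 3200) (by norm_num) hn.1.1
    exact ⟨by linarith [(abs_le.1 h1').1], h1', h2⟩
  refine ⟨S, fun n => ‖pt n - x‖⁻¹ • (pt n - x), fun n hn => hn.1, fun n hn => ?_,
    fun n hn => ⟨pt n, (hpt n hn).2⟩, fun n hnJ hn => ?_, fun n n' hn hn' hlt hle => ?_,
    fun n hn n0 hn0 => ?_⟩
  · rw [norm_smul, norm_inv, norm_norm,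
      inv_mul_cancel₀ (by linarith [(hs n hn).1] : ‖pt n - x‖ ≠ 0)]
  · -- the removed depths
    have hq : 0 ≤ qC ^ (17 * n) := pow_nonneg qC_pos.le _
    by_cases hnN : n < N1
    · rw [if_neg (not_le.2 hnN), add_zero]
      have h1 : ENNReal.ofReal ((qC ^ (17 * N1))⁻¹) * GE ε v e J n x (512 * R) ≤
          TE ε v e J N1 e1 e2 n x := by
        unfold TE
        rw [if_pos hnN]
        exact le_add_self
      have h2 := ENNReal.toReal_mono (TE_ne_top hp hε he n) h1
      rw [ENNReal.toReal_mul, ENNReal.toReal_ofReal (by positivity [qC_pos]),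
        inv_mul_le_iff₀ (pow_pos qC_pos _)] at h2
      calc D n ≤ _ := DD_le_GE hp hε he hr n
        _ ≤ qC ^ (17 * N1) * T n x := h2
        _ ≤ _ := mul_le_mul_of_nonneg_right
            (pow_le_pow_of_le_one qC_pos.le qC_lt_one.le (by omega)) (hT0 n)
    push Not at hnN
    rw [if_pos hnN]
    have hZ : 0 ≤ ZZ ε v J x r (n / 16) := integral_nonneg fun z =>
      mul_nonneg (indicator_nonneg (fun _ _ => zero_le_one) _) (norm_nonneg _)
    have hqZ : 0 ≤ qC ^ n * ZZ ε v J x r (n / 16) := mul_nonneg (pow_nonneg qC_pos.le _) hZ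
    by_cases hpos : 0 < D n
    swap
    · exact le_trans (not_lt.1 hpos) (mul_nonneg hq (add_nonneg (hT0 n) hqZ))
    have fin : ∀ X, ENNReal.ofReal (D n) ≤ X →
        X ≤ pairT ε v e J n n n x + remT ε v e J n e1 e2 x +
          ∑ k ∈ window J N1 n, (pairT ε v e J k k k x + pairT ε v e J (min n k) n k x) →
        D n ≤ qC ^ (17 * n) * (T n x + qC ^ n * ZZ ε v J x r (n / 16)) := by
      intro X h1 h2
      have := key n hnN _ X h1 h2
      linarith [mul_add (qC ^ (17 * n)) (T n x) (qC ^ n * ZZ ε v J x r (n / 16)),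
        mul_nonneg hq hqZ]
    by_cases hconf : Conf n
    · obtain ⟨k, hk, hDk, hfar⟩ := hconf
      set a := ∫⁻ z in A n, GD ε v e J n z
      set a' := ∫⁻ z in A k, GD ε v e J k z
      set P := pairT ε v e J (min n k) n k x
      have hkpos : 0 < D k := hpos.trans_le hDk
      have htn := sc_anti (J := J) hε (k := 2) (min_le_left n k)
      have htk := sc_anti (J := J) hε (k := 2) (min_le_right n k)
      have hbn := sc_anti (J := J) hε (k := 3200) (min_le_left n k)
      have hbk := sc_anti (J := J) hε (k := 3200) (min_le_right n k)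
      have hmul : a * a' ≤ P * P := by
        refine pair_mass (min n k) (hAm n) (hAm k) fun y hy y' hy' => ?_
        obtain ⟨hy1, hy2⟩ := hy
        obtain ⟨hy1', hy2'⟩ := hy'
        rw [mem_ball, dist_eq_norm] at hy2 hy2'
        refine ⟨?_, ?_, ?_, ?_⟩
        · rw [norm_sub_rev]; linarith [band_norm hε hr hy1]
        · rw [norm_sub_rev]; linarith [band_norm hε hr hy1']
        · have h3 : ‖cen n - cen k‖ ≤ ‖y - cen n‖ + ‖y - y'‖ + ‖y' - cen k‖ := by
            rw [show cen n - cen k = -(y - cen n) + (y - y') + (y' - cen k) by abel]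
            exact (norm_add₃_le).trans (by rw [norm_neg])
          linarith
        · have a1 : |‖y - x‖ - r| ≤ 64 * bb ε J n := hy1
          have a2 : |‖y' - x‖ - r| ≤ 64 * bb ε J k := hy1'
          obtain ⟨a1l, a1r⟩ := abs_le.1 a1
          obtain ⟨a2l, a2r⟩ := abs_le.1 a2
          rw [norm_sub_rev x y, norm_sub_rev x y']
          exact abs_le.2 ⟨by linarith, by linarith⟩
      have hmin : a ≤ P ∨ a' ≤ P := by
        by_contra h
        push Not at h
        exact absurd hmul (not_le.2 (ENNReal.mul_lt_mul h.1 h.2))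
      refine fin (pairT ε v e J n n n x + (pairT ε v e J k k k x + P)) ?_ ?_
      · rcases hmin with h | h
        · calc ENNReal.ofReal (D n) ≤ a + pairT ε v e J n n n x := hsplit n hpos
            _ ≤ P + pairT ε v e J n n n x := add_le_add h le_rfl
            _ ≤ _ := by rw [add_comm P]; exact add_le_add le_rfl le_add_self
        · calc ENNReal.ofReal (D n) ≤ ENNReal.ofReal (D k) := ENNReal.ofReal_le_ofReal hDk
            _ ≤ a' + pairT ε v e J k k k x := hsplit k hkpos
            _ ≤ P + pairT ε v e J k k k x := add_le_add h le_rfl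
            _ ≤ _ := by rw [add_comm P]; exact le_add_self
      · exact add_le_add le_self_add (Finset.single_le_sum
          (f := fun k => pairT ε v e J k k k x + pairT ε v e J (min n k) n k x)
          (fun _ _ => zero_le) hk)
    have hnogood : ∀ y ∈ A n, ¬GoodPt ε v e J n e1 e2 x r y := fun y hy hg =>
      hn ⟨⟨hnN, hnJ⟩, hpos, hconf, y, hy, hg⟩
    by_cases hbig : ∃ y ∈ A n, (qC ^ (20 * n))⁻¹ * LL ε v e J n y <
        PhiJ ε v J n y (y + (1 - jw n) • (x - y))
    · obtain ⟨y, hy, hy'⟩ := hbig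
      have hLD : D n ≤ LL ε v e J n y := by
        refine (ENNReal.ofReal_le_iff_le_toReal (GE_ne_top hp hε he n y _)).1 ?_
        rw [hDL]
        refine lintegral_mono_set fun z hz => ?_
        have hz' : |‖z - x‖ - r| ≤ 64 * bb ε J n := hz
        have hy1 : |‖y - x‖ - r| ≤ 64 * bb ε J n := hy.1
        have := sc_deep (J := J) hε hN (k := 3200) (by norm_num) hnN
        rw [mem_ball, dist_eq_norm, show z - y = (z - x) - (y - x) by abel]
        linarith [norm_sub_le (z - x) (y - x), (abs_le.1 hz').2, (abs_le.1 hy1).2]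
      have h1 := hy'.trans_le (PhiJ_le_ZZ hp hε hN hr0 hr hnN hnJ hy.1)
      rw [inv_mul_lt_iff₀ (pow_pos qC_pos _)] at h1
      have h2 : qC ^ (20 * n) * ZZ ε v J x r (n / 16) ≤
          qC ^ (17 * n) * (qC ^ n * ZZ ε v J x r (n / 16)) := by
        rw [← mul_assoc, ← pow_add]
        exact mul_le_mul_of_nonneg_right
          (pow_le_pow_of_le_one qC_pos.le qC_lt_one.le (by omega)) hZ
      linarith [mul_add (qC ^ (17 * n)) (T n x) (qC ^ n * ZZ ε v J x r (n / 16)),
        mul_nonneg hq (hT0 n)]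
    push Not at hbig
    refine fin (pairT ε v e J n n n x + remT ε v e J n e1 e2 x) ?_ le_self_add
    refine (hsplit n hpos).trans ?_
    rw [add_comm]
    refine add_le_add le_rfl ?_
    rw [← lintegral_indicator (hAm n)]
    refine lintegral_mono fun y => ?_
    by_cases hy : y ∈ A n
    · have hL : 0 < LL ε v e J n y := by
        refine lt_of_lt_of_le hpos ((ENNReal.ofReal_le_iff_le_toReal
          (GE_ne_top hp hε he n y _)).1 ?_)
        rw [hDL]
        refine lintegral_mono_set fun z hz => ?_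
        have hz' : |‖z - x‖ - r| ≤ 64 * bb ε J n := hz
        have hy1 : |‖y - x‖ - r| ≤ 64 * bb ε J n := hy.1
        have := sc_deep (J := J) hε hN (k := 3200) (by norm_num) hnN
        rw [mem_ball, dist_eq_norm, show z - y = (z - x) - (y - x) by abel]
        linarith [norm_sub_le (z - x) (y - x), (abs_le.1 hz').2, (abs_le.1 hy1).2]
      have hmem : y ∈ {y | Pole ε e J n y x ∨ EndPt ε J n e1 e2 y x ∨ Jump ε v e J n y x} := by
        by_contra hc
        exact hnogood y hy (goodPt_of hp hε he hN hr0 hr hnN hy.1 hL (hbig y hy) hc)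
      rw [indicator_of_mem hy, indicator_of_mem hmem]
      exact le_rfl
    · simp [indicator_of_notMem hy]
  · -- nearby directions
    obtain ⟨hsn, hbn, hcn⟩ := hs n hn
    obtain ⟨hsn', hbn', hcn'⟩ := hs n' hn'
    have hcc : ‖cen n - cen n'‖ < 3 * tl ε J n := by
      by_contra hc
      push Not at hc
      rcases le_total (D n) (D n') with h | h
      · refine hn.2.2.1 ⟨n', ?_, h, by rwa [min_eq_left hlt.le]⟩
        simp only [window, Finset.mem_filter, Finset.mem_range]
        have := hn'.1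
        omega
      · refine hn'.2.2.1 ⟨n, ?_, h, by rwa [min_eq_right hlt.le, norm_sub_rev]⟩
        simp only [window, Finset.mem_filter, Finset.mem_range]
        have := hn.1
        have := hn'.1
        omega
    have hyy : ‖(pt n - x) - (pt n' - x)‖ ≤ 5 * tl ε J n := by
      rw [show (pt n - x) - (pt n' - x) =
        (pt n - cen n) + (cen n - cen n') + -(pt n' - cen n') by abel]
      refine norm_add₃_le.trans ?_
      rw [norm_neg]
      linarith [sc_anti (J := J) hε (k := 2) hlt.le]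
    set p := pt n - x
    set p' := pt n' - x
    have hp0 : 0 < ‖p‖ := by linarith
    have hp0' : 0 < ‖p'‖ := by linarith
    have h1 : ‖p‖⁻¹ • p - ‖p'‖⁻¹ • p' =
        ‖p‖⁻¹ • (p - p') + ((‖p'‖ - ‖p‖) / (‖p‖ * ‖p'‖)) • p' := by
      rw [show (‖p'‖ - ‖p‖) / (‖p‖ * ‖p'‖) = ‖p‖⁻¹ - ‖p'‖⁻¹ by field_simp]
      module
    rw [h1]
    refine (norm_add_le _ _).trans ?_
    rw [norm_smul, norm_smul, norm_inv, norm_norm, norm_div, norm_mul, norm_norm, norm_norm,
      Real.norm_eq_abs]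
    have h2 : |‖p'‖ - ‖p‖| ≤ ‖p - p'‖ := by
      rw [abs_sub_comm]; exact abs_norm_sub_norm_le _ _
    calc ‖p‖⁻¹ * ‖p - p'‖ + |‖p'‖ - ‖p‖| / (‖p‖ * ‖p'‖) * ‖p'‖
        = ‖p‖⁻¹ * (‖p - p'‖ + |‖p'‖ - ‖p‖|) := by field_simp
      _ ≤ ‖p‖⁻¹ * (10 * tl ε J n) := by gcongr; linarith
      _ ≤ qC ^ n := by
        rw [inv_mul_le_iff₀ hp0]
        have h3 : 1280 * qC ^ n ≤ 1 := by linarith [hN.2 n hn.1.1, pow_pos qC_pos n]
        have h4 : R / 128 * qC ^ n ≤ ‖p‖ * qC ^ n :=
          mul_le_mul_of_nonneg_right hsn (pow_nonneg qC_pos.le n)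
        have h5 : tl ε J n = R * (qC ^ n * qC ^ n) := by
          rw [← pow_add, ← two_mul]; rfl
        rw [h5]
        nlinarith [mul_pos hR0 (pow_pos qC_pos n)]
  · -- the weighted deficit
    obtain ⟨hsn, hbn, hcn⟩ := hs n hn
    have hnN := hn.1.1
    set u := ‖pt n - x‖⁻¹ • (pt n - x) with hu
    have hrp : 0 < r := by linarith
    have hnear : ∀ z ∈ A n, wdir x r n0 z ≤ qC ^ n + ‖u - n0‖ := by
      intro z hz
      obtain ⟨-, hz2⟩ := hz
      rw [mem_ball, dist_eq_norm] at hz2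
      have hzy : ‖z - pt n‖ ≤ 2 * tl ε J n := by
        rw [show z - pt n = (z - cen n) - (pt n - cen n) by abel]
        linarith [norm_sub_le (z - cen n) (pt n - cen n)]
      refine (norm_sub_le_norm_sub_add_norm_sub _ u _).trans (add_le_add ?_ le_rfl)
      have hp0 : 0 < ‖pt n - x‖ := by linarith
      have h1 : qq x r z - u =
          r⁻¹ • (z - pt n) + ((‖pt n - x‖ - r) / (r * ‖pt n - x‖)) • (pt n - x) := by
        rw [show (‖pt n - x‖ - r) / (r * ‖pt n - x‖) = r⁻¹ - ‖pt n - x‖⁻¹ by field_simp, hu, qq,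
          sub_smul, smul_sub, smul_sub, smul_sub, smul_sub]
        abel
      rw [h1]
      refine (norm_add_le _ _).trans ?_
      rw [norm_smul, norm_smul, norm_inv, Real.norm_of_nonneg hrp.le, norm_div, norm_mul,
        norm_norm, Real.norm_of_nonneg hrp.le, Real.norm_eq_abs]
      calc r⁻¹ * ‖z - pt n‖ + |‖pt n - x‖ - r| / (r * ‖pt n - x‖) * ‖pt n - x‖
          = r⁻¹ * (‖z - pt n‖ + |‖pt n - x‖ - r|) := by field_simp
        _ ≤ r⁻¹ * (2 * tl ε J n + 64 * bb ε J n) := by gcongr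
        _ ≤ qC ^ n := by
          rw [inv_mul_le_iff₀ hrp]
          have h3 : 4224 * qC ^ n ≤ 1 := by linarith [hN.2 n hnN, pow_pos qC_pos n]
          have h4 : R / 64 * qC ^ n ≤ r * qC ^ n :=
            mul_le_mul_of_nonneg_right hr0 (pow_nonneg qC_pos.le n)
          have h5 : tl ε J n = R * (qC ^ n * qC ^ n) := by
            rw [← pow_add, ← two_mul]; rfl
          have h6 : bb ε J n ≤ tl ε J n :=
            mul_le_mul_of_nonneg_left (pow_le_pow_of_le_one qC_pos.le qC_lt_one.le (by omega)) hR0.le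
          nlinarith [mul_pos hR0 (pow_pos qC_pos n)]
    set K := qC ^ n + ‖u - n0‖
    have hK0 : 0 ≤ K := add_nonneg (pow_nonneg qC_pos.le _) (norm_nonneg _)
    have hBm : MeasurableSet (BS ε J x r n) := meas_band x r _
    have e1' : WD ε v e J x r n n0 = (∫ z in A n, wdir x r n0 z * gg ε v e J n z) +
        ∫ z in BS ε J x r n \ ball (cen n) (tl ε J n), wdir x r n0 z * gg ε v e J n z :=
      (integral_inter_add_sdiff measurableSet_ball
        (wdir_int hp hε hr0 hn0 Subset.rfl hBm)).symm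
    have p1 := WD_part hp hε he hr0 hn0 (A := A n) inter_subset_left (hAm n) hnear
    have p2 := WD_part hp hε he hr0 hn0 (A := BS ε J x r n \ ball (cen n) (tl ε J n))
      sdiff_subset (hBm.diff measurableSet_ball) (K := 4098) fun z hz => wdir_le hε hr0 hz.1 hn0
    have h2 : ∫ z in A n, gg ε v e J n z ≤ D n :=
      setIntegral_mono_set (gg_int hp hε e J n).integrableOn
        (Eventually.of_forall fun z => gg_nonneg ε v he J n z) inter_subset_left.eventuallyLE
    have h3 : 4 * ∫ z in BS ε J x r n \ ball (cen n) (tl ε J n), gg ε v e J n z ≤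
        qC ^ (17 * n) * T n x := by
      refine key n hnN _ (pairT ε v e J n n n x) ?_ ?_
      · rw [← lin_eq hp hε he]; exact (hcen n hn.2.1).2
      · exact le_self_add.trans le_self_add
    have h4 : qC ^ (17 * n) * T n x ≤ T n x :=
      mul_le_of_le_one_left (hT0 n) (pow_le_one₀ qC_pos.le qC_lt_one.le)
    have h5 := mul_le_mul_of_nonneg_left h2 hK0
    linarith [mul_nonneg hK0 (hD0 n), hT0 n]

end Vale.Agent.P137
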