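import Vale.Agent.P137.Centred.KernelBound

/-!
Elementary properties of convolution with the composite kernels.
-/

namespace Vale.Agent.P137.Kernel

open MeasureTheory Metric Filter Topology Set
open scoped RealInnerProductSpace

variable {d : ℕ}

theorem ballAvg_add (ρ : ℝ) {f g : EE d → ℝ} (hf : LB f) (hg : LB g) (x : EE d) :
    ballAvg ρ (fun z => f z + g z) x = ballAvg ρ f x + ballAvg ρ g x := by
  simp only [ballAvg_def]
  rw [integral_add (hf.intOn x ρ) (hg.intOn x ρ), mul_add]

theorem ballAvg_sub (ρ : ℝ) {f g : EE d → ℝ} (hf : LB f) (hg : LB g) (x : EE d) :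
    ballAvg ρ (fun z => f z - g z) x = ballAvg ρ f x - ballAvg ρ g x := by
  simp only [ballAvg_def]
  rw [integral_sub (hf.intOn x ρ) (hg.intOn x ρ), mul_sub]

theorem LB.add {f g : EE d → ℝ} (hf : LB f) (hg : LB g) : LB fun x => f x + g x :=
  ⟨hf.meas.add hg.meas, fun R => by
    obtain ⟨C, hC⟩ := hf.bdd R
    obtain ⟨D, hD⟩ := hg.bdd R
    exact ⟨C + D, fun x hx => (abs_add_le _ _).trans (add_le_add (hC x hx) (hD x hx))⟩⟩

theorem LB.sub {f g : EE d → ℝ} (hf : LB f) (hg : LB g) : LB fun x => f x - g x :=
  ⟨hf.meas.sub hg.meas, fun R => by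
    obtain ⟨C, hC⟩ := hf.bdd R
    obtain ⟨D, hD⟩ := hg.bdd R
    exact ⟨C + D, fun x hx => (abs_sub _ _).trans (add_le_add (hC x hx) (hD x hx))⟩⟩

theorem LB.zero : LB (fun _ : EE d => (0 : ℝ)) := .of_bound measurable_const (C := 0) (by simp)

theorem LB.sum {ι : Type*} (s : Finset ι) {f : ι → EE d → ℝ} (hf : ∀ i ∈ s, LB (f i)) :
    LB fun x => ∑ i ∈ s, f i x := by
  classical
  induction s using Finset.induction_on with
  | empty => simpa using LB.zero
  | insert a s ha ih =>
    simp only [Finset.sum_insert ha]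
    exact (hf a (Finset.mem_insert_self a s)).add
      (ih fun i hi => hf i (Finset.mem_insert_of_mem hi))

theorem ballAvg_sum (ρ : ℝ) {ι : Type*} (s : Finset ι) {f : ι → EE d → ℝ}
    (hf : ∀ i ∈ s, LB (f i)) (x : EE d) :
    ballAvg ρ (fun z => ∑ i ∈ s, f i z) x = ∑ i ∈ s, ballAvg ρ (f i) x := by
  classical
  induction s using Finset.induction_on with
  | empty => simp [ballAvg_def]
  | insert a s ha ih =>
    simp only [Finset.sum_insert ha]
    rw [ballAvg_add ρ (hf a (Finset.mem_insert_self a s))
      (LB.sum s fun i hi => hf i (Finset.mem_insert_of_mem hi)),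
      ih fun i hi => hf i (Finset.mem_insert_of_mem hi)]

theorem IsSub.conv_nonneg {K : EE d → ℝ} {R M : ℝ} (h : IsSub K R M) {f : EE d → ℝ}
    (hf : ∀ x, 0 ≤ f x) (x : EE d) : 0 ≤ Kernel.conv K f x :=
  integral_nonneg fun z => mul_nonneg (h.nonneg z) (hf _)

theorem conv_add {K : EE d → ℝ} {R M : ℝ} (h : IsSub K R M) {f g : EE d → ℝ} (hf : LB f)
    (hg : LB g) (x : EE d) : conv K (fun z => f z + g z) x = conv K f x + conv K g x := by
  simp only [conv, mul_add]
  exact integral_add (h.integrable_mul hf x) (h.integrable_mul hg x)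

theorem kern_even {ε : ℝ} (hε : 0 < ε) {l T : ℕ} (h : l < T) (z : EE d) :
    kern ε l T (-z) = kern ε l T z :=
  le_antisymm (radDecr_kern hε h _ _ (by simp)) (radDecr_kern hε h _ _ (by simp))

/-- Convolution commutes with averaging. -/
theorem conv_ballAvg {K : EE d → ℝ} {R M : ℝ} (h : IsSub K R M) {f : EE d → ℝ} (hf : LB f)
    (ρ : ℝ) (x : EE d) : conv K (ballAvg ρ f) x = ballAvg ρ (conv K f) x := by
  simp only [ballAvg_def, conv]
  obtain ⟨C, hC⟩ := hf.bdd (‖x‖ + (R + ρ))
  have : IsFiniteMeasure (volume.restrict (ball (0 : EE d) ρ)) :=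
    ⟨by rw [Measure.restrict_apply_univ]; exact measure_ball_lt_top⟩
  have hi : Integrable (Function.uncurry fun z u : EE d => K z * f (x + z + u))
      (volume.prod (volume.restrict (ball (0 : EE d) ρ))) := by
    refine ((h.integrable.mul_const C).mul_prod (integrable_const (1 : ℝ))).mono'
      ((h.meas.comp measurable_fst).mul
        (hf.meas.comp ((measurable_const.add measurable_fst).add measurable_snd))).aestronglyMeasurable ?_
    have hae : ∀ᵐ p ∂((volume : Measure (EE d)).prod (volume.restrict (ball (0 : EE d) ρ))),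
        p.2 ∈ ball (0 : EE d) ρ :=
      (Measure.quasiMeasurePreserving_snd (μ := (volume : Measure (EE d)))
        (ν := volume.restrict (ball (0 : EE d) ρ))).ae (ae_restrict_mem (μ := volume) measurableSet_ball)
    filter_upwards [hae] with p hp
    rw [mem_ball_zero_iff] at hp
    simp only [Function.uncurry, norm_mul, Real.norm_eq_abs, mul_one, abs_of_nonneg (h.nonneg _)]
    rcases le_or_gt R ‖p.1‖ with hz | hz
    · rw [h.supp _ hz]; simp
    · exact mul_le_mul_of_nonneg_left (hC _ (norm_add₃_le.trans (by linarith))) (h.nonneg _)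
  have e : ∀ z, K z * ((volume.real (ball (0 : EE d) ρ))⁻¹ *
      ∫ u in ball (0 : EE d) ρ, f (x + z + u)) =
      (volume.real (ball (0 : EE d) ρ))⁻¹ * ∫ u in ball (0 : EE d) ρ, K z * f (x + z + u) :=
    fun z => by rw [integral_const_mul]; ring
  simp only [e, integral_const_mul]
  simp only [← integral_const_mul (K _)]
  rw [integral_integral_swap hi]
  refine congrArg _ (setIntegral_congr_fun measurableSet_ball fun u _ => ?_)
  simp only [add_right_comm x]

private theorem integrable_conv_prod {F : EE d → ℝ} {R M : ℝ} (h : IsSub F R M) {f : EE d → ℝ}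
    (hfm : Measurable f) (hf : Integrable f) :
    Integrable (Function.uncurry fun x z : EE d => F z * f (x + z)) (volume.prod volume) := by
  have hm : AEStronglyMeasurable (Function.uncurry fun x z : EE d => F z * f (x + z))
      (volume.prod volume) :=
    ((h.meas.comp measurable_snd).mul
      (hfm.comp (measurable_fst.add measurable_snd))).aestronglyMeasurable
  rw [integrable_prod_iff' hm]
  refine ⟨.of_forall fun z => ?_, ?_⟩
  · show Integrable fun x => F z * f (x + z)
    exact (hf.comp_add_right z).const_mul _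
  have e : ∀ z, ∫ x, ‖F z * f (x + z)‖ = F z * ∫ x, ‖f x‖ := fun z => by
    simp only [norm_mul, Real.norm_of_nonneg (h.nonneg z)]
    rw [integral_const_mul, integral_add_right_eq_self (fun x => ‖f x‖)]
  simp only [Function.uncurry, e]
  exact h.integrable.mul_const _

theorem integrable_conv {F : EE d → ℝ} {R M : ℝ} (h : IsSub F R M) {f : EE d → ℝ}
    (hfm : Measurable f) (hf : Integrable f) :
    Integrable (conv F f) ∧ ∫ x, conv F f x = (∫ z, F z) * ∫ x, f x := by
  have hi := integrable_conv_prod h hfm hf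
  refine ⟨hi.integral_prod_left, ?_⟩
  simp only [conv]
  rw [integral_integral_swap hi]
  have e : ∀ z, ∫ x, F z * f (x + z) = F z * ∫ x, f x := fun z => by
    rw [integral_const_mul, integral_add_right_eq_self f]
  simp only [e]
  rw [integral_mul_const]

/-- Duality for convolution. -/
theorem conv_dual {F : EE d → ℝ} {R M : ℝ} (h : IsSub F R M) {q f : EE d → ℝ} (hq : Measurable q)
    {C : ℝ} (hC : ∀ x, |q x| ≤ C) (hfm : Measurable f) (hf : Integrable f) :
    ∫ x, conv F q x * f x = ∫ y, q y * conv (fun z => F (-z)) f y := by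
  simp only [conv]
  have hi1 : Integrable (Function.uncurry fun x z : EE d => F z * q (x + z) * f x)
      (volume.prod volume) := by
    refine ((hf.norm.const_mul C).mul_prod h.integrable).mono'
      (((h.meas.comp measurable_snd).mul (hq.comp (measurable_fst.add measurable_snd))).mul
        (hfm.comp measurable_fst)).aestronglyMeasurable (.of_forall fun p => ?_)
    simp only [Function.uncurry, norm_mul, Real.norm_of_nonneg (h.nonneg _)]
    calc F p.2 * ‖q (p.1 + p.2)‖ * ‖f p.1‖ ≤ F p.2 * C * ‖f p.1‖ :=
          mul_le_mul_of_nonneg_right (mul_le_mul_of_nonneg_left (hC _) (h.nonneg _)) (norm_nonneg _)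
      _ = C * ‖f p.1‖ * F p.2 := by ring
  have e1 : ∀ x, (∫ z, F z * q (x + z)) * f x = ∫ z, F z * q (x + z) * f x := fun x => by
    rw [integral_mul_const]
  simp only [e1]
  have h' : IsSub (fun z => F (-z)) R M :=
    ⟨h.meas.comp measurable_neg, fun z => h.nonneg _, fun z => h.le _,
      fun z hz => h.supp _ (by rwa [norm_neg])⟩
  have hi2 : Integrable (Function.uncurry fun y z : EE d => q y * (F (-z) * f (y + z)))
      (volume.prod volume) := by
    have := (integrable_conv_prod h' hfm hf).bdd_mul (c := C)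
      (f := fun p : EE d × EE d => q p.1) (hq.comp measurable_fst).aestronglyMeasurable
      (.of_forall fun p => hC _)
    exact this
  have e2 : ∀ y, q y * ∫ z, F (-z) * f (y + z) = ∫ z, q y * (F (-z) * f (y + z)) := fun y =>
    (integral_const_mul _ _).symm
  simp only [e2]
  rw [integral_integral_swap hi1, integral_integral_swap hi2,
    ← integral_neg_eq_self (fun z => ∫ y, q y * (F (-z) * f (y + z)))]
  congr 1
  funext z
  rw [← integral_sub_right_eq_self (fun x => F z * q (x + z) * f x) z]
  congr 1
  funext y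
  simp only [sub_add_cancel, neg_neg, ← sub_eq_add_neg]
  ring

end Vale.Agent.P137.Kernel
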