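import Vale.Agent.P137.Centred.Flux

/-!
Descents of a truncated maximal function are controlled by its almost everywhere gradient.

Proof notes.  The shift is cut into `m` equal pieces; the positive part is subadditive and the
integral is translation invariant, so the descent is at most `m` times the descent of one piece,
which tends to the directional derivative by dominated convergence.
-/

namespace Vale.Agent.P137

open MeasureTheory Metric Filter Topology Set
open scoped RealInnerProductSpace ENNReal

variable {d : ℕ}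

namespace Descent

variable {g : EE d → ℝ} {v : EE d → EE d} {a b : ℝ}

/-- Small shifts change the truncated maximal function by at most an integrable multiple. -/
theorem Fsup_shift_le (hp : IsPot g v) (ha : 0 < a) (hab : a ≤ b) {R : ℝ} (x h : EE d)
    (hR : b + ‖h‖ ≤ R) :
    |Fsup a b g (x + h) - Fsup a b g x| ≤
      ‖h‖ * ((volume.real (ball (0 : EE d) a))⁻¹ * ∫ y in ball x R, ‖v y‖) := by
  have hav : ∀ r ∈ Icc a b, |avg g (x + h) r - avg g x r| ≤
      ‖h‖ * ((volume.real (ball (0 : EE d) a))⁻¹ * ∫ y in ball x R, ‖v y‖) := by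
    intro r hr
    have hr0 := ha.trans_le hr.1
    have := (convex_segment (𝕜 := ℝ) x (x + h)).norm_image_sub_le_of_norm_hasFDerivWithin_le
      (f := fun z => avg g z r) (fun z _ => (hasFDerivAt_avg hp hr0 z).hasFDerivWithinAt)
      (C := (volume.real (ball (0 : EE d) a))⁻¹ * ∫ y in ball x R, ‖v y‖)
      (fun z hz => ?_) (left_mem_segment ℝ _ _) (right_mem_segment ℝ _ _)
    · rw [Real.norm_eq_abs, add_sub_cancel_left, mul_comm] at this
      exact this
    · rw [innerSL_apply_norm, avgV, norm_smul,
        Real.norm_of_nonneg (inv_nonneg.2 measureReal_nonneg)]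
      have hz' : ‖z - x‖ ≤ ‖h‖ := by
        rw [segment_eq_image'] at hz
        obtain ⟨s, hs, rfl⟩ := hz
        simp only [add_sub_cancel_left, norm_smul, Real.norm_of_nonneg hs.1]
        exact mul_le_of_le_one_left (norm_nonneg _) hs.2
      refine mul_le_mul ?_ ?_ (norm_nonneg _) (inv_nonneg.2 measureReal_nonneg)
      · refine inv_anti₀ (Band.vol_pos 0 ha) ?_
        rw [Band.vol_eq 0 ha, Band.vol_eq z hr0]
        exact mul_le_mul_of_nonneg_right (pow_le_pow_left₀ ha.le hr.1 _) measureReal_nonneg
      · refine (norm_integral_le_integral_norm _).trans ?_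
        refine setIntegral_mono_set (Band.intOn hp.contv.norm x R)
          (.of_forall fun y => norm_nonneg _) (LE.le.eventuallyLE (ball_subset_ball' ?_))
        rw [dist_eq_norm]
        linarith [hr.2]
  obtain ⟨r1, hr1, e1⟩ := exists_Fsup hp ha hab (x + h)
  obtain ⟨r2, hr2, e2⟩ := exists_Fsup hp ha hab x
  have h1 := abs_le.1 (hav r1 hr1)
  have h2 := abs_le.1 (hav r2 hr2)
  have h3 := avg_le_Fsup hp ha hr1 x
  have h4 := avg_le_Fsup hp ha hr2 (x + h)
  rw [abs_le]
  constructor <;> linarith

/-- The dominating function. -/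
theorem lintegral_bound_ne_top (hp : IsPot g v) (R : ℝ) (c : ℝ) :
    ∫⁻ x, ENNReal.ofReal (c * ∫ y in ball x R, ‖v y‖) ≠ ⊤ := by
  have hi : Integrable fun x : EE d => ∫ y in ball x R, ‖v y‖ := by
    rcases le_or_gt R 0 with hR | hR
    · simp [ball_eq_empty.2 hR]
    have e : (fun x : EE d => ∫ y in ball x R, ‖v y‖) =
        fun x => volume.real (ball (0 : EE d) R) * ballAvg R (fun y => ‖v y‖) x := by
      funext x
      rw [Band.ballAvg_eq, smul_eq_mul, Band.vol_eq 0 hR, ← Band.vol_eq x hR,
        mul_inv_cancel_left₀ (Band.vol_pos x hR).ne']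
    rw [e]
    exact (Flux.integrable_avg hp.contv.norm hp.intv.norm).const_mul _
  exact (hi.const_mul c).lintegral_lt_top.ne

/-- Descents beyond a slope are bounded by the excess of the gradient norm over the slope. -/
theorem descent_le (hp : IsPot g v) (ha : 0 < a) (hab : a ≤ b) {L : ℝ} (hL : 0 ≤ L) (h : EE d) :
    ∫⁻ x, ENNReal.ofReal (Fsup a b g x - Fsup a b g (x + h) - L * ‖h‖) ≤
      ‖h‖ₑ * ∫⁻ x, ENNReal.ofReal (‖fderiv ℝ (Fsup a b g) x‖ - L) := by
  set F := Fsup a b g with hF
  have hlip := Fsup_lipschitz hp ha hab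
  have hFc : Continuous F := hlip.continuous
  set t : ℕ → ℝ := fun m => 1 / ((m : ℝ) + 1) with ht
  have ht0 : ∀ m, 0 < t m := fun m => by simp only [ht]; positivity
  set φ : ℕ → EE d → ℝ≥0∞ := fun m x =>
    ENNReal.ofReal ((t m)⁻¹ * (F x - F (x + t m • h)) - L * ‖h‖) with hφ
  have hφm : ∀ m, Measurable (φ m) := fun m =>
    (Continuous.measurable (by fun_prop)).ennreal_ofReal
  -- cutting the shift
  have hcut : ∀ m, ∫⁻ x, ENNReal.ofReal (F x - F (x + h) - L * ‖h‖) ≤ ∫⁻ x, φ m x := by
    intro m
    set u := t m • h with hu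
    have hpt : ∀ x, ENNReal.ofReal (F x - F (x + h) - L * ‖h‖) ≤
        ∑ i ∈ Finset.range (m + 1), ENNReal.ofReal (t m) * φ m (x + (i : ℝ) • u) := by
      intro x
      have htel := Finset.sum_range_sub' (fun i : ℕ => F (x + (i : ℝ) • u)) (m + 1)
      have hmu : ((m + 1 : ℕ) : ℝ) • u = h := by
        rw [hu, smul_smul, ht]
        push_cast
        rw [mul_one_div_cancel (by positivity), one_smul]
      simp only [hmu, Nat.cast_zero, zero_smul, add_zero] at htel
      have e : F x - F (x + h) - L * ‖h‖ = ∑ i ∈ Finset.range (m + 1), t m *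
          ((t m)⁻¹ * (F (x + (i : ℝ) • u) - F (x + (i : ℝ) • u + u)) - L * ‖h‖) := by
        rw [← htel]
        simp only [mul_sub, mul_inv_cancel_left₀ (ht0 m).ne', Finset.sum_sub_distrib]
        rw [Finset.sum_const, Finset.card_range, nsmul_eq_mul, ← mul_assoc ((m + 1 : ℕ) : ℝ)]
        have : ((m + 1 : ℕ) : ℝ) * t m = 1 := by
          simp only [ht]; push_cast; rw [mul_one_div_cancel (by positivity)]
        rw [this, one_mul, mul_comm]
        simp only [Nat.cast_add, Nat.cast_one, add_smul, one_smul, add_assoc]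
      rw [e]
      refine le_trans ?_ (le_of_eq (Finset.sum_congr rfl fun i _ => ?_))
        (b := ∑ i ∈ Finset.range (m + 1), ENNReal.ofReal (t m *
          ((t m)⁻¹ * (F (x + (i : ℝ) • u) - F (x + (i : ℝ) • u + u)) - L * ‖h‖)))
      · exact Finset.le_sum_of_subadditive ENNReal.ofReal (ENNReal.ofReal_zero).le
          (fun p q => ENNReal.ofReal_add_le) _ _
      · rw [hφ, ENNReal.ofReal_mul (ht0 m).le]
    refine (lintegral_mono hpt).trans (le_of_eq ?_)
    rw [lintegral_finsetSum (Finset.range (m + 1)) fun (i : ℕ) _ =>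
      Measurable.const_mul (f := fun x => φ m (x + (i : ℝ) • u))
        ((hφm m).comp (measurable_id.add_const _)) (ENNReal.ofReal (t m))]
    simp only [lintegral_const_mul' _ _ ENNReal.ofReal_ne_top, lintegral_add_right_eq_self (φ m)]
    rw [Finset.sum_const, Finset.card_range, nsmul_eq_mul, ← mul_assoc, ← ENNReal.ofReal_natCast,
      ← ENNReal.ofReal_mul (by positivity)]
    simp only [ht]
    push_cast
    rw [mul_one_div_cancel (by positivity), ENNReal.ofReal_one, one_mul]
  -- the limit
  set R := b + ‖h‖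
  set c := ‖h‖ * (volume.real (ball (0 : EE d) a))⁻¹
  have hbd : ∀ m, φ m ≤ᵐ[volume] fun x =>
      ENNReal.ofReal (c * ∫ y in ball x R, ‖v y‖) := by
    intro m
    refine .of_forall fun x => ENNReal.ofReal_le_ofReal ?_
    have htu : ‖t m • h‖ = t m * ‖h‖ := by rw [norm_smul, Real.norm_of_nonneg (ht0 m).le]
    have ht1 : t m ≤ 1 := by
      simp only [ht]; rw [div_le_one (by positivity)]; linarith [Nat.cast_nonneg (α := ℝ) m]
    have := (abs_le.1 (Fsup_shift_le hp ha hab (R := R) x (t m • h) (by
      rw [htu]; simp only [R]; nlinarith [norm_nonneg h]))).1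
    rw [htu] at this
    have h2 : (t m)⁻¹ * (F x - F (x + t m • h)) ≤ c * ∫ y in ball x R, ‖v y‖ := by
      rw [inv_mul_le_iff₀ (ht0 m)]
      simp only [c, hF]
      linarith
    nlinarith [mul_nonneg hL (norm_nonneg h)]
  have hlim : ∀ᵐ x ∂(volume : Measure (EE d)), Tendsto (fun m => φ m x) atTop
      (𝓝 (ENNReal.ofReal (-(fderiv ℝ F x h) - L * ‖h‖))) := by
    filter_upwards [hlip.ae_differentiableAt] with x hx
    refine ENNReal.tendsto_ofReal (Tendsto.sub_const ?_ _)
    have hs := ((hx.hasFDerivAt.hasLineDerivAt h).tendsto_slope_zero_right).comp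
      (f := t) (tendsto_nhdsWithin_iff.2 ⟨tendsto_one_div_add_atTop_nhds_zero_nat,
        .of_forall fun m => ht0 m⟩)
    refine hs.neg.congr fun m => ?_
    simp only [Function.comp_apply, smul_eq_mul]
    ring
  have hconv := tendsto_lintegral_of_dominated_convergence
    (fun x => ENNReal.ofReal (c * ∫ y in ball x R, ‖v y‖)) hφm hbd
    (lintegral_bound_ne_top hp R c) hlim
  refine le_trans (le_of_tendsto_of_tendsto tendsto_const_nhds hconv (.of_forall hcut)) ?_
  rw [← lintegral_const_mul' _ _ enorm_ne_top]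
  refine lintegral_mono fun x => ?_
  rw [← ofReal_norm, ← ENNReal.ofReal_mul (norm_nonneg h)]
  refine ENNReal.ofReal_le_ofReal ?_
  have h1 := (abs_le.1 ((Real.norm_eq_abs _).symm.le.trans
    ((fderiv ℝ F x).le_opNorm h))).1
  linarith

end Descent

end Vale.Agent.P137
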