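import Vale.Agent.P137.Centred.Defs

/-!
The combinatorial assembly of the excess bound for the centred operator.

`LevelData` lists what the analysis provides at one point, one radius and one direction: the
vectors `P n`, radial parts `sig n`, masses `Z n`, band deficits `D n`, and which depths are
survivors.  Groups of survivors are vectors of controlled size, so the excess of `P J` is bounded
by the terms `T` alone.
-/

namespace Vale.Agent.P137

open Finset Filter Topology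
open scoped RealInnerProductSpace

variable {d : ℕ}

/-- The pointwise data of the excess bound. -/
structure LevelData (d J N1 : ℕ) (q C : ℝ) (e : EE d) where
  P : ℕ → EE d
  sig : ℕ → ℝ
  Z : ℕ → ℝ
  D : ℕ → ℝ
  G : ℕ → ℝ
  T : ℕ → ℝ
  Wd : ℕ → EE d → ℝ
  S : ℕ → Prop
  dir : ℕ → EE d
  D_nonneg : ∀ n, 0 ≤ D n
  Z_nonneg : ∀ n, 0 ≤ Z n
  G_nonneg : ∀ n, 0 ≤ G n
  T_nonneg : ∀ n, 0 ≤ T n
  G_le : ∀ n, n ≤ J → q ^ n * G n ≤ T n
  D_le : ∀ n, n ≤ J → q ^ n * D n ≤ T n
  base : ‖P 0‖ ≤ ⟪P 0, e⟫ + 2 * D 0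
  layer : ∀ n, n < J → ‖P (n + 1) - P n‖ ≤ ⟪P (n + 1) - P n, e⟫ + 2 * D (n + 1)
  Z_le : ∀ n, n ≤ J → Z n ≤ ⟪P n, e⟫ + G n
  rem : ∀ n, n ≤ J → ¬S n →
    D n ≤ q ^ (17 * n) * (T n + if N1 ≤ n then q ^ n * Z (n / 16) else 0)
  S_range : ∀ n, S n → N1 ≤ n ∧ n ≤ J
  dir_norm : ∀ n, S n → ‖dir n‖ = 1
  dir_close : ∀ n n', S n → S n' → n < n' → n' ≤ 64 * n → ‖dir n - dir n'‖ ≤ q ^ n
  W_le : ∀ n, n ≤ J → ∀ n0 : EE d, ‖n0‖ = 1 → Wd n n0 ≤ C * D n
  W_S : ∀ n, S n → ∀ n0 : EE d, ‖n0‖ = 1 →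
    Wd n n0 ≤ C * ((q ^ n + ‖dir n - n0‖) * D n + T n)
  group : ∀ m j', S m → m / 16 < j' → j' ≤ J → ∀ n0 : EE d, ‖n0‖ = 1 →
    ‖n0 - dir m‖ ≤ q ^ m / (1 - q) →
    ‖P j' - P (m / 16)‖ ≤ C * (|sig (m / 16)| + |sig j'| + q ^ m * Z (m / 16) + T m +
      D (m / 16) / q ^ m + q ^ m * ∑ k ∈ range (J + 1), T k + ∑ k ∈ Ioc (m / 16) j', Wd k n0)
  test : ∀ m, S m → |sig (m / 16)| ≤ C * (q ^ m * Z (m / 16) + T m + D (m / 16) / q ^ m +
      q ^ m * ∑ k ∈ range (J + 1), T k)
  top : (∃ n, S n) → sig J = 0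
  mono : ∀ m i, S m → m / 16 ≤ i → i ≤ J → Z i ≤ C * (Z (m / 16) + T m + D (m / 16) / q ^ m +
      ∑ k ∈ range (J + 1), T k + ∑ k ∈ range (i + 1), G k)

theorem geom_Ico_le {q : ℝ} (hq : 0 < q) (hq1 : q < 1) (a b : ℕ) :
    ∑ n ∈ Ico a b, q ^ n ≤ q ^ a / (1 - q) :=
  geom_sum_Ico_le_of_lt_one hq.le hq1

theorem geom_le {q : ℝ} (hq : 0 < q) (hq1 : q < 1) (b _a : ℕ) :
    ∑ n ∈ range b, q ^ n ≤ 1 / (1 - q) := by
  have h := geom_Ico_le hq hq1 0 b
  rw [← range_eq_Ico, pow_zero] at h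
  exact h

theorem absorb_real {q C K B M S0 t a p nP : ℝ} {N1 : ℕ} (hq : 0 < q) (hq1 : q < 1) (hC : 1 ≤ C)
    (hsmall : 10000 * C ^ 5 / (1 - q) ^ 3 * (q ^ N1 / (1 - q)) ≤ 1) (ht : 0 ≤ t) (hM0 : 0 ≤ M)
    (hK : K = 6 * C ^ 2 / (1 - q)) (hB : B = 8 * C * (K + 1)) (ha : a = max 0 p)
    (hM : M ≤ B * (q ^ N1 / (1 - q)) * (a + S0 + t) + B * (t / (1 - q)))
    (hS : S0 ≤ 2 / (1 - q) * t + M) (hn : nP ≤ p + (4 * K + 2) * S0) :
    max 0 (nP - 3 * p) ≤ 12000 * C ^ 6 / (1 - q) ^ 5 * t ∨ nP < 0 := by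
  by_cases hnP : nP < 0
  · exact Or.inr hnP
  left
  simp only [div_eq_mul_inv] at hsmall hK hM hS ⊢
  simp only [← inv_pow] at hsmall ⊢
  set u := (1 - q)⁻¹ with hu
  have hu1 : 1 ≤ u := one_le_inv_iff₀.2 ⟨by linarith, by linarith⟩
  set k := q ^ N1 * u with hk
  have hk0 : 0 ≤ k := mul_nonneg (pow_nonneg hq.le _) (by linarith)
  have ha0 : 0 ≤ a := ha ▸ le_max_left _ _
  have hut : t ≤ u * t := le_mul_of_one_le_left ht hu1
  have hC3 : 1 ≤ C ^ 3 := one_le_pow₀ hC
  have hC2 : 1 ≤ C ^ 2 := one_le_pow₀ hC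
  have hu3 : (1 : ℝ) ≤ C ^ 3 * u := one_le_mul_of_one_le_of_one_le hC3 hu1
  have hB56 : B ≤ 56 * (C ^ 3 * u) := by
    have : C ≤ C ^ 3 * u := by nlinarith
    rw [hB, hK]; nlinarith
  have hB0 : 0 ≤ B := by rw [hB, hK]; positivity
  have hK26 : 4 * K + 2 ≤ 26 * (C ^ 2 * u) := by
    have : (1 : ℝ) ≤ C ^ 2 * u := one_le_mul_of_one_le_of_one_le hC2 hu1
    rw [hK]; linarith
  have hK0 : 0 ≤ 4 * K + 2 := by rw [hK]; positivity
  have hBk : B * k ≤ 56 / 10000 := by
    have h1 : B * k ≤ 56 * (C ^ 3 * u) * k := mul_le_mul_of_nonneg_right hB56 hk0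
    have h2 : C ^ 3 * u * k ≤ C ^ 5 * u ^ 3 * k := by
      refine mul_le_mul_of_nonneg_right (mul_le_mul (pow_le_pow_right₀ hC (by norm_num))
        (le_self_pow₀ hu1 (by norm_num)) (by linarith) (by positivity)) hk0
    linarith
  have hBk0 : 0 ≤ B * k := mul_nonneg hB0 hk0
  have hM2 : M ≤ 3 * (B * k) * a + 120 * (C ^ 3 * u ^ 2) * t := by
    have h1 := mul_le_mul_of_nonneg_left hS hBk0
    have h2 := mul_le_mul_of_nonneg_right hBk hM0
    have h3 := mul_le_mul_of_nonneg_right hBk (mul_nonneg (by linarith : (0 : ℝ) ≤ u) ht)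
    have h4 := mul_le_mul_of_nonneg_right hBk ht
    have h5 : B * (t * u) ≤ 56 * (C ^ 3 * u) * (t * u) :=
      mul_le_mul_of_nonneg_right hB56 (by positivity)
    have h6 : u * t ≤ C ^ 3 * u ^ 2 * t := by
      refine mul_le_mul_of_nonneg_right ?_ ht; nlinarith
    have h7 : 0 ≤ B * k * a := mul_nonneg hBk0 ha0
    nlinarith
  have hsum : (4 * K + 2) * S0 ≤ a / 2 + 3200 * (C ^ 5 * u ^ 3) * t := by
    have h1 : S0 ≤ 3 * (B * k) * a + 122 * (C ^ 3 * u ^ 2) * t := by
      have h6 : u * t ≤ C ^ 3 * u ^ 2 * t := by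
        refine mul_le_mul_of_nonneg_right ?_ ht; nlinarith
      linarith
    have h2 := mul_le_mul_of_nonneg_left h1 hK0
    have h3 : (4 * K + 2) * (B * k) ≤ 26 * (C ^ 2 * u) * (56 * (C ^ 3 * u) * k) := by
      refine mul_le_mul hK26 (mul_le_mul_of_nonneg_right hB56 hk0) hBk0 (by positivity)
    have h4 : C ^ 5 * u ^ 2 * k ≤ C ^ 5 * u ^ 3 * k :=
      mul_le_mul_of_nonneg_right (mul_le_mul_of_nonneg_left
        (pow_le_pow_right₀ hu1 (by norm_num)) (by positivity)) hk0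
    have h5 : (4 * K + 2) * (B * k) ≤ 1456 / 10000 := by nlinarith
    have h6 := mul_le_mul_of_nonneg_right h5 ha0
    have h7 := mul_le_mul_of_nonneg_right hK26
      (show 0 ≤ 122 * (C ^ 3 * u ^ 2) * t by positivity)
    nlinarith
  have hfin : 3200 * (C ^ 5 * u ^ 3) * t * 3 ≤ 12000 * (C ^ 6 * u ^ 5) * t := by
    have : C ^ 5 * u ^ 3 ≤ C ^ 6 * u ^ 5 := mul_le_mul (pow_le_pow_right₀ hC (by norm_num))
      (pow_le_pow_right₀ hu1 (by norm_num)) (by positivity) (by positivity)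
    nlinarith [mul_le_mul_of_nonneg_right this ht, mul_nonneg (show (0:ℝ) ≤ C ^ 6 * u ^ 5 by positivity) ht]
  have h0 : 0 ≤ 3200 * (C ^ 5 * u ^ 3) * t := by positivity
  refine max_le (by positivity) ?_
  rcases le_total 0 p with hp | hp
  · rw [max_eq_right hp] at ha
    linarith
  · rw [max_eq_left hp] at ha
    linarith

namespace LevelData

variable {J N1 : ℕ} {q C : ℝ} {e : EE d} (L : LevelData d J N1 q C e)

/-- A start: a survivor with no survivor shortly before it. -/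
def Start (m : ℕ) : Prop := L.S m ∧ ∀ k, m / 32 ≤ k → k < m → ¬L.S k

/-- The total of the terms. -/
noncomputable def tot : ℝ := ∑ k ∈ range (J + 1), L.T k

/-- The absorbed mass at one depth. -/
noncomputable def absorb (n : ℕ) : ℝ := if N1 ≤ n then q ^ n * L.Z (n / 16) else 0

/-- The charge of one depth. -/
noncomputable def chg (n : ℕ) : ℝ :=
  L.T n + L.absorb n + if N1 ≤ n then q ^ n * L.tot else 0

theorem tot_nonneg : 0 ≤ L.tot := sum_nonneg fun k _ => L.T_nonneg k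

theorem absorb_nonneg (hq : 0 ≤ q) (n : ℕ) : 0 ≤ L.absorb n := by
  unfold absorb; split_ifs
  · exact mul_nonneg (pow_nonneg hq n) (L.Z_nonneg _)
  · exact le_rfl

theorem chg_nonneg (hq : 0 ≤ q) (n : ℕ) : 0 ≤ L.chg n := by
  unfold chg
  have := L.T_nonneg n
  have := L.absorb_nonneg hq n
  have := mul_nonneg (pow_nonneg hq n) L.tot_nonneg
  split_ifs <;> linarith

theorem exists_start {b : ℕ} (h : ∃ n, L.S n ∧ n ≤ b) :
    ∃ m l, L.Start m ∧ L.S l ∧ m ≤ l ∧ l ≤ b ∧ (∀ k, L.S k → k ≤ b → k ≤ l) ∧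
      ∀ k, m < k → k ≤ b → ¬L.Start k := by
  classical
  obtain ⟨n, hn, hnb⟩ := h
  have hl := Nat.findGreatest_spec (P := L.S) hnb hn
  set l := Nat.findGreatest L.S b
  have hex : ∃ k, L.Start k ∧ k ≤ l := by
    have h0 : ∃ k, L.S k := ⟨l, hl⟩
    refine ⟨Nat.find h0, ⟨Nat.find_spec h0, fun k _ hk => Nat.find_min h0 hk⟩, ?_⟩
    exact Nat.find_le hl
  obtain ⟨k, hk, hkl⟩ := hex
  have hlb : l ≤ b := Nat.findGreatest_le b
  have hm := Nat.findGreatest_spec (P := L.Start) hkl hk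
  refine ⟨Nat.findGreatest L.Start l, l, hm, hl, Nat.findGreatest_le l, hlb,
    fun k hk hkb => Nat.le_findGreatest hkb hk, fun k hk hkb hst => ?_⟩
  have : k ≤ l := Nat.le_findGreatest hkb hst.1
  exact absurd hst (Nat.findGreatest_is_greatest hk this)

/-- Along a group the directions drift geometrically. -/
theorem drift (hq : 0 < q) (hq1 : q < 1) (hN : 16 ≤ N1) {m l : ℕ} (hl : L.S l)
    (hno : ∀ k, m < k → k ≤ l → ¬L.Start k) :
    ∀ k, L.S k → m ≤ k → k ≤ l → ‖L.dir k - L.dir l‖ ≤ q ^ k / (1 - q) - q ^ l / (1 - q) := by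
  classical
  intro k hk hmk hkl
  induction hd : l - k using Nat.strong_induction_on generalizing k with
  | _ t ih =>
    rcases eq_or_lt_of_le hkl with rfl | hlt
    · simp
    have hex : ∃ i, L.S i ∧ k < i := ⟨l, hl, hlt⟩
    obtain ⟨hS, hki⟩ := Nat.find_spec hex
    set i := Nat.find hex
    have hil : i ≤ l := Nat.find_le ⟨hl, hlt⟩
    have hns := hno i (by omega) hil
    have hgap : ∃ p, i / 32 ≤ p ∧ p < i ∧ L.S p := by
      by_contra hc
      exact hns ⟨hS, fun p h1 h2 h3 => hc ⟨p, h1, h2, h3⟩⟩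
    obtain ⟨p, hp1, hp2, hp3⟩ := hgap
    have hpk : p ≤ k := by
      by_contra hc
      exact Nat.find_min hex hp2 ⟨hp3, by omega⟩
    have hk1 := (L.S_range k hk).1
    have hclose := L.dir_close k i hk hS hki (by omega)
    have hrec := ih (l - i) (by omega) i hS (by omega) hil rfl
    have htri : ‖L.dir k - L.dir l‖ ≤ ‖L.dir k - L.dir i‖ + ‖L.dir i - L.dir l‖ := by
      simpa using norm_sub_le_norm_sub_add_norm_sub (L.dir k) (L.dir i) (L.dir l)
    have hpow : q ^ k + q ^ i / (1 - q) ≤ q ^ k / (1 - q) := by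
      rw [le_div_iff₀ (by linarith), add_mul, div_mul_cancel₀ _ (by linarith)]
      have : q ^ i ≤ q ^ (k + 1) := pow_le_pow_of_le_one hq.le hq1.le hki
      rw [pow_succ] at this
      nlinarith
    linarith

theorem D_le_chg (hq : 0 < q) (hq1 : q < 1) {n : ℕ} (hn : n ≤ J) (hS : ¬L.S n) :
    L.D n ≤ L.chg n := by
  refine (L.rem n hn hS).trans ?_
  have h1 : q ^ (17 * n) ≤ 1 := pow_le_one₀ hq.le hq1.le
  have h2 : 0 ≤ L.T n + L.absorb n := add_nonneg (L.T_nonneg n) (L.absorb_nonneg hq.le n)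
  refine (mul_le_of_le_one_left h2 h1).trans ?_
  unfold chg
  split_ifs
  · linarith [mul_nonneg (pow_nonneg hq.le n) L.tot_nonneg]
  · linarith

theorem boosted_le_chg (hq : 0 < q) (hq1 : q < 1) (hN : 256 ≤ N1) {m : ℕ} (hm : L.Start m) :
    L.D (m / 16) / q ^ m ≤ L.chg (m / 16) := by
  obtain ⟨hm1, hmJ⟩ := L.S_range m hm.1
  have hns : ¬L.S (m / 16) := hm.2 _ (by omega) (by omega)
  rw [div_le_iff₀ (pow_pos hq m)]
  refine (L.rem (m / 16) (by omega) hns).trans ?_
  have h2 : 0 ≤ L.T (m / 16) + L.absorb (m / 16) :=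
    add_nonneg (L.T_nonneg _) (L.absorb_nonneg hq.le _)
  rw [mul_comm (L.chg _)]
  refine mul_le_mul (pow_le_pow_of_le_one hq.le hq1.le (by omega)) ?_ h2 (pow_nonneg hq.le m)
  simp only [chg, absorb]
  split_ifs
  · linarith [mul_nonneg (pow_nonneg hq.le (m / 16)) L.tot_nonneg]
  · simp

theorem start_terms (hq : 0 < q) {m : ℕ} (hm : L.Start m) :
    q ^ m * L.Z (m / 16) + L.T m + q ^ m * L.tot = L.chg m := by
  simp [chg, absorb, (L.S_range m hm.1).1]
  ring

/-- The groups above the first start are small as vectors. -/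
theorem groups (hq : 0 < q) (hq1 : q < 1) (hN : 256 ≤ N1) (hC : 1 ≤ C) (b : ℕ) (hb : b ≤ J) :
    ∃ j ≤ b, (∀ k ≤ j, ¬L.S k) ∧ ((∀ k ≤ b, ¬L.S k) → j = b) ∧
      (∀ n, L.S n → n ≤ b → ∃ m, L.S m ∧ (∀ k < m, ¬L.S k) ∧ j = m / 16) ∧ ‖L.P b - L.P j‖ ≤ C * |L.sig b| +
      6 * C ^ 2 / (1 - q) * (∑ k ∈ range (b + 1), L.chg k + ∑ k ∈ range b, L.chg k) := by
  classical
  have hC0 : 0 ≤ C := by linarith
  induction b using Nat.strong_induction_on with
  | _ b ih =>
    have hchg := L.chg_nonneg hq.le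
    set K := 6 * C ^ 2 / (1 - q) with hK
    have hK0 : 0 ≤ K := div_nonneg (by positivity) (by linarith)
    by_cases hex : ∃ n, L.S n ∧ n ≤ b
    swap
    · refine ⟨b, le_rfl, fun k hk hS => hex ⟨k, hS, hk⟩, fun _ => rfl,
        fun n hn hnb => absurd ⟨n, hn, hnb⟩ hex, ?_⟩
      rw [sub_self, norm_zero]
      exact add_nonneg (by positivity) (mul_nonneg hK0
        (add_nonneg (sum_nonneg fun k _ => hchg k) (sum_nonneg fun k _ => hchg k)))
    obtain ⟨m, l, hm, hl, hml, hlb, hmax, hno⟩ := L.exists_start hex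
    obtain ⟨hm1, hmJ⟩ := L.S_range m hm.1
    set j := m / 16
    have hjb : j < b := by omega
    obtain ⟨j1, hj1, hfree, hnone, hfirst, hrec⟩ := ih j hjb (by omega)
    refine ⟨j1, by omega, hfree, fun h => absurd hm.1 (h m (by omega)), fun n _ _ => ?_, ?_⟩
    · by_cases hlow : ∃ k, L.S k ∧ k ≤ j
      · obtain ⟨k, hk, hkj⟩ := hlow
        exact hfirst k hk hkj
      · refine ⟨m, hm.1, fun k hk hS => ?_, hnone fun k hk hS => hlow ⟨k, hS, hk⟩⟩
        by_cases hkj : k ≤ j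
        · exact hlow ⟨k, hS, hkj⟩
        · exact hm.2 k (by omega) hk hS
    have hdr := L.drift hq hq1 (by omega) hl fun k h1 h2 => hno k h1 (by omega)
    have hnear : ‖L.dir l - L.dir m‖ ≤ q ^ m / (1 - q) := by
      rw [norm_sub_rev]
      refine (hdr m hm.1 le_rfl hml).trans (sub_le_self _ ?_)
      exact div_nonneg (pow_nonneg hq.le l) (by linarith)
    have hg := L.group m b hm.1 hjb hb (L.dir l) (L.dir_norm l hl) hnear
    have hW : ∑ k ∈ Ioc j b, L.Wd k (L.dir l) ≤ 3 * C / (1 - q) * ∑ k ∈ Ioc j b, L.chg k := by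
      rw [mul_sum]
      refine sum_le_sum fun k hk => ?_
      rw [mem_Ioc] at hk
      have h3 : C ≤ 3 * C / (1 - q) := by
        rw [le_div_iff₀ (by linarith)]; nlinarith
      by_cases hS : L.S k
      · have hmk : m ≤ k := by
          by_contra hc
          exact hm.2 k (by omega) (by omega) hS
        refine (L.W_S k hS _ (L.dir_norm l hl)).trans ?_
        have hd := (hdr k hS hmk (hmax k hS hk.2)).trans
          (sub_le_self _ (div_nonneg (pow_nonneg hq.le l) (by linarith)))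
        have hD := L.D_le k (by omega)
        have hT : L.T k ≤ L.chg k := by
          unfold chg
          have := L.absorb_nonneg hq.le k
          have := mul_nonneg (pow_nonneg hq.le k) L.tot_nonneg
          split_ifs <;> linarith
        have h1 : q ^ k ≤ q ^ k / (1 - q) := by
          rw [le_div_iff₀ (by linarith)]; nlinarith [pow_nonneg hq.le k]
        calc C * ((q ^ k + ‖L.dir k - L.dir l‖) * L.D k + L.T k)
            ≤ C * (2 * (q ^ k / (1 - q)) * L.D k + L.T k) := by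
              have := L.D_nonneg k
              gcongr
              linarith
          _ = C * (2 * (q ^ k * L.D k) + (1 - q) * L.T k) / (1 - q) := by
              field_simp [(by linarith : (1 - q) ≠ 0)]
          _ ≤ C * (3 * L.chg k) / (1 - q) := by
              gcongr
              nlinarith [L.T_nonneg k]
          _ = _ := by ring
      · exact ((L.W_le k (by omega) _ (L.dir_norm l hl)).trans
          (mul_le_mul_of_nonneg_left (L.D_le_chg hq hq1 (by omega) hS) hC0)).trans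
          (mul_le_mul_of_nonneg_right h3 (hchg k))
    have hst := L.start_terms hq hm
    have hbo := L.boosted_le_chg hq hq1 hN hm
    have htest := L.test m hm.1
    have hjm : L.chg m ≤ ∑ k ∈ Ioc j b, L.chg k :=
      single_le_sum (f := L.chg) (fun k _ => hchg k) (by rw [mem_Ioc]; omega)
    have hI0 : 0 ≤ ∑ k ∈ Ioc j b, L.chg k := sum_nonneg fun k _ => hchg k
    have hsplit : ∑ k ∈ range (b + 1), L.chg k =
        ∑ k ∈ range (j + 1), L.chg k + ∑ k ∈ Ioc j b, L.chg k := by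
      rw [← sum_range_add_sum_Ico _ (by omega : j + 1 ≤ b + 1)]
      congr 1
      apply sum_congr _ fun _ _ => rfl
      ext k; simp only [mem_Ico, mem_Ioc]; omega
    have hlow : ∑ k ∈ range (j + 1), L.chg k ≤ ∑ k ∈ range b, L.chg k :=
      sum_le_sum_of_subset_of_nonneg (range_subset_range.2 (by omega)) fun k _ _ => hchg k
    have hj' : ∑ k ∈ range (j + 1), L.chg k = ∑ k ∈ range j, L.chg k + L.chg j := sum_range_succ _ _
    have htri : ‖L.P b - L.P j1‖ ≤ ‖L.P b - L.P j‖ + ‖L.P j - L.P j1‖ :=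
      norm_sub_le_norm_sub_add_norm_sub _ _ _
    simp only [show ∑ k ∈ range (J + 1), L.T k = L.tot from rfl] at hg htest
    have e1 : |L.sig j| ≤ C * (L.chg m + L.chg j) :=
      htest.trans (mul_le_mul_of_nonneg_left (by linarith) hC0)
    have e2 : (2 * C ^ 2 + C) + C ^ 2 * 3 / (1 - q) ≤ K := by
      rw [hK, le_div_iff₀ (by linarith), add_mul, div_mul_cancel₀ _ (by linarith)]
      nlinarith
    have e3 : 2 * C ^ 2 + C ≤ K :=
      le_trans (le_add_of_nonneg_right (div_nonneg (by positivity) (by linarith))) e2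
    have e5 := mul_le_mul_of_nonneg_left e1 hC0
    have e6 := mul_le_mul_of_nonneg_left hW hC0
    have e7 := mul_le_mul_of_nonneg_left hbo hC0
    have e8 : C * (q ^ m * L.Z j + L.T m + q ^ m * L.tot) = C * L.chg m := by rw [hst]
    have e9 : C * (3 * C / (1 - q) * ∑ k ∈ Ioc j b, L.chg k) =
        C ^ 2 * 3 / (1 - q) * ∑ k ∈ Ioc j b, L.chg k := by ring
    have f1 := mul_le_mul_of_nonneg_left hjm (by positivity : 0 ≤ 2 * C ^ 2 + C)
    have f2 := mul_le_mul_of_nonneg_right e2 hI0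
    have f3 := mul_le_mul_of_nonneg_right e3 (hchg j)
    have f4 := mul_le_mul_of_nonneg_left hlow hK0
    nlinarith

theorem tail_G (hq : 0 < q) (hq1 : q < 1) (L : LevelData d J N1 q C e) :
    ∑ n ∈ (range (J + 1)).filter (N1 ≤ ·), q ^ n * ∑ k ∈ range (n / 16 + 1), L.G k ≤
      L.tot / (1 - q) := by
  refine (sum_le_sum_of_subset_of_nonneg (filter_subset _ _) fun n _ _ =>
    mul_nonneg (pow_nonneg hq.le n) (sum_nonneg fun k _ => L.G_nonneg k)).trans ?_
  simp only [mul_sum]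
  rw [sum_comm' (t' := range (J + 1)) (s' := fun k => (Ico (16 * k) (J + 1)))
    (fun n k => by simp; omega)]
  rw [tot, sum_div]
  refine sum_le_sum fun k hk => ?_
  rw [← sum_mul]
  calc (∑ n ∈ Ico (16 * k) (J + 1), q ^ n) * L.G k ≤ q ^ (16 * k) / (1 - q) * L.G k :=
        mul_le_mul_of_nonneg_right (geom_Ico_le hq hq1 _ _) (L.G_nonneg k)
    _ ≤ q ^ k * L.G k / (1 - q) := by
        rw [div_mul_eq_mul_div]
        refine div_le_div_of_nonneg_right ?_ (by linarith)
        exact mul_le_mul_of_nonneg_right (pow_le_pow_of_le_one hq.le hq1.le (by omega))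
            (L.G_nonneg k)
    _ ≤ _ := div_le_div_of_nonneg_right (L.G_le k (by simp at hk; omega)) (by linarith)

theorem P_mono (hq : 0 < q) (hq1 : q < 1) {i : ℕ} :
    ∀ k, i ≤ k → k ≤ J → (∀ n, i < n → n ≤ k → ¬L.S n) →
      ⟪L.P i, e⟫ ≤ ⟪L.P k, e⟫ + 2 * ∑ n ∈ Ioc i k, L.chg n := by
  intro k hik
  induction k, hik using Nat.le_induction with
  | base => intro _ _; simp
  | succ k hik ih =>
    intro hk hns
    have h1 := ih (by omega) fun n hn1 hn2 => hns n hn1 (by omega)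
    have h2 := L.layer k (by omega)
    have h3 := L.D_le_chg hq hq1 (n := k + 1) hk (hns (k + 1) (by omega) le_rfl)
    rw [inner_sub_left] at h2
    rw [sum_Ioc_succ_top hik]
    linarith [norm_nonneg (L.P (k + 1) - L.P k)]

theorem P_base (hq : 0 < q) (hq1 : q < 1) :
    ∀ k, k ≤ J → (∀ n, n ≤ k → ¬L.S n) →
      ‖L.P k‖ ≤ ⟪L.P k, e⟫ + 2 * ∑ n ∈ range (k + 1), L.chg n := by
  intro k
  induction k with
  | zero =>
    intro hk hns
    have := L.D_le_chg hq hq1 hk (hns 0 le_rfl)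
    have := L.base
    simp
    linarith
  | succ k ih =>
    intro hk hns
    have h1 := ih (by omega) fun n hn => hns n (by omega)
    have h2 := L.layer k (by omega)
    have h3 := L.D_le_chg hq hq1 hk (hns (k + 1) le_rfl)
    have h4 := norm_le_norm_add_norm_sub' (L.P (k + 1)) (L.P k)
    rw [inner_sub_left] at h2
    rw [sum_range_succ]
    linarith

theorem sum_chg_le (hq : 0 < q) (hq1 : q < 1) (b : ℕ) (hb : b ≤ J) :
    ∑ k ∈ range (b + 1), L.chg k ≤
      2 / (1 - q) * L.tot + ∑ k ∈ range (J + 1), L.absorb k := by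
  refine (sum_le_sum_of_subset_of_nonneg (range_subset_range.2 (by omega : b + 1 ≤ J + 1))
    fun k _ _ => L.chg_nonneg hq.le k).trans ?_
  simp only [chg, sum_add_distrib]
  have h1 : ∑ n ∈ range (J + 1), (if N1 ≤ n then q ^ n * L.tot else 0) ≤ 1 / (1 - q) * L.tot :=
    calc ∑ n ∈ range (J + 1), (if N1 ≤ n then q ^ n * L.tot else 0)
        ≤ ∑ n ∈ range (J + 1), q ^ n * L.tot := sum_le_sum fun n _ => by
          split_ifs
          · exact le_rfl
          · exact mul_nonneg (pow_nonneg hq.le n) L.tot_nonneg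
      _ = (∑ n ∈ range (J + 1), q ^ n) * L.tot := (sum_mul _ _ _).symm
      _ ≤ _ := mul_le_mul_of_nonneg_right (geom_le hq hq1 _ 0) L.tot_nonneg
  have h2 : L.tot ≤ 1 / (1 - q) * L.tot :=
    le_mul_of_one_le_left L.tot_nonneg (by rw [le_div_iff₀ (by linarith)]; linarith)
  have h3 : 2 / (1 - q) * L.tot = 1 / (1 - q) * L.tot + 1 / (1 - q) * L.tot := by ring
  have h4 : ∑ k ∈ range (J + 1), L.T k = L.tot := rfl
  linarith

/-- The excess of `P J` is at most a multiple of the total of the terms. -/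
theorem excess_le (hq : 0 < q) (hq1 : q < 1) (hN : 256 ≤ N1) (hC : 1 ≤ C) (he : ‖e‖ = 1)
    (hsmall : 10000 * C ^ 5 / (1 - q) ^ 3 * (q ^ N1 / (1 - q)) ≤ 1) :
    excess 3 e (L.P J) ≤ 12000 * C ^ 6 / (1 - q) ^ 5 * L.tot := by
  classical
  set K := 6 * C ^ 2 / (1 - q) with hK
  set M := ∑ k ∈ range (J + 1), L.absorb k with hMdef
  set S0 := ∑ k ∈ range (J + 1), L.chg k with hS0
  set a := max 0 ⟪L.P J, e⟫ with ha
  have hchg := L.chg_nonneg hq.le
  have hS00 : 0 ≤ S0 := sum_nonneg fun k _ => hchg k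
  have hM0 : 0 ≤ M := sum_nonneg fun k _ => L.absorb_nonneg hq.le k
  have hK0 : 0 ≤ K := div_nonneg (by positivity) (by linarith)
  have hsub : ∀ {b : ℕ} (s : Finset ℕ), b ≤ J → s ⊆ range (b + 1) → ∑ k ∈ s, L.chg k ≤ S0 :=
    fun s hb hs => sum_le_sum_of_subset_of_nonneg
      (hs.trans (range_subset_range.2 (by omega))) fun k _ _ => hchg k
  obtain ⟨j1, hj1, hfree, hnone, hfirst, hR⟩ := L.groups hq hq1 hN hC J le_rfl
  have hRS : ‖L.P J - L.P j1‖ ≤ 2 * K * S0 := by
    by_cases hex : ∃ n, L.S n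
    · rw [L.top hex, abs_zero, mul_zero, zero_add] at hR
      refine hR.trans ?_
      rw [mul_assoc, mul_comm (2 : ℝ), mul_assoc, mul_two]
      exact mul_le_mul_of_nonneg_left (add_le_add le_rfl
        (hsub _ le_rfl (range_subset_range.2 (by omega)))) hK0 |>.trans (le_of_eq (by ring))
    · rw [hnone fun k _ hk => hex ⟨k, hk⟩, sub_self, norm_zero]
      positivity
  have hproj : ⟪L.P j1, e⟫ ≤ ⟪L.P J, e⟫ + 2 * K * S0 := by
    have h := abs_real_inner_le_norm (L.P j1 - L.P J) e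
    rw [he, mul_one, inner_sub_left, norm_sub_rev] at h
    linarith [(abs_le.1 h).2]
  set B := 8 * C * (K + 1) with hB
  have hZ : ∀ i, i ≤ J → L.Z i ≤ B * (a + S0 + L.tot + ∑ k ∈ range (i + 1), L.G k) := by
    intro i hi
    have hsum0 : 0 ≤ ∑ k ∈ range (i + 1), L.G k := sum_nonneg fun k _ => L.G_nonneg k
    have hGi : L.G i ≤ ∑ k ∈ range (i + 1), L.G k :=
      single_le_sum (fun k _ => L.G_nonneg k) (by simp)
    have hB1 : 2 * K + 2 ≤ B := by rw [hB]; nlinarith
    have ha0 : 0 ≤ a := le_max_left _ _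
    have hae : ⟪L.P J, e⟫ ≤ a := le_max_right _ _
    have ht := L.tot_nonneg
    rcases le_or_gt i j1 with hij | hij
    · have h1 := L.P_mono hq hq1 j1 hij hj1 fun n hn1 hn2 => hfree n hn2
      have h2 : ∑ k ∈ Ioc i j1, L.chg k ≤ S0 :=
        hsub _ hj1 fun k hk => by simp at hk ⊢; omega
      have h3 := L.Z_le i hi
      nlinarith
    · obtain ⟨n, hn⟩ : ∃ n, L.S n ∧ n ≤ J := by
        by_contra hc
        have := hnone fun k hk hS => hc ⟨k, hS, hk⟩
        omega
      obtain ⟨m, hm, hmin, hjm⟩ := hfirst n hn.1 hn.2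
      have hst : L.Start m := ⟨hm, fun k _ hk => hmin k hk⟩
      have h1 := L.mono m i hm (by omega) hi
      have h2 := L.Z_le (m / 16) (by omega)
      have h3 : L.D (m / 16) / q ^ m ≤ S0 :=
        (L.boosted_le_chg hq hq1 hN hst).trans
          (single_le_sum (f := L.chg) (fun k _ => hchg k) (by simp; omega))
      have h4 : L.T m ≤ L.tot :=
        single_le_sum (f := L.T) (fun k _ => L.T_nonneg k) (by simp; linarith [(L.S_range m hm).2])
      have h5 : L.G (m / 16) ≤ ∑ k ∈ range (i + 1), L.G k :=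
        single_le_sum (fun k _ => L.G_nonneg k) (by simp; omega)
      rw [hjm] at hproj
      calc L.Z i ≤ C * (L.Z (m / 16) + L.T m + L.D (m / 16) / q ^ m +
            ∑ k ∈ range (J + 1), L.T k + ∑ k ∈ range (i + 1), L.G k) := h1
        _ ≤ C * ((2 * K + 2) * (a + S0 + L.tot + ∑ k ∈ range (i + 1), L.G k)) := by
          gcongr
          have : ∑ k ∈ range (J + 1), L.T k = L.tot := rfl
          nlinarith
        _ ≤ _ := by
          rw [hB, ← mul_assoc]
          refine mul_le_mul_of_nonneg_right ?_ (by linarith)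
          nlinarith
  have hM : M ≤ B * (q ^ N1 / (1 - q)) * (a + S0 + L.tot) + B * (L.tot / (1 - q)) := by
    calc M ≤ ∑ n ∈ range (J + 1), (if N1 ≤ n then q ^ n *
          (B * (a + S0 + L.tot + ∑ k ∈ range (n / 16 + 1), L.G k)) else 0) := by
          refine sum_le_sum fun n hn => ?_
          simp only [absorb]
          split_ifs
          · exact mul_le_mul_of_nonneg_left (hZ _ (by simp at hn; omega)) (pow_nonneg hq.le n)
          · exact le_rfl
      _ = B * (a + S0 + L.tot) * (∑ n ∈ (range (J + 1)).filter (N1 ≤ ·), q ^ n) +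
          B * ∑ n ∈ (range (J + 1)).filter (N1 ≤ ·), q ^ n * ∑ k ∈ range (n / 16 + 1), L.G k := by
          rw [← sum_filter, mul_sum, mul_sum, ← sum_add_distrib]
          exact sum_congr rfl fun n _ => by ring
      _ ≤ _ := by
          refine add_le_add ?_ (mul_le_mul_of_nonneg_left ?_ (by rw [hB]; positivity))
          · rw [mul_right_comm B (q ^ N1 / (1 - q))]
            refine mul_le_mul_of_nonneg_left ?_ (mul_nonneg (by rw [hB]; positivity)
              (by linarith [le_max_left (0 : ℝ) ⟪L.P J, e⟫, L.tot_nonneg]))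
            refine (sum_le_sum_of_subset_of_nonneg (t := Ico N1 (J + 1 + N1)) ?_
              fun n _ _ => pow_nonneg hq.le n).trans ?_
            · intro n hn; simp at hn ⊢; omega
            · exact geom_Ico_le hq hq1 _ _
          · exact tail_G hq hq1 L
  have hS0le := L.sum_chg_le hq hq1 J le_rfl
  rw [← hMdef, ← hS0] at hS0le
  have hnorm : ‖L.P J‖ ≤ ⟪L.P J, e⟫ + (4 * K + 2) * S0 := by
    have h1 := L.P_base hq hq1 j1 hj1 hfree
    have h2 : ∑ k ∈ range (j1 + 1), L.chg k ≤ S0 := hsub _ hj1 subset_rfl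
    have h3 := norm_le_norm_add_norm_sub' (L.P J) (L.P j1)
    linarith
  rcases absorb_real hq hq1 hC hsmall L.tot_nonneg hM0 hK hB ha hM hS0le hnorm with h | h
  · exact h
  · exact absurd h (not_lt.2 (norm_nonneg _))

end LevelData

end Vale.Agent.P137
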