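import Vale.Agent.P137.Centred.Params

/-!
The integrals of the terms over the centres in a ball.

Proof notes.  Every term is bounded by Tonelli: the centres that see a given point `y` as removed,
or two given points as a separated pair, form a set of volume geometrically small in the depth.
For the root of a pair term this is combined with Cauchy–Schwarz in the centre.  The exponents
leave `qC ^ (n + k)` for each comparable pair of depths, so the double sum is again geometric.
-/

namespace Vale.Agent.P137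

open MeasureTheory Metric Filter Topology Set
open scoped RealInnerProductSpace ENNReal

variable {d : ℕ} {ε : ℝ} {v : EE d → EE d} {e : EE d} {J N1 n m : ℕ} {e1 e2 : ℝ} {g : EE d → ℝ}

private theorem measurable_gg (hp : IsPot g v) (hε : 0 < ε) (e : EE d) (J n : ℕ) :
    Measurable fun z => ENNReal.ofReal (gg ε v e J n z) :=
  (gdef_continuous_integrable hε hp.contv hp.intv e (J - n)).1.measurable.ennreal_ofReal

private theorem measurable_GE (hp : IsPot g v) (hε : 0 < ε) (e : EE d) (J n : ℕ) (s : ℝ) :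
    Measurable fun x => GE ε v e J n x s := by
  have hS : MeasurableSet {p : EE d × EE d | dist p.2 p.1 < s} :=
    measurableSet_lt (by fun_prop) measurable_const
  convert (((measurable_gg hp hε e J n).comp measurable_snd).indicator hS).lintegral_prod_right'
    (ν := (volume : Measure (EE d))) using 1
  ext x
  rw [GE, ← lintegral_indicator measurableSet_ball]
  simp [indicator, mem_ball]

private theorem measurable_LL (hp : IsPot g v) (hε : 0 < ε) (e : EE d) (J n : ℕ) :
    Measurable (LL ε v e J n) :=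
  (measurable_GE hp hε e J n _).ennreal_toReal

private theorem measurable_PhiJ (hp : IsPot g v) (hε : 0 < ε) (J n : ℕ) :
    Measurable fun p : EE d × EE d => PhiJ ε v J n p.1 p.2 := by
  have hw : Measurable fun z => ‖vv ε v J (n / 16) z‖ :=
    (isPot_lad hε hp (J - n / 16)).contv.norm.measurable
  set S : Set ((EE d × EE d) × EE d) :=
    {p | dist p.2 p.1.2 < ‖p.1.2 - p.1.1‖ ∧ zz ε J n ≤ dist p.2 p.1.1} with hS
  have hSm : MeasurableSet S :=
    (measurableSet_lt (f := fun p : (EE d × EE d) × EE d => dist p.2 p.1.2) (by fun_prop)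
      (by fun_prop)).inter
    (measurableSet_le (g := fun p : (EE d × EE d) × EE d => dist p.2 p.1.1) measurable_const
      (by fun_prop))
  convert (((hw.comp measurable_snd).indicator hSm).stronglyMeasurable.integral_prod_right'
    (ν := (volume : Measure (EE d)))).measurable using 1
  ext x
  rw [PhiJ, radMass, ← integral_indicator (measurableSet_ball.diff measurableSet_ball)]
  simp [indicator, hS, mem_ball, not_lt]

private theorem measurableSet_rem (hp : IsPot g v) (hε : 0 < ε) (e : EE d) (J n : ℕ)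
    (e1 e2 : ℝ) :
    MeasurableSet {p : EE d × EE d |
      Pole ε e J n p.2 p.1 ∨ EndPt ε J n e1 e2 p.2 p.1 ∨ Jump ε v e J n p.2 p.1} := by
  have h1 : MeasurableSet {p : EE d × EE d | ‖p.1 - p.2‖ ≤ 130 * rho ε J} :=
    measurableSet_le (by fun_prop) measurable_const
  have hL : Measurable fun p : EE d × EE d => LL ε v e J n p.2 :=
    (measurable_LL hp hε e J n).comp measurable_snd
  have hP : ∀ c : ℝ, Measurable fun p : EE d × EE d =>
      PhiJ ε v J n p.2 (p.2 + c • (p.1 - p.2)) := fun c =>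
    Measurable.comp (f := fun p : EE d × EE d => (p.2, p.2 + c • (p.1 - p.2)))
      (measurable_PhiJ hp hε J n) (by fun_prop)
  have hn : Measurable fun p : EE d × EE d => ‖p.1 - p.2‖ := by fun_prop
  have hi : Measurable fun p : EE d × EE d => |⟪p.1 - p.2, e⟫| := by fun_prop
  have hE : ∀ s : ℝ, MeasurableSet {p : EE d × EE d | |‖p.1 - p.2‖ - s| ≤ 70 * bb ε J n} :=
    fun s => measurableSet_le (hn.sub_const s).abs measurable_const
  simp only [Pole, EndPt, Jump, ofPred_or, ofPred_and]
  exact (h1.inter (measurableSet_le (hn.const_mul (1 - qC ^ (40 * n))) hi)).union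
    ((h1.inter ((hE e1).union (hE e2))).union
    (h1.inter ((measurableSet_lt measurable_const hL).inter
      ((measurableSet_le (hP (1 - jw n)) (hL.const_mul (qC ^ (20 * n))⁻¹)).inter
        (measurableSet_le (hL.const_mul (qC ^ (2 * n))) ((hP (1 + jw n)).sub (hP (1 - jw n))))))))

private theorem measurableSet_pairs (ε : ℝ) (J m : ℕ) :
    MeasurableSet {q : (EE d × EE d) × EE d | (q.1.2, q.2) ∈ Pairs ε J m q.1.1} := by
  have h1 : Measurable fun q : (EE d × EE d) × EE d => ‖q.1.1 - q.1.2‖ := by fun_prop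
  have h2 : Measurable fun q : (EE d × EE d) × EE d => ‖q.1.1 - q.2‖ := by fun_prop
  have h3 : Measurable fun q : (EE d × EE d) × EE d => ‖q.1.2 - q.2‖ := by fun_prop
  simp only [Pairs, ofPred_and]
  exact (measurableSet_le h1 measurable_const).inter ((measurableSet_le h2 measurable_const).inter
    ((measurableSet_le measurable_const h3).inter
      (measurableSet_le (h1.sub h2).abs measurable_const)))

private theorem measurable_pairKer (hp : IsPot g v) (hε : 0 < ε) (e : EE d) (J m n k : ℕ) :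
    Measurable fun q : (EE d × EE d) × EE d => (Pairs ε J m q.1.1).indicator
      (fun p => ENNReal.ofReal (gg ε v e J n p.1) * ENNReal.ofReal (gg ε v e J k p.2))
      (q.1.2, q.2) := by
  convert (((measurable_gg hp hε e J n).comp (measurable_snd.comp measurable_fst)).mul
    ((measurable_gg hp hε e J k).comp measurable_snd)).indicator (measurableSet_pairs ε J m)
    using 1
  ext q
  simp [indicator]

private theorem measurable_pairT (hp : IsPot g v) (hε : 0 < ε) (e : EE d) (J m n k : ℕ) :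
    Measurable (pairT ε v e J m n k) :=
  ((measurable_pairKer hp hε e J m n k).lintegral_prod_right'
    (ν := (volume : Measure (EE d)))).lintegral_prod_right'.pow_const _

private theorem measurable_remKer (hp : IsPot g v) (hε : 0 < ε) (e : EE d) (J n : ℕ)
    (e1 e2 : ℝ) :
    Measurable fun q : EE d × EE d =>
      {y | Pole ε e J n y q.1 ∨ EndPt ε J n e1 e2 y q.1 ∨ Jump ε v e J n y q.1}.indicator
        (fun z => ENNReal.ofReal (gg ε v e J n z)) q.2 := by
  convert ((measurable_gg hp hε e J n).comp measurable_snd).indicator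
    (measurableSet_rem hp hε e J n e1 e2) using 1
  ext q
  simp [indicator]

private theorem measurable_remT (hp : IsPot g v) (hε : 0 < ε) (e : EE d) (J n : ℕ)
    (e1 e2 : ℝ) : Measurable (remT ε v e J n e1 e2) :=
  (measurable_remKer hp hε e J n e1 e2).lintegral_prod_right' (ν := (volume : Measure (EE d)))

theorem measurable_TE {ε : ℝ} {g : EE d → ℝ} {v : EE d → EE d} (hp : IsPot g v) (hε : 0 < ε)
    (e : EE d) (J N1 : ℕ) (e1 e2 : ℝ) (n : ℕ) : Measurable (TE ε v e J N1 e1 e2 n) := by
  refine ((measurable_GE hp hε e J n _).const_mul _).add ?_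
  split_ifs
  · exact (measurable_GE hp hε e J n _).const_mul _
  · exact (((measurable_pairT hp hε e J n n n).add (measurable_remT hp hε e J n e1 e2)).add
      (Finset.measurable_sum _ fun k _ => (measurable_pairT hp hε e J k k k).add
        (measurable_pairT hp hε e J (min n k) n k))).const_mul _

private theorem rho_bounds (hε : 0 < ε) (J k n : ℕ) :
    0 < rho ε J ∧ 0 < sc ε J k n ∧ sc ε J k n ≤ rho ε J :=
  ⟨rho_pos hε J, mul_pos (rho_pos hε J) (pow_pos qC_pos _),
    mul_le_of_le_one_right (rho_pos hε J).le (pow_le_one₀ qC_pos.le qC_lt_one.le)⟩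

private theorem lintegral_GE (hε : 0 < ε) (p : EE d) :
    ∫⁻ x in ball p (rho ε J), GE ε v e J n x (512 * rho ε J) ≤
      volume (ball p (rho ε J)) * GE ε v e J n p (1024 * rho ε J) := by
  refine (setLIntegral_mono' measurableSet_ball fun x hx => lintegral_mono_set
    (ball_subset_ball' (x := x) (y := p) (ε₂ := 1024 * rho ε J) ?_)).trans
    (le_of_eq ((setLIntegral_const _ _).trans (mul_comm _ _)))
  rw [mem_ball] at hx
  linarith [rho_pos hε J]

private theorem mem_big (hε : 0 < ε) {x y p : EE d} (hx : x ∈ ball p (rho ε J))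
    (hy : ‖x - y‖ ≤ 130 * rho ε J) : y ∈ ball p (1024 * rho ε J) := by
  rw [mem_ball] at hx ⊢
  have := dist_triangle y x p
  rw [dist_comm y x, dist_eq_norm x y] at this
  linarith [rho_pos hε J]

private theorem volume_endpt (hd : 1 ≤ d) : ∃ C : ℝ, 0 ≤ C ∧ ∀ {ε : ℝ}, 0 < ε →
    ∀ (J n : ℕ) (s : ℝ) (y : EE d),
      volume {x : EE d | ‖x - y‖ ≤ 130 * rho ε J ∧ |‖x - y‖ - s| ≤ 70 * bb ε J n} ≤
        ENNReal.ofReal (C * rho ε J ^ d * qC ^ (20 * n)) := by
  obtain ⟨C, hC, hA⟩ := volume_annulus hd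
  refine ⟨C * (70 * 300 ^ (d - 1)), by positivity, fun {ε} hε J n s y => ?_⟩
  obtain ⟨hρ, hb, hbρ⟩ := rho_bounds hε J 3200 n
  set h := 70 * bb ε J n with hh
  have hh0 : 0 ≤ h := by positivity
  set S := {x : EE d | ‖x - y‖ ≤ 130 * rho ε J ∧ |‖x - y‖ - s| ≤ h}
  rcases S.eq_empty_or_nonempty with h0 | ⟨x, hx1, hx2⟩
  · rw [h0, measure_empty]; exact zero_le
  obtain ⟨h2l, h2r⟩ := abs_le.1 hx2
  have hxn := norm_nonneg (x - y)
  refine (measure_mono fun z hz => hz.2).trans ((hA y (300 * rho ε J) s h (by linarith) hh0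
    (by linarith [show bb ε J n ≤ rho ε J from hbρ])).trans (ENNReal.ofReal_le_ofReal ?_))
  obtain ⟨k, rfl⟩ : ∃ k, d = k + 1 := ⟨d - 1, by omega⟩
  rw [Nat.add_sub_cancel, hh]
  simp only [bb, sc, mul_pow, pow_succ]
  calc C * (300 ^ k * rho ε J ^ k) * (70 * (rho ε J * qC ^ (3200 * n))) =
      C * (70 * 300 ^ k) * (rho ε J ^ k * rho ε J) * qC ^ (3200 * n) := by ring
    _ ≤ _ := mul_le_mul_of_nonneg_left
      (pow_le_pow_of_le_one qC_pos.le qC_lt_one.le (by omega)) (by positivity)

private theorem volume_rem (hd : 2 ≤ d) (hN : Deep N1) : ∃ C : ℝ, 0 ≤ C ∧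
    ∀ {ε : ℝ} {g : EE d → ℝ} {v : EE d → EE d}, IsPot g v → 0 < ε → ∀ {e : EE d}, ‖e‖ = 1 →
    ∀ (J : ℕ) {n : ℕ}, N1 ≤ n → ∀ (e1 e2 : ℝ) (y : EE d),
      volume {x : EE d | Pole ε e J n y x ∨ EndPt ε J n e1 e2 y x ∨ Jump ε v e J n y x} ≤
        ENNReal.ofReal (C * rho ε J ^ d * qC ^ (20 * n)) := by
  obtain ⟨Cp, hCp, hP⟩ := volume_pole (d := d) (by omega)
  obtain ⟨Ce, hCe, hE⟩ := volume_endpt (d := d) (by omega)
  obtain ⟨Cj, hCj, hJ⟩ := volume_jump (d := d) (by omega)
  refine ⟨Cp * 130 ^ d + (Ce + Ce) + Cj * 146000 * 130 ^ d, by positivity,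
    fun {ε g v} hp hε {e} he J {n} hn e1 e2 y => ?_⟩
  have hρ := rho_pos hε J
  have hq := qC_pos
  have hq1 := qC_lt_one.le
  set R := 130 * rho ε J with hR
  have hR0 : 0 ≤ R := by positivity
  have h1 : volume {x : EE d | Pole ε e J n y x} ≤
      ENNReal.ofReal (Cp * 130 ^ d * (rho ε J ^ d * qC ^ (20 * n))) := by
    refine (measure_mono fun x hx => ?_).trans
      ((hP y e he R (qC ^ (40 * n)) hR0 (by positivity)).trans (ENNReal.ofReal_le_ofReal ?_))
    · exact ⟨by rw [mem_closedBall, dist_eq_norm]; exact hx.1, hx.2⟩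
    rw [show qC ^ (40 * n) = (qC ^ (20 * n)) ^ 2 by rw [← pow_mul]; ring_nf,
      Real.sqrt_sq (by positivity), hR, mul_pow]
    calc Cp * (qC ^ (20 * n)) ^ (d - 1) * (130 ^ d * rho ε J ^ d) ≤
        Cp * qC ^ (20 * n) * (130 ^ d * rho ε J ^ d) := by
          gcongr
          exact pow_le_of_le_one (by positivity) (pow_le_one₀ hq.le hq1) (by omega)
      _ = _ := by ring
  have h2 : volume {x : EE d | EndPt ε J n e1 e2 y x} ≤
      ENNReal.ofReal ((Ce + Ce) * (rho ε J ^ d * qC ^ (20 * n))) := by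
    refine (measure_mono fun x hx => ?_).trans ((measure_union_le _ _).trans
      ((add_le_add (hE hε J n e1 y) (hE hε J n e2 y)).trans (le_of_eq ?_)))
    · exact hx.2.imp (fun h => ⟨hx.1, h⟩) (fun h => ⟨hx.1, h⟩)
    · rw [← ENNReal.ofReal_add (by positivity) (by positivity)]
      congr 1; ring
  have h3 : volume {x : EE d | Jump ε v e J n y x} ≤
      ENNReal.ofReal (Cj * 146000 * 130 ^ d * (rho ε J ^ d * qC ^ (20 * n))) := by
    rcases le_or_gt (LL ε v e J n y) 0 with hL | hL
    · rw [show {x : EE d | Jump ε v e J n y x} = ∅ from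
        eq_empty_of_forall_notMem fun x hx => hL.not_gt hx.2.1, measure_empty]
      exact zero_le
    set L := LL ε v e J n y
    have hw := (isPot_lad hε hp (J - n / 16)).contv.norm
    have hτ1 : jw n < 1 := by
      have h := hN.2 n hn
      have h' : qC ^ (1600 * n) ≤ qC ^ n := pow_le_pow_of_le_one hq.le hq1 (by omega)
      have : 0 < qC ^ n := pow_pos hq _
      simp only [jw]; nlinarith
    have hτ0 : 0 < jw n := by simp only [jw]; positivity
    refine (measure_mono fun x hx => ?_).trans ((hJ y (PhiJ ε v J n y)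
        (measurable_radMass hw.measurable y _) (radMass_nonneg (fun z => norm_nonneg _) y _)
        (fun x c hc => radMass_mono_ray hw.locallyIntegrable (fun z => norm_nonneg _) y _ x hc)
        R (jw n) (qC ^ (2 * n) * L) ((qC ^ (20 * n))⁻¹ * L) hR0 hτ0 hτ1 (by positivity)
        (by positivity)).trans (ENNReal.ofReal_le_ofReal ?_))
    · exact ⟨by rw [mem_closedBall, dist_eq_norm]; exact hx.1, hx.2.2.1, hx.2.2.2⟩
    have hab : qC ^ (22 * n) = qC ^ (20 * n) * qC ^ (2 * n) := by rw [← pow_add]; ring_nf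
    have hfac : ((qC ^ (20 * n))⁻¹ * L + qC ^ (2 * n) * L) / (qC ^ (2 * n) * L) ≤
        2 * (qC ^ (22 * n))⁻¹ := by
      rw [hab, div_le_iff₀ (by positivity)]
      field_simp
      nlinarith [pow_le_one₀ (n := 20 * n) hq.le hq1, pow_le_one₀ (n := 2 * n) hq.le hq1,
        pow_pos hq (20 * n), pow_pos hq (2 * n)]
    calc Cj * jw n * (((qC ^ (20 * n))⁻¹ * L + qC ^ (2 * n) * L) / (qC ^ (2 * n) * L)) * R ^ d
        ≤ Cj * jw n * (2 * (qC ^ (22 * n))⁻¹) * R ^ d := by gcongr
      _ = Cj * 146000 * 130 ^ d * (rho ε J ^ d * qC ^ (1578 * n)) := by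
          rw [hR, mul_pow, jw, show qC ^ (1600 * n) = qC ^ (22 * n) * qC ^ (1578 * n) by
            rw [← pow_add]; ring_nf]
          field_simp
          ring
      _ ≤ _ := by
          gcongr ?_ * (?_ * ?_)
          · exact pow_le_pow_of_le_one hq.le hq1 (by omega)
  refine (measure_mono (t := {x : EE d | Pole ε e J n y x} ∪
    ({x | EndPt ε J n e1 e2 y x} ∪ {x | Jump ε v e J n y x})) fun x hx => hx).trans
    ((measure_union_le _ _).trans ((add_le_add h1 ((measure_union_le _ _).trans
      (add_le_add h2 h3))).trans (le_of_eq ?_)))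
  rw [← ENNReal.ofReal_add (by positivity) (by positivity),
    ← ENNReal.ofReal_add (by positivity) (by positivity)]
  congr 1; ring

private theorem volume_pairs (hd : 1 ≤ d) : ∃ C : ℝ, 0 ≤ C ∧ ∀ {ε : ℝ}, 0 < ε →
    ∀ (J m : ℕ) (y y' : EE d),
      volume {x : EE d | (y, y') ∈ Pairs ε J m x} ≤
        ENNReal.ofReal (C * rho ε J ^ d * qC ^ (3198 * m)) := by
  obtain ⟨C, hC, hP⟩ := volume_pair_spheres hd
  refine ⟨C * 130 ^ (d - 1) * 128 * 520, by positivity, fun {ε} hε J m y y' => ?_⟩
  set S := {x : EE d | (y, y') ∈ Pairs ε J m x}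
  rcases S.eq_empty_or_nonempty with h0 | ⟨x₀, hx₀⟩
  · rw [h0, measure_empty]; exact zero_le
  obtain ⟨h1, h2, h3, h4⟩ := hx₀
  obtain ⟨hρ, hb, -⟩ := rho_bounds hε J 3200 m
  obtain ⟨-, ht, -⟩ := rho_bounds hε J 2 m
  have hD0 : 0 < ‖y - y'‖ := ht.trans_le h3
  have hD : ‖y - y'‖ ≤ 260 * rho ε J := by
    rw [show y - y' = (x₀ - y') - (x₀ - y) by abel]
    linarith [norm_sub_le (x₀ - y') (x₀ - y)]
  refine (measure_mono fun x hx => ?_).trans ((hP y y' (sub_ne_zero.1 (norm_pos_iff.1 hD0))
    (130 * rho ε J) (128 * bb ε J m) (by positivity) (by positivity)).trans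
    (ENNReal.ofReal_le_ofReal ?_))
  · refine ⟨hx.1, ‖x - y‖, by rw [sub_self, abs_zero]; positivity, ?_⟩
    rw [abs_sub_comm]; exact hx.2.2.2
  · obtain ⟨k, rfl⟩ : ∃ k, d = k + 1 := ⟨d - 1, by omega⟩
    have hfac : (2 * (130 * rho ε J) + ‖y - y'‖) / ‖y - y'‖ ≤
        520 * rho ε J / (rho ε J * qC ^ (2 * m)) := by
      refine div_le_div₀ (by positivity) (by linarith) (mul_pos hρ (pow_pos qC_pos _)) h3
    calc C * (130 * rho ε J) ^ (k + 1 - 1) * (128 * bb ε J m) *
          ((2 * (130 * rho ε J) + ‖y - y'‖) / ‖y - y'‖) ≤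
        C * (130 * rho ε J) ^ k * (128 * (rho ε J * qC ^ (3200 * m))) *
          (520 * rho ε J / (rho ε J * qC ^ (2 * m))) := by
          rw [Nat.add_sub_cancel]
          simp only [bb, sc] at hb ⊢
          gcongr
      _ = _ := by
          rw [Nat.add_sub_cancel, show qC ^ (3200 * m) = qC ^ (3198 * m) * qC ^ (2 * m) by
            rw [← pow_add]; ring_nf, mul_pow, pow_succ (rho ε J)]
          have := qC_pos
          field_simp

private theorem le_sqrt_of_sq {X Y : ℝ≥0∞} (h : X ≤ Y * Y) : X ^ (1 / 2 : ℝ) ≤ Y := by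
  refine (ENNReal.rpow_le_rpow h (by norm_num)).trans (le_of_eq ?_)
  rw [← sq, ← ENNReal.rpow_natCast, ← ENNReal.rpow_mul]
  norm_num

private theorem lintegral_pairT (hd : 1 ≤ d) : ∃ C : ℝ, 0 ≤ C ∧
    ∀ {ε : ℝ} {g : EE d → ℝ} {v : EE d → EE d}, IsPot g v → 0 < ε →
    ∀ (e : EE d) (J m n k : ℕ) (p : EE d),
      ∫⁻ x in ball p (rho ε J), pairT ε v e J m n k x ≤
        ENNReal.ofReal (C * rho ε J ^ d * qC ^ (1599 * m)) *
          (GE ε v e J n p (1024 * rho ε J) + GE ε v e J k p (1024 * rho ε J)) := by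
  obtain ⟨C, hC, hV⟩ := volume_pairs hd
  set c := volume.real (ball (0 : EE d) 1)
  have hc : 0 ≤ c := measureReal_nonneg
  refine ⟨C + c, by positivity, fun {ε g v} hp hε e J m n k p => ?_⟩
  have hρ := rho_pos hε J
  set B := ball p (rho ε J)
  set U := ball p (1024 * rho ε J)
  set Gn : EE d → ℝ≥0∞ := fun y => ENNReal.ofReal (gg ε v e J n y) with hGn
  set Gk : EE d → ℝ≥0∞ := fun y => ENNReal.ofReal (gg ε v e J k y) with hGk
  have hGnm : Measurable Gn := measurable_gg hp hε e J n
  have hGkm : Measurable Gk := measurable_gg hp hε e J k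
  set T : EE d → ℝ≥0∞ := fun x => ∫⁻ y, ∫⁻ y', (Pairs ε J m x).indicator
    (fun p => Gn p.1 * Gk p.2) (y, y') with hT
  have hF := measurable_pairKer hp hε e J m n k
  have hTm : Measurable T :=
    (hF.lintegral_prod_right' (ν := (volume : Measure (EE d)))).lintegral_prod_right'
  set V := ENNReal.ofReal (C * rho ε J ^ d * qC ^ (3198 * m))
  have hint : ∫⁻ x in B, T x ≤ V * (GE ε v e J n p (1024 * rho ε J) *
      GE ε v e J k p (1024 * rho ε J)) := by
    have hF1 : Measurable (Function.uncurry fun (x : EE d) (y : EE d) =>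
        ∫⁻ y', (Pairs ε J m x).indicator (fun p => Gn p.1 * Gk p.2) (y, y')) :=
      hF.lintegral_prod_right' (ν := (volume : Measure (EE d)))
    rw [hT, lintegral_lintegral_swap hF1.aemeasurable,
      GE, GE, ← lintegral_indicator measurableSet_ball, ← lintegral_indicator measurableSet_ball,
      ← lintegral_mul_const _ (hGnm.indicator measurableSet_ball),
      ← lintegral_const_mul _ ((hGnm.indicator measurableSet_ball).mul_const _)]
    refine lintegral_mono fun y => ?_
    have hFy : Measurable (Function.uncurry fun (x : EE d) (y' : EE d) =>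
        (Pairs ε J m x).indicator (fun p => Gn p.1 * Gk p.2) (y, y')) :=
      Measurable.comp (f := fun a : EE d × EE d => ((a.1, y), a.2)) hF (by fun_prop)
    rw [lintegral_lintegral_swap hFy.aemeasurable,
      ← lintegral_const_mul _ (hGkm.indicator measurableSet_ball),
      ← lintegral_const_mul _ ((hGkm.indicator measurableSet_ball).const_mul _)]
    refine lintegral_mono fun y' => ?_
    have hS : MeasurableSet {x : EE d | (y, y') ∈ Pairs ε J m x} :=
      MeasurableSet.preimage (f := fun x : EE d => ((x, y), y')) (measurableSet_pairs ε J m)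
        (by fun_prop)
    calc ∫⁻ x in B, (Pairs ε J m x).indicator (fun p => Gn p.1 * Gk p.2) (y, y')
        = ∫⁻ x in B, {x : EE d | (y, y') ∈ Pairs ε J m x}.indicator
            (fun _ => Gn y * Gk y') x := rfl
      _ = (Gn y * Gk y') * volume ({x : EE d | (y, y') ∈ Pairs ε J m x} ∩ B) := by
          rw [lintegral_indicator_const hS, Measure.restrict_apply hS]
      _ ≤ V * (U.indicator Gn y * U.indicator Gk y') := by
          rcases ({x : EE d | (y, y') ∈ Pairs ε J m x} ∩ B).eq_empty_or_nonempty with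
            h0 | ⟨x, ⟨h1, h2, -⟩, hxB⟩
          · rw [h0, measure_empty, mul_zero]; exact zero_le
          · rw [indicator_of_mem (mem_big hε hxB h1), indicator_of_mem (mem_big hε hxB h2),
              mul_comm V]
            gcongr
            exact (measure_mono inter_subset_left).trans (hV hε J m y y')
  have hH := ENNReal.lintegral_mul_le_Lp_mul_Lq (volume.restrict B)
    (Real.HolderConjugate.two_two) (f := fun x => T x ^ (1 / 2 : ℝ)) (g := fun _ => 1)
    (hTm.pow_const _).aemeasurable aemeasurable_const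
  simp only [Pi.mul_apply, mul_one, ← ENNReal.rpow_mul, ENNReal.one_rpow, setLIntegral_one,
    show (1 / 2 : ℝ) * 2 = 1 by norm_num, ENNReal.rpow_one] at hH
  refine hH.trans ?_
  rw [← ENNReal.mul_rpow_of_nonneg _ _ (by norm_num)]
  refine le_sqrt_of_sq ((mul_le_mul hint (le_refl _) zero_le zero_le).trans ?_)
  have hvol : volume B = ENNReal.ofReal (c * rho ε J ^ d) := by
    rw [Measure.addHaar_ball_of_pos volume p hρ, finrank_euclideanSpace_fin,
      ← ofReal_measureReal measure_ball_lt_top.ne, ← ENNReal.ofReal_mul (by positivity)]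
    congr 1; ring
  have hq := qC_pos
  rw [hvol, mul_right_comm V, mul_mul_mul_comm (ENNReal.ofReal ((C + c) * _ * _)),
    ← ENNReal.ofReal_mul (by positivity), ← ENNReal.ofReal_mul (by positivity)]
  refine mul_le_mul (ENNReal.ofReal_le_ofReal ?_) (mul_le_mul le_self_add le_add_self
    zero_le zero_le) zero_le zero_le
  have h : qC ^ (3198 * m) = qC ^ (1599 * m) * qC ^ (1599 * m) := by rw [← pow_add]; ring_nf
  rw [h]
  have h' : C * c ≤ (C + c) * (C + c) := by nlinarith
  calc C * rho ε J ^ d * (qC ^ (1599 * m) * qC ^ (1599 * m)) * (c * rho ε J ^ d)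
      = C * c * (rho ε J ^ d * qC ^ (1599 * m)) ^ 2 := by ring
    _ ≤ (C + c) * (C + c) * (rho ε J ^ d * qC ^ (1599 * m)) ^ 2 :=
        mul_le_mul_of_nonneg_right h' (sq_nonneg _)
    _ = _ := by ring

private theorem lintegral_remT (hd : 2 ≤ d) (hN : Deep N1) : ∃ C : ℝ, 0 ≤ C ∧
    ∀ {ε : ℝ} {g : EE d → ℝ} {v : EE d → EE d}, IsPot g v → 0 < ε → ∀ {e : EE d}, ‖e‖ = 1 →
    ∀ (J : ℕ) {n : ℕ}, N1 ≤ n → ∀ (e1 e2 : ℝ) (p : EE d),
      ∫⁻ x in ball p (rho ε J), remT ε v e J n e1 e2 x ≤
        ENNReal.ofReal (C * rho ε J ^ d * qC ^ (20 * n)) * GE ε v e J n p (1024 * rho ε J) := by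
  obtain ⟨C, hC, hV⟩ := volume_rem hd hN
  refine ⟨C, hC, fun {ε g v} hp hε {e} he J {n} hn e1 e2 p => ?_⟩
  have hG := measurable_gg hp hε e J n
  simp only [remT]
  have hK : Measurable (Function.uncurry fun (x : EE d) (y : EE d) =>
      {y | Pole ε e J n y x ∨ EndPt ε J n e1 e2 y x ∨ Jump ε v e J n y x}.indicator
        (fun z => ENNReal.ofReal (gg ε v e J n z)) y) := measurable_remKer hp hε e J n e1 e2
  rw [lintegral_lintegral_swap hK.aemeasurable, GE,
    ← lintegral_indicator measurableSet_ball,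
    ← lintegral_const_mul _ (hG.indicator measurableSet_ball)]
  refine lintegral_mono fun y => ?_
  set S := {x : EE d | Pole ε e J n y x ∨ EndPt ε J n e1 e2 y x ∨ Jump ε v e J n y x} with hS'
  have hS : MeasurableSet S := MeasurableSet.preimage (f := fun x : EE d => (x, y))
    (measurableSet_rem hp hε e J n e1 e2) (by fun_prop)
  calc ∫⁻ x in ball p (rho ε J), _ = ∫⁻ x in ball p (rho ε J),
        S.indicator (fun _ => ENNReal.ofReal (gg ε v e J n y)) x := rfl
    _ = ENNReal.ofReal (gg ε v e J n y) * volume (S ∩ ball p (rho ε J)) := by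
        rw [lintegral_indicator_const hS, Measure.restrict_apply hS]
    _ ≤ _ := by
        rcases (S ∩ ball p (rho ε J)).eq_empty_or_nonempty with h0 | ⟨x, hx, hxB⟩
        · rw [h0, measure_empty, mul_zero]; exact zero_le
        · have hx1 : ‖x - y‖ ≤ 130 * rho ε J := by
            rcases hx with h | h | h <;> exact h.1
          rw [indicator_of_mem (mem_big hε hxB hx1), mul_comm (ENNReal.ofReal (C * _ * _))]
          gcongr
          exact (measure_mono inter_subset_left).trans (hV hp hε he J hn e1 e2 y)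

private theorem weight_le {a r : ℝ} (ha : 0 ≤ a) (hr : 0 ≤ r) {i j n : ℕ}
    (hij : i + 17 * n ≤ j) (X : ℝ≥0∞) :
    ENNReal.ofReal (4 * (qC ^ (17 * n))⁻¹) * (ENNReal.ofReal (a * r * qC ^ j) * X) ≤
      ENNReal.ofReal (4 * a * r) * (ENNReal.ofReal (qC ^ i) * X) := by
  have hq := qC_pos
  rw [← mul_assoc, ← mul_assoc, ← ENNReal.ofReal_mul (by positivity),
    ← ENNReal.ofReal_mul (by positivity)]
  refine mul_le_mul_left (ENNReal.ofReal_le_ofReal ?_) X
  have hjq : qC ^ j ≤ qC ^ i * qC ^ (17 * n) := by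
    rw [← pow_add]; exact pow_le_pow_of_le_one hq.le qC_lt_one.le hij
  calc 4 * (qC ^ (17 * n))⁻¹ * (a * r * qC ^ j) ≤
      4 * (qC ^ (17 * n))⁻¹ * (a * r * (qC ^ i * qC ^ (17 * n))) := by gcongr
    _ = _ := by field_simp

/-- The bound for the term at one depth: its own deficit and all comparable pairs of depths. -/
private theorem lintegral_TE_one (hd : 2 ≤ d) (hN : Deep N1) : ∃ K : ℝ, 0 ≤ K ∧
    ∀ {ε : ℝ} {g : EE d → ℝ} {v : EE d → EE d}, IsPot g v → 0 < ε → ∀ {e : EE d}, ‖e‖ = 1 →
    ∀ (J : ℕ) (e1 e2 : ℝ) (p : EE d) (n : ℕ),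
      ∫⁻ x in ball p (rho ε J), TE ε v e J N1 e1 e2 n x ≤
        ENNReal.ofReal (K * rho ε J ^ d) *
          (ENNReal.ofReal (qC ^ n) * GE ε v e J n p (1024 * rho ε J) +
            ∑ k ∈ Finset.range (J + 1), ENNReal.ofReal (qC ^ (n + k)) *
              (GE ε v e J n p (1024 * rho ε J) + GE ε v e J k p (1024 * rho ε J))) := by
  obtain ⟨Cp, hCp, hP⟩ := lintegral_pairT (d := d) (by omega)
  obtain ⟨Cr, hCr, hR⟩ := lintegral_remT hd hN
  set c := volume.real (ball (0 : EE d) 1)
  have hc : 0 ≤ c := measureReal_nonneg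
  have hq := qC_pos
  have hq1 := qC_lt_one.le
  refine ⟨c + (c * (qC ^ (18 * N1))⁻¹ + (8 * Cp + 4 * Cr + 12 * Cp)), by positivity,
    fun {ε g v} hp hε {e} he J e1 e2 p n => ?_⟩
  have hρ := rho_pos hε J
  set B := ball p (rho ε J)
  set r := rho ε J ^ d with hr'
  have hr : 0 ≤ r := (pow_pos hρ d).le
  set Gn := GE ε v e J n p (1024 * rho ε J)
  set S := ∑ k ∈ Finset.range (J + 1), ENNReal.ofReal (qC ^ (n + k)) *
    (Gn + GE ε v e J k p (1024 * rho ε J))
  set Z := ENNReal.ofReal (qC ^ n) * Gn + S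
  have hvol : volume B = ENNReal.ofReal (c * r) := by
    rw [Measure.addHaar_ball_of_pos volume p hρ, finrank_euclideanSpace_fin,
      ← ofReal_measureReal measure_ball_lt_top.ne, ← ENNReal.ofReal_mul (by positivity)]
    congr 1; ring
  have hGE : ∫⁻ x in B, GE ε v e J n x (512 * rho ε J) ≤ ENNReal.ofReal (c * r) * Gn :=
    hvol ▸ lintegral_GE hε p
  have h0 : ENNReal.ofReal (qC ^ n) * ∫⁻ x in B, GE ε v e J n x (512 * rho ε J) ≤
      ENNReal.ofReal (c * r) * Z := by
    refine (mul_le_mul_right hGE _).trans ?_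
    rw [mul_left_comm]
    exact mul_le_mul_right le_self_add _
  have hfinal : ∀ {a b : ℝ} {X Y : ℝ≥0∞}, 0 ≤ a → 0 ≤ b → X ≤ ENNReal.ofReal (a * r) * Z →
      Y ≤ ENNReal.ofReal (b * r) * Z → X + Y ≤ ENNReal.ofReal ((a + b) * r) * Z := by
    intro a b X Y ha hb hX hY
    rw [add_mul, ENNReal.ofReal_add (by positivity) (by positivity), add_mul]
    exact add_le_add hX hY
  have hGm := measurable_GE hp hε e J n (512 * rho ε J)
  have hm := fun a b f => measurable_pairT hp hε e J a b f
  have hmR := measurable_remT hp hε e J n e1 e2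
  rw [show ∫⁻ x in B, TE ε v e J N1 e1 e2 n x =
      (ENNReal.ofReal (qC ^ n) * ∫⁻ x in B, GE ε v e J n x (512 * rho ε J)) + _ from
    (lintegral_add_left (hGm.const_mul _) _).trans
      (congrArg (· + _) (lintegral_const_mul _ hGm))]
  refine hfinal hc (by positivity) h0 ?_
  by_cases hn : n < N1
  · simp only [if_pos hn]
    rw [lintegral_const_mul _ hGm]
    refine (mul_le_mul_right hGE _).trans ?_
    rw [← mul_assoc, ← ENNReal.ofReal_mul (by positivity)]
    refine le_trans (mul_le_mul_left (ENNReal.ofReal_le_ofReal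
      (q := c * (qC ^ (18 * N1))⁻¹ * r * qC ^ n) ?_) Gn) ?_
    · have h' : qC ^ N1 ≤ qC ^ n := pow_le_pow_of_le_one hq.le hq1 hn.le
      have e' : qC ^ (18 * N1) = qC ^ (17 * N1) * qC ^ N1 := by rw [← pow_add]; ring_nf
      rw [e']
      calc (qC ^ (17 * N1))⁻¹ * (c * r) = c * (qC ^ (17 * N1) * qC ^ N1)⁻¹ * r * qC ^ N1 := by
            field_simp
        _ ≤ _ := by gcongr
    · rw [ENNReal.ofReal_mul (by positivity), mul_assoc]
      refine mul_le_mul ?_ le_self_add zero_le zero_le
      refine ENNReal.ofReal_le_ofReal (mul_le_mul_of_nonneg_right ?_ hr)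
      linarith
  · simp only [if_neg hn]
    replace hn : N1 ≤ n := not_lt.1 hn
    rw [lintegral_const_mul _ (((hm n n n).fun_add hmR).fun_add
        (Finset.measurable_sum _ fun k _ => (hm k k k).fun_add (hm (min n k) n k))),
      lintegral_add_left ((hm n n n).fun_add hmR), lintegral_add_left (hm n n n),
      lintegral_finsetSum _ fun k _ => (hm k k k).fun_add (hm (min n k) n k), mul_add, mul_add,
      Finset.mul_sum]
    have hA := ((mul_le_mul_right (hP hp hε e J n n n p) _).trans
      (weight_le hCp hr (i := n) (n := n) (by omega) _))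
    have hB := ((mul_le_mul_right (hR hp hε he J hn e1 e2 p) _).trans
      (weight_le hCr hr (i := n) (n := n) (by omega) _))
    have hA' : ENNReal.ofReal (qC ^ n) * (Gn + Gn) ≤ Z + Z := by
      rw [mul_add]; exact add_le_add le_self_add le_self_add
    refine hfinal (a := 8 * Cp + 4 * Cr) (b := 12 * Cp) (by positivity) (by positivity)
      (hfinal (a := 8 * Cp) (b := 4 * Cr) (by positivity) (by positivity) ?_ ?_) ?_ |>.trans
      (mul_le_mul_left (ENNReal.ofReal_le_ofReal
        (mul_le_mul_of_nonneg_right (le_add_of_nonneg_left (by positivity)) hr)) Z)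
    · exact (hA.trans (mul_le_mul_right hA' _)).trans_eq (by
        rw [show 8 * Cp * r = 4 * Cp * r + 4 * Cp * r by ring,
          ENNReal.ofReal_add (by positivity) (by positivity)]; ring)
    · exact hB.trans (mul_le_mul_right le_self_add _)
    · refine le_trans ?_ (mul_le_mul_right (le_add_self : S ≤ Z) _)
      rw [Finset.mul_sum]
      refine le_trans (Finset.sum_le_sum fun k hk => ?_)
        (Finset.sum_le_sum_of_subset (Finset.filter_subset _ _))
      simp only [window, Finset.mem_filter] at hk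
      obtain ⟨-, -, hk1, hk2, -⟩ := hk
      set Gk := GE ε v e J k p (1024 * rho ε J)
      rw [lintegral_add_left (hm k k k), mul_add,
        show 12 * Cp * r = (4 * Cp * r + 4 * Cp * r) + 4 * Cp * r by ring,
        ENNReal.ofReal_add (by positivity) (by positivity), add_mul]
      refine add_le_add ?_ ((mul_le_mul_right (hP hp hε e J _ n k p) _).trans
        (weight_le hCp hr (by omega) _))
      refine ((mul_le_mul_right (hP hp hε e J k k k p) _).trans
        (weight_le hCp hr (i := n + k) (n := n) (by omega) _)).trans ?_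
      rw [ENNReal.ofReal_add (by positivity) (by positivity), add_mul]
      rw [mul_add (ENNReal.ofReal (qC ^ (n + k))), mul_add (ENNReal.ofReal (4 * Cp * r))]
      gcongr <;> exact le_add_self

/-- The terms of all depths are integrably small: geometric weights on the deficits. -/
theorem lintegral_TE (hd : 2 ≤ d) {N1 : ℕ} (hN : Deep N1) :
    ∃ C : ℝ≥0∞, C ≠ ⊤ ∧ ∀ {ε : ℝ} {g : EE d → ℝ} {v : EE d → EE d}, IsPot g v → 0 < ε →
      ∀ {e : EE d}, ‖e‖ = 1 → ∀ (J : ℕ) (e1 e2 : ℝ) (p : EE d),
        ∫⁻ x in ball p (rho ε J), ∑ n ∈ Finset.range (J + 1), TE ε v e J N1 e1 e2 n x ≤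
          C * ENNReal.ofReal (rho ε J ^ d) *
            ∑ n ∈ Finset.range (J + 1),
              ENNReal.ofReal (qC ^ n) * GE ε v e J n p (1024 * rho ε J) := by
  obtain ⟨K, hK, h1⟩ := lintegral_TE_one hd hN
  set Q : ℕ → ℝ≥0∞ := fun n => ENNReal.ofReal (qC ^ n)
  set geo : ℝ≥0∞ := (1 - ENNReal.ofReal qC)⁻¹
  have hQ1 : ENNReal.ofReal qC < 1 := ENNReal.ofReal_lt_one.2 qC_lt_one
  have hgeo : geo ≠ ⊤ := ENNReal.inv_ne_top.2 (tsub_pos_of_lt hQ1).ne'
  refine ⟨ENNReal.ofReal K * (1 + (geo + geo)), ENNReal.mul_ne_top ENNReal.ofReal_ne_top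
    (ENNReal.add_ne_top.2 ⟨ENNReal.one_ne_top, ENNReal.add_ne_top.2 ⟨hgeo, hgeo⟩⟩),
    fun {ε g v} hp hε {e} he J e1 e2 p => ?_⟩
  set G := fun k => GE ε v e J k p (1024 * rho ε J)
  have hsum : ∑ k ∈ Finset.range (J + 1), Q k ≤ geo := by
    refine le_trans (le_of_eq ?_)
      ((ENNReal.sum_le_tsum (Finset.range (J + 1))).trans (ENNReal.tsum_geometric _).le)
    exact Finset.sum_congr rfl fun k _ => ENNReal.ofReal_pow qC_pos.le k
  rw [lintegral_finsetSum _ fun n _ => measurable_TE hp hε e J N1 e1 e2 n]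
  refine (Finset.sum_le_sum fun n _ => h1 hp hε he J e1 e2 p n).trans ?_
  rw [← Finset.mul_sum, ENNReal.ofReal_mul hK, Finset.sum_add_distrib,
    mul_right_comm (ENNReal.ofReal K) (1 + (geo + geo)),
    mul_assoc (ENNReal.ofReal K * _) (1 + (geo + geo))]
  refine mul_le_mul_right ?_ _
  simp only [pow_add, ENNReal.ofReal_mul (pow_nonneg qC_pos.le _), mul_add,
    Finset.sum_add_distrib,
    add_mul, one_mul]
  refine add_le_add le_rfl (add_le_add (le_of_eq_of_le ?_ (mul_le_mul_left hsum _))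
    (le_of_eq_of_le ?_ (mul_le_mul_left hsum _)))
  · rw [Finset.sum_comm, Finset.sum_mul_sum]
    exact Finset.sum_congr rfl fun k _ => Finset.sum_congr rfl fun n _ => by
      simp only [Q]; ring
  · rw [Finset.sum_mul_sum]
    exact Finset.sum_congr rfl fun n _ => Finset.sum_congr rfl fun k _ => by
      simp only [Q]; ring

end Vale.Agent.P137
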