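import Vale.Agent.P137.Centred.Classify
import Vale.Agent.P137.Centred.TermInt
import Vale.Agent.P137.Centred.CapBand
import Vale.Agent.P137.Centred.Excess
import Vale.Agent.P137.Centred.Analytic

/-!
The excess bound on one band, localised to a ball of centres.
-/

namespace Vale.Agent.P137

open MeasureTheory Metric Filter Topology Set
open scoped RealInnerProductSpace ENNReal

variable {d : ℕ}

/-- The radius `r` is not beaten at nearby radii, except across the endpoints `e1`, `e2`. -/
structure LocMax (g : EE d → ℝ) (v : EE d → EE d) (R e1 e2 : ℝ) (x : EE d) (r : ℝ) : Prop where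
  lower : R / 64 ≤ r
  upper : r ≤ 64 * R
  two_sided : ∀ h, 0 < h → 1000 * h ≤ R → h < |r - e1| → h < |r - e2| →
    avg g x (r - h) ≤ avg g x r ∧ avg g x (r + h) ≤ avg g x r
  moment : r ≠ e1 → r ≠ e2 → ∫ z in ball x r, ⟪v z, z - x⟫ = 0

/-- The excess bound: on a band, the excess of the averaged gradient at maximisers is integrally
at most the deficits at all finer levels, with geometric weights. -/
theorem excess_band (hd : 2 ≤ d) : ∃ C : ℝ≥0∞, C ≠ ⊤ ∧
    ∀ {ε : ℝ} {g : EE d → ℝ} {v : EE d → EE d}, IsPot g v → 0 < ε →
      ∀ {e : EE d}, ‖e‖ = 1 → ∀ (J : ℕ) (e1 e2 : ℝ) (p : EE d),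
        ∃ Tot : EE d → ℝ≥0∞, Measurable Tot ∧
          (∀ x r, LocMax g v (rho ε J) e1 e2 x r →
            ENNReal.ofReal (excess 3 e (∫ z in ball x r, v z)) ≤ Tot x) ∧
          ∫⁻ x in ball p (rho ε J), Tot x ≤ C * ENNReal.ofReal (rho ε J ^ d) *
            ∑ n ∈ Finset.range (J + 1),
              ENNReal.ofReal (qC ^ n) * GE ε v e J n p (1024 * rho ε J) := by
  obtain ⟨Cc, hCc, hcap⟩ := cap_band (d := d) hd
  obtain ⟨Cr, hCr, htest⟩ := radial_test (d := d) (by omega)
  set C : ℝ := 10000 + 40 * Cc + (4 + 3 * Cr) * Cc with hC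
  have hq := qC_pos
  have hq1 := qC_lt_one
  have hu : 0 < 1 - qC := by linarith
  have hcr : 0 ≤ (4 + 3 * Cr) * Cc := by positivity
  have hC1 : 1 ≤ C := by linarith
  obtain ⟨N1, hN, hsmall⟩ := exists_deep (10000 * C ^ 5 / (1 - qC) ^ 3 / (1 - qC))
  obtain ⟨CT, hCT, hint⟩ := lintegral_TE (d := d) hd hN
  set K := 12000 * C ^ 6 / (1 - qC) ^ 5 with hK
  refine ⟨ENNReal.ofReal K * CT, ENNReal.mul_ne_top ENNReal.ofReal_ne_top hCT,
    fun {ε g v} hp hε {e} he J e1 e2 p => ?_⟩
  refine ⟨fun x => ENNReal.ofReal K * ∑ n ∈ Finset.range (J + 1), TE ε v e J N1 e1 e2 n x,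
    (Finset.measurable_sum _ fun n _ => measurable_TE hp hε e J N1 e1 e2 n).const_mul _,
    fun x r hm => ?_, ?_⟩
  · obtain ⟨S, dir, hrange, hdir, hgood, hrem, hclose, hWS⟩ :=
      classify (e1 := e1) (e2 := e2) (x := x) hp hε he hN hm.lower hm.upper
    set T : ℕ → ℝ := fun n => TT ε v e J N1 e1 e2 n x with hTdef
    have hT : TBound ε v e J x T :=
      ⟨fun n => ENNReal.toReal_nonneg, fun n _ => GE_le_TT hp hε he n⟩
    have hat : ∀ m, S m → ∃ y, AtGood ε g v e J N1 m e1 e2 x y r Cc := fun m hm' => by
      obtain ⟨y, hy⟩ := hgood m hm'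
      exact ⟨y, hp, hε, he, hN, (hrange m hm').1, (hrange m hm').2, hm.lower, hm.upper, hy, hCc,
        hcap hp hε he hN (hrange m hm').1 (hrange m hm').2 hm.lower hm.upper hy.mem hy.pole⟩
    let L : LevelData d J N1 qC C e :=
      { P := coreVec ε v J x r
        sig := radial ε v J x r
        Z := ZZ ε v J x r
        D := DD ε v e J x r
        G := GG ε v e J x
        T := T
        Wd := WD ε v e J x r
        S := S
        dir := dir
        D_nonneg := Analytic.DD_nonneg he
        Z_nonneg := Analytic.ZZ_nonneg
        G_nonneg := Analytic.GG_nonneg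
        T_nonneg := hT.nonneg
        G_le := hT.le
        D_le := fun n hn =>
          (mul_le_mul_of_nonneg_left (DD_le_GE hp hε he hm.upper n) (pow_nonneg hq.le n)).trans
            (hT.le n hn)
        base := Analytic.base_le hp hε he hm.upper
        layer := fun n hn => Analytic.layer_le hp hε he hn
        Z_le := fun n _ => Analytic.Z_le hp hε he hm.upper n
        rem := hrem
        S_range := hrange
        dir_norm := hdir
        dir_close := hclose
        W_le := fun n _ n0 hn0 => (WD_le hp hε he hm.lower hm.upper n hn0).trans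
          (mul_le_mul_of_nonneg_right (by linarith) (Analytic.DD_nonneg he n))
        W_S := fun n hn n0 hn0 => (hWS n hn n0 hn0).trans
          (mul_le_mul_of_nonneg_right (by linarith)
            (add_nonneg (mul_nonneg (add_nonneg (pow_nonneg hq.le n) (norm_nonneg _))
              (Analytic.DD_nonneg he n)) (hT.nonneg n)))
        group := fun m j' hm' hj hj' n0 hn0 _ => by
          obtain ⟨y, A⟩ := hat m hm'
          have hE := A.err_nonneg hT
          have h0 : 0 ≤ |radial ε v J x r (m / 16)| + |radial ε v J x r j'| +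
              AtGood.err ε v e J m x r T + ∑ k ∈ Finset.Ioc (m / 16) j', WD ε v e J x r k n0 := by
            have : 0 ≤ ∑ k ∈ Finset.Ioc (m / 16) j', WD ε v e J x r k n0 :=
              Finset.sum_nonneg fun k _ => integral_nonneg fun z =>
                mul_nonneg (norm_nonneg _) (Layers.gg_nonneg ε v he J k z)
            have := abs_nonneg (radial ε v J x r (m / 16))
            have := abs_nonneg (radial ε v J x r j')
            linarith
          refine ((A.group_le hT hj hj' hn0).trans
            (mul_le_mul_of_nonneg_right (show 40 * Cc ≤ C by linarith) h0)).trans (le_of_eq ?_)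
          simp only [AtGood.err]
          ring
        test := fun m hm' => by
          obtain ⟨y, A⟩ := hat m hm'
          have hb := Analytic.sc_pos (J := J) hε 3200 m
          have h2 := hm.two_sided (bb ε J m) hb A.b_small (by linarith [A.good.end1])
            (by linarith [A.good.end2])
          refine (A.test_le hT hCr (htest hp hε (by have := A.m_le; omega) hb A.uj_b
            (by linarith [A.b_small, A.r_ge]) h2.1 h2.2)).trans ?_
          exact mul_le_mul_of_nonneg_right (by linarith) (A.err_nonneg hT)
        top := fun ⟨m, hm'⟩ => by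
          obtain ⟨y, A⟩ := hat m hm'
          have hb := Analytic.sc_pos (J := J) hε 3200 m
          rw [radial_top A.r_pos, hm.moment, mul_zero]
          · intro h; have := A.good.end1; rw [h, sub_self, abs_zero] at this; linarith
          · intro h; have := A.good.end2; rw [h, sub_self, abs_zero] at this; linarith
        mono := fun m i hm' hi hiJ => by
          obtain ⟨y, A⟩ := hat m hm'
          refine (A.mono_le hT hi hiJ).trans (mul_le_mul_of_nonneg_right (by linarith) ?_)
          have := Analytic.ZZ_nonneg (ε := ε) (v := v) (J := J) (x := x) (r := r) (m / 16)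
          have := hT.nonneg m
          have := div_nonneg (Analytic.DD_nonneg (ε := ε) (v := v) (J := J) (x := x) (r := r) he
            (m / 16)) (pow_nonneg hq.le m)
          have := Finset.sum_nonneg fun k (_ : k ∈ Finset.range (J + 1)) => hT.nonneg k
          have := Finset.sum_nonneg fun k (_ : k ∈ Finset.range (i + 1)) =>
            Analytic.GG_nonneg (ε := ε) (v := v) (e := e) (J := J) (x := x) k
          linarith }
    have h := L.excess_le hq hq1 hN.1 hC1 he (le_trans (le_of_eq (by ring)) hsmall)
    rw [show L.P J = ∫ z in ball x r, v z from coreVec_top] at h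
    refine (ENNReal.ofReal_le_ofReal h).trans (le_of_eq ?_)
    rw [ENNReal.ofReal_mul (by positivity), LevelData.tot,
      ENNReal.ofReal_sum_of_nonneg fun n _ => hT.nonneg n]
    congr 1
    exact Finset.sum_congr rfl fun n _ => ENNReal.ofReal_toReal (TE_ne_top hp hε he n)
  · rw [lintegral_const_mul' _ _ ENNReal.ofReal_ne_top, mul_assoc, mul_assoc]
    refine mul_le_mul' le_rfl ?_
    rw [← mul_assoc]
    exact hint hp hε he J e1 e2 p

end Vale.Agent.P137
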