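import Mathlib

/-!
Runs of a finite set of levels, the layer cake representation of sums over runs, and the effect
of changing the weights of single levels.
-/

namespace Vale.Agent.P137.Flux

open MeasureTheory Finset

/-- `p` is a maximal interval of consecutive members of `S`. -/
def IsRun (S : Finset ℕ) (p : ℕ × ℕ) : Prop :=
  p.1 ≤ p.2 ∧ (∀ x, p.1 ≤ x → x ≤ p.2 → x ∈ S) ∧ p.1 - 1 ∉ S ∧ p.2 + 1 ∉ S

/-- The pairs of levels in `1, …, n`. -/
def pairs (n : ℕ) : Finset (ℕ × ℕ) := Finset.Icc 1 n ×ˢ Finset.Icc 1 n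

open scoped Classical in
/-- The sum of `X` over the runs of `S`. -/
noncomputable def runSum (n : ℕ) (S : Finset ℕ) (X : ℕ × ℕ → ℝ) : ℝ :=
  ∑ p ∈ (pairs n).filter (IsRun S), X p

theorem IsRun.unique {S : Finset ℕ} {p q : ℕ × ℕ} (hp : IsRun S p) (hq : IsRun S q) {x : ℕ}
    (hpx : p.1 ≤ x ∧ x ≤ p.2) (hqx : q.1 ≤ x ∧ x ≤ q.2) : p = q := by
  obtain ⟨p1, p2, p3, p4⟩ := hp
  obtain ⟨q1, q2, q3, q4⟩ := hq
  refine Prod.ext ?_ ?_
  · rcases lt_trichotomy p.1 q.1 with h | h | h
    · exact absurd (p2 (q.1 - 1) (by omega) (by omega)) q3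
    · exact h
    · exact absurd (q2 (p.1 - 1) (by omega) (by omega)) p3
  · rcases lt_trichotomy p.2 q.2 with h | h | h
    · exact absurd (q2 (p.2 + 1) (by omega) (by omega)) p4
    · exact h
    · exact absurd (p2 (q.2 + 1) (by omega) (by omega)) q4

theorem exists_run {n : ℕ} {S : Finset ℕ} (hS : S ⊆ Finset.Icc 1 n) {x : ℕ} (hx : x ∈ S) :
    ∃ p, IsRun S p ∧ p ∈ pairs n ∧ p.1 ≤ x ∧ x ≤ p.2 := by
  classical
  have h0 : ∀ y ∈ S, 1 ≤ y ∧ y ≤ n := fun y hy => Finset.mem_Icc.1 (hS hy)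
  have he : ∃ i, ∀ y, i ≤ y → y ≤ x → y ∈ S := ⟨x, fun y a b => by rwa [le_antisymm b a]⟩
  set i := Nat.find he
  have hi := Nat.find_spec he
  have hix : i ≤ x := Nat.find_min' he fun y a b => by rwa [le_antisymm b a]
  have hi1 : 1 ≤ i := (h0 i (hi i le_rfl hix)).1
  set j := Nat.findGreatest (fun j => ∀ y, x ≤ y → y ≤ j → y ∈ S) n
  have hxn := (h0 x hx).2
  have hj : ∀ y, x ≤ y → y ≤ j → y ∈ S :=
    Nat.findGreatest_spec (P := fun j => ∀ y, x ≤ y → y ≤ j → y ∈ S) hxn
      fun y a b => by rwa [le_antisymm b a]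
  have hxj : x ≤ j := Nat.le_findGreatest hxn fun y a b => by rwa [le_antisymm b a]
  have hjn : j ≤ n := Nat.findGreatest_le n
  refine ⟨(i, j), ⟨hix.trans hxj, fun y a b => ?_, fun hc => ?_, fun hc => ?_⟩, ?_, hix, hxj⟩
  · rcases le_total y x with h | h
    · exact hi y a h
    · exact hj y h b
  · have : i ≤ i - 1 := Nat.find_min' he fun y a b => by
      rcases eq_or_lt_of_le a with h | h
      · rw [← h]; exact hc
      · exact hi y (by omega) b
    omega
  · have := h0 _ hc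
    have : j + 1 ≤ j := Nat.le_findGreatest this.2 fun y a b => by
      rcases eq_or_lt_of_le b with h | h
      · rw [h]; exact hc
      · exact hj y a (by omega)
    omega
  · simp only [pairs, Finset.mem_product, Finset.mem_Icc]
    omega

/-- The combination of one insertion: at most three error terms. -/
theorem flip_bound {A l C gm gL gj B : ℝ} (hA : |A - gL| ≤ B) (hl : |l - gL| ≤ B)
    (hm : |gm - gL| ≤ B) (hC : gL - C ≤ B) :
    |(max (max A l) C - gj) - (A - gm) - (C - gj)| ≤ 4 * B ∧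
      |(max A l - gL) - (A - gm)| ≤ 4 * B ∧ |(max l C - gj) - (C - gj)| ≤ 4 * B ∧
      |l - gL| ≤ 4 * B := by
  rw [abs_le] at hA hl hm
  refine ⟨abs_le.2 ⟨?_, ?_⟩, abs_le.2 ⟨?_, ?_⟩, abs_le.2 ⟨?_, ?_⟩, abs_le.2 ⟨?_, ?_⟩⟩
  · rcases max_cases (max A l) C with ⟨e, h⟩ | ⟨e, h⟩ <;> rcases max_cases A l with ⟨e', h'⟩ | ⟨e', h'⟩ <;>
      rw [e] <;> linarith
  · rcases max_cases (max A l) C with ⟨e, h⟩ | ⟨e, h⟩ <;> rcases max_cases A l with ⟨e', h'⟩ | ⟨e', h'⟩ <;>
      rw [e] <;> linarith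
  · rcases max_cases A l with ⟨e', h'⟩ | ⟨e', h'⟩ <;> rw [e'] <;> linarith
  · rcases max_cases A l with ⟨e', h'⟩ | ⟨e', h'⟩ <;> rw [e'] <;> linarith
  · rcases max_cases l C with ⟨e', h'⟩ | ⟨e', h'⟩ <;> rw [e'] <;> linarith
  · rcases max_cases l C with ⟨e', h'⟩ | ⟨e', h'⟩ <;> rw [e'] <;> linarith
  · linarith
  · linarith

/-- The hypotheses under which flipping a level costs a bounded amount. -/
structure FlipHyp (n : ℕ) (F : ℕ × ℕ → ℝ) (g B : ℕ → ℝ) : Prop where
  split : ∀ i m j, 1 ≤ i → i ≤ m → m < j → j ≤ n → F (i, j) = max (F (i, m)) (F (m + 1, j))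
  low : ∀ L i j, 1 ≤ i → i ≤ j → j ≤ L → L ≤ n → |F (i, j) - g L| ≤ B L
  step : ∀ L, 2 ≤ L → L ≤ n → |g (L - 1) - g L| ≤ B L
  high : ∀ L j, 1 ≤ L → L < j → j ≤ n → g L - F (L + 1, j) ≤ B L

theorem FlipHyp.nonneg {n : ℕ} {F : ℕ × ℕ → ℝ} {g B : ℕ → ℝ} (h : FlipHyp n F g B) {L : ℕ}
    (h1 : 1 ≤ L) (hn : L ≤ n) : 0 ≤ B L :=
  (abs_nonneg _).trans (h.low L L L h1 le_rfl le_rfl hn)

theorem runSum_insert {n : ℕ} {F : ℕ × ℕ → ℝ} {g B : ℕ → ℝ} (h : FlipHyp n F g B) {S : Finset ℕ}
    (hS : S ⊆ Finset.Icc 1 n) {L : ℕ} (hL : L ∈ Finset.Icc 1 n) (hLS : L ∉ S) :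
    |runSum n (insert L S) (fun p => F p - g p.2) - runSum n S (fun p => F p - g p.2)|
      ≤ 4 * B L := by
  classical
  set T := insert L S with hT
  have hTs : T ⊆ Finset.Icc 1 n := Finset.insert_subset hL hS
  obtain ⟨⟨i, j⟩, hp0, hp0m, hiL, hLj⟩ := exists_run hTs (Finset.mem_insert_self L S)
  simp only at hiL hLj
  obtain ⟨-, hmem, hleft, hright⟩ := id hp0
  simp only at hmem hleft hright
  obtain ⟨hL1, hLn⟩ := Finset.mem_Icc.1 hL
  obtain ⟨⟨hi1, -⟩, ⟨-, hjn⟩⟩ : (1 ≤ i ∧ i ≤ n) ∧ (1 ≤ j ∧ j ≤ n) := by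
    simpa [pairs] using hp0m
  have hS' : ∀ x, x ≠ L → (x ∈ T ↔ x ∈ S) := fun x hx => by simp [hT, hx]
  set adj : ℕ × ℕ → Prop := fun p => p.2 + 1 = L ∨ p.1 = L + 1
  set keep := ((pairs n).filter (IsRun S)).filter fun p => ¬ adj p
  have hT1 : (pairs n).filter (IsRun T) = insert (i, j) keep := by
    ext p
    simp only [keep, Finset.mem_filter, Finset.mem_insert]
    constructor
    · rintro ⟨hp, hr⟩
      by_cases hc : p.1 ≤ L ∧ L ≤ p.2
      · exact Or.inl (hr.unique hp0 hc ⟨hiL, hLj⟩)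
      · obtain ⟨r1, r2, r3, r4⟩ := hr
        refine Or.inr ⟨⟨hp, r1, fun x a b => (hS' x (by rintro rfl; exact hc ⟨a, b⟩)).1 (r2 x a b),
          fun hm => r3 (Finset.mem_insert_of_mem hm), fun hm => r4 (Finset.mem_insert_of_mem hm)⟩, ?_⟩
        rintro (e | e)
        · exact r4 (by rw [e, hT]; exact Finset.mem_insert_self _ _)
        · exact r3 (by rw [e, Nat.add_sub_cancel, hT]; exact Finset.mem_insert_self _ _)
    · rintro (rfl | ⟨⟨hp, r1, r2, r3, r4⟩, ha⟩)
      · exact ⟨hp0m, hp0⟩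
      · have hpp : 1 ≤ p.1 := by
          simp only [pairs, Finset.mem_product, Finset.mem_Icc] at hp; omega
        refine ⟨hp, r1, fun x a b => Finset.mem_insert_of_mem (r2 x a b), ?_, ?_⟩
        · rw [hS' _ (fun e => ha (Or.inr (by omega)))]; exact r3
        · rw [hS' _ (fun e => ha (Or.inl e))]; exact r4
  have hnot : (i, j) ∉ keep := by
    simp only [keep, Finset.mem_filter]
    rintro ⟨⟨-, -, r2, -, -⟩, -⟩
    exact hLS (r2 L hiL hLj)
  have hadj : ((pairs n).filter (IsRun S)).filter adj =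
      (if i < L then {(i, L - 1)} else ∅) ∪ (if L < j then {(L + 1, j)} else ∅) := by
    have hA : i < L → IsRun S (i, L - 1) := fun hlt =>
      ⟨by show i ≤ L - 1; omega,
        fun x a b => (hS' x (by simp only at b; omega)).1 (hmem x a (by simp only at b; omega)),
        fun hm => hleft (Finset.mem_insert_of_mem hm),
        by show L - 1 + 1 ∉ S; rw [Nat.sub_add_cancel hL1]; exact hLS⟩
    have hC : L < j → IsRun S (L + 1, j) := fun hlt =>
      ⟨by show L + 1 ≤ j; omega,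
        fun x a b => (hS' x (by simp only at a; omega)).1 (hmem x (by simp only at a; omega) b),
        by show L + 1 - 1 ∉ S; rw [Nat.add_sub_cancel]; exact hLS,
        fun hm => hright (Finset.mem_insert_of_mem hm)⟩
    ext p
    simp only [Finset.mem_filter, Finset.mem_union]
    constructor
    · rintro ⟨⟨hp, hr⟩, e | e⟩
      · left
        have hlt : i < L := by
          rcases eq_or_lt_of_le hiL with h' | h'
          · exact absurd (hr.2.1 p.2 hr.1 le_rfl) fun hm => hleft (by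
              rw [show i - 1 = p.2 by omega]; exact Finset.mem_insert_of_mem hm)
          · exact h'
        rw [if_pos hlt, Finset.mem_singleton]
        exact hr.unique (hA hlt) ⟨hr.1, le_rfl⟩ ⟨by show i ≤ p.2; omega, by show p.2 ≤ L - 1; omega⟩
      · right
        have hlt : L < j := by
          rcases eq_or_lt_of_le hLj with h' | h'
          · exact absurd (hr.2.1 p.1 le_rfl hr.1) fun hm => hright (by
              rw [show j + 1 = p.1 by omega]; exact Finset.mem_insert_of_mem hm)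
          · exact h'
        rw [if_pos hlt, Finset.mem_singleton]
        exact hr.unique (hC hlt) ⟨le_rfl, hr.1⟩
          ⟨by show L + 1 ≤ p.1; omega, by show p.1 ≤ j; omega⟩
    · rintro (hm | hm) <;> split_ifs at hm with hlt
      · rw [Finset.mem_singleton] at hm; subst hm
        exact ⟨⟨by simp [pairs]; omega, hA hlt⟩, Or.inl (by show L - 1 + 1 = L; omega)⟩
      · simp at hm
      · rw [Finset.mem_singleton] at hm; subst hm
        exact ⟨⟨by simp [pairs]; omega, hC hlt⟩, Or.inr rfl⟩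
      · simp at hm
  have hdisj : Disjoint (if i < L then ({(i, L - 1)} : Finset (ℕ × ℕ)) else ∅)
      (if L < j then {(L + 1, j)} else ∅) := by
    split_ifs <;> simp <;> omega
  rw [runSum, runSum, hT1, Finset.sum_insert hnot,
    ← Finset.sum_filter_add_sum_filter_not ((pairs n).filter (IsRun S)) adj, hadj,
    Finset.sum_union hdisj]
  have hl := h.low L L L hL1 le_rfl le_rfl hLn
  have h3 : 0 ≤ B L := h.nonneg hL1 hLn
  simp only [apply_ite (fun s : Finset (ℕ × ℕ) => ∑ p ∈ s, (F p - g p.2)), Finset.sum_singleton,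
    Finset.sum_empty]
  by_cases ha : i < L <;> by_cases hc : L < j
  · rw [if_pos ha, if_pos hc, h.split i L j hi1 hiL hc hjn,
      show F (i, L) = max (F (i, L - 1)) (F (L, L)) by
        have := h.split i (L - 1) L hi1 (by omega) (by omega) hLn
        rwa [Nat.sub_add_cancel hL1] at this]
    have := (flip_bound (gj := g j) (h.low L i (L - 1) hi1 (by omega) (by omega) hLn) hl
      (h.step L (by omega) hLn) (h.high L j hL1 hc hjn)).1
    convert this using 2; ring
  · obtain rfl : j = L := by omega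
    rw [if_pos ha, if_neg hc,
      show F (i, j) = max (F (i, j - 1)) (F (j, j)) by
        have := h.split i (j - 1) j hi1 (by omega) (by omega) hLn
        rwa [Nat.sub_add_cancel hL1] at this]
    have := (flip_bound (C := g j) (gj := 0) (h.low j i (j - 1) hi1 (by omega) (by omega) hLn) hl
      (h.step j (by omega) hLn) (by linarith)).2.1
    convert this using 2; ring
  · obtain rfl : i = L := by omega
    rw [if_neg ha, if_pos hc, h.split i i j hi1 le_rfl hc hjn]
    have := (flip_bound (A := g i) (gm := g i) (gj := g j) (by simpa using h3) hl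
      (by simpa using h3) (h.high i j hL1 hc hjn)).2.2.1
    convert this using 2; ring
  · obtain rfl : i = L := by omega
    obtain rfl : i = j := by omega
    simp only [ha, if_false]
    have := (flip_bound (A := g i) (gm := g i) (C := g i) (gj := 0) (by simpa using h3) hl
      (by simpa using h3) (by linarith)).2.2.2
    convert this using 2; ring

theorem runSum_union {n : ℕ} {F : ℕ × ℕ → ℝ} {g B : ℕ → ℝ} (h : FlipHyp n F g B) {S D : Finset ℕ}
    (hS : S ⊆ Finset.Icc 1 n) (hD : D ⊆ Finset.Icc 1 n) (hdis : Disjoint S D) :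
    |runSum n (S ∪ D) (fun p => F p - g p.2) - runSum n S (fun p => F p - g p.2)|
      ≤ ∑ L ∈ D, 4 * B L := by
  induction D using Finset.induction_on with
  | empty => simp
  | insert a D ha ih =>
    rw [Finset.insert_subset_iff] at hD
    rw [Finset.disjoint_insert_right] at hdis
    rw [Finset.union_insert, Finset.sum_insert ha]
    refine (abs_sub_le _ (runSum n (S ∪ D) fun p => F p - g p.2) _).trans
      (add_le_add (runSum_insert h (Finset.union_subset hS hD.2) hD.1 ?_) (ih hD.2 hdis.2))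
    simp [ha, hdis.1]

theorem runSum_symmDiff {n : ℕ} {F : ℕ × ℕ → ℝ} {g B : ℕ → ℝ} (h : FlipHyp n F g B)
    {S S' : Finset ℕ} (hS : S ⊆ Finset.Icc 1 n) (hS' : S' ⊆ Finset.Icc 1 n) :
    |runSum n S' (fun p => F p - g p.2) - runSum n S (fun p => F p - g p.2)|
      ≤ ∑ L ∈ S' \ S, 4 * B L + ∑ L ∈ S \ S', 4 * B L := by
  have h1 := runSum_union h hS (Finset.sdiff_subset.trans hS') (Finset.disjoint_sdiff (s := S) (t := S'))
  have h2 := runSum_union h hS' (Finset.sdiff_subset.trans hS) (Finset.disjoint_sdiff (s := S') (t := S))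
  rw [Finset.union_sdiff_self_eq_union] at h1 h2
  rw [Finset.union_comm S' S] at h2
  rw [abs_le] at h1 h2 ⊢
  constructor <;> linarith

/-- The measure, within `(0, 1]`, of an interval in `[0, 1]`. -/
theorem integral_Ico_indicator {a b : ℝ} (ha : 0 ≤ a) (hb : b ≤ 1) :
    ∫ t in Set.Ioc (0 : ℝ) 1, (Set.Ico a b).indicator (fun _ => (1 : ℝ)) t = max 0 (b - a) := by
  rw [setIntegral_indicator measurableSet_Ico, setIntegral_const, smul_eq_mul, mul_one]
  have hsub : Set.Ioo a b ⊆ Set.Ioc (0 : ℝ) 1 ∩ Set.Ico a b := fun t ht =>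
    ⟨⟨ha.trans_lt ht.1, ht.2.le.trans hb⟩, ht.1.le, ht.2⟩
  rw [measureReal_def, show volume (Set.Ioc (0 : ℝ) 1 ∩ Set.Ico a b) = ENNReal.ofReal (b - a) from
    le_antisymm ((measure_mono Set.inter_subset_right).trans_eq Real.volume_Ico)
      (Real.volume_Ioo.symm.trans_le (measure_mono hsub))]
  rw [ENNReal.toReal_ofReal']
  exact max_comm _ _

theorem integrable_Ico_indicator (a b : ℝ) :
    Integrable ((Set.Ico a b).indicator fun _ => (1 : ℝ))
      (volume.restrict (Set.Ioc (0 : ℝ) 1)) :=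
  (integrable_const _).indicator measurableSet_Ico

/-- The levels with weight above `t`. -/
noncomputable def above (n : ℕ) (w : ℕ → ℝ) (t : ℝ) : Finset ℕ :=
  (Finset.Icc 1 n).filter fun L => t < w L

/-- Weights vanishing outside `1, …, n` with values in `[0, 1]`. -/
structure IsWeight (n : ℕ) (w : ℕ → ℝ) : Prop where
  nonneg : ∀ L, 0 ≤ w L
  le_one : ∀ L, w L ≤ 1
  zero : w 0 = 0
  top : w (n + 1) = 0

/-- The layer measure of `p` being a run. -/
noncomputable def coef (w : ℕ → ℝ) (p : ℕ × ℕ) : ℝ :=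
  if h : p.1 ≤ p.2 then
    max 0 ((Finset.Icc p.1 p.2).inf' (Finset.nonempty_Icc.2 h) w - max (w (p.1 - 1)) (w (p.2 + 1)))
  else 0

theorem coef_nonneg (w : ℕ → ℝ) (p : ℕ × ℕ) : 0 ≤ coef w p := by
  unfold coef; split_ifs
  · exact le_max_left _ _
  · exact le_rfl

open scoped Classical in
theorem run_indicator {n : ℕ} {w : ℕ → ℝ} (hw : IsWeight n w) {t : ℝ} (ht : 0 ≤ t) {p : ℕ × ℕ}
    (hp : p ∈ pairs n) (h : p.1 ≤ p.2) :
    (if IsRun (above n w t) p then (1 : ℝ) else 0) =
      (Set.Ico (max (w (p.1 - 1)) (w (p.2 + 1)))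
        ((Finset.Icc p.1 p.2).inf' (Finset.nonempty_Icc.2 h) w)).indicator (fun _ => 1) t := by
  simp only [pairs, Finset.mem_product, Finset.mem_Icc] at hp
  have hout : ∀ x, (x = 0 ∨ x = n + 1 ∨ (1 ≤ x ∧ x ≤ n)) → (x ∉ above n w t ↔ w x ≤ t) := by
    intro x hx
    simp only [above, Finset.mem_filter, Finset.mem_Icc, not_and, not_lt]
    rcases hx with rfl | rfl | hx
    · simp [hw.zero, ht]
    · simp [hw.top, ht]
    · exact ⟨fun hh => hh hx, fun hh _ => hh⟩
  rw [Set.indicator_apply]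
  refine if_congr ?_ rfl rfl
  rw [Set.mem_Ico, max_le_iff, Finset.lt_inf'_iff, IsRun, hout _ (by omega), hout _ (by omega)]
  constructor
  · rintro ⟨-, h2, h3, h4⟩
    refine ⟨⟨h3, h4⟩, fun x hx => ?_⟩
    obtain ⟨a, b⟩ := Finset.mem_Icc.1 hx
    exact (Finset.mem_filter.1 (h2 x a b)).2
  · rintro ⟨⟨h3, h4⟩, h2⟩
    exact ⟨h, fun x a b => Finset.mem_filter.2 ⟨Finset.mem_Icc.2 ⟨by omega, by omega⟩,
      h2 x (Finset.mem_Icc.2 ⟨a, b⟩)⟩, h3, h4⟩

open scoped Classical in
/-- The layer cake formula. -/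
theorem layer_cake {n : ℕ} {w : ℕ → ℝ} (hw : IsWeight n w) (X : ℕ × ℕ → ℝ) :
    IntegrableOn (fun t => runSum n (above n w t) X) (Set.Ioc 0 1) ∧
      ∫ t in Set.Ioc (0 : ℝ) 1, runSum n (above n w t) X = ∑ p ∈ pairs n, coef w p * X p := by
  set G : ℕ × ℕ → ℝ → ℝ := fun p t => if h : p.1 ≤ p.2 then
    (Set.Ico (max (w (p.1 - 1)) (w (p.2 + 1)))
      ((Finset.Icc p.1 p.2).inf' (Finset.nonempty_Icc.2 h) w)).indicator (fun _ => 1) t * X p
    else 0
  have he : Set.EqOn (fun t => runSum n (above n w t) X) (fun t => ∑ p ∈ pairs n, G p t)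
      (Set.Ioc 0 1) := by
    intro t ht
    simp only [runSum, Finset.sum_filter, G]
    refine Finset.sum_congr rfl fun p hp => ?_
    by_cases h : p.1 ≤ p.2
    · rw [dif_pos h, ← run_indicator hw ht.1.le hp h]
      simp
    · rw [dif_neg h, if_neg fun hr => h hr.1]
  have hG : ∀ p, IntegrableOn (G p) (Set.Ioc 0 1) := fun p => by
    by_cases h : p.1 ≤ p.2
    · simp only [G, dif_pos h]
      exact (integrable_Ico_indicator _ _).mul_const _
    · simp only [G, dif_neg h]
      exact integrable_zero _ _ _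
  refine ⟨IntegrableOn.congr_fun (integrable_finsetSum _ fun p _ => hG p) he.symm measurableSet_Ioc, ?_⟩
  rw [setIntegral_congr_fun measurableSet_Ioc he, integral_finsetSum _ fun p _ => hG p]
  refine Finset.sum_congr rfl fun p hp => ?_
  unfold coef
  by_cases h : p.1 ≤ p.2
  · simp only [G, dif_pos h]
    rw [integral_mul_const, integral_Ico_indicator (le_max_of_le_left (hw.nonneg _)) ?_]
    exact (Finset.inf'_le _ (Finset.mem_Icc.2 ⟨h, le_rfl⟩)).trans (hw.le_one _)
  · simp only [G, dif_neg h, integral_zero, zero_mul]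

/-- Changing the weights changes the layered sum by the weight differences times the errors. -/
theorem flux_pointwise {n : ℕ} {F : ℕ × ℕ → ℝ} {g B : ℕ → ℝ} (h : FlipHyp n F g B) {w w' : ℕ → ℝ}
    (hw : IsWeight n w) (hw' : IsWeight n w') :
    |∑ p ∈ pairs n, coef w' p * (F p - g p.2) - ∑ p ∈ pairs n, coef w p * (F p - g p.2)|
      ≤ ∑ L ∈ Finset.Icc 1 n, 4 * B L * |w' L - w L| := by
  set X := fun p : ℕ × ℕ => F p - g p.2
  obtain ⟨i1, e1⟩ := layer_cake hw X
  obtain ⟨i2, e2⟩ := layer_cake hw' X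
  set D : ℕ → ℝ → ℝ := fun L t =>
    (Set.Ico (min (w L) (w' L)) (max (w L) (w' L))).indicator (fun _ => 1) t
  have hD : ∀ L ∈ Finset.Icc 1 n, IntegrableOn (fun t => 4 * B L * D L t) (Set.Ioc 0 1) := fun L _ =>
    (integrable_Ico_indicator _ _).const_mul _
  have hpt : ∀ t ∈ Set.Ioc (0 : ℝ) 1,
      ‖runSum n (above n w' t) X - runSum n (above n w t) X‖ ≤
        ∑ L ∈ Finset.Icc 1 n, 4 * B L * D L t := by
    intro t _
    refine (runSum_symmDiff h (S := above n w t) (S' := above n w' t) (Finset.filter_subset _ _)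
      (Finset.filter_subset _ _)).trans
      (le_of_eq ?_)
    have e : ∀ (u u' : ℕ → ℝ), above n u t \ above n u' t =
        (Finset.Icc 1 n).filter fun L => u' L ≤ t ∧ t < u L := fun u u' => by
      ext L; simp [above]; tauto
    rw [e, e, Finset.sum_filter, Finset.sum_filter, ← Finset.sum_add_distrib]
    refine Finset.sum_congr rfl fun L _ => ?_
    simp only [D, Set.indicator_apply, Set.mem_Ico]
    rcases le_total (w L) (w' L) with hh | hh
    · rw [min_eq_left hh, max_eq_right hh, mul_ite, mul_one, mul_zero, add_eq_left,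
        if_neg fun hc => by linarith [hc.1, hc.2]]
    · rw [min_eq_right hh, max_eq_left hh, mul_ite, mul_one, mul_zero, add_eq_right,
        if_neg fun hc => by linarith [hc.1, hc.2]]
  rw [← e1, ← e2, ← integral_sub i2 i1, ← Real.norm_eq_abs]
  refine (norm_integral_le_of_norm_le (integrable_finsetSum _ hD)
    ((ae_restrict_iff' measurableSet_Ioc).2 (.of_forall hpt))).trans (le_of_eq ?_)
  rw [integral_finsetSum _ hD]
  refine Finset.sum_congr rfl fun L _ => ?_
  simp only [D, integral_const_mul]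
  rw [integral_Ico_indicator (le_min (hw.nonneg _) (hw'.nonneg _))
    (max_le (hw.le_one _) (hw'.le_one _)), max_sub_min_eq_abs, max_eq_right (abs_nonneg _),
    abs_sub_comm]

open scoped Classical in
theorem runSum_end {n : ℕ} {S : Finset ℕ} (hS : S ⊆ Finset.Icc 1 n) (j : ℕ) :
    runSum n S (fun p => if p.2 = j then 1 else 0) = if j ∈ S ∧ j + 1 ∉ S then 1 else 0 := by
  by_cases h : j ∈ S ∧ j + 1 ∉ S
  · obtain ⟨p, hr, hm, h1, h2⟩ := exists_run hS h.1
    have he : p.2 = j := le_antisymm (not_lt.1 fun hh => h.2 (hr.2.1 _ (by omega) (by omega))) h2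
    rw [runSum, Finset.sum_eq_single p (fun q hq hne => if_neg fun e => hne ?_)
      (fun hh => absurd (Finset.mem_filter.2 ⟨hm, hr⟩) hh), if_pos he, if_pos h]
    obtain ⟨-, hqr⟩ := Finset.mem_filter.1 hq
    exact hqr.unique hr ⟨hqr.1.trans_eq' rfl, le_rfl⟩ ⟨by omega, by omega⟩
  · rw [runSum, if_neg h, Finset.sum_eq_zero]
    intro q hq
    obtain ⟨-, hqr⟩ := Finset.mem_filter.1 hq
    refine if_neg fun e => h ?_
    subst e
    exact ⟨hqr.2.1 _ hqr.1 le_rfl, hqr.2.2.2⟩

open scoped Classical in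
/-- The total weight of the runs ending at `j`. -/
theorem sum_coef_end {n : ℕ} {w : ℕ → ℝ} (hw : IsWeight n w) {j : ℕ} (hj : j ∈ Finset.Icc 1 n) :
    ∑ i ∈ Finset.Icc 1 n, coef w (i, j) = max 0 (w j - w (j + 1)) := by
  obtain ⟨-, e⟩ := layer_cake hw fun p => if p.2 = j then 1 else 0
  have hR : ∀ t ∈ Set.Ioc (0 : ℝ) 1, runSum n (above n w t) (fun p => if p.2 = j then 1 else 0) =
      (Set.Ico (w (j + 1)) (w j)).indicator (fun _ => 1) t := by
    intro t ht
    rw [runSum_end (S := above n w t) (Finset.filter_subset _ _), Set.indicator_apply]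
    refine if_congr ?_ rfl rfl
    obtain ⟨-, h2⟩ := Finset.mem_Icc.1 hj
    simp only [above, Finset.mem_filter, hj, true_and, Set.mem_Ico]
    constructor
    · rintro ⟨a, b⟩
      refine ⟨?_, a⟩
      rcases eq_or_lt_of_le h2 with e | e
      · rw [e, hw.top]; exact ht.1.le
      · exact not_lt.1 fun hh => b ⟨Finset.mem_Icc.2 ⟨by omega, e⟩, hh⟩
    · rintro ⟨a, b⟩
      exact ⟨b, fun hh => absurd hh.2 (not_lt.2 a)⟩
  rw [setIntegral_congr_fun measurableSet_Ioc hR,
    integral_Ico_indicator (hw.nonneg _) (hw.le_one _)] at e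
  rw [e, pairs, Finset.sum_product]
  refine Finset.sum_congr rfl fun i _ => ?_
  simp only [mul_ite, mul_one, mul_zero, Finset.sum_ite_eq', if_pos hj]

open scoped Classical in
/-- The runs containing `L` carry the weight of `L`. -/
theorem sum_coef_cover {n : ℕ} {w : ℕ → ℝ} (hw : IsWeight n w) {L : ℕ} (hL : L ∈ Finset.Icc 1 n) :
    ∑ p ∈ (pairs n).filter (fun p => p.1 ≤ L ∧ L ≤ p.2), coef w p = w L := by
  obtain ⟨-, e⟩ := layer_cake hw fun p => if p.1 ≤ L ∧ L ≤ p.2 then 1 else 0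
  have hR : ∀ t ∈ Set.Ioc (0 : ℝ) 1,
      runSum n (above n w t) (fun p => if p.1 ≤ L ∧ L ≤ p.2 then 1 else 0) =
        (Set.Ico 0 (w L)).indicator (fun _ => 1) t := by
    intro t ht
    by_cases hm : t < w L
    · obtain ⟨p, hr, hp, h12⟩ := exists_run (S := above n w t) (Finset.filter_subset _ _)
        (Finset.mem_filter.2 ⟨hL, hm⟩)
      rw [runSum, Finset.sum_eq_single p
        (fun q hq hne => if_neg fun hh => hne ((Finset.mem_filter.1 hq).2.unique hr hh h12))
        (fun hh => absurd (Finset.mem_filter.2 ⟨hp, hr⟩) hh), if_pos h12,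
        Set.indicator_of_mem (Set.mem_Ico.2 ⟨ht.1.le, hm⟩)]
    · rw [Set.indicator_of_notMem (fun hh => hm hh.2), runSum, Finset.sum_eq_zero]
      intro q hq
      refine if_neg fun hh => hm ?_
      exact (Finset.mem_filter.1 ((Finset.mem_filter.1 hq).2.2.1 L hh.1 hh.2)).2
  rw [setIntegral_congr_fun measurableSet_Ioc hR, integral_Ico_indicator le_rfl (hw.le_one _),
    sub_zero, max_eq_right (hw.nonneg _)] at e
  rw [e, Finset.sum_filter]
  exact Finset.sum_congr rfl fun p _ => by split_ifs <;> simp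

end Vale.Agent.P137.Flux
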