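import Vale.Agent.P137.Centred.Trunc
import Vale.Agent.P137.Centred.Band
import Vale.Agent.P137.Centred.Runs

/-!
Flux through a family of weights: layered sums of derivatives of truncated maximal functions are
bounded by the differences of the weights times the band errors.

The levels are `1, …, n`; level `L` is the band of radii `[edge L, edge (L + 1)]`, with ladder
index `idx L`.  No derivative of the weights is used: the product is summed by parts in
translations, and the limit of difference quotients is taken by dominated convergence.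
-/

namespace Vale.Agent.P137

open MeasureTheory Metric Filter Topology Set
open scoped RealInnerProductSpace

variable {d : ℕ}

namespace Flux

/-- The maximal average over the radii of the levels `p.1, …, p.2`. -/
noncomputable def segF (edge : ℕ → ℝ) (g : EE d → ℝ) (p : ℕ × ℕ) (x : EE d) : ℝ :=
  Fsup (edge p.1) (edge (p.2 + 1)) g x

/-- The flip cost of a level. -/
noncomputable def fluxErr (ε : ℝ) (v : EE d → EE d) (K : ℝ) (idx : ℕ → ℕ) (L : ℕ) (x : EE d) : ℝ :=
  2 * ∑ p ∈ Finset.Icc 1 L, 2 * K * (K * (K + 1)) ^ d * bandErr ε v (K + 1) (idx p) x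

/-- Edges and indices of the levels. -/
structure Levels (ε K : ℝ) (n : ℕ) (edge : ℕ → ℝ) (idx : ℕ → ℕ) : Prop where
  one_le_K : 1 ≤ K
  one_le : ∀ L ∈ Finset.Icc 1 n, 1 ≤ idx L
  mono : ∀ L ∈ Finset.Icc 1 n, edge L ≤ edge (L + 1)
  lower : ∀ L ∈ Finset.Icc 1 n, rho ε (idx L) / K ≤ edge L
  upper : ∀ L ∈ Finset.Icc 1 n, edge (L + 1) ≤ K * rho ε (idx L)

variable {ε K : ℝ} {n : ℕ} {edge : ℕ → ℝ} {idx : ℕ → ℕ} {g : EE d → ℝ} {v : EE d → EE d}

theorem Levels.pos (hL : Levels ε K n edge idx) (hε : 0 < ε) {L : ℕ} (h : L ∈ Finset.Icc 1 n) :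
    0 < edge L :=
  (div_pos (rho_pos hε _) (lt_of_lt_of_le one_pos hL.one_le_K)).trans_le (hL.lower L h)

theorem Levels.le (hL : Levels ε K n edge idx) {i j : ℕ} (hi : 1 ≤ i) (hij : i ≤ j)
    (hj : j ≤ n + 1) : edge i ≤ edge j := by
  induction j, hij using Nat.le_induction with
  | base => exact le_rfl
  | succ k hik ih =>
    exact (ih (by omega)).trans (hL.mono k (Finset.mem_Icc.2 ⟨by omega, by omega⟩))

theorem exists_level (edge : ℕ → ℝ) {i j : ℕ} (hij : i ≤ j) {r : ℝ} (h1 : edge i ≤ r)
    (h2 : r ≤ edge (j + 1)) : ∃ p, i ≤ p ∧ p ≤ j ∧ edge p ≤ r ∧ r ≤ edge (p + 1) := by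
  induction j, hij using Nat.le_induction with
  | base => exact ⟨i, le_rfl, le_rfl, h1, h2⟩
  | succ k hik ih =>
    rcases le_total r (edge (k + 1)) with h | h
    · obtain ⟨p, a, b, c⟩ := ih h
      exact ⟨p, a, by omega, c⟩
    · exact ⟨k + 1, by omega, le_rfl, h, h2⟩

theorem fluxErr_nonneg (hL : Levels ε K n edge idx) (hε : 0 < ε) (L : ℕ) (x : EE d) :
    0 ≤ fluxErr ε v K idx L x := by
  have hK : (0 : ℝ) ≤ K := le_trans zero_le_one hL.one_le_K
  refine mul_nonneg two_pos.le (Finset.sum_nonneg fun p _ => mul_nonneg (by positivity) ?_)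
  refine mul_nonneg (rho_pos hε _).le (Finset.sum_nonneg fun i _ => mul_nonneg (by positivity) ?_)
  exact Band.ballAvg_nonneg _ (fun y => norm_nonneg _) x

/-- The maximal averages and ladder values satisfy the flip hypotheses. -/
theorem flipHyp (hL : Levels ε K n edge idx) (hε : 0 < ε) (hp : IsPot g v) (x : EE d) :
    FlipHyp n (fun p => segF edge g p x) (fun L => lad ε g (idx L) x)
      (fun L => fluxErr ε v K idx L x) := by
  set G := fun L => lad ε g (idx L) x
  set D := fun L => 2 * K * (K * (K + 1)) ^ d * bandErr ε v (K + 1) (idx L) x with hD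
  have hband : ∀ L ∈ Finset.Icc 1 n, ∀ r, edge L ≤ r → r ≤ edge (L + 1) → |avg g x r - G L| ≤ D L :=
    fun L h r h1 h2 => Band.band_bound hε hp hL.one_le_K (hL.one_le L h) x
      ((hL.lower L h).trans h1) (h2.trans (hL.upper L h))
  have hD0 : ∀ L ∈ Finset.Icc 1 n, 0 ≤ D L := fun L h =>
    (abs_nonneg _).trans (hband L h _ le_rfl (hL.mono L h))
  have hadj : ∀ L, 1 ≤ L → L + 1 ≤ n → |G L - G (L + 1)| ≤ D L + D (L + 1) := by
    intro L h1 h2
    have a := hband L (Finset.mem_Icc.2 ⟨h1, by omega⟩) _
      (hL.mono L (Finset.mem_Icc.2 ⟨h1, by omega⟩)) le_rfl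
    have b := hband (L + 1) (Finset.mem_Icc.2 ⟨by omega, h2⟩) _ le_rfl
      (hL.mono _ (Finset.mem_Icc.2 ⟨by omega, h2⟩))
    rw [abs_le] at a b ⊢
    constructor <;> linarith
  have htel : ∀ p L, 1 ≤ p → p ≤ L → L ≤ n →
      |G p - G L| + D p + D L ≤ 2 * ∑ q ∈ Finset.Icc p L, D q := by
    intro p L hp1 hpL
    induction L, hpL using Nat.le_induction with
    | base => intro _; simp [two_mul]
    | succ k hpk ih =>
      intro hk
      have a := hadj k (by omega) hk
      have b := ih (by omega)
      have c := abs_sub_le (G p) (G k) (G (k + 1))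
      rw [Finset.sum_Icc_succ_top (by omega : p ≤ k + 1)]
      linarith
  have hmono : ∀ p L, 1 ≤ p → L ≤ n →
      ∑ q ∈ Finset.Icc p L, D q ≤ ∑ q ∈ Finset.Icc 1 L, D q := fun p L hp1 hLn =>
    Finset.sum_le_sum_of_subset_of_nonneg (Finset.Icc_subset_Icc hp1 le_rfl) fun q hq _ =>
      hD0 q (Finset.mem_Icc.2 ⟨(Finset.mem_Icc.1 hq).1, (Finset.mem_Icc.1 hq).2.trans hLn⟩)
  have hB : ∀ L, fluxErr ε v K idx L x = 2 * ∑ q ∈ Finset.Icc 1 L, D q := fun L => rfl
  have hatt : ∀ i j, 1 ≤ i → i ≤ j → j ≤ n → ∃ r, edge i ≤ r ∧ r ≤ edge (j + 1) ∧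
      avg g x r = segF edge g (i, j) x := by
    intro i j hi hij hj
    obtain ⟨r, hr, e⟩ := exists_Fsup hp (hL.pos hε (Finset.mem_Icc.2 ⟨hi, by omega⟩))
      (hL.le hi (by omega) (by omega : j + 1 ≤ n + 1)) x
    exact ⟨r, hr.1, hr.2, e⟩
  have hle : ∀ i j r, 1 ≤ i → i ≤ j → j ≤ n → edge i ≤ r → r ≤ edge (j + 1) →
      avg g x r ≤ segF edge g (i, j) x := fun i j r hi hij hj h1 h2 =>
    avg_le_Fsup hp (hL.pos hε (Finset.mem_Icc.2 ⟨hi, by omega⟩)) ⟨h1, h2⟩ x
  refine ⟨fun i m j hi him hmj hj => ?_, fun L i j hi hij hjL hLn => ?_,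
    fun L h2 hLn => ?_, fun L j h1 hLj hj => ?_⟩
  · obtain ⟨r, r1, r2, e⟩ := hatt i j hi (by omega) hj
    refine le_antisymm ?_ (max_le ?_ ?_)
    · rw [← e]
      rcases le_total r (edge (m + 1)) with h | h
      · exact le_max_of_le_left (hle i m r hi him (by omega) r1 h)
      · exact le_max_of_le_right (hle (m + 1) j r (by omega) (by omega) hj h r2)
    · obtain ⟨r, r1, r2, e⟩ := hatt i m hi him (by omega)
      rw [← e]
      exact hle i j r hi (by omega) hj r1 (r2.trans (hL.le (by omega) (by omega) (by omega)))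
    · obtain ⟨r, r1, r2, e⟩ := hatt (m + 1) j (by omega) (by omega) hj
      rw [← e]
      exact hle i j r hi (by omega) hj ((hL.le hi (by omega) (by omega)).trans r1) r2
  · obtain ⟨r, r1, r2, e⟩ := hatt i j hi hij (by omega)
    obtain ⟨p, p1, p2, p3, p4⟩ := exists_level edge hij r1 r2
    have a := hband p (Finset.mem_Icc.2 ⟨by omega, by omega⟩) r p3 p4
    have b := htel p L (by omega) (by omega) hLn
    have c := hmono p L (by omega) hLn
    have c' := hD0 L (Finset.mem_Icc.2 ⟨by omega, hLn⟩)
    have d' := abs_sub_le (avg g x r) (G p) (G L)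
    rw [hB, ← e]
    show |avg g x r - G L| ≤ _
    linarith
  · have b := htel (L - 1) L (by omega) (by omega) hLn
    have c := hmono (L - 1) L (by omega) hLn
    have c1 := hD0 (L - 1) (Finset.mem_Icc.2 ⟨by omega, by omega⟩)
    have c2 := hD0 L (Finset.mem_Icc.2 ⟨by omega, hLn⟩)
    rw [hB]
    show |G (L - 1) - G L| ≤ _
    linarith
  · have hm : L ∈ Finset.Icc 1 n := Finset.mem_Icc.2 ⟨h1, by omega⟩
    have a := (abs_le.1 (hband L hm _ (hL.mono L hm) le_rfl)).1
    have b := hle (L + 1) j (edge (L + 1)) (by omega) (by omega) hj le_rfl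
      (hL.le (by omega) (by omega) (by omega))
    have c := Finset.single_le_sum (f := D)
      (fun q hq => hD0 q (Finset.mem_Icc.2 ⟨(Finset.mem_Icc.1 hq).1,
        (Finset.mem_Icc.1 hq).2.trans (by omega)⟩)) (Finset.mem_Icc.2 ⟨h1, le_rfl⟩ : L ∈ Finset.Icc 1 L)
    have c' := hD0 L hm
    rw [hB]
    show G L - _ ≤ _
    linarith

theorem coef_le_one {w : ℕ → ℝ} (hw : IsWeight n w) (p : ℕ × ℕ) : coef w p ≤ 1 := by
  unfold coef
  split_ifs with h
  · refine max_le zero_le_one ?_
    have h1 := Finset.inf'_le w (Finset.mem_Icc.2 ⟨le_rfl, h⟩)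
    have h2 := hw.le_one p.1
    have h3 : 0 ≤ max (w (p.1 - 1)) (w (p.2 + 1)) := le_max_of_le_left (hw.nonneg _)
    linarith
  · exact zero_le_one

theorem measurable_coef {w : ℕ → EE d → ℝ} (hw : ∀ L, Measurable (w L)) (p : ℕ × ℕ) :
    Measurable fun x => coef (fun L => w L x) p := by
  unfold coef
  split_ifs with h
  · refine measurable_const.max (Measurable.sub ?_ ((hw _).max (hw _)))
    have e : (fun x => (Finset.Icc p.1 p.2).inf' (Finset.nonempty_Icc.2 h) fun L => w L x) =
        (Finset.Icc p.1 p.2).inf' (Finset.nonempty_Icc.2 h) w := by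
      funext x; simp only [Finset.inf'_apply]
    rw [e]
    exact Finset.inf'_induction _ _ (fun a ha b hb => ha.min hb) fun L _ => hw L
  · exact measurable_const

/-- Ball averages of continuous integrable functions are integrable. -/
theorem integrable_avg {h : EE d → ℝ} (hc : Continuous h) (hi : Integrable h) {r : ℝ} :
    Integrable (ballAvg r h) := by
  have : Fact (volume (ball (0 : EE d) r) < ⊤) := ⟨measure_ball_lt_top⟩
  have hm : Continuous fun z : EE d × EE d => h (z.1 + z.2) := by fun_prop
  have hint : Integrable (fun z : EE d × EE d => h (z.1 + z.2))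
      (volume.prod (volume.restrict (ball (0 : EE d) r))) := by
    rw [integrable_prod_iff' hm.aestronglyMeasurable]
    refine ⟨.of_forall fun y => hi.comp_add_right y, ?_⟩
    simp only [integral_add_right_eq_self (fun x => ‖h x‖)]
    exact integrable_const _
  exact hint.integral_prod_left.const_mul ((volume.real (ball (0 : EE d) r))⁻¹)

theorem integrable_fluxErr (hp : IsPot g v) (hε : 0 < ε) (L : ℕ) :
    Integrable (fluxErr ε v K idx L) := by
  refine (integrable_finsetSum _ fun p _ => ?_).const_mul 2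
  refine ((integrable_finsetSum _ fun i _ => ?_).const_mul _).const_mul _
  exact (integrable_avg (isPot_lad hε hp i).contv.norm (isPot_lad hε hp i).intv.norm).const_mul _

/-- The truncated maximal function is integrable. -/
theorem integrable_Fsup (hp : IsPot g v) {a b : ℝ} (ha : 0 < a) (hab : a ≤ b) :
    Integrable (Fsup a b g) := by
  set C := volume.real (ball (0 : EE d) b) / volume.real (ball (0 : EE d) a)
  have hCa := Band.vol_pos (0 : EE d) ha
  refine Integrable.mono' ((integrable_avg hp.cont.norm hp.int.norm (r := b)).const_mul C)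
    (Fsup_lipschitz hp ha hab).continuous.aestronglyMeasurable (.of_forall fun x => ?_)
  obtain ⟨r, ⟨har, hrb⟩, e⟩ := exists_Fsup hp ha hab x
  have hr := ha.trans_le har
  rw [← e, avg, norm_mul, norm_inv, Real.norm_of_nonneg measureReal_nonneg, Band.ballAvg_eq,
    smul_eq_mul, Band.vol_eq x (hr.trans_le hrb)]
  have h1 : ‖∫ y in ball x r, g y‖ ≤ ∫ y in ball x b, ‖g y‖ :=
    (norm_integral_le_integral_norm _).trans (setIntegral_mono_set (Band.intOn hp.cont.norm x b)
      (.of_forall fun y => norm_nonneg _) (LE.le.eventuallyLE (ball_subset_ball hrb)))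
  have h2 : volume.real (ball (0 : EE d) a) ≤ volume.real (ball x r) := by
    rw [Band.vol_eq 0 ha, Band.vol_eq x hr]
    exact mul_le_mul_of_nonneg_right (pow_le_pow_left₀ ha.le har _) measureReal_nonneg
  refine (mul_le_mul (inv_anti₀ hCa h2) h1 (norm_nonneg _) (inv_nonneg.2 hCa.le)).trans (le_of_eq ?_)
  have hb1 := Band.vol_pos (0 : EE d) one_pos
  have hbp : 0 < b ^ d := pow_pos (hr.trans_le hrb) d
  simp only [C]
  rw [Band.vol_eq 0 (hr.trans_le hrb)]
  field_simp

variable {w : ℕ → EE d → ℝ}

theorem mem_pairs {p : ℕ × ℕ} (h : p ∈ pairs n) :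
    p.1 ∈ Finset.Icc 1 n ∧ p.2 ∈ Finset.Icc 1 n := by
  simpa [pairs] using h

theorem integrable_coef_mul (hwm : ∀ L, Measurable (w L))
    (hw : ∀ x, IsWeight n fun L => w L x) (p : ℕ × ℕ) {f : EE d → ℝ} (hf : Integrable f)
    (u : EE d) : Integrable fun x => coef (fun L => w L (x + u)) p * f x := by
  refine hf.bdd_mul (c := 1)
    ((measurable_coef hwm p).comp (measurable_id.add_const u)).aestronglyMeasurable
    (.of_forall fun x => ?_)
  rw [Real.norm_of_nonneg (coef_nonneg _ _)]
  exact coef_le_one (hw (x + u)) p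

/-- Summation by parts in translations, with no derivative of the weights. -/
theorem flux_shift (hL : Levels ε K n edge idx) (hε : 0 < ε) (hp : IsPot g v)
    (hwm : ∀ L, Measurable (w L)) (hw : ∀ x, IsWeight n fun L => w L x) (h : EE d) :
    ∑ p ∈ (pairs n).filter (fun p => p.1 ≤ p.2), ∫ x, coef (fun L => w L x) p *
        (segF edge g p (x + h) - segF edge g p x) ≤
      (∑ j ∈ Finset.Icc 1 n, ∫ x, max 0 (w j x - w (j + 1) x) *
        |lad ε g (idx j) (x + h) - lad ε g (idx j) x|) +
      ∑ L ∈ Finset.Icc 1 n, ∫ x, 4 * fluxErr ε v K idx L x * |w L (x - h) - w L x| := by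
  set P := (pairs n).filter fun p : ℕ × ℕ => p.1 ≤ p.2
  set c := fun (p : ℕ × ℕ) (x : EE d) => coef (fun L => w L x) p
  set G := fun (j : ℕ) => lad ε g (idx j)
  set X := fun (p : ℕ × ℕ) (x : EE d) => segF edge g p x - G p.2 x
  have hG : ∀ j, Integrable (G j) := fun j => (isPot_lad hε hp _).int
  have hX : ∀ p ∈ P, Integrable (X p) := by
    intro p hp'
    obtain ⟨hm, hle⟩ := Finset.mem_filter.1 hp'
    obtain ⟨m1, m2⟩ := mem_pairs hm
    refine (integrable_Fsup hp (hL.pos hε m1) (hL.le (Finset.mem_Icc.1 m1).1 ?_ ?_)).sub (hG _)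
    · omega
    · have := (Finset.mem_Icc.1 m2).2; omega
  have hc : ∀ p (f : EE d → ℝ), Integrable f → Integrable fun x => c p x * f x := fun p f hf => by
    simpa [c] using integrable_coef_mul hwm hw p hf 0
  have hc' : ∀ p (f : EE d → ℝ), Integrable f → Integrable fun x => c p (x - h) * f x :=
    fun p f hf => by simpa [c, sub_eq_add_neg] using integrable_coef_mul hwm hw p hf (-h)
  have hX' : ∀ p ∈ P, Integrable fun x => c p x * (X p (x + h) - X p x) := fun p hp' =>
    hc p _ (((hX p hp').comp_add_right h).sub (hX p hp'))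
  have hG' : ∀ p : ℕ × ℕ, Integrable fun x => c p x * (G p.2 (x + h) - G p.2 x) := fun p =>
    hc p _ (((hG p.2).comp_add_right h).sub (hG p.2))
  have e1 : ∀ p ∈ P, ∫ x, c p x * (segF edge g p (x + h) - segF edge g p x) =
      (∫ x, c p (x - h) * X p x - c p x * X p x) + ∫ x, c p x * (G p.2 (x + h) - G p.2 x) := by
    intro p hp'
    have hs : ∫ x, c p x * X p (x + h) = ∫ x, c p (x - h) * X p x := by
      rw [← integral_sub_right_eq_self (fun x => c p x * X p (x + h)) h]
      simp
    have hsub : Integrable fun x => c p x * X p (x + h) - c p x * X p x :=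
      (hc p _ ((hX p hp').comp_add_right h)).sub (hc p _ (hX p hp'))
    rw [integral_sub (hc' p _ (hX p hp')) (hc p _ (hX p hp')), ← hs,
      ← integral_sub (hc p _ ((hX p hp').comp_add_right h)) (hc p _ (hX p hp')),
      ← integral_add hsub (hG' p)]
    exact integral_congr_ae (.of_forall fun x => by simp only [X]; ring)
  have hcW : ∀ {x : EE d} {p : ℕ × ℕ}, ¬ p.1 ≤ p.2 → c p x = 0 := fun {x p} h => dif_neg h
  rw [Finset.sum_congr rfl e1, Finset.sum_add_distrib, add_comm]
  refine add_le_add ?_ ?_
  · have hW : ∀ j, Integrable fun x => max 0 (w j x - w (j + 1) x) * |G j (x + h) - G j x| :=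
      fun j => (((hG j).comp_add_right h).sub (hG j)).abs.bdd_mul (c := 1)
        ((measurable_const.max ((hwm j).sub (hwm (j + 1)))).aestronglyMeasurable)
        (.of_forall fun x => by
          rw [Real.norm_of_nonneg (le_max_left _ _)]
          exact max_le zero_le_one (by linarith [(hw x).le_one j, (hw x).nonneg (j + 1)]))
    rw [← integral_finsetSum _ fun p _ => hG' p, ← integral_finsetSum _ fun j _ => hW j]
    refine integral_mono (integrable_finsetSum _ fun p _ => hG' p)
      (integrable_finsetSum _ fun j _ => hW j) fun x => ?_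
    calc ∑ p ∈ P, c p x * (G p.2 (x + h) - G p.2 x)
        = ∑ p ∈ pairs n, c p x * (G p.2 (x + h) - G p.2 x) :=
          Finset.sum_filter_of_ne fun p _ hne => by
            by_contra hle; exact hne (by rw [hcW hle, zero_mul])
      _ ≤ ∑ p ∈ pairs n, c p x * |G p.2 (x + h) - G p.2 x| :=
          Finset.sum_le_sum fun p _ =>
            mul_le_mul_of_nonneg_left (le_abs_self _) (coef_nonneg _ _)
      _ = _ := by
          rw [pairs, Finset.sum_product_right]
          refine Finset.sum_congr rfl fun j hj => ?_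
          simp only [c]
          rw [← Finset.sum_mul, sum_coef_end (hw x) hj]
  · have hE : ∀ L, Integrable fun x => 4 * fluxErr ε v K idx L x * |w L (x - h) - w L x| :=
      fun L => ((integrable_fluxErr hp hε L).const_mul 4).mul_bdd (c := 1)
        (((hwm L).comp (measurable_id.sub_const h)).sub (hwm L)).norm.aestronglyMeasurable
        (.of_forall fun x => by
          rw [Real.norm_eq_abs, abs_abs, abs_le]
          have := (hw (x - h)).nonneg L
          have := (hw (x - h)).le_one L
          have := (hw x).nonneg L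
          have := (hw x).le_one L
          constructor <;> linarith)
    have hd : ∀ p ∈ P, Integrable fun x => c p (x - h) * X p x - c p x * X p x := fun p hp' =>
      (hc' p _ (hX p hp')).sub (hc p _ (hX p hp'))
    rw [← integral_finsetSum _ hd, ← integral_finsetSum _ fun L _ => hE L]
    refine integral_mono (integrable_finsetSum _ hd) (integrable_finsetSum _ fun L _ => hE L)
      fun x => ?_
    show ∑ p ∈ P, _ ≤ _
    rw [Finset.sum_sub_distrib]
    have hfull : ∀ y, ∑ p ∈ P, c p y * X p x = ∑ p ∈ pairs n, c p y * X p x := fun y =>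
      Finset.sum_filter_of_ne fun p _ hne => by
        by_contra hle; exact hne (by rw [hcW hle, zero_mul])
    rw [hfull, hfull]
    exact (le_abs_self _).trans (flux_pointwise (flipHyp hL hε hp x) (hw x) (hw (x - h)))

/-- The flux bound: if the difference expression is at most `t * Kc` for small `t`, the layered
derivative is at most `Kc`. -/
theorem flux_deriv (hL : Levels ε K n edge idx) (hε : 0 < ε) (hp : IsPot g v)
    (hwm : ∀ L, Measurable (w L)) (hw : ∀ x, IsWeight n fun L => w L x) (k : EE d) {Kc : ℝ}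
    (hsmall : ∀ t : ℝ, 0 < t → t ≤ 1 →
      (∑ j ∈ Finset.Icc 1 n, ∫ x, max 0 (w j x - w (j + 1) x) *
          |lad ε g (idx j) (x + t • k) - lad ε g (idx j) x|) +
        ∑ L ∈ Finset.Icc 1 n, ∫ x, 4 * fluxErr ε v K idx L x * |w L (x - t • k) - w L x| ≤
      t * Kc) :
    (∀ p ∈ (pairs n).filter (fun p => p.1 ≤ p.2),
        Integrable fun x => coef (fun L => w L x) p * fderiv ℝ (segF edge g p) x k) ∧
      ∑ p ∈ (pairs n).filter (fun p => p.1 ≤ p.2),
        ∫ x, coef (fun L => w L x) p * fderiv ℝ (segF edge g p) x k ≤ Kc := by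
  set P := (pairs n).filter fun p : ℕ × ℕ => p.1 ≤ p.2
  set t : ℕ → ℝ := fun m => 1 / ((m : ℝ) + 1)
  have ht0 : ∀ m, 0 < t m := fun m => by positivity
  have ht1 : ∀ m, t m ≤ 1 := fun m => by
    simp only [t]; rw [div_le_one (by positivity)]; linarith [Nat.cast_nonneg (α := ℝ) m]
  have key : ∀ p ∈ P, (Integrable fun x => coef (fun L => w L x) p * fderiv ℝ (segF edge g p) x k) ∧
      Tendsto (fun m => (t m)⁻¹ * ∫ x, coef (fun L => w L x) p *
        (segF edge g p (x + t m • k) - segF edge g p x)) atTop
        (𝓝 (∫ x, coef (fun L => w L x) p * fderiv ℝ (segF edge g p) x k)) := by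
    intro p hp'
    obtain ⟨hm, hle⟩ := Finset.mem_filter.1 hp'
    obtain ⟨m1, m2⟩ := mem_pairs hm
    set a := edge p.1
    set b := edge (p.2 + 1)
    have ha : 0 < a := hL.pos hε m1
    have hab : a ≤ b := hL.le (Finset.mem_Icc.1 m1).1 (by omega)
      (by have := (Finset.mem_Icc.1 m2).2; omega)
    set F := segF edge g p
    have hlip : LipschitzWith (supLip a v).toNNReal F := Fsup_lipschitz hp ha hab
    set c := fun x => coef (fun L => w L x) p
    have hcm : Measurable c := measurable_coef hwm p
    set Vb := (volume.real (ball (0 : EE d) a))⁻¹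
    set R := b + ‖k‖
    set bound := fun x => ‖k‖ * (Vb * (volume.real (ball (0 : EE d) R) * ballAvg R (fun y => ‖v y‖) x))
    have hbound : Integrable bound :=
      (((integrable_avg hp.contv.norm hp.intv.norm (r := R)).const_mul _).const_mul _).const_mul _
    have hq : ∀ x m, |F (x + t m • k) - F x| ≤ t m * bound x := by
      intro x m
      have hav : ∀ r ∈ Icc a b, |avg g (x + t m • k) r - avg g x r| ≤ t m * bound x := by
        intro r hr
        have hr0 := ha.trans_le hr.1
        have := (convex_segment (𝕜 := ℝ) x (x + t m • k)).norm_image_sub_le_of_norm_hasFDerivWithin_le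
          (f := fun z => avg g z r)
          (fun z _ => (hasFDerivAt_avg hp hr0 z).hasFDerivWithinAt)
          (C := Vb * (volume.real (ball (0 : EE d) R) * ballAvg R (fun y => ‖v y‖) x))
          (fun z hz => ?_) (left_mem_segment ℝ _ _) (right_mem_segment ℝ _ _)
        · rw [Real.norm_eq_abs, add_sub_cancel_left, norm_smul, Real.norm_of_nonneg (ht0 m).le] at this
          refine this.trans (le_of_eq ?_)
          simp only [bound]; ring
        · rw [innerSL_apply_norm, avgV, norm_smul,
            Real.norm_of_nonneg (inv_nonneg.2 measureReal_nonneg)]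
          have hR0 : 0 < R := by
            have := hr0.trans_le hr.2
            simp only [R]; positivity
          have hz' : ‖z - x‖ ≤ ‖k‖ := by
            rw [segment_eq_image'] at hz
            obtain ⟨s, hs, rfl⟩ := hz
            simp only [add_sub_cancel_left, norm_smul, Real.norm_of_nonneg (ht0 m).le,
              Real.norm_of_nonneg hs.1]
            calc s * (t m * ‖k‖) ≤ 1 * (1 * ‖k‖) := by
                  gcongr
                  · exact hs.2
                  · exact ht1 m
              _ = ‖k‖ := by ring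
          refine mul_le_mul ?_ ?_ (norm_nonneg _) (inv_nonneg.2 measureReal_nonneg)
          · refine inv_anti₀ (Band.vol_pos 0 ha) ?_
            rw [Band.vol_eq 0 ha, Band.vol_eq z hr0]
            exact mul_le_mul_of_nonneg_right (pow_le_pow_left₀ ha.le hr.1 _) measureReal_nonneg
          · refine (norm_integral_le_integral_norm _).trans ?_
            rw [Band.ballAvg_eq, smul_eq_mul, Band.vol_eq x hR0, Band.vol_eq 0 hR0,
              mul_inv_cancel_left₀ (by
                have := Band.vol_pos (0 : EE d) one_pos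
                positivity)]
            refine setIntegral_mono_set (Band.intOn hp.contv.norm x R)
              (.of_forall fun y => norm_nonneg _) (LE.le.eventuallyLE (ball_subset_ball' ?_))
            rw [dist_eq_norm]
            simp only [R]
            linarith [hr.2]
      obtain ⟨r1, hr1, e1⟩ := exists_Fsup hp ha hab (x + t m • k)
      obtain ⟨r2, hr2, e2⟩ := exists_Fsup hp ha hab x
      have h1 := abs_le.1 (hav r1 hr1)
      have h2 := abs_le.1 (hav r2 hr2)
      have h3 := avg_le_Fsup hp ha hr1 x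
      have h4 := avg_le_Fsup hp ha hr2 (x + t m • k)
      show |Fsup a b g (x + t m • k) - Fsup a b g x| ≤ _
      rw [abs_le]
      constructor <;> linarith
    set Q := fun (m : ℕ) x => c x * ((t m)⁻¹ * (F (x + t m • k) - F x))
    have hQm : ∀ m, AEStronglyMeasurable (Q m) volume := fun m =>
      hcm.aestronglyMeasurable.mul (Continuous.aestronglyMeasurable (by
        have := hlip.continuous
        fun_prop))
    have hQb : ∀ m, ∀ᵐ x ∂(volume : Measure (EE d)), ‖Q m x‖ ≤ bound x := fun m =>
      .of_forall fun x => by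
        have hb0 : 0 ≤ bound x :=
          nonneg_of_mul_nonneg_right ((abs_nonneg _).trans (hq x m)) (ht0 m)
        simp only [Q, norm_mul, Real.norm_eq_abs, abs_of_nonneg (coef_nonneg _ _), c,
          abs_inv, abs_of_pos (ht0 m)]
        refine (mul_le_mul (coef_le_one (hw x) p) ?_ (mul_nonneg (inv_nonneg.2 (ht0 m).le)
          (abs_nonneg _)) zero_le_one).trans (le_of_eq (one_mul _))
        rw [inv_mul_le_iff₀ (ht0 m)]
        exact hq x m
    have hlim : ∀ᵐ x ∂(volume : Measure (EE d)),
        Tendsto (fun m => Q m x) atTop (𝓝 (c x * fderiv ℝ F x k)) := by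
      filter_upwards [hlip.ae_differentiableAt] with x hx
      refine Tendsto.const_mul _ ?_
      have hs := (hx.hasFDerivAt.hasLineDerivAt k).tendsto_slope_zero_right
      refine hs.comp (f := t) (tendsto_nhdsWithin_iff.2 ⟨tendsto_one_div_add_atTop_nhds_zero_nat,
        .of_forall fun m => ht0 m⟩)
    have hI : Integrable fun x => c x * fderiv ℝ F x k :=
      Integrable.mono' hbound
        (hcm.aestronglyMeasurable.mul (measurable_fderiv_apply_const ℝ F k).aestronglyMeasurable)
        (by
          filter_upwards [hlim, ae_all_iff.2 hQb] with x hx hb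
          exact le_of_tendsto hx.norm (.of_forall hb))
    refine ⟨hI, ?_⟩
    have := tendsto_integral_of_dominated_convergence bound hQm hbound hQb hlim
    refine this.congr fun m => ?_
    rw [← integral_const_mul]
    exact integral_congr_ae (.of_forall fun x => by simp only [Q, c]; ring)
  refine ⟨fun p hp' => (key p hp').1, ?_⟩
  refine le_of_tendsto (tendsto_finsetSum _ fun p hp' => (key p hp').2) (.of_forall fun m => ?_)
  rw [← Finset.mul_sum, inv_mul_le_iff₀ (ht0 m)]
  exact (flux_shift hL hε hp hwm hw (t m • k)).trans (hsmall (t m) (ht0 m) (ht1 m))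

end Flux

end Vale.Agent.P137
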