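import Vale.Agent.P137.Cover

/-!
Sets of centres removed in the excess lemma of the centred maximal operator.

Proof notes.  `volume_pair_spheres`: subtracting the squared distances puts the set in a slab
orthogonal to `y' - y`.  `volume_pole`: the set lies in a thin cylinder around the axis.
`shell_subset`: with `w = z - y` and `x = y - s q` the function `t ↦ ‖w‖² + 2 t ⟪w, q⟫` is affine,
small at `t = s` on the shell and equal to `‖w‖²` at `t = 0`.  `volume_jump`: truncate `Φ` at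
`M + ε`; the two dilations of its integral over a ball differ by an integral over an annulus.
-/

namespace Vale.Agent.P137

open MeasureTheory Metric Filter Topology Set
open scoped ENNReal RealInnerProductSpace Pointwise

variable {d : ℕ}

/-- Centres whose spheres pass near two given points. -/
theorem volume_pair_spheres (hd : 1 ≤ d) : ∃ C : ℝ, 0 < C ∧ ∀ (y y' : EE d), y ≠ y' →
    ∀ R b : ℝ, 0 < R → 0 < b →
    volume {x : EE d | ‖x - y‖ ≤ R ∧ ∃ r : ℝ, |‖x - y‖ - r| ≤ b ∧ |‖x - y'‖ - r| ≤ b} ≤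
      ENNReal.ofReal (C * R ^ (d - 1) * b * ((2 * R + ‖y - y'‖) / ‖y - y'‖)) := by
  obtain ⟨C, hC, hwin⟩ := volume_win_le hd
  refine ⟨C * 2 ^ d, by positivity, fun y y' hy R b hR hb => ?_⟩
  set D := ‖y - y'‖ with hD
  have hD0 : 0 < D := norm_pos_iff.2 (sub_ne_zero.2 hy)
  set S := {x : EE d | ‖x - y‖ ≤ R ∧ ∃ r : ℝ, |‖x - y‖ - r| ≤ b ∧ |‖x - y'‖ - r| ≤ b} with hS
  rcases S.eq_empty_or_nonempty with h | ⟨x₀, hx₀⟩
  · rw [h, measure_empty]; exact zero_le
  set u := D⁻¹ • (y' - y) with hu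
  have hu1 : ‖u‖ = 1 := by
    rw [hu, norm_smul, norm_inv, Real.norm_of_nonneg hD0.le, norm_sub_rev, ← hD,
      inv_mul_cancel₀ hD0.ne']
  set t := b * ((2 * R + D) / D) with ht
  have ht0 : 0 < t := by positivity
  have key : ∀ x ∈ S, |⟪x - y, u⟫ - D / 2| ≤ t := by
    rintro x ⟨hx, r, h1, h2⟩
    obtain ⟨h1l, h1r⟩ := abs_le.1 h1
    obtain ⟨h2l, h2r⟩ := abs_le.1 h2
    have e1 : ⟪x - y, u⟫ = D⁻¹ * ⟪x - y, y' - y⟫ := by rw [hu, real_inner_smul_right]
    have e2 : ‖x - y'‖ ^ 2 = ‖x - y‖ ^ 2 - 2 * ⟪x - y, y' - y⟫ + D ^ 2 := by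
      rw [show x - y' = (x - y) - (y' - y) by abel, norm_sub_sq_real, hD, norm_sub_rev y y']
    have htri : ‖x - y'‖ ≤ ‖x - y‖ + D := by
      rw [show x - y' = (x - y) + (y - y') by abel]; exact norm_add_le _ _
    have h0 := norm_nonneg (x - y')
    have h0' := norm_nonneg (x - y)
    have hb1 : |‖x - y‖ - ‖x - y'‖| ≤ 2 * b := abs_le.2 ⟨by linarith, by linarith⟩
    have e4 : D ^ 2 * D⁻¹ = D := by field_simp
    have e3 : ⟪x - y, u⟫ - D / 2 =
        (‖x - y‖ - ‖x - y'‖) * (‖x - y‖ + ‖x - y'‖) / (2 * D) := by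
      rw [e1]; field_simp; nlinarith
    rw [e3, abs_div, abs_mul, abs_of_pos (show 0 < 2 * D by positivity),
      abs_of_nonneg (show 0 ≤ ‖x - y‖ + ‖x - y'‖ by positivity), ht, div_le_iff₀ (by positivity)]
    calc |‖x - y‖ - ‖x - y'‖| * (‖x - y‖ + ‖x - y'‖) ≤ 2 * b * (2 * R + D) :=
          mul_le_mul hb1 (by linarith) (by positivity) (by positivity)
      _ = _ := by field_simp
  refine (measure_mono (t := win u x₀ (2 * R) (min (2 * t) (2 * R))) fun x hx => ?_).trans
    ((hwin u x₀ hu1 _ _ (lt_min (by positivity) (by positivity)) (min_le_right _ _)).trans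
      (ENNReal.ofReal_le_ofReal ?_))
  · have hdist : ‖x - x₀‖ ≤ 2 * R := by
      rw [show x - x₀ = (x - y) - (x₀ - y) by abel]
      linarith [norm_sub_le (x - y) (x₀ - y), hx.1, hx₀.1]
    refine ⟨hdist, le_min ?_ ?_⟩
    · obtain ⟨a1, a2⟩ := abs_le.1 (key x hx)
      obtain ⟨b1, b2⟩ := abs_le.1 (key x₀ hx₀)
      rw [show x - x₀ = (x - y) - (x₀ - y) by abel, inner_sub_left]
      exact abs_le.2 ⟨by linarith, by linarith⟩
    · exact (abs_real_inner_le_norm _ _).trans (by rw [hu1, mul_one]; exact hdist)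
  · calc C * ((2 * R) ^ (d - 1) * min (2 * t) (2 * R)) ≤ C * ((2 * R) ^ (d - 1) * (2 * t)) := by
          gcongr; exact min_le_left _ _
      _ = _ := by
          obtain ⟨k, rfl⟩ : ∃ k, d = k + 1 := ⟨d - 1, by omega⟩
          simp only [Nat.add_sub_cancel, mul_pow, pow_succ, ht]; ring

/-- Centres seen from a given point nearly along the axis. -/
theorem volume_pole (hd : 1 ≤ d) : ∃ C : ℝ, 0 < C ∧ ∀ (y e : EE d), ‖e‖ = 1 →
    ∀ R θ : ℝ, 0 ≤ R → 0 ≤ θ →
    volume {x ∈ closedBall y R | (1 - θ) * ‖x - y‖ ≤ |⟪x - y, e⟫|} ≤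
      ENNReal.ofReal (C * √θ ^ (d - 1) * R ^ d) := by
  refine ⟨4 ^ d, by positivity, fun y e he R θ hR hθ => ?_⟩
  obtain ⟨B, hB⟩ := exists_basis_fst hd he
  let w : Fin d → ℝ := fun i => if i = ⟨0, hd⟩ then 2 * R else 2 * √θ * R
  have hsub : {x ∈ closedBall y R | (1 - θ) * ‖x - y‖ ≤ |⟪x - y, e⟫|} ⊆
      (fun x => x - y) ⁻¹' {z : EE d | ∀ i, ⟪z, B i⟫ ∈ Icc (-w i) (w i)} := by
    rintro x ⟨hx, hp⟩ i
    rw [mem_closedBall, dist_eq_norm] at hx
    refine abs_le.1 ?_
    by_cases hi : i = ⟨0, hd⟩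
    · simp only [w, hi, if_true, hB]
      refine (abs_real_inner_le_norm _ _).trans ?_
      rw [he, mul_one]; linarith
    · simp only [w, if_neg hi]
      have hsum : ⟪x - y, B ⟨0, hd⟩⟫ ^ 2 + ⟪x - y, B i⟫ ^ 2 ≤ ‖x - y‖ ^ 2 := by
        have h1 := Finset.sum_le_sum_of_subset_of_nonneg (f := fun j => ⟪B j, x - y⟫ ^ 2)
          (Finset.subset_univ {⟨0, hd⟩, i}) fun j _ _ => sq_nonneg _
        rw [Finset.sum_pair (Ne.symm hi)] at h1
        have h2 : ∑ j, ⟪B j, x - y⟫ ^ 2 = ‖x - y‖ ^ 2 := by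
          simpa [Real.norm_eq_abs, sq_abs] using B.sum_sq_norm_inner_right (x - y)
        rw [h2] at h1
        simpa [real_inner_comm] using h1
      rw [hB] at hsum
      refine abs_le_of_sq_le_sq ?_ (by positivity)
      rw [mul_pow, mul_pow, Real.sq_sqrt hθ]
      have hn := norm_nonneg (x - y)
      rcases le_or_gt θ 1 with h | h
      · have := mul_self_le_mul_self (mul_nonneg (by linarith) hn) hp
        rw [abs_mul_abs_self] at this
        nlinarith [mul_self_le_mul_self hn hx, mul_nonneg (mul_nonneg hθ hθ) (sq_nonneg ‖x - y‖)]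
      · nlinarith [mul_self_le_mul_self hn hx, sq_nonneg ⟪x - y, e⟫, sq_nonneg R]
  refine (measure_mono hsub).trans (le_of_eq_of_le ?_ le_rfl)
  simp only [sub_eq_add_neg, measure_preimage_add_right]
  rw [volume_box B _ fun i => measurableSet_Icc]
  simp only [Real.volume_Icc, sub_neg_eq_add]
  rw [← ENNReal.ofReal_prod_of_nonneg fun i _ => by simp only [w]; split <;> positivity]
  congr 1
  rw [← Finset.mul_prod_erase Finset.univ _ (Finset.mem_univ (⟨0, hd⟩ : Fin d)),
    Finset.prod_congr rfl fun i hi =>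
      (show w i + w i = 4 * √θ * R by simp only [w, if_neg (Finset.ne_of_mem_erase hi)]; ring),
    Finset.prod_const, Finset.card_erase_of_mem (Finset.mem_univ _), Finset.card_univ,
    Fintype.card_fin]
  obtain ⟨k, rfl⟩ : ∃ k, d = k + 1 := ⟨d - 1, by omega⟩
  simp only [w, if_true, Nat.add_sub_cancel, pow_succ, mul_pow]
  ring

/-- The measure of an annulus. -/
theorem volume_real_annulus (hd : 1 ≤ d) : ∃ C : ℝ, 0 < C ∧ ∀ (y : EE d) (a b : ℝ), 0 ≤ a → a ≤ b →
    volume.real (closedBall y b \ ball y a) ≤ C * b ^ (d - 1) * (b - a) := by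
  set c := volume.real (ball (0 : EE d) 1)
  refine ⟨d * c + 1, by positivity, fun y a b ha hab => ?_⟩
  have hb : 0 ≤ b := ha.trans hab
  rcases eq_or_lt_of_le ha with h | h
  · rw [← h, ball_zero, sdiff_empty, Measure.addHaar_real_closedBall volume y hb,
      finrank_euclideanSpace_fin, sub_zero]
    obtain ⟨k, rfl⟩ : ∃ k, d = k + 1 := ⟨d - 1, by omega⟩
    have : 0 ≤ c := measureReal_nonneg
    rw [Nat.add_sub_cancel, pow_succ]
    push_cast
    nlinarith [mul_nonneg (pow_nonneg hb k) hb, mul_nonneg (mul_nonneg (pow_nonneg hb k) hb) this,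
      (Nat.cast_nonneg k : (0 : ℝ) ≤ k)]
  · rw [measureReal_sdiff ((ball_subset_closedBall).trans (closedBall_subset_closedBall hab))
        measurableSet_ball measure_closedBall_lt_top.ne,
      Measure.addHaar_real_closedBall volume y hb, measureReal_def volume (ball y a),
      Measure.addHaar_ball_of_pos volume y h, ENNReal.toReal_mul,
      ENNReal.toReal_ofReal (pow_nonneg ha _), finrank_euclideanSpace_fin, ← measureReal_def,
      ← sub_mul]
    have hp : b ^ d - a ^ d ≤ (b - a) * d * b ^ (d - 1) := by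
      have := abs_pow_sub_pow_le b a d
      rwa [abs_of_nonneg (sub_nonneg.2 hab), abs_of_nonneg hb, abs_of_nonneg ha,
        max_eq_left hab, abs_of_nonneg (sub_nonneg.2 (pow_le_pow_left₀ ha hab d))] at this
    have h0 : 0 ≤ c := measureReal_nonneg
    have h1 : 0 ≤ b ^ (d - 1) * (b - a) := mul_nonneg (pow_nonneg hb _) (by linarith)
    calc (b ^ d - a ^ d) * c ≤ (b - a) * d * b ^ (d - 1) * c := by gcongr
      _ ≤ _ := by nlinarith

/-- Centres whose sphere of radius nearly `s` passes through a given point. -/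
theorem volume_annulus (hd : 1 ≤ d) : ∃ C : ℝ, 0 < C ∧ ∀ (y : EE d) (R s h : ℝ), 0 ≤ s + h → 0 ≤ h →
    s + h ≤ R →
    volume {x : EE d | |‖x - y‖ - s| ≤ h} ≤ ENNReal.ofReal (C * R ^ (d - 1) * h) := by
  obtain ⟨C, hC, hA⟩ := volume_real_annulus hd
  refine ⟨2 * C, by positivity, fun y R s h hsh hh hR => ?_⟩
  have hsub : {x : EE d | |‖x - y‖ - s| ≤ h} ⊆ closedBall y (s + h) \ ball y (max (s - h) 0) := by
    intro x hx
    obtain ⟨h1, h2⟩ := abs_le.1 (show |‖x - y‖ - s| ≤ h from hx)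
    rw [Set.mem_sdiff, mem_closedBall, mem_ball, dist_eq_norm, not_lt]
    exact ⟨by linarith, max_le (by linarith) (norm_nonneg _)⟩
  refine (measure_mono hsub).trans ?_
  rw [← ofReal_measureReal ((measure_mono sdiff_subset).trans_lt measure_closedBall_lt_top).ne]
  refine ENNReal.ofReal_le_ofReal ((hA y _ _ (le_max_right _ _)
    (max_le (by linarith) hsh)).trans ?_)
  have hR0 : 0 ≤ R := hsh.trans hR
  calc C * (s + h) ^ (d - 1) * (s + h - max (s - h) 0) ≤ C * R ^ (d - 1) * (2 * h) :=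
        mul_le_mul (mul_le_mul_of_nonneg_left (pow_le_pow_left₀ hsh hR _) hC.le)
          (by linarith [le_max_left (s - h) 0]) (sub_nonneg.2 (max_le (by linarith) hsh))
          (by positivity)
    _ = _ := by ring

/-- Part of a shell lies between two balls tangent at `y`. -/
theorem shell_subset {x y : EE d} {h τ ζ : ℝ} (hh : 0 < h) (hhs : h ≤ ‖x - y‖) (hζ : 0 ≤ ζ)
    (hτ0 : 0 ≤ τ) (hτ : τ ≤ 1) (hT : 8 * h * ‖x - y‖ ≤ τ * ζ ^ 2) :
    {z | |‖z - x‖ - ‖x - y‖| ≤ h ∧ ζ ≤ ‖z - y‖} ⊆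
      closedBall (y + (1 + τ) • (x - y)) ((1 + τ) * ‖x - y‖) \
        ball (y + (1 - τ) • (x - y)) ((1 - τ) * ‖x - y‖) := by
  rintro z ⟨hz, hzy⟩
  set s := ‖x - y‖
  have hs : 0 ≤ s := norm_nonneg _
  obtain ⟨hz1, hz2⟩ := abs_le.1 hz
  have hφ : ∀ c : ℝ, ‖z - (y + c • (x - y))‖ ^ 2 - (c * s) ^ 2 =
      c * (‖z - x‖ ^ 2 - s ^ 2) + (1 - c) * ‖z - y‖ ^ 2 := by
    intro c
    rw [show z - (y + c • (x - y)) = (z - y) - c • (x - y) by abel,
      show z - x = (z - y) - (x - y) by abel, norm_sub_sq_real (z - y) (c • (x - y)),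
      norm_sub_sq_real (z - y) (x - y), norm_smul,
      real_inner_smul_right, mul_pow, mul_pow, Real.norm_eq_abs, sq_abs]
    ring
  have hlo : -(2 * h * s) ≤ ‖z - x‖ ^ 2 - s ^ 2 := by
    nlinarith [norm_nonneg (z - x)]
  have hhi : ‖z - x‖ ^ 2 - s ^ 2 ≤ 3 * h * s := by
    nlinarith [norm_nonneg (z - x)]
  have hw : ζ ^ 2 ≤ ‖z - y‖ ^ 2 := by gcongr
  rw [Set.mem_sdiff, mem_closedBall, mem_ball, dist_eq_norm, dist_eq_norm, not_lt]
  constructor
  · refine le_of_sq_le_sq ?_ (by positivity)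
    have := hφ (1 + τ)
    nlinarith [mul_le_mul_of_nonneg_left hhi (show 0 ≤ 1 + τ by linarith),
      mul_le_mul_of_nonneg_left hw hτ0, mul_nonneg hh.le hs]
  · refine le_of_sq_le_sq ?_ (norm_nonneg _)
    have := hφ (1 - τ)
    nlinarith [mul_le_mul_of_nonneg_left hlo (show 0 ≤ 1 - τ by linarith),
      mul_le_mul_of_nonneg_left hw hτ0, mul_nonneg hh.le hs]

/-- The mass of `w` in the ball around `x` through `y`, away from `y`. -/
noncomputable def radMass (w : EE d → ℝ) (y : EE d) (ζ : ℝ) (x : EE d) : ℝ :=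
  ∫ z in ball x ‖x - y‖ \ ball y ζ, w z

theorem radMass_nonneg {w : EE d → ℝ} (h0 : ∀ z, 0 ≤ w z) (y : EE d) (ζ : ℝ) (x : EE d) :
    0 ≤ radMass w y ζ x :=
  setIntegral_nonneg (measurableSet_ball.diff measurableSet_ball) fun z _ => h0 z

theorem measurable_radMass {w : EE d → ℝ} (hm : Measurable w) (y : EE d) (ζ : ℝ) :
    Measurable (radMass w y ζ) := by
  set S : Set (EE d × EE d) := {p | dist p.2 p.1 < ‖p.1 - y‖ ∧ ζ ≤ dist p.2 y} with hS
  have hSm : MeasurableSet S :=
    (measurableSet_lt (f := fun p : EE d × EE d => dist p.2 p.1) (by fun_prop) (by fun_prop)).inter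
      (measurableSet_le (g := fun p : EE d × EE d => dist p.2 y) measurable_const (by fun_prop))
  have h := (((hm.comp measurable_snd).indicator hSm).stronglyMeasurable.integral_prod_right'
    (ν := (volume : Measure (EE d)))).measurable
  convert h using 1
  ext x
  rw [radMass, ← integral_indicator (measurableSet_ball.diff measurableSet_ball)]
  refine integral_congr_ae (Eventually.of_forall fun z => ?_)
  simp [indicator, hS, mem_ball, not_lt]

theorem radMass_mono_ray {w : EE d → ℝ} (hw : LocallyIntegrable w volume) (h0 : ∀ z, 0 ≤ w z)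
    (y : EE d) (ζ : ℝ) (x : EE d) {c : ℝ} (hc : 1 ≤ c) :
    radMass w y ζ x ≤ radMass w y ζ (y + c • (x - y)) := by
  refine setIntegral_mono_set ((hw.integrableOn_isCompact (isCompact_closedBall _ _)).mono_set
    (sdiff_subset.trans ball_subset_closedBall)) (Eventually.of_forall h0)
    (LE.le.eventuallyLE (sdiff_subset_sdiff_left (ball_subset_ball' ?_)))
  have e : x - (y + c • (x - y)) = (1 - c) • (x - y) := by module
  rw [dist_eq_norm, e, add_sub_cancel_left, norm_smul, norm_smul,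
    Real.norm_of_nonpos (by linarith), Real.norm_of_nonneg (by linarith)]
  linarith

/-- The mass of a shell away from `y` is at most a jump of `radMass`. -/
theorem shell_le_radMass (hd : 1 ≤ d) {w : EE d → ℝ} (hw : LocallyIntegrable w volume)
    (h0 : ∀ z, 0 ≤ w z) {x y : EE d} {h τ ζ : ℝ} (hh : 0 < h) (hhs : h ≤ ‖x - y‖) (hζ : 0 ≤ ζ)
    (hτ0 : 0 ≤ τ) (hτ : τ ≤ 1) (hT : 8 * h * ‖x - y‖ ≤ τ * ζ ^ 2) :
    ∫ z in {z | |‖z - x‖ - ‖x - y‖| ≤ h ∧ ζ ≤ ‖z - y‖}, w z ≤
      radMass w y ζ (y + (1 + τ) • (x - y)) - radMass w y ζ (y + (1 - τ) • (x - y)) := by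
  have : Nonempty (Fin d) := ⟨⟨0, hd⟩⟩
  set xp := y + (1 + τ) • (x - y) with hxp
  set xm := y + (1 - τ) • (x - y) with hxm
  have hnp : ‖xp - y‖ = (1 + τ) * ‖x - y‖ := by
    rw [hxp, add_sub_cancel_left, norm_smul, Real.norm_of_nonneg (by linarith)]
  have hnm : ‖xm - y‖ = (1 - τ) * ‖x - y‖ := by
    rw [hxm, add_sub_cancel_left, norm_smul, Real.norm_of_nonneg (by linarith)]
  have hsub : ball xm ‖xm - y‖ ⊆ closedBall xp ‖xp - y‖ := by
    refine (ball_subset_ball' ?_).trans ball_subset_closedBall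
    have e : xm - xp = (-(2 * τ)) • (x - y) := by rw [hxm, hxp]; module
    rw [dist_eq_norm, e, norm_smul, norm_neg, Real.norm_of_nonneg (by positivity), hnp, hnm]
    linarith
  have hint : IntegrableOn w (closedBall xp ‖xp - y‖) :=
    hw.integrableOn_isCompact (isCompact_closedBall _ _)
  have hB : (closedBall xp ‖xp - y‖ \ ball y ζ : Set (EE d)) =ᵐ[volume]
      (ball xp ‖xp - y‖ \ ball y ζ : Set (EE d)) := by
    refine EventuallyEq.diff ?_ (EventuallyEq.refl _ _)
    have h1 : volume (sphere xp ‖xp - y‖) = 0 := Measure.addHaar_sphere volume _ _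
    rw [← sphere_union_ball]
    exact union_ae_eq_right.2 (measure_mono_null sdiff_subset h1)
  rw [radMass, radMass, ← setIntegral_congr_set hB,
    ← setIntegral_sdiff (measurableSet_ball.diff measurableSet_ball)
      (hint.mono_set sdiff_subset) (sdiff_subset_sdiff_left hsub)]
  refine setIntegral_mono_set (hint.mono_set (sdiff_subset.trans sdiff_subset))
    (Eventually.of_forall h0) (LE.le.eventuallyLE fun z hz => ?_)
  obtain ⟨h1, h2⟩ := shell_subset hh hhs hζ hτ0 hτ hT hz
  refine ⟨⟨by rwa [hnp], ?_⟩, fun h3 => h2 (by rw [← hnm]; exact h3.1)⟩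
  rw [mem_ball, dist_eq_norm, not_lt]
  exact hz.2

/-- The set of jumps of a function which increases along rays from `y`. -/
theorem volume_jump (hd : 1 ≤ d) : ∃ C : ℝ, 0 < C ∧ ∀ (y : EE d) (Φ : EE d → ℝ), Measurable Φ →
    (∀ x, 0 ≤ Φ x) → (∀ x c, (1 : ℝ) ≤ c → Φ x ≤ Φ (y + c • (x - y))) →
    ∀ R τ ε M : ℝ, 0 ≤ R → 0 < τ → τ < 1 → 0 < ε → 0 ≤ M →
    volume {x ∈ closedBall y R | Φ (y + (1 - τ) • (x - y)) ≤ M ∧
        ε ≤ Φ (y + (1 + τ) • (x - y)) - Φ (y + (1 - τ) • (x - y))} ≤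
      ENNReal.ofReal (C * τ * ((M + ε) / ε) * R ^ d) := by
  obtain ⟨C, hC, hA⟩ := volume_real_annulus hd
  refine ⟨C * 2 ^ d, by positivity, fun y Φ hm h0 hmono R τ ε M hR hτ0 hτ1 hε hM => ?_⟩
  set f : EE d → ℝ := fun u => min (Φ (y + u)) (M + ε) with hf
  have hfm : Measurable f := (hm.comp (measurable_const_add y)).min measurable_const
  have hf0 : ∀ u, 0 ≤ f u := fun u => le_min (h0 _) (by linarith)
  have hfint : ∀ (r a : ℝ), IntegrableOn (fun u => f (a • u)) (closedBall 0 r) := fun r a =>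
    Integrable.mono' (integrableOn_const (C := M + ε) measure_closedBall_lt_top.ne)
      (hfm.comp (measurable_id.const_smul a)).aestronglyMeasurable
      (Eventually.of_forall fun u => by
        rw [Real.norm_of_nonneg (hf0 _)]; exact min_le_right _ _)
  have hfint1 : ∀ r : ℝ, IntegrableOn f (closedBall 0 r) := fun r => by simpa using hfint r 1
  set S := {x ∈ closedBall y R | Φ (y + (1 - τ) • (x - y)) ≤ M ∧
    ε ≤ Φ (y + (1 + τ) • (x - y)) - Φ (y + (1 - τ) • (x - y))}
  set A := {u ∈ closedBall (0 : EE d) R | Φ (y + (1 - τ) • u) ≤ M ∧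
    ε ≤ Φ (y + (1 + τ) • u) - Φ (y + (1 - τ) • u)} with hA'
  have hAm : MeasurableSet A :=
    measurableSet_closedBall.inter ((measurableSet_le
      (hm.comp ((measurable_id.const_smul (1 - τ)).const_add y)) measurable_const).inter
      (measurableSet_le measurable_const
        ((hm.comp ((measurable_id.const_smul (1 + τ)).const_add y)).sub
          (hm.comp ((measurable_id.const_smul (1 - τ)).const_add y)))))
  have hSA : volume S = volume A := by
    have : S = (fun x => x - y) ⁻¹' A := by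
      ext x; simp [S, A, mem_closedBall, dist_eq_norm]
    rw [this]; simp only [sub_eq_add_neg, measure_preimage_add_right]
  have hpt : ∀ u ∈ closedBall (0 : EE d) R,
      A.indicator (fun _ => ε) u ≤ f ((1 + τ) • u) - f ((1 - τ) • u) := by
    intro u _
    by_cases hu : u ∈ A
    · rw [indicator_of_mem hu]
      obtain ⟨_, h1, h2⟩ := hu
      simp only [hf]
      rw [min_eq_left (show Φ (y + (1 - τ) • u) ≤ M + ε by linarith)]
      rcases min_choice (Φ (y + (1 + τ) • u)) (M + ε) with h | h <;> rw [h] <;> linarith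
    · rw [indicator_of_notMem hu, sub_nonneg]
      refine min_le_min ?_ le_rfl
      have h := hmono (y + (1 - τ) • u) ((1 + τ) / (1 - τ))
        ((one_le_div (by linarith)).2 (by linarith))
      rwa [add_sub_cancel_left, smul_smul, div_mul_cancel₀ _ (by linarith : (1 - τ) ≠ 0)] at h
  have hAs : A ⊆ closedBall 0 R := fun u hu => hu.1
  have hI := setIntegral_mono_on ((integrableOn_const measure_closedBall_lt_top.ne).indicator hAm)
    ((hfint R (1 + τ)).sub (hfint R (1 - τ))) measurableSet_closedBall hpt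
  simp only [Pi.sub_apply] at hI
  rw [setIntegral_indicator hAm, inter_eq_right.2 hAs, setIntegral_const, smul_eq_mul,
    integral_sub (hfint R _) (hfint R _),
    Measure.setIntegral_comp_smul_of_pos volume f _ (show 0 < 1 + τ by linarith),
    Measure.setIntegral_comp_smul_of_pos volume f _ (show 0 < 1 - τ by linarith),
    smul_closedBall _ _ hR, smul_closedBall _ _ hR, smul_zero, smul_zero,
    finrank_euclideanSpace_fin, Real.norm_of_nonneg (by linarith),
    Real.norm_of_nonneg (by linarith), smul_eq_mul, smul_eq_mul] at hI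
  set b := (1 + τ) * R
  set a := (1 - τ) * R
  have hab : a ≤ b := by simp only [a, b]; gcongr; linarith
  have ha : 0 ≤ a := mul_nonneg (by linarith) hR
  have hnn : ∀ r : ℝ, 0 ≤ ∫ u in closedBall (0 : EE d) r, f u := fun r =>
    setIntegral_nonneg measurableSet_closedBall fun u _ => hf0 u
  have h1 : ((1 + τ) ^ d)⁻¹ * ∫ u in closedBall (0 : EE d) b, f u ≤ ∫ u in closedBall 0 b, f u :=
    mul_le_of_le_one_left (hnn b) (inv_le_one_of_one_le₀ (one_le_pow₀ (by linarith)))
  have h2 : ∫ u in closedBall (0 : EE d) a, f u ≤ ((1 - τ) ^ d)⁻¹ * ∫ u in closedBall 0 a, f u :=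
    le_mul_of_one_le_left (hnn a) ((one_le_inv₀ (pow_pos (by linarith) _)).2
      (pow_le_one₀ (by linarith) (by linarith)))
  have hfin : volume (closedBall (0 : EE d) b \ closedBall 0 a) ≠ ⊤ :=
    ((measure_mono sdiff_subset).trans_lt measure_closedBall_lt_top).ne
  have h3 : (∫ u in closedBall (0 : EE d) b, f u) - ∫ u in closedBall 0 a, f u ≤
      (M + ε) * (C * b ^ (d - 1) * (b - a)) := by
    rw [← setIntegral_sdiff measurableSet_closedBall (hfint1 b) (closedBall_subset_closedBall hab)]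
    refine (setIntegral_mono_on ((hfint1 b).mono_set sdiff_subset)
      (integrableOn_const hfin) (measurableSet_closedBall.diff measurableSet_closedBall)
      fun u _ => min_le_right _ _).trans ?_
    rw [setIntegral_const, smul_eq_mul, mul_comm]
    refine mul_le_mul_of_nonneg_left ((measureReal_mono (sdiff_subset_sdiff_right
      ball_subset_closedBall) ?_).trans (hA 0 a b ha hab)) (by linarith)
    exact ((measure_mono sdiff_subset).trans_lt measure_closedBall_lt_top).ne
  rw [hSA, ← ofReal_measureReal ((measure_mono hAs).trans_lt measure_closedBall_lt_top).ne]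
  refine ENNReal.ofReal_le_ofReal ?_
  have h4 : b ^ (d - 1) * (b - a) ≤ 2 ^ d * τ * R ^ d := by
    obtain ⟨k, rfl⟩ : ∃ k, d = k + 1 := ⟨d - 1, by omega⟩
    simp only [Nat.add_sub_cancel, a, b, pow_succ, mul_pow]
    calc (1 + τ) ^ k * R ^ k * ((1 + τ) * R - (1 - τ) * R) ≤ 2 ^ k * R ^ k * (2 * τ * R) := by
          rw [show (1 + τ) * R - (1 - τ) * R = 2 * τ * R by ring]
          gcongr; linarith
      _ = _ := by ring
  rw [mul_div_assoc', div_mul_eq_mul_div, le_div_iff₀ hε]
  have h5 : volume.real A * ε ≤ (M + ε) * (C * (b ^ (d - 1) * (b - a))) := by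
    rw [← mul_assoc C]; linarith
  refine h5.trans (le_trans (mul_le_mul_of_nonneg_left (mul_le_mul_of_nonneg_left h4 hC.le)
    (by linarith)) (le_of_eq (by ring)))

end Vale.Agent.P137
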