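import Vale.Agent.P137.Ladder
import Vale.Agent.P137.Pair

/-!
The composite kernels of consecutive ball averages of the ladder.

Proof notes.  `kern ε l T` is the kernel of the averages at the levels `l + 1, …, T`.  It is
radially decreasing (reflection in the bisector of two points).  Two substitutions in the
recursion give its behaviour near the edge of the support: the homothety towards the far point
shows `k(z + η(R e - z)) ≥ (1 - η)^(d n) k(z)`, and stretching the axial depth shows that moving
inwards multiplies it by a power with exponent the number of the large levels.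
-/

namespace Vale.Agent.P137.Kernel

open MeasureTheory Metric Filter Topology Set
open scoped RealInnerProductSpace

variable {d : ℕ}

/-- Measurable and bounded on every ball. -/
structure LB (f : EE d → ℝ) : Prop where
  meas : Measurable f
  bdd : ∀ R : ℝ, ∃ C, ∀ x, ‖x‖ ≤ R → |f x| ≤ C

theorem LB.of_continuous {f : EE d → ℝ} (hf : Continuous f) : LB f :=
  ⟨hf.measurable, fun R => by
    obtain ⟨C, hC⟩ := (isCompact_closedBall (0 : EE d) R).exists_bound_of_continuousOn hf.continuousOn
    exact ⟨C, fun x hx => hC x (mem_closedBall_zero_iff.2 hx)⟩⟩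

theorem LB.of_bound {f : EE d → ℝ} (hm : Measurable f) {C : ℝ} (hC : ∀ x, |f x| ≤ C) : LB f :=
  ⟨hm, fun _ => ⟨C, fun x _ => hC x⟩⟩

theorem volBall_pos {ρ : ℝ} (hρ : 0 < ρ) : 0 < volume.real (ball (0 : EE d) ρ) :=
  ENNReal.toReal_pos (measure_ball_pos _ _ hρ).ne' measure_ball_lt_top.ne

theorem LB.intOn {f : EE d → ℝ} (hf : LB f) (x : EE d) (ρ : ℝ) :
    IntegrableOn (fun u => f (x + u)) (ball (0 : EE d) ρ) := by
  obtain ⟨C, hC⟩ := hf.bdd (‖x‖ + ρ)
  refine Measure.integrableOn_of_bounded (M := C) measure_ball_lt_top.ne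
    (hf.meas.comp (measurable_const_add x)).aestronglyMeasurable ?_
  filter_upwards [ae_restrict_mem measurableSet_ball] with u hu
  rw [mem_ball_zero_iff] at hu
  exact hC _ ((norm_add_le _ _).trans (by linarith))

theorem ballAvg_def (ρ : ℝ) (f : EE d → ℝ) (x : EE d) :
    ballAvg ρ f x = (volume.real (ball (0 : EE d) ρ))⁻¹ * ∫ u in ball (0 : EE d) ρ, f (x + u) :=
  rfl

theorem measurable_ballAvg (ρ : ℝ) {f : EE d → ℝ} (hf : Measurable f) :
    Measurable (ballAvg ρ f) := by
  have h : StronglyMeasurable (Function.uncurry fun x u : EE d => f (x + u)) :=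
    (hf.comp (measurable_fst.add measurable_snd)).stronglyMeasurable
  exact (h.integral_prod_right (ν := volume.restrict (ball (0 : EE d) ρ))).measurable.const_mul _

theorem ballAvg_mono (ρ : ℝ) {f g : EE d → ℝ} (hf : LB f) (hg : LB g) (h : ∀ x, f x ≤ g x)
    (x : EE d) : ballAvg ρ f x ≤ ballAvg ρ g x :=
  mul_le_mul_of_nonneg_left
    (setIntegral_mono_on (hf.intOn x ρ) (hg.intOn x ρ) measurableSet_ball fun _ _ => h _)
    (inv_nonneg.2 measureReal_nonneg)

theorem ballAvg_nonneg (ρ : ℝ) {f : EE d → ℝ} (h : ∀ x, 0 ≤ f x) (x : EE d) :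
    0 ≤ ballAvg ρ f x :=
  mul_nonneg (inv_nonneg.2 measureReal_nonneg) (setIntegral_nonneg measurableSet_ball fun _ _ => h _)

theorem ballAvg_const {ρ : ℝ} (hρ : 0 < ρ) (c : ℝ) (x : EE d) :
    ballAvg ρ (fun _ => c) x = c := by
  rw [ballAvg_def, setIntegral_const, smul_eq_mul, inv_mul_cancel_left₀ (volBall_pos hρ).ne']

theorem abs_ballAvg_le {ρ : ℝ} (hρ : 0 < ρ) {f : EE d → ℝ} (hf : LB f) {C : ℝ} (x : EE d)
    (h : ∀ u, ‖u‖ < ρ → |f (x + u)| ≤ C) : |ballAvg ρ f x| ≤ C := by
  have h1 : |∫ u in ball (0 : EE d) ρ, f (x + u)| ≤ C * volume.real (ball (0 : EE d) ρ) := by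
    exact norm_setIntegral_le_of_norm_le_const (μ := volume) (f := fun u => f (x + u)) (C := C)
      measure_ball_lt_top (fun u hu => h u (mem_ball_zero_iff.1 hu))
  have _ := hf
  rw [ballAvg_def, abs_mul, abs_inv, abs_of_pos (volBall_pos hρ), inv_mul_le_iff₀ (volBall_pos hρ)]
  linarith

theorem LB.avg {f : EE d → ℝ} (hf : LB f) {ρ : ℝ} (hρ : 0 < ρ) : LB (ballAvg ρ f) :=
  ⟨measurable_ballAvg ρ hf.meas, fun R => by
    obtain ⟨C, hC⟩ := hf.bdd (R + ρ)
    exact ⟨C, fun x hx => abs_ballAvg_le hρ hf x fun u hu =>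
      hC _ ((norm_add_le _ _).trans (by linarith))⟩⟩

theorem ball_neg (ρ : ℝ) (G : EE d → ℝ) :
    ∫ u in ball (0 : EE d) ρ, G (-u) = ∫ u in ball (0 : EE d) ρ, G u := by
  rw [← integral_indicator measurableSet_ball, ← integral_indicator measurableSet_ball,
    ← integral_neg_eq_self ((ball (0 : EE d) ρ).indicator G)]
  congr 1
  funext u
  by_cases hu : u ∈ ball (0 : EE d) ρ
  · rw [indicator_of_mem hu, indicator_of_mem (by simpa using hu)]
  · rw [indicator_of_notMem hu, indicator_of_notMem (by simpa using hu)]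

theorem ballAvg_comm (ρ σ : ℝ) {f : EE d → ℝ} (hf : LB f) (x : EE d) :
    ballAvg σ (ballAvg ρ f) x = ballAvg ρ (ballAvg σ f) x := by
  simp only [ballAvg_def, integral_const_mul]
  obtain ⟨C, hC⟩ := hf.bdd (‖x‖ + σ + ρ)
  have hi : Integrable (Function.uncurry fun u w : EE d => f (x + u + w))
      ((volume.restrict (ball (0 : EE d) σ)).prod (volume.restrict (ball (0 : EE d) ρ))) := by
    rw [Measure.prod_restrict]
    refine Measure.integrableOn_of_bounded (M := C) ?_
      (hf.meas.comp ((measurable_const.add measurable_fst).add measurable_snd)).aestronglyMeasurable ?_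
    · rw [Measure.prod_prod]
      exact ENNReal.mul_ne_top measure_ball_lt_top.ne measure_ball_lt_top.ne
    · filter_upwards [ae_restrict_mem (measurableSet_ball.prod measurableSet_ball)] with p hp
      obtain ⟨h1, h2⟩ := hp
      rw [mem_ball_zero_iff] at h1 h2
      exact hC _ (norm_add₃_le.trans (by linarith))
  rw [integral_integral_swap hi, mul_left_comm]
  simp only [add_right_comm x]

/-- Convolution with an even kernel. -/
noncomputable def conv (K f : EE d → ℝ) (x : EE d) : ℝ := ∫ z, K z * f (x + z)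

/-- A nonnegative bounded kernel supported in the ball of radius `R`. -/
structure IsSub (K : EE d → ℝ) (R M : ℝ) : Prop where
  meas : Measurable K
  nonneg : ∀ x, 0 ≤ K x
  le : ∀ x, K x ≤ M
  supp : ∀ x, R ≤ ‖x‖ → K x = 0

/-- A nonnegative bounded kernel of mass one supported in the ball of radius `R`. -/
structure IsKer (K : EE d → ℝ) (R M : ℝ) : Prop extends IsSub K R M where
  mass : ∫ x, K x = 1

theorem IsSub.lb {K : EE d → ℝ} {R M : ℝ} (h : IsSub K R M) : LB K :=
  .of_bound h.meas fun x => by rw [abs_of_nonneg (h.nonneg x)]; exact h.le x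

theorem IsKer.lb {K : EE d → ℝ} {R M : ℝ} (h : IsKer K R M) : LB K := h.toIsSub.lb

theorem IsSub.integrable {K : EE d → ℝ} {R M : ℝ} (h : IsSub K R M) : Integrable K := by
  refine ((integrableOn_const (C := M) (measure_closedBall_lt_top (μ := volume)
    (x := (0 : EE d)) (r := R)).ne).integrable_indicator measurableSet_closedBall).mono'
    h.meas.aestronglyMeasurable (.of_forall fun x => ?_)
  rw [Real.norm_of_nonneg (h.nonneg x)]
  by_cases hx : x ∈ closedBall (0 : EE d) R
  · rw [indicator_of_mem hx]; exact h.le x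
  · rw [indicator_of_notMem hx, h.supp x (le_of_lt (by simpa using hx))]

theorem IsKer.integrable {K : EE d → ℝ} {R M : ℝ} (h : IsKer K R M) : Integrable K :=
  h.toIsSub.integrable

theorem IsSub.integrable_mul {K : EE d → ℝ} {R M : ℝ} (h : IsSub K R M) {f : EE d → ℝ} (hf : LB f)
    (x : EE d) : Integrable fun z => K z * f (x + z) := by
  obtain ⟨C, hC⟩ := hf.bdd (‖x‖ + R)
  have hm : Measurable fun z => K z * f (x + z) := h.meas.mul (hf.meas.comp (measurable_const_add x))
  refine (h.integrable.mul_const C).mono' hm.aestronglyMeasurable (.of_forall fun z => ?_)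
  rw [norm_mul, Real.norm_of_nonneg (h.nonneg z), Real.norm_eq_abs]
  rcases le_or_gt R ‖z‖ with hz | hz
  · rw [h.supp z hz]; simp
  · exact mul_le_mul_of_nonneg_left (hC _ ((norm_add_le _ _).trans (by linarith))) (h.nonneg z)

theorem conv_mono {K : EE d → ℝ} {R M : ℝ} (h : IsSub K R M) {f g : EE d → ℝ} (hf : LB f)
    (hg : LB g) (hfg : ∀ x, f x ≤ g x) (x : EE d) : conv K f x ≤ conv K g x :=
  integral_mono (h.integrable_mul hf x) (h.integrable_mul hg x)
    fun z => mul_le_mul_of_nonneg_left (hfg _) (h.nonneg z)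

theorem measurable_conv {K f : EE d → ℝ} (hK : Measurable K) (hf : Measurable f) :
    Measurable (conv K f) := by
  have h : StronglyMeasurable (Function.uncurry fun x z : EE d => K z * f (x + z)) :=
    ((hK.comp measurable_snd).mul (hf.comp (measurable_fst.add measurable_snd))).stronglyMeasurable
  exact (h.integral_prod_right (ν := volume)).measurable

theorem abs_conv_le {K : EE d → ℝ} {R M : ℝ} (h : IsKer K R M) {f : EE d → ℝ} (hf : LB f)
    (x : EE d) {C : ℝ} (hC : ∀ u, ‖u‖ ≤ R → |f (x + u)| ≤ C) : |conv K f x| ≤ C := by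
  have _ := hf
  refine (abs_integral_le_integral_abs).trans ?_
  calc ∫ z, |K z * f (x + z)| ≤ ∫ z, K z * C := by
        refine integral_mono_of_nonneg (.of_forall fun z => abs_nonneg _)
          (h.integrable.mul_const C) (.of_forall fun z => ?_)
        simp only
        rw [abs_mul, abs_of_nonneg (h.nonneg z)]
        rcases le_or_gt R ‖z‖ with hz | hz
        · rw [h.supp z hz]; simp
        · exact mul_le_mul_of_nonneg_left (hC z hz.le) (h.nonneg z)
    _ = C := by rw [integral_mul_const, h.mass, one_mul]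

theorem LB.conv {K : EE d → ℝ} {R M : ℝ} {f : EE d → ℝ} (hf : LB f) (h : IsKer K R M) :
    LB (Kernel.conv K f) :=
  ⟨measurable_conv h.meas hf.meas, fun r => by
    obtain ⟨C, hC⟩ := hf.bdd (r + R)
    exact ⟨C, fun x hx => abs_conv_le h hf x fun u hu =>
      hC _ ((norm_add_le _ _).trans (by linarith))⟩⟩

theorem ballAvg_conv {K : EE d → ℝ} {R M : ℝ} (h : IsSub K R M) {f : EE d → ℝ} (hf : LB f)
    (ρ : ℝ) (x : EE d) : ballAvg ρ (conv K f) x = conv (ballAvg ρ K) f x := by
  simp only [ballAvg_def, conv]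
  have e1 : ∀ u, ∫ z, K z * f (x + u + z) = ∫ z, K (z - u) * f (x + z) := fun u => by
    rw [← integral_sub_right_eq_self (fun z => K z * f (x + u + z)) u]
    congr 1; funext z; congr 2; abel
  simp only [e1]
  obtain ⟨C, hC⟩ := hf.bdd (‖x‖ + (R + ρ))
  have hi : Integrable (Function.uncurry fun u z : EE d => K (z - u) * f (x + z))
      ((volume.restrict (ball (0 : EE d) ρ)).prod volume) := by
    have : IsFiniteMeasure (volume.restrict (ball (0 : EE d) ρ)) :=
      ⟨by rw [Measure.restrict_apply_univ]; exact measure_ball_lt_top⟩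
    have hg : Integrable (fun p : EE d × EE d =>
        (1 : ℝ) * (closedBall (0 : EE d) (R + ρ)).indicator (fun _ => M * C) p.2)
        ((volume.restrict (ball (0 : EE d) ρ)).prod volume) :=
      (integrable_const (1 : ℝ)).mul_prod
        ((integrableOn_const measure_closedBall_lt_top.ne).integrable_indicator measurableSet_closedBall)
    refine hg.mono' ((h.meas.comp (measurable_snd.sub measurable_fst)).mul
      (hf.meas.comp (measurable_const.add measurable_snd))).aestronglyMeasurable ?_
    have hae : ∀ᵐ p ∂((volume.restrict (ball (0 : EE d) ρ)).prod (volume : Measure (EE d))),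
        p.1 ∈ ball (0 : EE d) ρ :=
      (Measure.quasiMeasurePreserving_fst (μ := volume.restrict (ball (0 : EE d) ρ))
        (ν := (volume : Measure (EE d)))).ae (ae_restrict_mem (μ := volume) measurableSet_ball)
    filter_upwards [hae] with p hp
    rw [mem_ball_zero_iff] at hp
    simp only [Function.uncurry, norm_mul, Real.norm_eq_abs, one_mul]
    rw [abs_of_nonneg (h.nonneg _)]
    by_cases hz : p.2 ∈ closedBall (0 : EE d) (R + ρ)
    · rw [indicator_of_mem hz]
      rw [mem_closedBall_zero_iff] at hz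
      exact mul_le_mul (h.le _) (hC _ ((norm_add_le _ _).trans (by linarith))) (abs_nonneg _)
        ((h.nonneg 0).trans (h.le 0))
    · rw [indicator_of_notMem hz, h.supp, zero_mul]
      rw [mem_closedBall_zero_iff, not_le] at hz
      linarith [norm_sub_norm_le p.2 p.1]
  rw [integral_integral_swap hi, ← integral_const_mul]
  refine integral_congr_ae (.of_forall fun z => ?_)
  simp only
  rw [integral_mul_const, mul_assoc]
  congr 2
  rw [← ball_neg ρ fun u => K (z + u)]
  simp [sub_eq_add_neg]

/-- Averaging is symmetric. -/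
theorem ballAvg_dual (ρ : ℝ) {q f : EE d → ℝ} (hq : Measurable q) {C : ℝ} (hC : ∀ x, |q x| ≤ C)
    (hfm : Measurable f) (hf : Integrable f) :
    ∫ x, ballAvg ρ q x * f x = ∫ x, q x * ballAvg ρ f x := by
  simp only [ballAvg_def]
  have : IsFiniteMeasure (volume.restrict (ball (0 : EE d) ρ)) :=
    ⟨by rw [Measure.restrict_apply_univ]; exact measure_ball_lt_top⟩
  have hi1 : Integrable (Function.uncurry fun x u : EE d => q (x + u) * f x)
      (volume.prod (volume.restrict (ball (0 : EE d) ρ))) := by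
    refine ((hf.norm.const_mul C).mul_prod (integrable_const (1 : ℝ))).mono'
      ((hq.comp (measurable_fst.add measurable_snd)).mul
        (hfm.comp measurable_fst)).aestronglyMeasurable (.of_forall fun p => ?_)
    simp only [Function.uncurry, norm_mul, Real.norm_eq_abs, mul_one]
    exact mul_le_mul_of_nonneg_right (hC _) (abs_nonneg _)
  have hi2 : Integrable (Function.uncurry fun x u : EE d => q x * f (x + u))
      (volume.prod (volume.restrict (ball (0 : EE d) ρ))) := by
    have hm : AEStronglyMeasurable (Function.uncurry fun x u : EE d => q x * f (x + u))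
        (volume.prod (volume.restrict (ball (0 : EE d) ρ))) :=
      ((hq.comp measurable_fst).mul
        (hfm.comp (measurable_fst.add measurable_snd))).aestronglyMeasurable
    rw [integrable_prod_iff' hm]
    refine ⟨.of_forall fun u => (hf.comp_add_right u).bdd_mul hq.aestronglyMeasurable
      (.of_forall hC), ?_⟩
    refine (integrable_const (C * ∫ x, ‖f x‖)).mono' ?_ (.of_forall fun u => ?_)
    · exact hm.norm.prod_swap.integral_prod_right'
    · rw [Real.norm_of_nonneg (integral_nonneg fun _ => norm_nonneg _),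
        ← integral_add_right_eq_self (fun x => ‖f x‖) u, ← integral_const_mul]
      refine integral_mono_of_nonneg (.of_forall fun _ => norm_nonneg _)
        ((hf.comp_add_right u).norm.const_mul C) (.of_forall fun x => ?_)
      simp only [Function.uncurry, norm_mul]
      exact mul_le_mul_of_nonneg_right (hC _) (norm_nonneg _)
  have e1 : ∀ x, (volume.real (ball (0 : EE d) ρ))⁻¹ * (∫ u in ball (0 : EE d) ρ, q (x + u)) * f x =
      (volume.real (ball (0 : EE d) ρ))⁻¹ * ∫ u in ball (0 : EE d) ρ, q (x + u) * f x := fun x => by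
    rw [integral_mul_const, mul_assoc]
  have e2 : ∀ x, q x * ((volume.real (ball (0 : EE d) ρ))⁻¹ * ∫ u in ball (0 : EE d) ρ, f (x + u)) =
      (volume.real (ball (0 : EE d) ρ))⁻¹ * ∫ u in ball (0 : EE d) ρ, q x * f (x + u) := fun x => by
    rw [integral_const_mul]; ring
  simp only [e1, e2]
  rw [integral_const_mul, integral_const_mul, integral_integral_swap hi1,
    integral_integral_swap hi2]
  congr 1
  rw [← ball_neg ρ fun u => ∫ x, q x * f (x + u)]
  refine setIntegral_congr_fun measurableSet_ball fun u _ => ?_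
  beta_reduce
  rw [← integral_sub_right_eq_self (fun x => q (x + u) * f x) u]
  simp [sub_eq_add_neg]

/-- The kernel of one average. -/
noncomputable def ker1 (ρ : ℝ) : EE d → ℝ :=
  (ball (0 : EE d) ρ).indicator fun _ => (volume.real (ball (0 : EE d) ρ))⁻¹

theorem conv_ker1 (ρ : ℝ) (f : EE d → ℝ) (x : EE d) : conv (ker1 ρ) f x = ballAvg ρ f x := by
  rw [ballAvg_def, conv, ← integral_const_mul, ← integral_indicator measurableSet_ball]
  congr 1
  funext z
  by_cases hz : z ∈ ball (0 : EE d) ρ <;> simp [ker1, hz]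

theorem isKer_ker1 {ρ : ℝ} (hρ : 0 < ρ) :
    IsKer (ker1 ρ : EE d → ℝ) ρ (volume.real (ball (0 : EE d) ρ))⁻¹ where
  meas := measurable_const.indicator measurableSet_ball
  nonneg := fun x => indicator_nonneg (fun _ _ => inv_nonneg.2 measureReal_nonneg) x
  le := indicator_le' (fun _ _ => le_rfl) fun _ _ => inv_nonneg.2 measureReal_nonneg
  supp := fun x hx => indicator_of_notMem (by simpa using hx) _
  mass := by
    rw [ker1, integral_indicator measurableSet_ball, setIntegral_const, smul_eq_mul,
      mul_inv_cancel₀ (volBall_pos hρ).ne']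

theorem IsSub.avg {K : EE d → ℝ} {R M : ℝ} (h : IsSub K R M) {ρ : ℝ} (hρ : 0 < ρ) :
    IsSub (ballAvg ρ K) (R + ρ) M where
  meas := measurable_ballAvg ρ h.meas
  nonneg := ballAvg_nonneg ρ h.nonneg
  le := fun x => (le_abs_self _).trans (abs_ballAvg_le hρ h.lb x fun u _ => by
    rw [abs_of_nonneg (h.nonneg _)]; exact h.le _)
  supp := fun x hx => by
    rw [ballAvg_def, setIntegral_eq_zero_of_forall_eq_zero fun u hu => h.supp _ ?_, mul_zero]
    rw [mem_ball_zero_iff] at hu
    linarith [norm_sub_le (x + u) u, (by rw [add_sub_cancel_right] : ‖x + u - u‖ = ‖x‖)]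

theorem IsKer.avg {K : EE d → ℝ} {R M : ℝ} (h : IsKer K R M) {ρ : ℝ} (hρ : 0 < ρ) :
    IsKer (ballAvg ρ K) (R + ρ) (volume.real (ball (0 : EE d) ρ))⁻¹ where
  meas := measurable_ballAvg ρ h.meas
  nonneg := ballAvg_nonneg ρ h.nonneg
  le := fun x => by
    rw [ballAvg_def]
    refine mul_le_of_le_one_right (inv_nonneg.2 measureReal_nonneg) ?_
    refine (setIntegral_le_integral (h.integrable.comp_add_left x)
      (.of_forall fun u => h.nonneg _)).trans (le_of_eq ?_)
    rw [integral_add_left_eq_self K x, h.mass]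
  supp := (h.toIsSub.avg hρ).supp
  mass := by
    have h2 := ballAvg_dual ρ (q := fun _ : EE d => (1 : ℝ)) measurable_const (C := 1)
      (fun _ => by simp) h.meas h.integrable
    simp only [ballAvg_const hρ, one_mul] at h2
    rw [← h2, h.mass]

/-- The kernel of the averages at the levels `l + 1, …, T`. -/
noncomputable def kern (ε : ℝ) (l : ℕ) : ℕ → EE d → ℝ
  | 0 => 0
  | T + 1 => if l < T then ballAvg (rho ε (T + 1)) (kern ε l T) else
      if l = T then ker1 (rho ε (T + 1)) else 0

/-- The radius of the support. -/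
noncomputable def rad (ε : ℝ) (l T : ℕ) : ℝ := 4 / 3 * (rho ε T - rho ε l)

theorem rho_succ' (ε : ℝ) (l : ℕ) : rho ε (l + 1) = 4 * rho ε l := by
  simp only [rho, pow_succ]; ring

theorem rad_succ (ε : ℝ) (l T : ℕ) : rad ε l (T + 1) = rad ε l T + rho ε (T + 1) := by
  simp only [rad, rho_succ']; ring

theorem rad_base (ε : ℝ) (l : ℕ) : rad ε l (l + 1) = rho ε (l + 1) := by
  simp only [rad, rho_succ']; ring

theorem kern_base (ε : ℝ) (l : ℕ) : (kern ε l (l + 1) : EE d → ℝ) = ker1 (rho ε (l + 1)) := by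
  simp [kern]

theorem kern_step (ε : ℝ) {l T : ℕ} (h : l < T) :
    (kern ε l (T + 1) : EE d → ℝ) = ballAvg (rho ε (T + 1)) (kern ε l T) := by
  simp [kern, h]

theorem isKer_kern {ε : ℝ} (hε : 0 < ε) {l T : ℕ} (h : l < T) :
    IsKer (kern ε l T : EE d → ℝ) (rad ε l T) (volume.real (ball (0 : EE d) (rho ε T)))⁻¹ := by
  induction T, h using Nat.le_induction with
  | base => rw [kern_base, rad_base]; exact isKer_ker1 (rho_pos hε _)
  | succ T hT ih => rw [kern_step ε hT, rad_succ]; exact ih.avg (rho_pos hε _)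

theorem rad_pos {ε : ℝ} (hε : 0 < ε) {l T : ℕ} (h : l < T) : 0 < rad ε l T := by
  have : rho ε l < rho ε T :=
    mul_lt_mul_of_pos_left (pow_lt_pow_right₀ (by norm_num) h) hε
  unfold rad; linarith

/-- The recursion at the bottom. -/
theorem kern_lower {ε : ℝ} (hε : 0 < ε) {l T : ℕ} (h : l + 1 < T) :
    (kern ε l T : EE d → ℝ) = ballAvg (rho ε (l + 1)) (kern ε (l + 1) T) := by
  induction T, h using Nat.le_induction with
  | base =>
    funext x
    rw [kern_step ε (lt_add_one l), kern_base, kern_base]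
    have hev : ∀ (a : ℝ) (u : EE d), ker1 a (-u) = ker1 a u := fun a u => by
      by_cases hu : u ∈ ball (0 : EE d) a
      · rw [ker1, indicator_of_mem hu, indicator_of_mem (by simpa using hu)]
      · rw [ker1, indicator_of_notMem hu, indicator_of_notMem (by simpa using hu)]
    have h1 : ∀ a b : ℝ, ∀ y : EE d, ballAvg a (ker1 b) y = conv (ker1 b) (ker1 a) y := fun a b y => by
      rw [← conv_ker1, conv, conv,
        ← integral_sub_left_eq_self (fun z => ker1 b z * ker1 a (y + z)) volume (-y)]
      congr 1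
      funext u
      have e1 : -y - u = -(y + u) := by abel
      have e2 : y + -(y + u) = -u := by abel
      simp only [e1, e2, hev]
      ring
    rw [h1, conv_ker1]
  | succ T hT ih =>
    funext x
    rw [kern_step ε (by omega : l < T), ih, kern_step ε (by omega : l + 1 < T)]
    exact ballAvg_comm _ _ (isKer_kern hε (by omega : l + 1 < T)).lb x

theorem chain_eq_conv {ε : ℝ} (hε : 0 < ε) {f : EE d → ℝ} (hf : LB f) {l T : ℕ} (h : l < T)
    (x : EE d) : chain ε f l (T - l) x = conv (kern ε l T) f x := by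
  induction T, h using Nat.le_induction generalizing x with
  | base =>
    show chain ε f l (l + 1 - l) x = conv (kern ε l (l + 1)) f x
    rw [Nat.add_sub_cancel_left, kern_base, conv_ker1]
    rfl
  | succ T hT ih =>
    rw [kern_step ε hT, ← ballAvg_conv (isKer_kern hε hT).toIsSub hf, Nat.succ_sub (le_of_lt hT)]
    show ballAvg (rho ε (l + (T - l) + 1)) (chain ε f l (T - l)) x = _
    rw [Nat.add_sub_cancel' (le_of_lt hT), show chain ε f l (T - l) = conv (kern ε l T) f from
      funext ih]

theorem chain_add (ε : ℝ) (f : EE d → ℝ) (l a : ℕ) :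
    ∀ b x, chain ε f l (a + b) x = chain ε (chain ε f l a) (l + a) b x
  | 0, x => rfl
  | b + 1, x => by
    show ballAvg (rho ε (l + (a + b) + 1)) (chain ε f l (a + b)) x = _
    rw [show chain ε f l (a + b) = chain ε (chain ε f l a) (l + a) b from funext (chain_add ε f l a b),
      show l + (a + b) + 1 = l + a + b + 1 by omega]
    rfl

/-! ### Radial monotonicity -/

/-- Radially decreasing. -/
def RadDecr (f : EE d → ℝ) : Prop := ∀ x y : EE d, ‖x‖ ≤ ‖y‖ → f y ≤ f x

theorem RadDecr.ker1 {ρ : ℝ} (_hρ : 0 < ρ) : RadDecr (Kernel.ker1 ρ : EE d → ℝ) := by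
  intro x y h
  by_cases hy : y ∈ ball (0 : EE d) ρ
  · have hx : x ∈ ball (0 : EE d) ρ := by
      rw [mem_ball_zero_iff] at hy ⊢; linarith
    rw [Kernel.ker1, indicator_of_mem hy, indicator_of_mem hx]
  · rw [Kernel.ker1, indicator_of_notMem hy]
    exact indicator_nonneg (fun _ _ => inv_nonneg.2 measureReal_nonneg) _

theorem RadDecr.avg {f : EE d → ℝ} (hf : LB f) (hd : RadDecr f) (ρ : ℝ) :
    RadDecr (ballAvg ρ f) := by
  intro x y hxy
  rcases eq_or_ne x y with rfl | hne
  · rfl
  set w := y - x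
  have hw : 0 < ‖w‖ := norm_pos_iff.2 (sub_ne_zero.2 (Ne.symm hne))
  set e := ‖w‖⁻¹ • w with he
  have he1 : ‖e‖ = 1 := norm_smul_inv_norm (norm_pos_iff.1 hw)
  set c := (⟪x, e⟫ + ⟪y, e⟫) / 2 with hc
  have hc0 : 0 ≤ c := by
    have h2 : ⟪x, e⟫ + ⟪y, e⟫ = ‖w‖⁻¹ * (‖y‖ ^ 2 - ‖x‖ ^ 2) := by
      rw [he, ← inner_add_left, real_inner_smul_right]
      congr 1
      rw [inner_add_left, inner_sub_right, inner_sub_right, real_inner_self_eq_norm_sq,
        real_inner_self_eq_norm_sq, real_inner_comm x y]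
      ring
    have h3 : 0 ≤ ‖y‖ ^ 2 - ‖x‖ ^ 2 := by nlinarith [norm_nonneg x]
    rw [hc, h2]
    exact div_nonneg (mul_nonneg (inv_nonneg.2 hw.le) h3) zero_le_two
  set P : EE d ≃ₗᵢ[ℝ] EE d := (Submodule.reflection (ℝ ∙ e)).trans (LinearIsometryEquiv.neg ℝ)
  have hP : ∀ u, P u = u - (2 * ⟪u, e⟫) • e := fun u => by
    simp only [P, LinearIsometryEquiv.trans_apply, LinearIsometryEquiv.coe_neg,
      Submodule.reflection_singleton_apply, he1]
    simp only [RCLike.ofReal_real_eq_id, id, one_pow, div_one, real_inner_comm u e]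
    module
  set σ : EE d → EE d := fun u => P u + (2 * c) • e with hσ
  have hmp : MeasurePreserving σ volume volume :=
    (measurePreserving_add_right volume ((2 * c) • e)).comp P.measurePreserving
  have hemb : MeasurableEmbedding σ :=
    (measurableEmbedding_addRight ((2 * c) • e)).comp P.toHomeomorph.toMeasurableEquiv.measurableEmbedding
  have hσy : σ y = x := by
    have h1 : ⟪y, e⟫ - ⟪x, e⟫ = ‖w‖ := by
      rw [← inner_sub_left, he, real_inner_smul_right]
      show ‖w‖⁻¹ * ⟪w, w⟫ = ‖w‖
      rw [real_inner_self_eq_norm_sq]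
      field_simp
    have h2 : w = ‖w‖ • e := by rw [he, smul_inv_smul₀ hw.ne']
    have h3 : 2 * c - 2 * ⟪y, e⟫ = -‖w‖ := by rw [hc]; linarith
    calc σ y = y + (2 * c - 2 * ⟪y, e⟫) • e := by simp only [hσ, hP]; module
      _ = y - w := by rw [h3, neg_smul, ← h2, sub_eq_add_neg]
      _ = x := by simp only [w]; abel
  have hdist : ∀ u, ‖σ u - x‖ = ‖u - y‖ := fun u => by
    rw [← hσy]
    simp only [hσ, add_sub_add_right_eq_sub, ← map_sub, LinearIsometryEquiv.norm_map]
  have hA : ∀ z : EE d, ballAvg ρ f z =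
      (volume.real (ball (0 : EE d) ρ))⁻¹ * ∫ u, (ball z ρ).indicator f u := fun z => by
    rw [ballAvg_def, ← integral_indicator measurableSet_ball]
    congr 1
    rw [← integral_add_left_eq_self ((ball z ρ).indicator f) z]
    congr 1
    funext u
    by_cases hu : u ∈ ball (0 : EE d) ρ
    · rw [indicator_of_mem hu, indicator_of_mem (by simpa [dist_eq_norm] using hu)]
    · rw [indicator_of_notMem hu, indicator_of_notMem (by simpa [dist_eq_norm] using hu)]
  rw [hA, hA]
  refine mul_le_mul_of_nonneg_left ?_ (inv_nonneg.2 measureReal_nonneg)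
  set F := fun u => (ball y ρ).indicator f u - (ball x ρ).indicator f u with hF
  have hIi : ∀ z : EE d, Integrable ((ball z ρ).indicator f) := fun z => by
    obtain ⟨C, hC⟩ := hf.bdd (‖z‖ + ρ)
    refine IntegrableOn.integrable_indicator (Measure.integrableOn_of_bounded (M := C)
      measure_ball_lt_top.ne hf.meas.aestronglyMeasurable ?_) measurableSet_ball
    filter_upwards [ae_restrict_mem measurableSet_ball] with u hu
    rw [mem_ball, dist_eq_norm] at hu
    refine hC u ?_
    linarith [norm_sub_norm_le u z]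
  have hFi : Integrable F := (hIi y).sub (hIi x)
  have hFσ : Integrable (fun u => F (σ u)) := (hmp.integrable_comp_emb hemb).2 hFi
  have hsum : ∀ u, F u + F (σ u) ≤ 0 := fun u => by
    have hσσ : ∀ v, ⟪σ v, e⟫ - c = -(⟪v, e⟫ - c) := fun v => by
      simp only [hσ, hP, inner_add_left, inner_sub_left, real_inner_smul_left,
        real_inner_self_eq_norm_sq, he1]
      ring
    have hback : σ (σ u) = u := by
      have : ⟪σ u, e⟫ = 2 * c - ⟪u, e⟫ := by linarith [hσσ u]
      calc σ (σ u) = σ u - (2 * ⟪σ u, e⟫) • e + (2 * c) • e := by simp only [hσ, hP]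
        _ = u := by rw [this]; simp only [hσ, hP]; module
    have h1 : σ u ∈ ball y ρ ↔ u ∈ ball x ρ := by
      rw [mem_ball, mem_ball, dist_eq_norm, dist_eq_norm, ← hdist (σ u), hback]
    have h2 : σ u ∈ ball x ρ ↔ u ∈ ball y ρ := by
      rw [mem_ball, mem_ball, dist_eq_norm, dist_eq_norm, hdist]
    have hn : ‖σ u‖ ^ 2 = ‖u‖ ^ 2 + 4 * c * (c - ⟪u, e⟫) := by
      have h0 : ⟪P u, e⟫ = -⟪u, e⟫ := by
        rw [hP, inner_sub_left, real_inner_smul_left, real_inner_self_eq_norm_sq, he1]; ring
      simp only [hσ, norm_add_sq_real, LinearIsometryEquiv.norm_map, real_inner_smul_right, h0,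
        norm_smul, he1, mul_one, Real.norm_eq_abs, sq_abs]
      ring
    simp only [hF]
    by_cases hy : u ∈ ball y ρ <;> by_cases hx : u ∈ ball x ρ
    all_goals simp only [hy, hx, h1.2, mt h1.1, h2.2, mt h2.1, not_false_eq_true, indicator_of_mem,
      indicator_of_notMem]
    · linarith
    · -- the side of `y`
      have hside : c ≤ ⟪u, e⟫ := by
        rw [mem_ball, dist_eq_norm] at hy hx
        have hlt : ‖u - y‖ ^ 2 < ‖u - x‖ ^ 2 := by nlinarith [norm_nonneg (u - y)]
        have e3 : ‖u - x‖ ^ 2 - ‖u - y‖ ^ 2 = 2 * ‖w‖ * (⟪u, e⟫ - c) := by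
          have hwe : ∀ v : EE d, ‖w‖ * ⟪v, e⟫ = ⟪v, y - x⟫ := fun v => by
            rw [he, real_inner_smul_right, mul_inv_cancel_left₀ hw.ne']
          have := hwe u; have := hwe x; have := hwe y
          simp only [norm_sub_sq_real, inner_sub_right, real_inner_self_eq_norm_sq] at *
          rw [hc, real_inner_comm x y] at *
          linarith
        nlinarith
      have : ‖σ u‖ ≤ ‖u‖ := by
        nlinarith [norm_nonneg (σ u), norm_nonneg u, mul_nonneg hc0 (sub_nonneg.2 hside)]
      linarith [hd _ _ this]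
    · have hside : ⟪u, e⟫ ≤ c := by
        rw [mem_ball, dist_eq_norm] at hy hx
        have hlt : ‖u - x‖ ^ 2 < ‖u - y‖ ^ 2 := by nlinarith [norm_nonneg (u - x)]
        have e3 : ‖u - x‖ ^ 2 - ‖u - y‖ ^ 2 = 2 * ‖w‖ * (⟪u, e⟫ - c) := by
          have hwe : ∀ v : EE d, ‖w‖ * ⟪v, e⟫ = ⟪v, y - x⟫ := fun v => by
            rw [he, real_inner_smul_right, mul_inv_cancel_left₀ hw.ne']
          have := hwe u; have := hwe x; have := hwe y
          simp only [norm_sub_sq_real, inner_sub_right, real_inner_self_eq_norm_sq] at *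
          rw [hc, real_inner_comm x y] at *
          linarith
        nlinarith
      have : ‖u‖ ≤ ‖σ u‖ := by
        nlinarith [norm_nonneg (σ u), norm_nonneg u, mul_nonneg hc0 (sub_nonneg.2 hside)]
      linarith [hd _ _ this]
    · linarith
  have h := integral_nonpos (μ := (volume : Measure (EE d))) (f := fun u => F u + F (σ u)) hsum
  rw [integral_add hFi hFσ, hmp.integral_comp hemb] at h
  have h' : ∫ u, F u ≤ 0 := by linarith
  simp only [hF, integral_sub (hIi y) (hIi x)] at h'
  linarith

theorem radDecr_kern {ε : ℝ} (hε : 0 < ε) {l T : ℕ} (h : l < T) :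
    RadDecr (kern ε l T : EE d → ℝ) := by
  induction T, h using Nat.le_induction with
  | base => rw [kern_base]; exact RadDecr.ker1 (rho_pos hε _)
  | succ T hT ih => rw [kern_step ε hT]; exact ih.avg (isKer_kern hε hT).lb _

/-! ### The edge of the support -/

theorem avg_push {ρ : ℝ} {f f' : EE d → ℝ} (hf : LB f) (hf' : LB f') (hf0 : ∀ x, 0 ≤ f' x)
    {e : EE d} (he : ‖e‖ = 1) {α β J c : ℝ} (hα : 0 < α) (hαβ : 0 < α + β) (b z z' : EE d)
    (hJ : (α ^ (d - 1) * (α + β))⁻¹ ≤ J) (hJ0 : 0 ≤ J) (hc : 0 ≤ c)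
    (hmap : ∀ u, ‖u‖ < ρ → f (z + u) ≠ 0 →
      ‖aff e α β b u‖ < ρ ∧ c * f (z + u) ≤ f' (z' + aff e α β b u)) :
    c * ballAvg ρ f z ≤ J * ballAvg ρ f' z' := by
  have _ := hc
  rw [ballAvg_def, ballAvg_def, mul_left_comm c, mul_left_comm J]
  refine mul_le_mul_of_nonneg_left ?_ (inv_nonneg.2 measureReal_nonneg)
  rw [← integral_indicator measurableSet_ball, ← integral_indicator measurableSet_ball]
  set G := (ball (0 : EE d) ρ).indicator fun u => f' (z' + u)
  have hG0 : ∀ u, 0 ≤ G u := fun u => indicator_nonneg (fun _ _ => hf0 _) u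
  have hGi : Integrable G := (hf'.intOn z' ρ).integrable_indicator measurableSet_ball
  calc c * ∫ u, (ball (0 : EE d) ρ).indicator (fun u => f (z + u)) u
      = ∫ u, c * (ball (0 : EE d) ρ).indicator (fun u => f (z + u)) u :=
        (integral_const_mul _ _).symm
    _ ≤ ∫ u, G (aff e α β b u) := by
        refine integral_mono
          (((hf.intOn z ρ).integrable_indicator measurableSet_ball).const_mul c)
          (integrable_aff he hα hαβ b hGi) fun u => ?_
        simp only
        by_cases hu : u ∈ ball (0 : EE d) ρ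
        · rw [indicator_of_mem hu]
          by_cases h0 : f (z + u) = 0
          · rw [h0, mul_zero]; exact hG0 _
          · obtain ⟨h1, h2⟩ := hmap u (mem_ball_zero_iff.1 hu) h0
            simpa [G, h1] using h2
        · rw [indicator_of_notMem hu, mul_zero]; exact hG0 _
    _ ≤ J * ∫ u, G u := by
        rw [integral_aff he hα hαβ]
        exact mul_le_mul_of_nonneg_right hJ (integral_nonneg hG0)

/-- Homothety towards the far point. -/
theorem kern_homothety {ε : ℝ} (hε : 0 < ε) {l T : ℕ} (h : l < T) {e : EE d} (he : ‖e‖ = 1)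
    {η : ℝ} (hη : 0 ≤ η) (hη1 : η < 1) (z : EE d) :
    (1 - η) ^ (d * (T - l)) * kern ε l T z ≤
      kern ε l T (z + η • (rad ε l T • e - z)) := by
  have h1η : 0 < 1 - η := by linarith
  induction T, h using Nat.le_induction generalizing z with
  | base =>
    rw [Nat.succ_eq_add_one, kern_base, rad_base, Nat.add_sub_cancel_left, mul_one]
    set ρ := rho ε (l + 1)
    have hk := isKer_ker1 (d := d) (rho_pos hε (l + 1))
    by_cases hz : z ∈ ball (0 : EE d) ρ
    · have hz' : z + η • (ρ • e - z) ∈ ball (0 : EE d) ρ := by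
        rw [mem_ball_zero_iff] at hz ⊢
        have e1 : z + η • (ρ • e - z) = (1 - η) • z + (η * ρ) • e := by module
        have hρ := rho_pos hε (l + 1)
        rw [e1]
        refine (norm_add_le _ _).trans_lt ?_
        rw [norm_smul, norm_smul, he, Real.norm_of_nonneg h1η.le,
          Real.norm_of_nonneg (mul_nonneg hη hρ.le), mul_one]
        nlinarith
      rw [ker1, indicator_of_mem hz, indicator_of_mem hz']
      exact mul_le_of_le_one_left (inv_nonneg.2 measureReal_nonneg)
        (pow_le_one₀ h1η.le (by linarith))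
    · have h0 : ker1 ρ z = 0 := by rw [ker1, indicator_of_notMem hz]
      rw [h0, mul_zero]
      exact hk.nonneg _
  | succ T hT ih =>
    set R := rad ε l T
    set ρ := rho ε (T + 1)
    have hρ : 0 < ρ := rho_pos hε _
    rw [kern_step ε hT, rad_succ]
    have hd : 1 ≤ d := by
      rcases d with - | d
      · rw [Subsingleton.elim e 0, norm_zero] at he; exact absurd he zero_ne_one
      · omega
    have hk := (isKer_kern (d := d) hε hT)
    have hpush := avg_push (ρ := ρ) hk.lb hk.lb hk.nonneg he (α := 1 - η) (β := 0)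
      (J := ((1 - η) ^ d)⁻¹) (c := (1 - η) ^ (d * (T - l))) h1η (by linarith) ((-(η * ρ)) • e) z
      (z + η • ((R + ρ) • e - z))
      (by rw [add_zero, ← pow_succ, Nat.sub_add_cancel hd]) (by positivity) (by positivity)
      (fun u hu _ => by
        have e1 : aff e (1 - η) 0 ((-(η * ρ)) • e) u = (1 - η) • u + (-(η * ρ)) • e := by
          simp [aff]
        rw [e1]
        refine ⟨?_, ?_⟩
        · refine (norm_add_le _ _).trans_lt ?_
          rw [norm_smul, norm_smul, he, Real.norm_of_nonneg h1η.le, norm_neg,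
            Real.norm_of_nonneg (mul_nonneg hη hρ.le), mul_one]
          nlinarith
        · refine (ih (z + u)).trans (le_of_eq ?_)
          congr 1
          module)
    rw [Nat.succ_sub (le_of_lt hT), Nat.mul_succ, pow_add, mul_comm ((1 - η) ^ (d * (T - l))),
      mul_assoc]
    calc (1 - η) ^ d * ((1 - η) ^ (d * (T - l)) * ballAvg ρ (kern ε l T) z)
        ≤ (1 - η) ^ d * (((1 - η) ^ d)⁻¹ * ballAvg ρ (kern ε l T) (z + η • ((R + ρ) • e - z))) :=
          mul_le_mul_of_nonneg_left hpush (by positivity)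
      _ = _ := mul_inv_cancel_left₀ (pow_ne_zero _ h1η.ne') _

/-- Moving inwards near the edge gains a factor per large level. -/
theorem kern_inward {ε : ℝ} (hε : 0 < ε) {l T0 T : ℕ} (h0 : l < T0) (hT : T0 ≤ T) {e : EE d}
    (he : ‖e‖ = 1) {η : ℝ} (hη : 0 ≤ η) {z : EE d}
    (hR : (1 + η) * (rad ε l T - ⟪z, e⟫) ≤ rad ε l T0)
    (hbig : T0 < T → 8 * ((1 + η) * (rad ε l T - ⟪z, e⟫)) ≤ rho ε (T0 + 1)) :
    (1 + η) ^ (T - T0) * kern ε l T z ≤
      kern ε l T (z - (η * (rad ε l T - ⟪z, e⟫)) • e) := by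
  induction T, hT using Nat.le_induction generalizing z with
  | base =>
    rw [Nat.sub_self, pow_zero, one_mul]
    set R := rad ε l T0
    rcases le_or_gt R ‖z‖ with hz | hz
    · rw [(isKer_kern hε h0).supp z hz]
      exact (isKer_kern hε h0).nonneg _
    refine radDecr_kern hε h0 _ _ ?_
    have hzi : ⟪z, e⟫ ≤ ‖z‖ := by simpa [he] using real_inner_le_norm z e
    set s := R - ⟪z, e⟫ with hs
    have hs0 : 0 ≤ s := by linarith
    have hηs : 0 ≤ η * s := mul_nonneg hη hs0
    have hsq : ‖z - (η * s) • e‖ ^ 2 ≤ ‖z‖ ^ 2 := by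
      rw [norm_sub_sq_real, norm_smul, he, real_inner_smul_right, Real.norm_eq_abs, mul_one, sq_abs]
      nlinarith
    exact le_of_pow_le_pow_left₀ two_ne_zero (norm_nonneg _) hsq
  | succ T hT ih =>
    set R := rad ε l T with hRdef
    set ρ := rho ε (T + 1) with hρdef
    have hρ : 0 < ρ := rho_pos hε _
    have hlT : l < T := lt_of_lt_of_le h0 hT
    have hk := isKer_kern (d := d) hε hlT
    rw [rad_succ] at hR hbig ⊢
    rw [kern_step ε hlT]
    set s := R + ρ - ⟪z, e⟫ with hs
    have hbig' : 8 * ((1 + η) * s) ≤ rho ε (T0 + 1) := hbig (by omega)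
    have hmono : rho ε (T0 + 1) ≤ ρ :=
      mul_le_mul_of_nonneg_left (pow_le_pow_right₀ (by norm_num) (by omega)) hε.le
    have hpush := avg_push (ρ := ρ) hk.lb hk.lb hk.nonneg he (α := 1) (β := η)
      (J := (1 + η)⁻¹) (c := (1 + η) ^ (T - T0)) one_pos (by linarith) ((η * ρ) • e) z
      (z - (η * s) • e) (by rw [one_pow, one_mul]) (by positivity) (by positivity)
      (fun u hu h0' => by
        have hue : |⟪u, e⟫| ≤ ‖u‖ := by simpa [he] using abs_real_inner_le_norm u e
        obtain ⟨hu1, hu2⟩ := abs_le.1 hue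
        have hin : ⟪z + u, e⟫ < R := by
          by_contra hc
          refine h0' (hk.supp _ ((not_lt.1 hc).trans ?_))
          simpa [he] using real_inner_le_norm (z + u) e
        rw [inner_add_left] at hin
        have hIH := ih (z := z + u)
          (by rw [inner_add_left]; nlinarith) (fun _ => by rw [inner_add_left]; nlinarith)
        have e1 : aff e 1 η ((η * ρ) • e) u = u + (η * (ρ + ⟪u, e⟫)) • e := by
          simp only [aff]; module
        rw [e1]
        refine ⟨?_, ?_⟩
        · set a := ρ + ⟪u, e⟫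
          have ha : 0 < a := by simp only [a]; linarith
          have has : (1 + η) * a ≤ ρ / 8 := by
            have : a ≤ s := by simp only [a, hs]; linarith
            nlinarith
          have hsq : ‖u + (η * a) • e‖ ^ 2 ≤ ‖u‖ ^ 2 := by
            rw [norm_add_sq_real, norm_smul, he, real_inner_smul_right, Real.norm_eq_abs, mul_one,
              sq_abs]
            have hui : ⟪u, e⟫ = a - ρ := by simp only [a]; ring
            rw [hui]
            nlinarith [mul_nonneg hη ha.le]
          exact lt_of_le_of_lt (le_of_pow_le_pow_left₀ two_ne_zero (norm_nonneg _) hsq) hu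
        · refine hIH.trans (le_of_eq ?_)
          congr 1
          rw [hs, inner_add_left]
          module)
    rw [Nat.succ_sub hT, pow_succ', mul_assoc]
    calc (1 + η) * ((1 + η) ^ (T - T0) * ballAvg ρ (kern ε l T) z)
        ≤ (1 + η) * ((1 + η)⁻¹ * ballAvg ρ (kern ε l T) (z - (η * s) • e)) :=
          mul_le_mul_of_nonneg_left hpush (by linarith)
      _ = _ := mul_inv_cancel_left₀ (by linarith) _

/-- One step of the lower bound. -/
theorem avg_lower {ρ θ η : ℝ} (hρ : 0 < ρ) (hθ : 0 ≤ θ) (hη : 0 < η) (hsum : θ + η ≤ 1)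
    {f : EE d → ℝ} (hf : LB f) (hf0 : ∀ x, 0 ≤ f x) (hd : RadDecr f) {z x : EE d}
    (hx : max (‖z‖ - θ * ρ) 0 + η * ρ ≤ ‖x‖) :
    η ^ d * f x ≤ ballAvg ρ f z := by
  set c : EE d := -((min 1 (θ * ρ / ‖z‖)) • z)
  have hc : ‖c‖ ≤ θ * ρ ∧ ‖z + c‖ ≤ max (‖z‖ - θ * ρ) 0 := by
    rcases eq_or_ne z 0 with rfl | hz
    · simp [c, mul_nonneg hθ hρ.le]
    · have hz0 : 0 < ‖z‖ := norm_pos_iff.2 hz
      have e1 : z + c = (1 - min 1 (θ * ρ / ‖z‖)) • z := by simp only [c]; module
      rw [e1, norm_neg, norm_smul, norm_smul, Real.norm_eq_abs, Real.norm_eq_abs,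
        abs_of_nonneg (le_min zero_le_one (by positivity)),
        abs_of_nonneg (sub_nonneg.2 (min_le_left _ _))]
      rcases min_cases 1 (θ * ρ / ‖z‖) with ⟨h, h'⟩ | ⟨h, h'⟩ <;> rw [h]
      · exact ⟨by rwa [one_mul, ← one_le_div hz0], by simp⟩
      · rw [sub_mul, one_mul, div_mul_cancel₀ _ hz0.ne']
        exact ⟨le_rfl, le_max_left _ _⟩
  have hsub : ball c (η * ρ) ⊆ ball (0 : EE d) ρ := fun u hu => by
    rw [mem_ball, dist_eq_norm] at hu
    rw [mem_ball_zero_iff]
    nlinarith [norm_sub_norm_le u c, hc.1]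
  have hvol : volume.real (ball c (η * ρ)) = η ^ d * volume.real (ball (0 : EE d) ρ) := by
    rw [measureReal_def, measureReal_def, Measure.addHaar_ball_mul_of_pos volume c hη ρ,
      finrank_euclideanSpace_fin, ENNReal.toReal_mul, ENNReal.toReal_ofReal (by positivity)]
  rw [ballAvg_def, le_inv_mul_iff₀ (volBall_pos hρ)]
  calc volume.real (ball (0 : EE d) ρ) * (η ^ d * f x)
      = ∫ _u in ball c (η * ρ), f x := by rw [setIntegral_const, hvol, smul_eq_mul]; ring
    _ ≤ ∫ u in ball c (η * ρ), f (z + u) := by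
        refine setIntegral_mono_on (integrableOn_const measure_ball_lt_top.ne)
          ((hf.intOn z ρ).mono_set hsub) measurableSet_ball fun u hu => hd _ _ ?_
        rw [mem_ball, dist_eq_norm] at hu
        have : z + u = (z + c) + (u - c) := by abel
        rw [this]
        linarith [norm_add_le (z + c) (u - c), hc.2]
    _ ≤ ∫ u in ball (0 : EE d) ρ, f (z + u) :=
        setIntegral_mono_set (hf.intOn z ρ) (.of_forall fun u => hf0 _) (Eventually.of_forall hsub)

/-- Lowering the bottom level reaches inwards. -/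
theorem kern_reach {ε : ℝ} (hε : 0 < ε) (hd : 1 ≤ d) {θ η : ℝ} (hθ : 0 ≤ θ) (hη : 0 < η)
    (hsum : θ + η ≤ 1) :
    ∀ (p J : ℕ) {T : ℕ}, p ≤ J → J < T → ∀ z x : EE d,
      max (‖z‖ - θ * rad ε (J - p) J) 0 + η * rad ε (J - p) J ≤ ‖x‖ →
      (η ^ d) ^ p * kern ε J T x ≤ kern ε (J - p) T z
  | 0, J, T, _, hT, z, x, hx => by
    rw [Nat.sub_zero] at hx ⊢
    simp only [rad, sub_self, mul_zero, sub_zero, add_zero, max_eq_left (norm_nonneg z)] at hx
    rw [pow_zero, one_mul]
    exact radDecr_kern hε hT z x hx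
  | p + 1, J, T, hp, hT, z, x, hx => by
    set l := J - (p + 1) with hl
    have h1 : J - p = l + 1 := by omega
    rw [kern_lower hε (by omega : l + 1 < T)]
    set ρ := rho ε (l + 1)
    set S := rad ε (l + 1) J
    have hρ : 0 < ρ := rho_pos hε _
    have hsplit : rad ε l J = ρ + S := by simp only [rad, S, ρ, rho_succ']; ring
    have hS : 0 ≤ S := by
      have : rho ε (l + 1) ≤ rho ε J :=
        mul_le_mul_of_nonneg_left (pow_le_pow_right₀ (by norm_num) (by omega)) hε.le
      simp only [S, rad]; linarith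
    rw [hsplit] at hx
    set r1 := max (‖z‖ - θ * ρ) 0 + η * ρ
    set x1 : EE d := r1 • EuclideanSpace.single ⟨0, hd⟩ (1 : ℝ)
    have hr1 : 0 ≤ r1 := add_nonneg (le_max_right _ _) (by positivity)
    have hx1 : ‖x1‖ = r1 := by simp [x1, norm_smul, abs_of_nonneg hr1]
    have hstep : max (‖x1‖ - θ * S) 0 + η * S ≤ ‖x‖ := by
      refine le_trans ?_ hx
      rw [hx1]
      have hm : max (r1 - θ * S) 0 ≤ max (‖z‖ - θ * (ρ + S)) 0 + η * ρ := by
        simp only [r1]
        refine max_le ?_ (add_nonneg (le_max_right _ _) (by positivity))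
        rcases max_cases (‖z‖ - θ * ρ) 0 with ⟨h, _⟩ | ⟨h, _⟩ <;> rw [h] <;>
          nlinarith [le_max_left (‖z‖ - θ * (ρ + S)) 0, le_max_right (‖z‖ - θ * (ρ + S)) 0,
            mul_nonneg hθ hS]
      linarith
    have hIH := kern_reach hε hd hθ hη hsum p J (T := T) (by omega) hT x1 x (by rwa [h1])
    rw [h1] at hIH
    have hk := isKer_kern (d := d) hε (show l + 1 < T by omega)
    calc (η ^ d) ^ (p + 1) * kern ε J T x = η ^ d * ((η ^ d) ^ p * kern ε J T x) := by ring
      _ ≤ η ^ d * kern ε (l + 1) T x1 := mul_le_mul_of_nonneg_left hIH (by positivity)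
      _ ≤ _ := avg_lower hρ hθ hη hsum hk.lb hk.nonneg (radDecr_kern hε (by omega)) (ge_of_eq hx1)

end Vale.Agent.P137.Kernel
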