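import Vale.Agent.P137.Centred.Kernel

/-!
The difference bound for a composite kernel.

Proof notes.  With `n = T - J`, `s` the distance of a point to the edge of the support and `t` the
distance to the edge of the kernel lowered by `p` levels, the kernel varies by at most
`d n / s` of itself; moving inwards by a multiple of `rho J` gains a power of `1 + rho J / s`
with one exponent for each level much larger than `s`.  Altogether the variation is
`gam y` times the lowered kernel, `y = rho J n / t`, and `gam` telescopes against `cc`.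
-/

namespace Vale.Agent.P137.Kernel

open MeasureTheory Metric Filter Topology Set
open scoped RealInnerProductSpace

variable {d : ℕ}

/-- The depth variable. -/
noncomputable def yy (ε : ℝ) (J T : ℕ) (t : ℝ) : ℝ := rho ε J * ((T - J + 2 : ℕ) : ℝ) / t

/-- The saturating profile. -/
noncomputable def cc (y : ℝ) : ℝ := y / (1 + y)

/-- The increment of the profile. -/
noncomputable def gam (y : ℝ) : ℝ := y / (1 + y) ^ 2

/-- The dominating kernel. -/
noncomputable def Om0 (ε : ℝ) (p J T : ℕ) (z : EE d) : ℝ :=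
  gam (yy ε J T (rad ε (J - p) T - ‖z‖)) * kern ε (J - p) T z

theorem rho_add (ε : ℝ) (J n : ℕ) : rho ε (J + n) = rho ε J * 4 ^ n := by
  simp only [rho, pow_add]; ring

theorem rho_le' {ε : ℝ} (hε : 0 < ε) {l j : ℕ} (h : l ≤ j) : rho ε l ≤ rho ε j :=
  mul_le_mul_of_nonneg_left (pow_le_pow_right₀ (by norm_num) h) hε.le

theorem rad_add (ε : ℝ) (a b c : ℕ) : rad ε a c = rad ε a b + rad ε b c := by
  simp only [rad]; ring

theorem rad_low {ε : ℝ} (hε : 0 < ε) {p J : ℕ} (hp : 5 ≤ p) (hJ : p ≤ J) :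
    333 / 250 * rho ε J ≤ rad ε (J - p) J ∧ rad ε (J - p) J ≤ 4 / 3 * rho ε J := by
  have h1 : rho ε (J - p) * 4 ^ p = rho ε J := by rw [← rho_add, Nat.sub_add_cancel hJ]
  have h2 : (4 : ℝ) ^ 5 ≤ 4 ^ p := pow_le_pow_right₀ (by norm_num) hp
  have h0 := rho_pos hε (J - p)
  constructor <;> simp only [rad] <;> nlinarith [mul_le_mul_of_nonneg_left h2 h0.le]

private theorem pow_ge_quad {x : ℝ} (hx : 0 ≤ x) : ∀ N : ℕ,
    1 + N * x + N * (N - 1 : ℝ) / 2 * x ^ 2 ≤ (1 + x) ^ N
  | 0 => by simp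
  | N + 1 => by
    have h := mul_le_mul_of_nonneg_right (pow_ge_quad hx N) (by linarith : (0 : ℝ) ≤ 1 + x)
    rw [pow_succ (1 + x) N]
    have h3 : 0 ≤ (N : ℝ) * (N - 1) * x ^ 3 := by
      rcases N with - | N
      · simp
      · push_cast; simp only [add_sub_cancel_right]; positivity
    push_cast
    nlinarith

private theorem sq_le_pow {x : ℝ} (hx : 0 ≤ x) {N : ℕ} (hN : 2 ≤ N) :
    (1 + N * x / 3) ^ 2 ≤ (1 + x) ^ N := by
  refine le_trans ?_ (pow_ge_quad hx N)
  have h2 : (2 : ℝ) ≤ N := by exact_mod_cast hN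
  nlinarith [mul_nonneg (by linarith : (0 : ℝ) ≤ N) hx, sq_nonneg x,
    mul_nonneg (mul_nonneg (by linarith : (0 : ℝ) ≤ N) (by linarith : (0 : ℝ) ≤ (N : ℝ) - 2))
      (sq_nonneg x)]

private theorem gam_bound {X y : ℝ} (hy : 0 < y) (h1 : X ≤ 53 * y)
    (h2 : y ≤ 100 ∨ X * y ≤ 28800) : X ≤ 600000 * gam y := by
  rw [gam, mul_div_assoc', le_div_iff₀ (by positivity)]
  rcases le_or_gt y 100 with h | h
  · have h3 := mul_le_mul_of_nonneg_right h1 (sq_nonneg (1 + y))
    nlinarith [mul_le_mul_of_nonneg_left (show (1 + y) ^ 2 ≤ 10201 by nlinarith) hy.le]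
  · rcases h2 with h2 | h2
    · linarith
    · rcases le_or_gt X 0 with hX | hX
      · nlinarith [mul_nonpos_of_nonpos_of_nonneg hX (sq_nonneg (1 + y))]
      · nlinarith [mul_le_mul_of_nonneg_left (show (1 + y) ^ 2 ≤ 2 * y * y by nlinarith) hX.le]

private theorem depth_le : ∀ {M : ℕ}, 3 ≤ M → (M : ℝ) + 1 ≤ 4 ^ (M - 1) := by
  intro M hM
  induction M, hM using Nat.le_induction with
  | base => norm_num
  | succ M hM ih =>
    rw [show M + 1 - 1 = M - 1 + 1 by omega, pow_succ]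
    push_cast
    have : (1 : ℝ) ≤ 4 ^ (M - 1) := one_le_pow₀ (by norm_num)
    linarith

theorem kern_near_zero {ε : ℝ} (hε : 0 < ε) (hd : 1 ≤ d) {J T : ℕ} (hJT : J + 2 ≤ T) {x : EE d}
    (hx : ‖x‖ ≤ rho ε J) : (1 / 2 : ℝ) ^ d * kern ε J T (0 : EE d) ≤ kern ε J T x := by
  have hJ : J < T := by omega
  set ρ := rho ε J
  have hρ : 0 < ρ := rho_pos hε J
  obtain ⟨n, rfl⟩ := Nat.exists_eq_add_of_le hJ.le
  set R := rad ε J (J + n) with hR
  have hn2 : 2 ≤ n := by omega
  have h4 : (n : ℝ) * 8 ≤ 4 ^ n := by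
    clear * - hn2
    induction n, hn2 using Nat.le_induction with
    | base => norm_num
    | succ n hn ih =>
      rw [pow_succ]; push_cast
      have : (2 : ℝ) ≤ n := by exact_mod_cast hn
      linarith
  have hR' : ρ * 4 ^ n ≤ R := by
    have : (16 : ℝ) ≤ 4 ^ n := by
      calc (16 : ℝ) = 4 ^ 2 := by norm_num
        _ ≤ 4 ^ n := pow_le_pow_right₀ (by norm_num) hn2
    rw [hR]; simp only [rad, rho_add]; nlinarith
  have hR0 : 0 < R := lt_of_lt_of_le (by positivity) hR'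
  obtain ⟨e, he, -⟩ := exists_dir hd x
  have hnn : (n : ℝ) * (ρ / R) ≤ 1 / 8 := by
    rw [← mul_div_assoc, div_le_iff₀ hR0]
    nlinarith
  have hn1 : (1 : ℝ) ≤ n := by exact_mod_cast (show 1 ≤ n by omega)
  have hη1 : ρ / R < 1 := by nlinarith [div_nonneg hρ.le hR0.le]
  have h := kern_homothety hε hJ he (div_nonneg hρ.le hR0.le) hη1 (0 : EE d)
  rw [sub_zero, zero_add, smul_smul, div_mul_cancel₀ _ hR0.ne', Nat.add_sub_cancel_left] at h
  refine le_trans ?_ (h.trans (radDecr_kern hε hJ _ _ ?_))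
  · refine mul_le_mul_of_nonneg_right ?_ ((isKer_kern hε hJ).nonneg 0)
    rw [mul_comm d n, pow_mul]
    refine pow_le_pow_left₀ (by norm_num) ?_ d
    refine le_trans ?_ (le_trans (one_add_mul_le_pow (by linarith : (-2 : ℝ) ≤ -(ρ / R)) n)
      (le_of_eq (by rw [sub_eq_add_neg])))
    linarith
  · rw [norm_smul, he, Real.norm_of_nonneg hρ.le, mul_one]
    exact hx

private theorem kern_var {ε : ℝ} (hε : 0 < ε) (hd : 1 ≤ d) {J n : ℕ} (hn : 1 ≤ n) {a b : EE d}
    (hab : ‖a‖ ≤ ‖b‖) (hs0 : 0 < rad ε J (J + n) - ‖a‖) :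
    kern ε J (J + n) a - kern ε J (J + n) b ≤
      (d : ℝ) * n * (‖a - b‖ / (rad ε J (J + n) - ‖a‖)) * kern ε J (J + n) a := by
  have hJ : J < J + n := by omega
  have hk := isKer_kern (d := d) hε hJ
  have hdecr := radDecr_kern (d := d) hε hJ
  set k : EE d → ℝ := kern ε J (J + n)
  set R := rad ε J (J + n)
  set s := R - ‖a‖ with hs
  have hh : ‖b‖ - ‖a‖ ≤ ‖a - b‖ := by rw [norm_sub_rev]; exact norm_sub_norm_le b a
  have hdn : (1 : ℝ) ≤ (d : ℝ) * n :=
    one_le_mul_of_one_le_of_one_le (by exact_mod_cast hd) (by exact_mod_cast hn)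
  rcases le_or_gt s (‖b‖ - ‖a‖) with hbig | hsmall
  · have h1 : 1 ≤ ‖a - b‖ / s := by rw [le_div_iff₀ hs0]; linarith
    calc k a - k b ≤ k a := sub_le_self _ (hk.nonneg b)
      _ ≤ (d : ℝ) * n * (‖a - b‖ / s) * k a :=
        le_mul_of_one_le_left (hk.nonneg a) (one_le_mul_of_one_le_of_one_le hdn h1)
  obtain ⟨e, he, hae⟩ := exists_dir hd a
  set η := (‖b‖ - ‖a‖) / s
  have hη0 : 0 ≤ η := div_nonneg (by linarith) hs0.le
  have hη1 : η < 1 := (div_lt_one hs0).2 hsmall
  have h := kern_homothety hε hJ he hη0 hη1 a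
  rw [Nat.add_sub_cancel_left] at h
  have hpt : a + η • (R • e - a) = ‖b‖ • e := by
    have h' : η * s = ‖b‖ - ‖a‖ := div_mul_cancel₀ _ hs0.ne'
    calc a + η • (R • e - a) = ‖a‖ • e + η • (R • e - ‖a‖ • e) := by rw [← hae]
      _ = (‖a‖ + η * s) • e := by rw [hs]; module
      _ = ‖b‖ • e := by rw [h', add_sub_cancel]
  rw [hpt] at h
  have hbb : k (‖b‖ • e) ≤ k b := hdecr _ _ (by simp [norm_smul, he])
  have hB : 1 - ((d * n : ℕ) : ℝ) * η ≤ (1 - η) ^ (d * n) := by
    refine le_trans (le_of_eq ?_)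
      ((one_add_mul_le_pow (by linarith : (-2 : ℝ) ≤ -η) _).trans
        (le_of_eq (by rw [sub_eq_add_neg])))
    ring
  have h2 := mul_le_mul_of_nonneg_right hB (hk.nonneg a)
  have h3 : η ≤ ‖a - b‖ / s := div_le_div_of_nonneg_right hh hs0.le
  have h4 := mul_le_mul_of_nonneg_left h3 (show 0 ≤ (d : ℝ) * n * k a from
    mul_nonneg (by linarith) (hk.nonneg a))
  push_cast at h2
  linarith

private theorem kern_gain {ε : ℝ} (hε : 0 < ε) {J n : ℕ} (hn : 1 ≤ n) {e : EE d} (he : ‖e‖ = 1)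
    {r Δ : ℝ} (hΔ : 0 < Δ) (hr : Δ ≤ r) (hs : r < rad ε J (J + n)) :
    ∃ M, 1 ≤ M ∧ M ≤ n ∧
      (∀ m, 1 ≤ m → m < M → 4 ^ m * rho ε J < 2 * (rad ε J (J + n) - r + Δ)) ∧
      (1 + Δ / (rad ε J (J + n) - r)) ^ (n - M) * kern ε J (J + n) (r • e) ≤
        kern ε J (J + n) ((r - Δ) • e) := by
  classical
  set R := rad ε J (J + n)
  set s := R - r with hsdef
  have hs0 : 0 < s := by linarith
  set ρ := rho ε J with hρdef
  have hρ : 0 < ρ := rho_pos hε J
  have hex : ∃ M : ℕ, 1 ≤ M ∧ (n ≤ M ∨ 2 * (s + Δ) ≤ 4 ^ M * ρ) := ⟨n, hn, Or.inl le_rfl⟩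
  obtain ⟨hM1, hM2⟩ := Nat.find_spec hex
  have hMn : Nat.find hex ≤ n := Nat.find_min' hex ⟨hn, Or.inl le_rfl⟩
  refine ⟨Nat.find hex, hM1, hMn, fun m h1 h2 => ?_, ?_⟩
  · by_contra hc'
    exact Nat.find_min hex h2 ⟨h1, Or.inr (not_lt.1 hc')⟩
  set M := Nat.find hex
  rcases eq_or_lt_of_le hMn with he' | hlt
  · rw [he', Nat.sub_self, pow_zero, one_mul]
    refine radDecr_kern hε (by omega) _ _ ?_
    rw [norm_smul, norm_smul, he, Real.norm_of_nonneg (by linarith : 0 ≤ r - Δ),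
      Real.norm_of_nonneg (by linarith : 0 ≤ r)]
    linarith
  have hcond : 2 * (s + Δ) ≤ 4 ^ M * ρ := hM2.resolve_left (by omega)
  have hinner : ⟪r • e, e⟫ = r := by
    rw [real_inner_smul_left, real_inner_self_eq_norm_sq, he]; ring
  have e1 : (1 + Δ / s) * (R - ⟪r • e, e⟫) = s + Δ := by rw [hinner, ← hsdef]; field_simp
  have hMp : (4 : ℝ) ≤ 4 ^ M := le_self_pow₀ (by norm_num) (by omega)
  have h := kern_inward hε (show J < J + M by omega) (show J + M ≤ J + n by omega) he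
    (η := Δ / s) (by positivity) (z := r • e)
    (by
      rw [e1]; simp only [rad, rho_add]; rw [← hρdef]
      nlinarith [mul_le_mul_of_nonneg_right hMp hρ.le])
    (fun _ => by rw [e1, rho_succ', rho_add, ← hρdef]; linarith)
  rw [show J + n - (J + M) = n - M by omega, hinner, ← hsdef, div_mul_cancel₀ _ hs0.ne'] at h
  exact h.trans (le_of_eq (by rw [sub_smul]))

private theorem num_bound {n M : ℕ} {ρ s t : ℝ} (hn : 2 ≤ n) (hρ : 0 < ρ) (hs0 : 0 < s)
    (hM1 : 1 ≤ M) (hMn : M ≤ n) (ht1 : s + 3 / 50 * ρ ≤ t) (ht2 : t ≤ s + 262 / 100 * ρ)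
    (hmin : ∀ m, 1 ≤ m → m < M → 4 ^ m * ρ < 2 * (s + ρ / 20)) :
    (n : ℝ) * ρ / s / (1 + ρ / 20 / s) ^ (n - M) ≤ 600000 * gam (ρ * ((n : ℝ) + 2) / t) := by
  have ht0 : 0 < t := by linarith
  have hn0 : (2 : ℝ) ≤ n := by exact_mod_cast hn
  set q := 1 + ρ / 20 / s with hq
  have hq1 : 1 ≤ q := le_add_of_nonneg_right (by positivity)
  refine gam_bound (by positivity) ?_ ?_
  · rcases eq_or_lt_of_le hMn with he' | hlt
    · rw [he', Nat.sub_self, pow_zero, div_one]
      have hm := hmin 1 le_rfl (by omega)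
      have ht3 : t ≤ 3 * s := by linarith
      rw [div_le_iff₀ hs0, ← mul_div_assoc, div_mul_eq_mul_div, le_div_iff₀ ht0]
      have := mul_le_mul_of_nonneg_left ht3 (mul_nonneg n.cast_nonneg hρ.le)
      nlinarith [mul_pos hρ hs0, mul_nonneg (mul_pos hρ hs0).le (show (0 : ℝ) ≤ n by linarith)]
    · have hq' : q ≤ q ^ (n - M) := le_self_pow₀ hq1 (by omega)
      refine (div_le_div_of_nonneg_left (by positivity) (by positivity) hq').trans ?_
      have hsΔ : s * q = s + ρ / 20 := by rw [hq]; field_simp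
      rw [div_div, hsΔ, div_le_iff₀ (by positivity), ← mul_div_assoc, div_mul_eq_mul_div,
        le_div_iff₀ ht0]
      have ht4 : t ≤ 53 * (s + ρ / 20) := by linarith
      have := mul_le_mul_of_nonneg_left ht4 (mul_nonneg n.cast_nonneg hρ.le)
      nlinarith [mul_pos hρ hs0]
  rcases lt_or_ge n 4 with hn4 | hn4
  · left
    rw [div_le_iff₀ ht0]
    have : (n : ℝ) ≤ 3 := by exact_mod_cast (show n ≤ 3 by omega)
    nlinarith
  rcases lt_or_ge n (2 * M) with hM' | hM'
  · left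
    have hm := hmin (M - 1) (by omega) (by omega)
    have hd' := depth_le (show 3 ≤ M by omega)
    have hnM : (n : ℝ) + 2 ≤ 2 * 4 ^ (M - 1) := by
      have : (n : ℝ) ≤ 2 * M := by exact_mod_cast hM'.le
      linarith
    rw [div_le_iff₀ ht0]
    have := mul_le_mul_of_nonneg_left hnM hρ.le
    linarith
  right
  have hN : 2 ≤ n - M := by omega
  have hN' : (n : ℝ) / 2 ≤ ((n - M : ℕ) : ℝ) := by
    have : (n : ℝ) ≤ 2 * ((n - M : ℕ) : ℝ) := by exact_mod_cast (show n ≤ 2 * (n - M) by omega)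
    linarith
  have hpow := sq_le_pow (x := ρ / 20 / s) (by positivity) hN
  rw [← hq] at hpow
  set u := (n : ℝ) * ρ / s
  have hu : 0 ≤ u := by positivity
  have hu' : u / 120 ≤ ((n - M : ℕ) : ℝ) * (ρ / 20 / s) / 3 := by
    have := mul_le_mul_of_nonneg_right hN' (show 0 ≤ ρ / 20 / s by positivity)
    have e : (n : ℝ) / 2 * (ρ / 20 / s) = u / 40 := by
      simp only [u]; field_simp; ring
    linarith
  have hsq : (1 + u / 120) ^ 2 ≤ q ^ (n - M) :=
    le_trans (pow_le_pow_left₀ (by positivity) (by linarith) 2) hpow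
  have hyu : ρ * ((n : ℝ) + 2) / t ≤ 2 * u := by
    rw [div_le_iff₀ ht0]
    have h1 : u * s ≤ u * t := mul_le_mul_of_nonneg_left (by linarith) hu
    have e : u * s = n * ρ := div_mul_cancel₀ _ hs0.ne'
    nlinarith
  rw [div_mul_eq_mul_div, div_le_iff₀ (by positivity)]
  have h5 := mul_le_mul_of_nonneg_left hyu hu
  nlinarith

private theorem num_central {n : ℕ} {ρ s t : ℝ} (hn : 2 ≤ n) (hρ : 0 < ρ) (hs0 : 0 < s)
    (ht0 : 0 < t) (ht : t ≤ 2 * s) (hbig : ρ * 4 ^ n ≤ 100 * t) :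
    (n : ℝ) * ρ / s ≤ 600000 * gam (ρ * ((n : ℝ) + 2) / t) := by
  have h4 : (n : ℝ) + 2 ≤ 4 ^ n := by
    clear * - hn
    induction n, hn using Nat.le_induction with
    | base => norm_num
    | succ n _ ih =>
      rw [pow_succ]; push_cast
      have : (0 : ℝ) ≤ n := n.cast_nonneg
      linarith
  refine gam_bound (by positivity) ?_ (Or.inl ?_)
  · rw [div_le_iff₀ hs0, ← mul_div_assoc, div_mul_eq_mul_div, le_div_iff₀ ht0]
    have := mul_le_mul_of_nonneg_left ht (mul_nonneg n.cast_nonneg hρ.le)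
    nlinarith [mul_pos hρ hs0]
  · rw [div_le_iff₀ ht0]
    linarith [mul_le_mul_of_nonneg_left h4 hρ.le]

theorem kern_lip (hd : 1 ≤ d) {p : ℕ} (hp : 5 ≤ p) :
    ∃ C, 0 ≤ C ∧ ∀ {ε : ℝ}, 0 < ε → ∀ {J T : ℕ}, p ≤ J → J + 2 ≤ T → ∀ z a b : EE d,
      ‖a - z‖ ≤ 127 / 100 * rho ε J → ‖b - z‖ ≤ 127 / 100 * rho ε J →
      |kern ε J T a - kern ε J T b| ≤ C * (‖a - b‖ / rho ε J) * Om0 ε p J T z := by
  set c0 : ℝ := ((1 / 400 : ℝ) ^ d) ^ p * (1 / 2) ^ d with hc0
  have hc : 0 < c0 := by positivity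
  refine ⟨d * 600000 / c0, by positivity, ?_⟩
  intro ε hε J T hpJ hJT z a b ha hb
  wlog hab : ‖a‖ ≤ ‖b‖ generalizing a b with H
  · rw [abs_sub_comm, norm_sub_rev a b]
    exact H b a hb ha (le_of_not_ge hab)
  obtain ⟨n, rfl⟩ := Nat.exists_eq_add_of_le (by omega : J ≤ T)
  have hJ : J < J + n := by omega
  have hn : 2 ≤ n := by omega
  set ρ := rho ε J with hρdef
  have hρ : 0 < ρ := rho_pos hε J
  set S := rad ε (J - p) J with hS
  obtain ⟨hS1, hS2⟩ := rad_low hε hp hpJ
  rw [← hS, ← hρdef] at hS1 hS2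
  have hk := isKer_kern (d := d) hε hJ
  have hdecr := radDecr_kern (d := d) hε hJ
  have hK0 : 0 ≤ kern ε (J - p) (J + n) z := (isKer_kern hε (by omega)).nonneg z
  rw [abs_of_nonneg (sub_nonneg.2 (hdecr a b hab))]
  set R := rad ε J (J + n) with hR
  set t := rad ε (J - p) (J + n) - ‖z‖ with ht
  have htR : t = R + S - ‖z‖ := by rw [ht, hR, hS, rad_add ε (J - p) J (J + n)]; ring
  have hOm : (Om0 ε p J (J + n) z : ℝ) =
      gam (ρ * ((n : ℝ) + 2) / t) * kern ε (J - p) (J + n) z := by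
    rw [Om0, yy, Nat.add_sub_cancel_left, ← hρdef, ← ht]; push_cast; rfl
  rw [hOm]
  have har1 : ‖a‖ ≤ ‖z‖ + 127 / 100 * ρ := by linarith [norm_sub_norm_le a z]
  have har2 : ‖z‖ - 127 / 100 * ρ ≤ ‖a‖ := by
    linarith [norm_sub_norm_le z a, norm_sub_rev z a]
  rcases le_or_gt R ‖a‖ with hRr | hRr
  · rw [hk.supp a hRr, hk.supp b (hRr.trans hab), sub_zero]
    refine mul_nonneg (by positivity) ?_
    rcases le_or_gt (rad ε (J - p) (J + n)) ‖z‖ with hz | hz
    · rw [(isKer_kern hε (by omega)).supp z hz, mul_zero]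
    · have ht0 : 0 < t := by rw [ht]; linarith
      exact mul_nonneg (div_nonneg (by positivity) (sq_nonneg _)) hK0
  set s := R - ‖a‖ with hs
  have hs0 : 0 < s := by rw [hs]; linarith
  have ht1 : s + 3 / 50 * ρ ≤ t := by rw [htR, hs]; linarith
  have ht2 : t ≤ s + 262 / 100 * ρ := by rw [htR, hs]; linarith
  have hvar := kern_var hε hd (by omega : 1 ≤ n) hab (show 0 < rad ε J (J + n) - ‖a‖ from hs0)
  obtain ⟨e, he, hae⟩ := exists_dir hd a
  suffices hX : ∃ X, (n : ℝ) * ρ / s * kern ε J (J + n) a ≤ X * (kern ε (J - p) (J + n) z / c0) ∧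
      X ≤ 600000 * gam (ρ * ((n : ℝ) + 2) / t) by
    obtain ⟨X, hX1, hX2⟩ := hX
    calc kern ε J (J + n) a - kern ε J (J + n) b
        ≤ (d : ℝ) * n * (‖a - b‖ / s) * kern ε J (J + n) a := hvar
      _ = d * (‖a - b‖ / ρ) * ((n : ℝ) * ρ / s * kern ε J (J + n) a) := by field_simp
      _ ≤ d * (‖a - b‖ / ρ) *
            (600000 * gam (ρ * ((n : ℝ) + 2) / t) * (kern ε (J - p) (J + n) z / c0)) :=
          mul_le_mul_of_nonneg_left (hX1.trans (mul_le_mul_of_nonneg_right hX2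
            (div_nonneg hK0 hc.le))) (by positivity)
      _ = _ := by ring
  have hθ : (0 : ℝ) ≤ 399 / 400 := by norm_num
  have hcp : 0 ≤ ((1 / 400 : ℝ) ^ d) ^ p := by positivity
  rcases lt_or_ge ‖z‖ (399 / 400 * S) with hz | hz
  · set x : EE d := ρ • e
    have hxn : ‖x‖ = ρ := by simp [x, norm_smul, he, abs_of_pos hρ]
    have hreach := kern_reach hε hd hθ (η := (1 / 400 : ℝ)) (by norm_num) (by norm_num) p J
      (T := J + n) hpJ hJ z x (by rw [hxn, max_eq_right (by linarith)]; linarith)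
    have hx0 := mul_le_mul_of_nonneg_left (kern_near_zero hε hd hJT hxn.le) hcp
    have hka : kern ε J (J + n) a ≤ kern ε J (J + n) (0 : EE d) := hdecr 0 a (by simp)
    refine ⟨(n : ℝ) * ρ / s, ?_, ?_⟩
    · refine mul_le_mul_of_nonneg_left ?_ (by positivity)
      rw [le_div_iff₀ hc, hc0]
      have := mul_le_mul_of_nonneg_left hka (le_of_lt hc)
      rw [hc0] at this
      linarith
    · have hRrho : R = 4 / 3 * (ρ * 4 ^ n - ρ) := by rw [hR]; simp only [rad, rho_add, ρ]
      have h16 : ρ * 16 ≤ ρ * 4 ^ n := by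
        refine mul_le_mul_of_nonneg_left ?_ hρ.le
        calc (16 : ℝ) = 4 ^ 2 := by norm_num
          _ ≤ 4 ^ n := pow_le_pow_right₀ (by norm_num) hn
      exact num_central hn hρ hs0 (by linarith) (by linarith) (by linarith)
  have hrΔ : ρ / 20 ≤ ‖a‖ := by linarith
  obtain ⟨M, hM1, hMn, hmin, hgain⟩ := kern_gain hε (by omega : 1 ≤ n) he
    (by positivity : 0 < ρ / 20) hrΔ hRr
  rw [← hae] at hgain
  set x : EE d := (‖a‖ - ρ / 20) • e
  have hxn : ‖x‖ = ‖a‖ - ρ / 20 := by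
    simp [x, norm_smul, he, abs_of_nonneg (by linarith : 0 ≤ ‖a‖ - ρ / 20)]
  have hreach := kern_reach hε hd hθ (η := (1 / 400 : ℝ)) (by norm_num) (by norm_num) p J
    (T := J + n) hpJ hJ z x (by rw [hxn, max_eq_left (by linarith)]; linarith)
  have hKx : kern ε J (J + n) x ≤ kern ε (J - p) (J + n) z / c0 := by
    rw [le_div_iff₀ hc]
    calc kern ε J (J + n) x * c0
        ≤ kern ε J (J + n) x * (((1 / 400 : ℝ) ^ d) ^ p * 1) :=
          mul_le_mul_of_nonneg_left (mul_le_mul_of_nonneg_left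
            (pow_le_one₀ (by norm_num) (by norm_num)) hcp) (hk.nonneg x)
      _ ≤ _ := by rw [mul_one, mul_comm]; exact hreach
  refine ⟨(n : ℝ) * ρ / s / (1 + ρ / 20 / s) ^ (n - M), ?_,
    num_bound hn hρ hs0 hM1 hMn ht1 ht2 hmin⟩
  calc (n : ℝ) * ρ / s * kern ε J (J + n) a
      = (n : ℝ) * ρ / s / (1 + ρ / 20 / s) ^ (n - M) *
          ((1 + ρ / 20 / s) ^ (n - M) * kern ε J (J + n) a) := by
        have : (1 + ρ / 20 / s) ^ (n - M) ≠ 0 := by positivity
        field_simp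
    _ ≤ _ := mul_le_mul_of_nonneg_left (hgain.trans hKx) (by positivity)

/-- The mass of the profile in a composite kernel decays geometrically. -/
theorem integral_cc_kern (hd : 1 ≤ d) {ε : ℝ} (hε : 0 < ε) {l J T : ℕ} (hJT : J ≤ T)
    (hlT : l < T) :
    Integrable (fun z : EE d => cc (yy ε J T (rad ε l T - ‖z‖)) * kern ε l T z) ∧
      ∫ z : EE d, cc (yy ε J T (rad ε l T - ‖z‖)) * kern ε l T z ≤
        (3 + d * 2 ^ d) * (3 / 4 : ℝ) ^ (T - J) := by
  obtain ⟨n, rfl⟩ := Nat.exists_eq_add_of_le hJT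
  rw [Nat.add_sub_cancel_left]
  set P := rho ε (J + n) with hP
  have hP0 : 0 < P := rho_pos hε _
  have hk := isKer_kern (d := d) hε hlT
  set R := rad ε l (J + n) with hRdef
  have hR0 : 0 < R := rad_pos hε hlT
  have hR2 : R ≤ 2 * P := by rw [hRdef, rad, ← hP]; linarith [rho_pos hε l]
  set τ := (1 / 2 : ℝ) ^ n * P with hτ
  have hτ0 : 0 < τ := by positivity
  set D := max (R - τ) 0 with hD
  set V := volume.real (ball (0 : EE d) 1)
  set B : Set (EE d) := ball 0 R \ ball 0 D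
  set Mx := (volume.real (ball (0 : EE d) P))⁻¹
  have hpt : ∀ z : EE d, 0 ≤ cc (yy ε J (J + n) (R - ‖z‖)) * kern ε l (J + n) z ∧
      cc (yy ε J (J + n) (R - ‖z‖)) * kern ε l (J + n) z ≤
        3 * (3 / 4) ^ n * kern ε l (J + n) z + B.indicator (fun _ => Mx) z := by
    intro z
    have hK := hk.nonneg z
    have hB0 : 0 ≤ B.indicator (fun _ : EE d => Mx) z :=
      indicator_nonneg (fun _ _ => inv_nonneg.2 measureReal_nonneg) z
    rcases le_or_gt R ‖z‖ with hz | hz
    · rw [hk.supp z hz]; simp [hB0]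
    set t := R - ‖z‖
    have ht : 0 < t := by simp only [t]; linarith
    set y := yy ε J (J + n) t
    have hy : y = rho ε J * ((n : ℝ) + 2) / t := by
      simp only [y, yy, Nat.add_sub_cancel_left]; push_cast; rfl
    have hy0 : 0 < y := by rw [hy]; have := rho_pos hε J; positivity
    have hc0 : 0 ≤ cc y := div_nonneg hy0.le (by linarith)
    refine ⟨mul_nonneg hc0 hK, ?_⟩
    rcases lt_or_ge ‖z‖ D with hzD | hzD
    · have htτ : τ < t := by
        rcases max_cases (R - τ) 0 with ⟨h, -⟩ | ⟨h, -⟩ <;> rw [hD, h] at hzD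
        · simp only [t]; linarith
        · linarith [norm_nonneg z]
      have hyb : y ≤ 3 * (3 / 4) ^ n := by
        have hb : ((n : ℝ) + 2) * (2 / 3) ^ n ≤ 3 := by
          clear * -
          induction n with
          | zero => norm_num
          | succ n ih =>
            rcases n with - | n
            · norm_num
            · rw [pow_succ]; push_cast at ih ⊢
              have h0 : (0 : ℝ) ≤ (2 / 3) ^ (n + 1) := by positivity
              have h1 : (0 : ℝ) ≤ (n : ℝ) * (2 / 3) ^ (n + 1) := mul_nonneg n.cast_nonneg h0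
              nlinarith
        calc y ≤ rho ε J * ((n : ℝ) + 2) / τ := by
              rw [hy]
              exact div_le_div_of_nonneg_left (by have := rho_pos hε J; positivity) hτ0 htτ.le
          _ = ((n : ℝ) + 2) * (2 / 3) ^ n * (3 / 4) ^ n := by
              have hρJ := (rho_pos hε J).ne'
              have e2 : ((2 : ℝ) / 3) ^ n * (3 / 4) ^ n * ((1 / 2) ^ n * 4 ^ n) = 1 := by
                rw [← mul_pow, ← mul_pow, ← mul_pow]; norm_num
              rw [hτ, hP, rho_add, div_eq_iff (by positivity)]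
              calc rho ε J * ((n : ℝ) + 2)
                  = rho ε J * ((n : ℝ) + 2) * (((2 : ℝ) / 3) ^ n * (3 / 4) ^ n * ((1 / 2) ^ n * 4 ^ n)) := by
                    rw [e2, mul_one]
                _ = _ := by ring
          _ ≤ 3 * (3 / 4) ^ n := mul_le_mul_of_nonneg_right hb (by positivity)
      have : cc y ≤ y := div_le_self hy0.le (by linarith)
      nlinarith [mul_le_mul_of_nonneg_right (this.trans hyb) hK]
    · have hB : z ∈ B := ⟨mem_ball_zero_iff.2 hz, fun h => absurd (mem_ball_zero_iff.1 h) (not_lt.2 hzD)⟩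
      rw [indicator_of_mem hB]
      have h1 : cc y ≤ 1 := (div_le_one (by linarith)).2 (by linarith)
      have := mul_le_mul h1 (hk.le z) hK zero_le_one
      have : 0 ≤ 3 * (3 / 4 : ℝ) ^ n * kern ε l (J + n) z := by positivity
      simp only [Mx, hP]
      linarith
  have hBm : MeasurableSet B := measurableSet_ball.diff measurableSet_ball
  have hBf : volume B ≠ ⊤ := ((measure_mono sdiff_subset).trans_lt measure_ball_lt_top).ne
  have hint2 : Integrable fun z : EE d =>
      3 * (3 / 4) ^ n * kern ε l (J + n) z + B.indicator (fun _ => Mx) z :=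
    (hk.integrable.const_mul _).add ((integrableOn_const hBf).integrable_indicator hBm)
  have hm : Measurable fun z : EE d =>
      cc (yy ε J (J + n) (R - ‖z‖)) * kern ε l (J + n) z := by
    refine Measurable.mul ?_ hk.meas
    simp only [cc, yy]
    fun_prop
  have hint : Integrable fun z : EE d => cc (yy ε J (J + n) (R - ‖z‖)) * kern ε l (J + n) z :=
    hint2.mono' hm.aestronglyMeasurable (.of_forall fun z => by
      rw [Real.norm_of_nonneg (hpt z).1]; exact (hpt z).2)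
  refine ⟨hint, (integral_mono hint hint2 fun z => (hpt z).2).trans ?_⟩
  rw [integral_add (hk.integrable.const_mul _) ((integrableOn_const hBf).integrable_indicator hBm),
    integral_const_mul, hk.mass, integral_indicator hBm, setIntegral_const, smul_eq_mul]
  have hvol : ∀ r : ℝ, 0 ≤ r → volume.real (ball (0 : EE d) r) = r ^ d * V := fun r hr => by
    rcases eq_or_lt_of_le hr with rfl | h
    · simp [measureReal_def, zero_pow (by omega : d ≠ 0)]
    · rw [measureReal_def, Measure.addHaar_ball_of_pos _ _ h, finrank_euclideanSpace_fin,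
        ENNReal.toReal_mul, ENNReal.toReal_ofReal (pow_nonneg hr d)]
      rfl
  have hDR : D ≤ R := max_le (by linarith) hR0.le
  have hBv : volume.real B = R ^ d * V - D ^ d * V := by
    rw [measureReal_sdiff (ball_subset_ball hDR) measurableSet_ball measure_ball_lt_top.ne,
      hvol R hR0.le, hvol D (le_max_right _ _)]
  have hV : 0 < V := volBall_pos one_pos
  have hpowd : R ^ d - D ^ d ≤ d * R ^ (d - 1) * τ := by
    have h1 := one_add_mul_le_pow (show (-2 : ℝ) ≤ D / R - 1 by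
      linarith [div_nonneg (le_max_right (R - τ) 0 : (0 : ℝ) ≤ D) hR0.le]) d
    rw [add_sub_cancel, div_pow, le_div_iff₀ (by positivity)] at h1
    have e : R ^ d = R ^ (d - 1) * R := by rw [← pow_succ, Nat.sub_add_cancel hd]
    have hDτ : R - D ≤ τ := by linarith [le_max_left (R - τ) 0]
    have h2 := mul_le_mul_of_nonneg_left hDτ (show 0 ≤ (d : ℝ) * R ^ (d - 1) by positivity)
    rw [e] at h1 ⊢
    field_simp at h1
    nlinarith [pow_pos hR0 (d - 1)]
  have hMx : Mx = (P ^ d * V)⁻¹ := by simp only [Mx, hvol P hP0.le]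
  rw [hBv, hMx, mul_one, ← sub_mul, ← div_eq_mul_inv, mul_div_mul_right _ _ hV.ne', add_mul]
  gcongr
  rw [div_le_iff₀ (by positivity)]
  calc R ^ d - D ^ d ≤ d * R ^ (d - 1) * τ := hpowd
    _ ≤ d * (2 * P) ^ (d - 1) * ((3 / 4) ^ n * P) := by
        refine mul_le_mul ?_ ?_ hτ0.le (by positivity)
        · exact mul_le_mul_of_nonneg_left (pow_le_pow_left₀ hR0.le hR2 _) d.cast_nonneg
        · exact mul_le_mul_of_nonneg_right (pow_le_pow_left₀ (by norm_num) (by norm_num) n) hP0.le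
    _ = d * 2 ^ (d - 1) * (3 / 4) ^ n * (P ^ (d - 1) * P) := by ring
    _ ≤ d * 2 ^ d * (3 / 4) ^ n * P ^ d := by
        rw [← pow_succ, Nat.sub_add_cancel hd]
        gcongr
        · norm_num
        · omega

end Vale.Agent.P137.Kernel
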