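import Vale.Agent.P137.Centred.Trunc

/-!
What the master step delivers to the limit step: two bounds on descents of the truncated centred
maximal function of a potential.
-/

namespace Vale.Agent.P137

open MeasureTheory Metric Filter Topology Set
open scoped RealInnerProductSpace ENNReal

variable {d : ℕ}

/-- Descents are bounded by the gradient norm, and beyond a slope `L` depending on a reference
field `w` they are small when `v` is close to `w`. -/
structure CentredMaster (d : ℕ) (C : ℝ≥0∞) : Prop where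
  ne_top : C ≠ ⊤
  full : ∀ (g : EE d → ℝ) (v : EE d → EE d), IsPot g v → (∀ x, 0 ≤ g x) → ∀ a b : ℝ, 0 < a →
    a ≤ b → ∀ h : EE d, ∫⁻ x, ENNReal.ofReal (Fsup a b g x - Fsup a b g (x + h)) ≤
      C * ‖h‖ₑ * ∫⁻ x, ‖v x‖ₑ
  tail : ∀ w : EE d → EE d, Integrable w → ∀ η : ℝ≥0∞, 0 < η → ∃ L : ℝ,
    ∀ (g : EE d → ℝ) (v : EE d → EE d), IsPot g v → (∀ x, 0 ≤ g x) →
      ∫⁻ x, ‖v x - w x‖ₑ ≤ 1 → ∀ a b : ℝ, 0 < a → a ≤ b → ∀ h : EE d,
        ∫⁻ x, ENNReal.ofReal (Fsup a b g x - Fsup a b g (x + h) - L * ‖h‖) ≤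
          C * ‖h‖ₑ * (η + ∫⁻ x, ‖v x - w x‖ₑ)

end Vale.Agent.P137
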