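import Vale.Agent.P137.Main
import Vale.Agent.P137.Centred.MasterSpec

/-!
The limit step for the centred maximal function: the bounds for truncated maximal functions of
potentials pass to the maximal function of a Sobolev function.

Proof notes.  For a continuous integrable `g ≥ 0` the truncated maximal functions increase to
`Mc g`, and along smooth approximations the maximal functions converge almost everywhere, by the
sublinearity and the weak type bound of the uncentred operator.  Fatou gives the descent bounds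
for `Mc f`, and the criterion for a weak gradient applies.
-/

namespace Vale.Agent.P137

open MeasureTheory Metric Filter Topology Set
open scoped ENNReal RealInnerProductSpace

variable {d : ℕ}

/-- The centred maximal function over open Euclidean balls. -/
noncomputable def Mc (f : EE d → ℝ) (x : EE d) : ℝ≥0∞ :=
  ⨆ (r : ℝ) (_ : 0 < r),
    (∫⁻ y in ball x r, ENNReal.ofReal |f y|) / volume (ball x r)

namespace Limit

theorem le_mc {f : EE d → ℝ} {x : EE d} {r : ℝ} (hr : 0 < r) :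
    (∫⁻ y in ball x r, ENNReal.ofReal |f y|) / volume (ball x r) ≤ Mc f x :=
  le_iSup₂ (f := fun (r : ℝ) (_ : 0 < r) =>
    (∫⁻ y in ball x r, ENNReal.ofReal |f y|) / volume (ball x r)) r hr

theorem iUnion_ball_lt (x : EE d) (r : ℝ) :
    ⋃ n : ℕ, ball x (r - 1 / ((n : ℝ) + 1)) = ball x r := by
  ext y
  simp only [mem_iUnion, mem_ball]
  constructor
  · rintro ⟨n, hn⟩
    have : (0 : ℝ) < 1 / ((n : ℝ) + 1) := by positivity
    linarith
  · intro h
    obtain ⟨n, hn⟩ := exists_nat_one_div_lt (show 0 < r - dist y x by linarith)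
    exact ⟨n, by linarith⟩

/-- For a fixed radius the centred average is lower semicontinuous. -/
theorem lsc_avg (f : EE d → ℝ) (r : ℝ) : LowerSemicontinuous fun x : EE d =>
    (∫⁻ y in ball x r, ENNReal.ofReal |f y|) / volume (ball x r) := by
  intro x a ha
  set ν := (volume : Measure (EE d)).withDensity fun y => ENNReal.ofReal |f y| with hν
  have hνb : ∀ (z : EE d) (s : ℝ), ν (ball z s) = ∫⁻ y in ball z s, ENNReal.ofReal |f y| :=
    fun z s => withDensity_apply _ measurableSet_ball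
  have hmono : Monotone fun n : ℕ => ball x (r - 1 / ((n : ℝ) + 1)) := by
    intro m n hmn
    refine ball_subset_ball ?_
    have : 1 / ((n : ℝ) + 1) ≤ 1 / ((m : ℝ) + 1) :=
      one_div_le_one_div_of_le (by positivity) (by simpa using hmn)
    linarith
  have hlim : (∫⁻ y in ball x r, ENNReal.ofReal |f y|) / volume (ball x r) =
      ⨆ n : ℕ, ν (ball x (r - 1 / ((n : ℝ) + 1))) / volume (ball x r) := by
    rw [← ENNReal.iSup_div, ← hmono.measure_iUnion, iUnion_ball_lt, hνb]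
  simp only at ha
  rw [hlim, gt_iff_lt, lt_iSup_iff] at ha
  obtain ⟨n, hn⟩ := ha
  filter_upwards [ball_mem_nhds x (show (0 : ℝ) < 1 / ((n : ℝ) + 1) by positivity)] with y hy
  refine hn.trans_le ?_
  rw [Measure.addHaar_ball_center volume x r, Measure.addHaar_ball_center volume y r, ← hνb]
  refine ENNReal.div_le_div_right (measure_mono fun z hz => ?_) _
  rw [mem_ball] at hz hy ⊢
  rw [dist_comm] at hy
  linarith [dist_triangle z x y]

theorem avg_eq {g : EE d → ℝ} (hg : Integrable g) (hg0 : ∀ x, 0 ≤ g x) (x : EE d) {r : ℝ}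
    (hr : 0 < r) : (∫⁻ y in ball x r, ENNReal.ofReal |g y|) / volume (ball x r) =
      ENNReal.ofReal (avg g x r) := by
  have hV : 0 < volume.real (ball x r) :=
    ENNReal.toReal_pos (measure_ball_pos volume x hr).ne' measure_ball_lt_top.ne
  rw [avg, ENNReal.ofReal_mul (inv_nonneg.2 hV.le), ENNReal.ofReal_inv_of_pos hV,
    ofReal_integral_eq_lintegral_ofReal hg.integrableOn (Eventually.of_forall hg0),
    measureReal_def, ENNReal.ofReal_toReal measure_ball_lt_top.ne, div_eq_mul_inv, mul_comm]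
  simp only [abs_of_nonneg (hg0 _)]

/-- The truncated maximal function with radii in `[1/(n+1), n+1]`. -/
noncomputable def Ftr (g : EE d → ℝ) (n : ℕ) (x : EE d) : ℝ :=
  Fsup (1 / ((n : ℝ) + 1)) ((n : ℝ) + 1) g x

theorem tr_le (n : ℕ) : (1 : ℝ) / ((n : ℝ) + 1) ≤ (n : ℝ) + 1 := by
  have h : (0 : ℝ) ≤ n := n.cast_nonneg
  rw [div_le_iff₀ (by positivity)]
  nlinarith

theorem ftr_nonneg {g : EE d → ℝ} {v : EE d → EE d} (hp : IsPot g v) (hg0 : ∀ x, 0 ≤ g x) (n : ℕ)
    (x : EE d) : 0 ≤ Ftr g n x := by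
  refine le_trans ?_ (avg_le_Fsup hp (by positivity) (left_mem_Icc.2 (tr_le n)) x)
  exact mul_nonneg (inv_nonneg.2 measureReal_nonneg) (integral_nonneg fun y => hg0 y)

theorem measurable_ftr {g : EE d → ℝ} {v : EE d → EE d} (hp : IsPot g v) (n : ℕ) :
    Measurable (Ftr g n) :=
  (Fsup_lipschitz hp (by positivity) (tr_le n)).continuous.measurable

theorem ftr_tendsto {g : EE d → ℝ} {v : EE d → EE d} (hp : IsPot g v) (hg0 : ∀ x, 0 ≤ g x)
    (x : EE d) : Tendsto (fun n => ENNReal.ofReal (Ftr g n x)) atTop (𝓝 (Mc g x)) := by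
  refine tendsto_order.2 ⟨fun a ha => ?_, fun a ha => .of_forall fun n => ?_⟩
  · simp only [Mc, lt_iSup_iff] at ha
    obtain ⟨r, hr, hlt⟩ := ha
    rw [avg_eq hp.int hg0 x hr] at hlt
    obtain ⟨m, hm⟩ := exists_nat_ge (max r (1 / r))
    filter_upwards [eventually_ge_atTop m] with n hn
    refine hlt.trans_le (ENNReal.ofReal_le_ofReal (avg_le_Fsup hp (by positivity) ?_ x))
    have hmn : (m : ℝ) ≤ n := Nat.cast_le.2 hn
    refine ⟨?_, by linarith [le_max_left r (1 / r)]⟩
    rw [div_le_iff₀ (by positivity)]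
    have h1 : 1 / r ≤ (n : ℝ) + 1 := by linarith [le_max_right r (1 / r)]
    rw [div_le_iff₀ hr] at h1
    linarith
  · obtain ⟨r, hr, he⟩ := exists_Fsup hp (show (0 : ℝ) < 1 / ((n : ℝ) + 1) by positivity)
      (tr_le n) x
    have hr0 : 0 < r := lt_of_lt_of_le (by positivity) hr.1
    rw [Ftr, ← he, ← avg_eq hp.int hg0 x hr0]
    exact (le_mc hr0).trans_lt ha

end Limit

open Limit

theorem measurable_mc (f : EE d → ℝ) : Measurable (Mc f) :=
  (lowerSemicontinuous_biSup fun r _ => lsc_avg f r).measurable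

theorem mc_le_mu (f : EE d → ℝ) (x : EE d) : Mc f x ≤ Mu f x :=
  iSup₂_le fun r hr => le_iSup_of_le x (le_iSup_of_le r (le_iSup_of_le (mem_ball_self hr) le_rfl))

theorem mc_ae_lt_top {f : EE d → ℝ} (hf : Integrable f) : ∀ᵐ x, Mc f x < ⊤ :=
  (mu_ae_lt_top hf).mono fun x hx => (mc_le_mu f x).trans_lt hx

theorem mc_sublinear {f g : EE d → ℝ} (hg : Integrable g) (x : EE d) :
    Mc f x ≤ Mc g x + Mu (fun y => |f y| - |g y|) x := by
  refine iSup₂_le fun r hr => le_trans ?_ (add_le_add (le_mc hr)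
    (le_iSup_of_le x (le_iSup_of_le r (le_iSup_of_le (mem_ball_self hr) le_rfl))))
  rw [ENNReal.div_add_div_same]
  refine ENNReal.div_le_div_right ?_ _
  have hm : AEMeasurable (fun y => ENNReal.ofReal |g y|) (volume.restrict (ball x r)) :=
    (hg.1.aemeasurable.abs.ennreal_ofReal).restrict
  rw [← lintegral_add_left' hm]
  refine lintegral_mono fun y => ?_
  refine (ENNReal.ofReal_le_ofReal ?_).trans ENNReal.ofReal_add_le
  linarith [le_abs_self (|f y| - |g y|)]

/-- A subsequence along which the centred maximal functions converge almost everywhere. -/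
theorem mc_subseq {f : EE d → ℝ} (hf : Integrable f) {g : ℕ → EE d → ℝ}
    (hg : ∀ k, Integrable (g k)) (hg0 : ∀ k x, 0 ≤ g k x)
    (hlim : Tendsto (fun k => ∫⁻ x, ‖|f x| - g k x‖ₑ) atTop (𝓝 0)) :
    ∃ σ : ℕ → ℕ, StrictMono σ ∧
      ∀ᵐ x, Tendsto (fun k => Mc (g (σ k)) x) atTop (𝓝 (Mc f x)) := by
  obtain ⟨C, hC, hweak⟩ := mu_weak d
  set r : ℝ≥0∞ := ENNReal.ofReal (1 / 2) with hr
  have hr1 : r < 1 := by rw [hr, ENNReal.ofReal_lt_one]; norm_num
  have hr0 : 0 < r := by rw [hr, ENNReal.ofReal_pos]; norm_num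
  have hev : ∀ k : ℕ, ∀ᶠ n in atTop, ∫⁻ x, ‖|f x| - g n x‖ₑ < r ^ (2 * k) := fun k =>
    hlim.eventually (eventually_lt_nhds (pos_iff_ne_zero.2 (pow_ne_zero _ hr0.ne')))
  obtain ⟨σ, hσ, hσP⟩ := extraction_forall_of_eventually hev
  refine ⟨σ, hσ, ?_⟩
  set E : ℕ → EE d → ℝ≥0∞ := fun k x => Mu (fun y => |f y| - |g (σ k) y|) x
  have hbad : ∀ k, volume {x | r ^ k < E k x} ≤ C * r ^ k := by
    intro k
    have hrk : r ^ k = ENNReal.ofReal ((1 / 2) ^ k) := by
      rw [hr, ENNReal.ofReal_pow (by norm_num : (0 : ℝ) ≤ 1 / 2)]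
    have h2 := hweak _ (hf.abs.sub (hg (σ k)).abs) ((1 / 2) ^ k) (by positivity)
    rw [← hrk] at h2
    refine h2.trans ?_
    have h3 : ∫⁻ x, ‖|f x| - |g (σ k) x|‖ₑ ≤ r ^ k * r ^ k := by
      rw [← pow_add, ← two_mul]
      refine le_trans (le_of_eq ?_) (hσP k).le
      refine lintegral_congr fun x => ?_
      rw [abs_of_nonneg (hg0 _ x)]
    calc C * (∫⁻ x, ‖|f x| - |g (σ k) x|‖ₑ) / r ^ k ≤ C * (r ^ k * r ^ k) / r ^ k := by gcongr
      _ = C * r ^ k := by
          rw [← mul_assoc, ENNReal.mul_div_cancel_right (pow_ne_zero _ hr0.ne')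
            (ENNReal.pow_ne_top ENNReal.ofReal_ne_top)]
  have hsum : ∑' k, volume {x | r ^ k < E k x} ≠ ⊤ := by
    refine ne_top_of_le_ne_top ?_ (ENNReal.tsum_le_tsum hbad)
    rw [ENNReal.tsum_mul_left, ENNReal.tsum_geometric]
    exact ENNReal.mul_ne_top hC (ENNReal.inv_ne_top.2 (tsub_pos_of_lt hr1).ne')
  filter_upwards [ae_eventually_notMem hsum, mc_ae_lt_top hf] with x hx hfin
  have hp : Tendsto (fun k : ℕ => r ^ k) atTop (𝓝 0) :=
    ENNReal.tendsto_pow_atTop_nhds_zero_of_lt_one hr1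
  refine tendsto_of_tendsto_of_tendsto_of_le_of_le' (g := fun k => Mc f x - r ^ k)
    (h := fun k => Mc f x + r ^ k) ?_ ?_ ?_ ?_
  · simpa using ENNReal.Tendsto.sub tendsto_const_nhds hp (Or.inl hfin.ne)
  · simpa using tendsto_const_nhds.add hp
  · filter_upwards [hx] with k hk
    simp only [not_lt] at hk
    rw [tsub_le_iff_right]
    exact (mc_sublinear (hg (σ k)) x).trans (add_le_add le_rfl hk)
  · filter_upwards [hx] with k hk
    simp only [not_lt] at hk
    refine (mc_sublinear hf x).trans (add_le_add le_rfl ?_)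
    have e : (fun y => |g (σ k) y| - |f y|) = fun y => -(|f y| - |g (σ k) y|) :=
      funext fun y => by ring
    rw [e, mu_neg]
    exact hk

namespace Limit

/-- A descent bound for the truncations gives one for the centred maximal function. -/
theorem descent_le {g : EE d → ℝ} {v : EE d → EE d} (hp : IsPot g v) (hg0 : ∀ x, 0 ≤ g x)
    (h : EE d) {c : ℝ} (hc : 0 ≤ c) {X : ℝ≥0∞}
    (hX : ∀ n, ∫⁻ x, ENNReal.ofReal (Ftr g n x - Ftr g n (x + h) - c) ≤ X) :
    ∫⁻ x, (Mc g x - Mc g (x + h) - ENNReal.ofReal c) ≤ X := by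
  have hqm := (measurePreserving_add_right volume h).quasiMeasurePreserving
  have he : ∀ n x, ENNReal.ofReal (Ftr g n x - Ftr g n (x + h) - c) =
      ENNReal.ofReal (Ftr g n x) - ENNReal.ofReal (Ftr g n (x + h)) - ENNReal.ofReal c := by
    intro n x
    rw [ENNReal.ofReal_sub _ hc, ENNReal.ofReal_sub _ (ftr_nonneg hp hg0 n _)]
  have hae : ∀ᵐ x, Tendsto (fun n => ENNReal.ofReal (Ftr g n x - Ftr g n (x + h) - c)) atTop
      (𝓝 (Mc g x - Mc g (x + h) - ENNReal.ofReal c)) := by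
    filter_upwards [mc_ae_lt_top hp.int] with x hx
    simp only [he]
    exact ENNReal.Tendsto.sub (ENNReal.Tendsto.sub (ftr_tendsto hp hg0 x)
      (ftr_tendsto hp hg0 (x + h)) (Or.inl hx.ne)) tendsto_const_nhds
      (Or.inr ENNReal.ofReal_ne_top)
  calc ∫⁻ x, (Mc g x - Mc g (x + h) - ENNReal.ofReal c)
      = ∫⁻ x, liminf (fun n => ENNReal.ofReal (Ftr g n x - Ftr g n (x + h) - c)) atTop :=
        lintegral_congr_ae (hae.mono fun x hx => hx.liminf_eq.symm)
    _ ≤ liminf (fun n => ∫⁻ x, ENNReal.ofReal (Ftr g n x - Ftr g n (x + h) - c)) atTop :=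
        lintegral_liminf_le fun n => (((measurable_ftr hp n).sub
          ((measurable_ftr hp n).comp (measurable_add_const h))).sub_const c).ennreal_ofReal
    _ ≤ X := (liminf_le_liminf (Eventually.of_forall hX)).trans (le_of_eq (liminf_const X))

/-- Descent bounds for the centred maximal function of a Sobolev function. -/
theorem descent_bounds {C : ℝ≥0∞} (hM : CentredMaster d C) {f : EE d → ℝ} {v : EE d → EE d}
    (hf : Integrable f) (hv : Integrable v) (hfv : HasWeakGrad f v) :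
    (∀ h : EE d, ∫⁻ x, (Mc f x - Mc f (x + h)) ≤ C * ‖h‖ₑ * ∫⁻ x, ‖v x‖ₑ) ∧
      ∀ η : ℝ≥0∞, 0 < η → ∃ L : ℝ, 0 ≤ L ∧ ∀ h : EE d,
        ∫⁻ x, (Mc f x - Mc f (x + h) - ENNReal.ofReal (L * ‖h‖)) ≤ C * ‖h‖ₑ * η := by
  obtain ⟨g, u, w, hpot, hg0, hw, hwv, hgl, hul⟩ := exists_pot_seq hf hv hfv
  obtain ⟨σ, hσ, hconv⟩ := mc_subseq hf (fun k => (hpot k).int) hg0 hgl
  have hC := hM.ne_top
  have hlim : ∀ h : EE d, ∀ c : ℝ, ∀ X : ℕ → ℝ≥0∞, ∀ Y : ℝ≥0∞, Tendsto X atTop (𝓝 Y) →
      (∀ᶠ k in atTop, ∫⁻ x, (Mc (g (σ k)) x - Mc (g (σ k)) (x + h) - ENNReal.ofReal c) ≤ X k) →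
      ∫⁻ x, (Mc f x - Mc f (x + h) - ENNReal.ofReal c) ≤ Y := by
    intro h c X Y hXY hev
    have hqm := (measurePreserving_add_right volume h).quasiMeasurePreserving
    have hae : ∀ᵐ x, Tendsto (fun k => Mc (g (σ k)) x - Mc (g (σ k)) (x + h) - ENNReal.ofReal c)
        atTop (𝓝 (Mc f x - Mc f (x + h) - ENNReal.ofReal c)) := by
      filter_upwards [hconv, hqm.ae hconv, mc_ae_lt_top hf] with x h1 h2 h3
      exact ENNReal.Tendsto.sub (ENNReal.Tendsto.sub h1 h2 (Or.inl h3.ne)) tendsto_const_nhds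
        (Or.inr ENNReal.ofReal_ne_top)
    calc ∫⁻ x, (Mc f x - Mc f (x + h) - ENNReal.ofReal c)
        = ∫⁻ x, liminf (fun k => Mc (g (σ k)) x - Mc (g (σ k)) (x + h) - ENNReal.ofReal c) atTop :=
          lintegral_congr_ae (hae.mono fun x hx => hx.liminf_eq.symm)
      _ ≤ liminf (fun k => ∫⁻ x, (Mc (g (σ k)) x - Mc (g (σ k)) (x + h) - ENNReal.ofReal c))
            atTop :=
          lintegral_liminf_le fun k => ((measurable_mc _).sub
            ((measurable_mc _).comp (measurable_add_const h))).sub_const _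
      _ ≤ liminf X atTop := liminf_le_liminf hev
      _ = Y := hXY.liminf_eq
  have hne : ∀ h : EE d, C * ‖h‖ₑ ≠ ⊤ := fun h => ENNReal.mul_ne_top hC enorm_ne_top
  have hul' := hul.comp hσ.tendsto_atTop
  refine ⟨fun h => ?_, fun η hη => ?_⟩
  · have h0 := hlim h 0 (fun k => C * ‖h‖ₑ * ((∫⁻ x, ‖w x‖ₑ) + ∫⁻ x, ‖u (σ k) x - w x‖ₑ))
      (C * ‖h‖ₑ * ∫⁻ x, ‖w x‖ₑ) ?_ (Eventually.of_forall fun k => ?_)
    · simp only [ENNReal.ofReal_zero, tsub_zero] at h0
      exact h0.trans (mul_le_mul' le_rfl hwv)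
    · refine ENNReal.Tendsto.const_mul ?_ (Or.inr (hne h))
      simpa using tendsto_const_nhds.add hul'
    · refine (descent_le (hpot _) (hg0 _) h le_rfl (X := C * ‖h‖ₑ * ∫⁻ x, ‖u (σ k) x‖ₑ)
        (fun n => ?_)).trans (mul_le_mul' le_rfl ?_)
      · simp only [sub_zero]
        exact hM.full _ _ (hpot _) (hg0 _) _ _ (by positivity) (tr_le n) h
      · rw [← lintegral_add_left' hw.aestronglyMeasurable.enorm]
        exact lintegral_mono fun x =>
          le_trans (le_of_eq (by rw [add_sub_cancel])) (enorm_add_le (w x) (u (σ k) x - w x))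
  · obtain ⟨L, hL⟩ := hM.tail w hw η hη
    refine ⟨max L 0, le_max_right _ _, fun h => ?_⟩
    refine hlim h _ (fun k => C * ‖h‖ₑ * (η + ∫⁻ x, ‖u (σ k) x - w x‖ₑ)) _ ?_ ?_
    · refine ENNReal.Tendsto.const_mul ?_ (Or.inr (hne h))
      simpa using tendsto_const_nhds.add hul'
    · filter_upwards [hul'.eventually (eventually_lt_nhds one_pos)] with k hk
      refine descent_le (hpot _) (hg0 _) h (mul_nonneg (le_max_right _ _) (norm_nonneg h))
        (fun n => le_trans ?_ (hL _ _ (hpot _) (hg0 _) hk.le _ _ (by positivity) (tr_le n) h))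
      refine lintegral_mono fun x => ENNReal.ofReal_le_ofReal ?_
      have := mul_le_mul_of_nonneg_right (le_max_left L 0) (norm_nonneg h)
      simp only [Ftr]
      linarith

end Limit

/-- The limit step for the centred maximal function. -/
theorem mc_w11_of {C : ℝ≥0∞} (hM : CentredMaster d C) :
    ∃ K : ℝ, ∀ (f : EE d → ℝ) (v : EE d → EE d),
      Integrable f → Integrable v → HasWeakGrad f v →
        (∀ᵐ x, Mc f x < ⊤) ∧ ∃ w : EE d → EE d,
          LocallyIntegrable (fun x => (Mc f x).toReal) ∧ Integrable w ∧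
          HasWeakGrad (fun x => (Mc f x).toReal) w ∧ ∫ x, ‖w x‖ ≤ K * ∫ x, ‖v x‖ := by
  have hC := hM.ne_top
  refine ⟨((d : ℝ≥0∞) * (2 * C)).toReal, fun f v hf hv hfv => ⟨mc_ae_lt_top hf, ?_⟩⟩
  obtain ⟨hfull, htail⟩ := descent_bounds hM hf hv hfv
  set G : EE d → ℝ := fun x => (Mc f x).toReal with hG
  have hGm : Measurable G := (measurable_mc f).ennreal_toReal
  set A : ℝ≥0∞ := 2 * C * ∫⁻ x, ‖v x‖ₑ with hA
  have hA' : A ≠ ⊤ := ENNReal.mul_ne_top (ENNReal.mul_ne_top ENNReal.ofNat_ne_top hC) hv.2.ne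
  have hdiff : ∀ h : EE d, ∀ᵐ x, ‖G (x + h) - G x‖ₑ =
      (Mc f (x + h) - Mc f x) + (Mc f x - Mc f (x + h)) := by
    intro h
    filter_upwards [mc_ae_lt_top hf,
      (measurePreserving_add_right volume h).quasiMeasurePreserving.ae (mc_ae_lt_top hf)]
      with x h1 h2
    exact enorm_toReal_sub h2.ne h1.ne
  have h1 : ∀ h : EE d, ∫⁻ x, ‖G (x + h) - G x‖ₑ ≤ A * ‖h‖ₑ := by
    intro h
    have hm : AEMeasurable (fun x => Mc f (x + h) - Mc f x) :=
      (((measurable_mc f).comp (measurable_add_const h)).sub (measurable_mc f)).aemeasurable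
    rw [lintegral_congr_ae (hdiff h), lintegral_add_left' hm]
    have e1 : ∫⁻ x, (Mc f (x + h) - Mc f x) = ∫⁻ x, (Mc f x - Mc f (x + -h)) := by
      rw [← lintegral_add_right_eq_self (fun y => Mc f y - Mc f (y + -h)) h]
      simp
    rw [e1]
    refine (add_le_add (hfull (-h)) (hfull h)).trans (le_of_eq ?_)
    rw [enorm_neg, hA]
    ring
  have h2 : ∀ η : ℝ≥0∞, 0 < η → ∃ L : ℝ, ∀ h : EE d,
      ∫⁻ x, (‖G (x + h) - G x‖ₑ - ENNReal.ofReal (L * ‖h‖)) ≤ η * ‖h‖ₑ := by
    intro η hη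
    have hC1 : 2 * (C + 1) ≠ ⊤ :=
      ENNReal.mul_ne_top ENNReal.ofNat_ne_top (ENNReal.add_ne_top.2 ⟨hC, ENNReal.one_ne_top⟩)
    obtain ⟨L, hL0, hL⟩ := htail (η / (2 * (C + 1))) (ENNReal.div_pos hη.ne' hC1)
    refine ⟨L, fun h => ?_⟩
    set T : EE d → EE d → ℝ≥0∞ :=
      fun k x => Mc f x - Mc f (x + k) - ENNReal.ofReal (L * ‖k‖) with hT
    have hTm : ∀ k, Measurable (T k) := fun k => ((measurable_mc f).sub
      ((measurable_mc f).comp (measurable_add_const k))).sub_const _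
    have hpt : ∀ᵐ x, ‖G (x + h) - G x‖ₑ - ENNReal.ofReal (L * ‖h‖) ≤
        T h x + T (-h) (x + h) := by
      filter_upwards [hdiff h] with x hx
      rw [hx]
      rcases le_total (Mc f x) (Mc f (x + h)) with hle | hle
      · rw [tsub_eq_zero_of_le hle, add_zero]
        refine le_add_left ?_
        simp only [hT, add_neg_cancel_right, norm_neg]
        exact le_rfl
      · rw [tsub_eq_zero_of_le hle, zero_add]
        exact le_add_right le_rfl
    refine (lintegral_mono_ae hpt).trans ?_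
    rw [lintegral_add_left (hTm h), lintegral_add_right_eq_self (T (-h)) h]
    refine (add_le_add (hL h) (hL (-h))).trans ?_
    rw [enorm_neg]
    calc C * ‖h‖ₑ * (η / (2 * (C + 1))) + C * ‖h‖ₑ * (η / (2 * (C + 1)))
        = 2 * C * (η / (2 * (C + 1))) * ‖h‖ₑ := by ring
      _ ≤ η * ‖h‖ₑ := by
        gcongr
        refine le_trans (mul_le_mul' (mul_le_mul' le_rfl (le_self_add (b := 1))) le_rfl) ?_
        exact ENNReal.mul_div_le
  have hloc := locallyIntegrable_of_shift hGm hA' h1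
  obtain ⟨w', hw', hgrad, hbd⟩ := exists_weakGrad_of_shift hloc hA' h1 h2
  refine ⟨w', hloc, hw', hgrad, ?_⟩
  rw [integral_norm_eq_lintegral_enorm hw'.1, integral_norm_eq_lintegral_enorm hv.1,
    ← ENNReal.toReal_mul]
  refine ENNReal.toReal_mono (ENNReal.mul_ne_top (ENNReal.mul_ne_top (ENNReal.natCast_ne_top d)
    (ENNReal.mul_ne_top ENNReal.ofNat_ne_top hC)) hv.2.ne) (hbd.trans (le_of_eq ?_))
  rw [hA]; ring

end Vale.Agent.P137
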