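import Vale.Agent.P137.Centred.Conv

/-!
Transfer of differences of composite kernels onto the ladder, and the telescoping over scales.

Proof notes.  For a source at the level `T` and the scales `J = T - 2 i` the dominating kernels are
increments of profile times the lowered kernel.  Since the distance to the edge only shrinks under
convolution, the upper profile at one scale is at most the lower profile at the next one after two
more averages, up to a defect.
-/

namespace Vale.Agent.P137.Weights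

open MeasureTheory Metric Filter Topology Set Kernel
open scoped RealInnerProductSpace

variable {d : ℕ}

/-- The norm on a rung of the ladder. -/
noncomputable def nlad (ε : ℝ) (v : EE d → EE d) (l : ℕ) (x : EE d) : ℝ := ‖lad ε v l x‖

/-- The profile, cut off outside the support. -/
noncomputable def prof (ε : ℝ) (J T : ℕ) (t : ℝ) : ℝ := if 0 < t then cc (yy ε J T t) else 0

/-- The profile times the lowered kernel. -/
noncomputable def PK (ε : ℝ) (l J T : ℕ) (z : EE d) : ℝ :=
  prof ε J T (rad ε l T - ‖z‖) * kern ε l T z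

theorem prof_mem {ε : ℝ} (hε : 0 < ε) (J T : ℕ) (t : ℝ) :
    0 ≤ prof ε J T t ∧ prof ε J T t ≤ 1 := by
  unfold prof
  split_ifs with h
  · have hy : 0 ≤ yy ε J T t := by
      have := rho_pos hε J
      unfold yy; positivity
    exact ⟨div_nonneg hy (by linarith), (div_le_one (by linarith)).2 (by linarith)⟩
  · exact ⟨le_rfl, zero_le_one⟩

theorem isSub_PK {ε : ℝ} (hε : 0 < ε) {l J T : ℕ} (h : l < T) :
    IsSub (PK ε l J T : EE d → ℝ) (rad ε l T) (volume.real (ball (0 : EE d) (rho ε T)))⁻¹ where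
  meas := by
    refine Measurable.mul ?_ (isKer_kern hε h).meas
    simp only [prof, cc, yy]
    exact Measurable.ite (measurableSet_lt measurable_const (by fun_prop)) (by fun_prop)
      measurable_const
  nonneg := fun z => mul_nonneg (prof_mem hε J T _).1 ((isKer_kern hε h).nonneg z)
  le := fun z => (mul_le_of_le_one_left ((isKer_kern hε h).nonneg z) (prof_mem hε J T _).2).trans
    ((isKer_kern hε h).le z)
  supp := fun z hz => by rw [PK, (isKer_kern hε h).supp z hz, mul_zero]

theorem isSub_Om0 {ε : ℝ} (hε : 0 < ε) {p J T : ℕ} (h : J - p < T) :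
    IsSub (Om0 ε p J T : EE d → ℝ) (rad ε (J - p) T)
      (volume.real (ball (0 : EE d) (rho ε T)))⁻¹ := by
  have hk := isKer_kern (d := d) hε h
  have hg : ∀ z : EE d, ‖z‖ < rad ε (J - p) T →
      0 ≤ gam (yy ε J T (rad ε (J - p) T - ‖z‖)) ∧ gam (yy ε J T (rad ε (J - p) T - ‖z‖)) ≤ 1 := by
    intro z hz
    have ht : 0 < rad ε (J - p) T - ‖z‖ := by linarith
    have hy : 0 ≤ yy ε J T (rad ε (J - p) T - ‖z‖) := by
      have := rho_pos hε J
      unfold yy; positivity
    refine ⟨div_nonneg hy (sq_nonneg _), (div_le_one (by positivity)).2 ?_⟩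
    nlinarith
  refine ⟨Measurable.mul (by simp only [gam, yy]; fun_prop) hk.meas, fun z => ?_, fun z => ?_,
    fun z hz => by rw [Om0, hk.supp z hz, mul_zero]⟩
  · rcases le_or_gt (rad ε (J - p) T) ‖z‖ with hz | hz
    · rw [Om0, hk.supp z hz, mul_zero]
    · exact mul_nonneg (hg z hz).1 (hk.nonneg z)
  · rcases le_or_gt (rad ε (J - p) T) ‖z‖ with hz | hz
    · rw [Om0, hk.supp z hz, mul_zero]
      exact (hk.nonneg 0).trans (hk.le 0)
    · exact (mul_le_of_le_one_left (hk.nonneg z) (hg z hz).2).trans (hk.le z)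

theorem conv_le_conv {K K' : EE d → ℝ} {R R' M M' : ℝ} (h : IsSub K R M) (h' : IsSub K' R' M')
    {f : EE d → ℝ} (hf : LB f) (hf0 : ∀ x, 0 ≤ f x) (hle : ∀ z, K z ≤ K' z) (x : EE d) :
    conv K f x ≤ conv K' f x :=
  integral_mono (h.integrable_mul hf x) (h'.integrable_mul hf x)
    fun z => mul_le_mul_of_nonneg_right (hle z) (hf0 _)

theorem isSub_const_mul {K : EE d → ℝ} {R M : ℝ} (h : IsSub K R M) {c : ℝ} (hc : 0 ≤ c) :
    IsSub (fun z => c * K z) R (c * M) :=
  ⟨h.meas.const_mul c, fun z => mul_nonneg hc (h.nonneg z),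
    fun z => mul_le_mul_of_nonneg_left (h.le z) hc, fun z hz => by rw [h.supp z hz, mul_zero]⟩

theorem conv_const_mul (K f : EE d → ℝ) (c : ℝ) (x : EE d) :
    conv (fun z => c * K z) f x = c * conv K f x := by
  simp only [conv, mul_assoc]
  exact integral_const_mul _ _

theorem kernel_step {K : EE d → ℝ} {R M : ℝ} (h : IsSub K R M) {f : EE d → ℝ} (hf : LB f)
    {ρ : ℝ} (x : EE d) : conv (ballAvg ρ K) f x = conv K (ballAvg ρ f) x := by
  rw [← ballAvg_conv h hf, ← conv_ballAvg h hf]

theorem lb_chain {ε : ℝ} (hε : 0 < ε) {f : EE d → ℝ} (hf : LB f) (i : ℕ) :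
    ∀ n, LB (chain ε f i n)
  | 0 => hf
  | n + 1 => (lb_chain hε hf i n).avg (rho_pos hε _)

/-- A kernel dominated in a neighbourhood transfers along a chain of averages. -/
theorem conv_le_chain {ε : ℝ} (hε : 0 < ε) {f : EE d → ℝ} (hf : LB f) (hf0 : ∀ x, 0 ≤ f x)
    {Φ : EE d → ℝ} {R0 M0 : ℝ} (hΦ : IsSub Φ R0 M0) (i : ℕ) :
    ∀ (n : ℕ) {G : EE d → ℝ} {R M : ℝ}, IsSub G R M →
      (∀ z z', ‖z - z'‖ ≤ rad ε i (i + n) → Φ z ≤ G z') →
      ∀ y, conv Φ f y ≤ conv G (chain ε f i n) y
  | 0, G, R, M, hG, h, y =>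
    conv_le_conv hΦ hG hf hf0 (fun z => h z z (by simp [rad])) y
  | n + 1, G, R, M, hG, h, y => by
    show _ ≤ conv G (ballAvg (rho ε (i + n + 1)) (chain ε f i n)) y
    rw [← kernel_step hG (lb_chain hε hf i n)]
    refine conv_le_chain hε hf hf0 hΦ i n (hG.avg (rho_pos hε _)) (fun z z' hzz => ?_) y
    rw [← ballAvg_const (rho_pos hε (i + n + 1)) (Φ z) z', ballAvg_def, ballAvg_def]
    refine mul_le_mul_of_nonneg_left ?_ (inv_nonneg.2 measureReal_nonneg)
    refine setIntegral_mono_on (integrableOn_const measure_ball_lt_top.ne)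
      (hG.lb.intOn z' _) measurableSet_ball fun u hu => h z (z' + u) ?_
    rw [mem_ball_zero_iff] at hu
    rw [← add_assoc, rad_succ, show z - (z' + u) = (z - z') - u by abel]
    linarith [norm_sub_le (z - z') u]

/-- Lowering the profile by one level. -/
theorem PK_down {ε : ℝ} (hε : 0 < ε) {l J T : ℕ} (h : l + 1 < T) (z : EE d) :
    PK ε l J T z ≤ ballAvg (rho ε (l + 1)) (PK ε (l + 1) J T) z := by
  set ρ := rho ε (l + 1)
  have hρ : 0 < ρ := rho_pos hε _
  set c := prof ε J T (rad ε l T - ‖z‖) with hc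
  have hc0 := (prof_mem hε J T (rad ε l T - ‖z‖)).1
  rw [PK, kern_lower hε h, ← hc, ballAvg_def, ballAvg_def, mul_left_comm, ← integral_const_mul c]
  refine mul_le_mul_of_nonneg_left ?_ (inv_nonneg.2 measureReal_nonneg)
  refine setIntegral_mono_on (((isKer_kern hε h).lb.intOn z ρ).const_mul c)
    ((isSub_PK hε h).lb.intOn z ρ) measurableSet_ball fun u hu => ?_
  rw [mem_ball_zero_iff] at hu
  rcases le_or_gt (rad ε (l + 1) T) ‖z + u‖ with hz | hz
  · rw [(isKer_kern hε h).supp _ hz, mul_zero]
    exact (isSub_PK hε h).nonneg _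
  refine mul_le_mul_of_nonneg_right ?_ ((isKer_kern hε h).nonneg _)
  set t' := rad ε (l + 1) T - ‖z + u‖
  have ht' : 0 < t' := by simp only [t']; linarith
  have hle : t' ≤ rad ε l T - ‖z‖ := by
    simp only [t']
    rw [rad_add ε l (l + 1) T, rad_base]
    have h3 : ‖z‖ ≤ ‖z + u‖ + ‖u‖ := by simpa using norm_sub_le (z + u) u
    linarith
  have ht : 0 < rad ε l T - ‖z‖ := ht'.trans_le hle
  simp only [c, prof, if_pos ht, if_pos ht', cc]
  have hy : yy ε J T (rad ε l T - ‖z‖) ≤ yy ε J T t' :=
    div_le_div_of_nonneg_left (by have := rho_pos hε J; positivity) ht' hle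
  have hy0 : 0 ≤ yy ε J T (rad ε l T - ‖z‖) := by
    have := rho_pos hε J
    unfold yy; positivity
  rw [div_le_div_iff₀ (by linarith) (by linarith)]
  nlinarith

/-- The dominating kernel is an increment of profiles. -/
theorem om_le {ε : ℝ} (hε : 0 < ε) {p J T : ℕ} (hJT : J + 2 ≤ T) (z : EE d) :
    Om0 ε p J T z ≤ 16 * (PK ε (J - p) (J + 2) T z - PK ε (J - p) J T z) := by
  have hk := isKer_kern (d := d) hε (show J - p < T by omega)
  rcases le_or_gt (rad ε (J - p) T) ‖z‖ with hz | hz
  · simp [Om0, PK, hk.supp z hz]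
  set t := rad ε (J - p) T - ‖z‖ with ht
  have ht0 : 0 < t := by rw [ht]; linarith
  rw [Om0, PK, PK, ← ht, ← sub_mul, ← mul_assoc]
  refine mul_le_mul_of_nonneg_right ?_ (hk.nonneg z)
  obtain ⟨n, rfl⟩ := Nat.exists_eq_add_of_le hJT
  set ρ := rho ε J
  have hρ : 0 < ρ := rho_pos hε J
  have e1 : yy ε J (J + 2 + n) t = ρ * ((n : ℝ) + 4) / t := by
    simp only [yy, ρ, show J + 2 + n - J + 2 = n + 4 by omega]; push_cast; rfl
  have e2 : yy ε (J + 2) (J + 2 + n) t = 16 * ρ * ((n : ℝ) + 2) / t := by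
    simp only [yy, ρ, rho_add, show J + 2 + n - (J + 2) + 2 = n + 2 by omega]; push_cast; ring
  simp only [prof, if_pos ht0, cc, gam]
  rw [e1, e2]
  set y := ρ * ((n : ℝ) + 4) / t
  set y' := 16 * ρ * ((n : ℝ) + 2) / t
  have hn : (0 : ℝ) ≤ n := n.cast_nonneg
  have hy : 0 ≤ y := by positivity
  have h1 : 2 * y ≤ y' := by
    simp only [y, y']
    rw [mul_div_assoc', div_le_div_iff_of_pos_right ht0]
    nlinarith
  have h2 : y' ≤ 16 * y := by
    simp only [y, y']
    rw [mul_div_assoc', div_le_div_iff_of_pos_right ht0]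
    nlinarith
  have e3 : y' / (1 + y') - y / (1 + y) = (y' - y) / ((1 + y') * (1 + y)) := by
    have : 1 + y' ≠ 0 := by linarith
    have : 1 + y ≠ 0 := by linarith
    field_simp; ring
  rw [e3, mul_div_assoc', div_le_div_iff₀ (by positivity) (mul_pos (by linarith) (by linarith))]
  calc y * ((1 + y') * (1 + y)) ≤ y * ((16 * (1 + y)) * (1 + y)) :=
        mul_le_mul_of_nonneg_left (mul_le_mul_of_nonneg_right (by linarith) (by linarith)) hy
    _ = 16 * y * (1 + y) ^ 2 := by ring
    _ ≤ 16 * (y' - y) * (1 + y) ^ 2 :=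
        mul_le_mul_of_nonneg_right (by linarith) (sq_nonneg _)

variable {g : EE d → ℝ} {v : EE d → EE d} {ε : ℝ}

theorem lb_nlad (hε : 0 < ε) (hp : IsPot g v) (l : ℕ) : LB (nlad ε v l) :=
  .of_continuous (isPot_lad hε hp l).contv.norm

theorem nlad_spec (hε : 0 < ε) (hp : IsPot g v) (l : ℕ) :
    Measurable (nlad ε v l) ∧ Integrable (nlad ε v l) ∧ ∫ x, nlad ε v l x = phi ε v l :=
  ⟨(isPot_lad hε hp l).contv.norm.measurable, (isPot_lad hε hp l).intv.norm, rfl⟩

theorem conv_top (hε : 0 < ε) (hp : IsPot g v) {l T : ℕ} (h : l < T) (y : EE d) :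
    conv (kern ε l T) (nlad ε v l) y = nlad ε v T y + dd ε v l T y := by
  rw [← chain_eq_conv hε (lb_nlad hε hp l) h]
  show chain ε (fun y => ‖lad ε v l y‖) l (T - l) y = _
  simp only [dd, nlad]
  ring

theorem lb_dd (hε : 0 < ε) (hp : IsPot g v) {l j : ℕ} (h : l ≤ j) : LB (dd ε v l j) :=
  .of_continuous (dd_spec hε hp.contv hp.intv h).1

theorem dd_nonneg' (hε : 0 < ε) (hp : IsPot g v) {l j : ℕ} (h : l ≤ j) (x : EE d) :
    0 ≤ dd ε v l j x :=
  (dd_spec hε hp.contv hp.intv h).2.2.1 x

/-- The pointwise telescoping. -/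
theorem telescope (hε : 0 < ε) (hp : IsPot g v) {p T : ℕ} (hp1 : 1 ≤ p) :
    ∀ I, 2 * I + p ≤ T → ∀ y,
      (∑ i ∈ Finset.range I, conv (Om0 ε p (T - 2 * (i + 1)) T)
        (nlad ε v (T - 2 * (i + 1) - p)) y) +
        16 * conv (PK ε (T - 2 * I - p) (T - 2 * I) T) (nlad ε v (T - 2 * I - p)) y ≤
      16 * (nlad ε v T y + dd ε v (T - p) T y) + 16 * ∑ i ∈ Finset.range I,
        conv (PK ε (T - 2 * i - p) (T - 2 * i) T)
          (dd ε v (T - 2 * (i + 1) - p) (T - 2 * i - p)) y
  | 0, hI, y => by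
    have hlt : T - p < T := by omega
    simp only [Finset.range_zero, Finset.sum_empty, zero_add, mul_zero, Nat.sub_zero, add_zero]
    rw [← conv_top hε hp hlt]
    refine mul_le_mul_of_nonneg_left ?_ (by norm_num)
    refine conv_le_conv (isSub_PK hε hlt) (isKer_kern hε hlt).toIsSub (lb_nlad hε hp _)
      (fun x => norm_nonneg _) (fun z => ?_) y
    exact mul_le_of_le_one_left ((isKer_kern hε hlt).nonneg z) (prof_mem hε _ _ _).2
  | I + 1, hI, y => by
    have ih := telescope (p := p) (T := T) hε hp hp1 I (by omega) y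
    rw [Finset.sum_range_succ, Finset.sum_range_succ]
    set J := T - 2 * (I + 1) with hJ
    set l := J - p with hl
    have e1 : T - 2 * I = J + 2 := by omega
    have e2 : T - 2 * I - p = l + 2 := by omega
    rw [e1, show J + 2 - p = l + 2 by omega] at ih
    rw [e1, show J + 2 - p = l + 2 by omega]
    have hlT : l + 2 < T := by omega
    have hH := lb_nlad hε hp l
    have hstep : conv (PK ε l (J + 2) T) (nlad ε v l) y ≤
        conv (PK ε (l + 2) (J + 2) T) (nlad ε v (l + 2)) y +
          conv (PK ε (l + 2) (J + 2) T) (dd ε v l (l + 2)) y := by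
      calc conv (PK ε l (J + 2) T) (nlad ε v l) y
          ≤ conv (ballAvg (rho ε (l + 1)) (PK ε (l + 1) (J + 2) T)) (nlad ε v l) y :=
            conv_le_conv (isSub_PK hε (by omega)) ((isSub_PK hε (by omega)).avg (rho_pos hε _)) hH
              (fun x => norm_nonneg _) (PK_down hε (by omega)) y
        _ = conv (PK ε (l + 1) (J + 2) T) (ballAvg (rho ε (l + 1)) (nlad ε v l)) y :=
            kernel_step (isSub_PK hε (by omega)) hH y
        _ ≤ conv (ballAvg (rho ε (l + 2)) (PK ε (l + 2) (J + 2) T))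
              (ballAvg (rho ε (l + 1)) (nlad ε v l)) y :=
            conv_le_conv (isSub_PK hε (by omega)) ((isSub_PK hε hlT).avg (rho_pos hε _))
              (hH.avg (rho_pos hε _)) (ballAvg_nonneg _ fun x => norm_nonneg _)
              (PK_down (l := l + 1) hε (by omega)) y
        _ = conv (PK ε (l + 2) (J + 2) T)
              (ballAvg (rho ε (l + 2)) (ballAvg (rho ε (l + 1)) (nlad ε v l))) y :=
            kernel_step (isSub_PK hε hlT) (hH.avg (rho_pos hε _)) y
        _ = _ := by
            rw [← conv_add (isSub_PK hε hlT) (lb_nlad hε hp _) (lb_dd hε hp (by omega))]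
            congr 1
            funext x
            simp only [dd, nlad, Nat.add_sub_cancel_left, add_sub_cancel]
            rfl
    have hom : conv (Om0 ε p J T) (nlad ε v l) y ≤
        16 * conv (PK ε l (J + 2) T) (nlad ε v l) y - 16 * conv (PK ε l J T) (nlad ε v l) y := by
      simp only [conv]
      rw [← integral_const_mul, ← integral_const_mul,
        ← integral_sub (((isSub_PK hε (by omega)).integrable_mul hH y).const_mul 16)
          (((isSub_PK hε (by omega)).integrable_mul hH y).const_mul 16)]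
      refine integral_mono ((isSub_Om0 hε (by omega)).integrable_mul hH y)
        ((((isSub_PK hε (by omega)).integrable_mul hH y).const_mul 16).sub
          (((isSub_PK hε (by omega)).integrable_mul hH y).const_mul 16)) fun z => ?_
      have := mul_le_mul_of_nonneg_right (om_le (p := p) hε (show J + 2 ≤ T by omega) z)
        (norm_nonneg (lad ε v l (y + z)))
      simp only [nlad, hl]
      rw [hl] at this
      linarith
    linarith

theorem integral_PK (hd : 1 ≤ d) (hε : 0 < ε) {l J T : ℕ} (hJ : J ≤ T) (h : l < T) :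
    ∫ z : EE d, PK ε l J T z ≤ (3 + d * 2 ^ d) * (3 / 4 : ℝ) ^ (T - J) := by
  refine le_trans (le_of_eq (integral_congr_ae (.of_forall fun z => ?_)))
    (integral_cc_kern hd hε hJ h).2
  rcases le_or_gt (rad ε l T) ‖z‖ with hz | hz
  · simp [PK, (isKer_kern hε h).supp z hz]
  · simp only [PK, prof, if_pos (sub_pos.2 hz)]

theorem integral_Om0 (hd : 1 ≤ d) (hε : 0 < ε) {p J T : ℕ} (hJ : J + 2 ≤ T) :
    ∫ z : EE d, Om0 ε p J T z ≤ 16 * ((3 + d * 2 ^ d) * (3 / 4 : ℝ) ^ (T - (J + 2))) := by
  have hl : J - p < T := by omega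
  refine le_trans (integral_mono (isSub_Om0 hε hl).integrable
    ((isSub_PK (J := J + 2) hε hl).integrable.const_mul 16) fun z => ?_) ?_
  · have := (isSub_PK (J := J) hε hl).nonneg z
    have := om_le (p := p) hε hJ z
    simp only at *
    linarith
  · rw [integral_const_mul]
    exact mul_le_mul_of_nonneg_left (integral_PK hd hε hJ hl) (by norm_num)

theorem integrable_smul_conv {G : EE d → ℝ} {R M : ℝ} (hG : IsSub G R M) {s f : EE d → ℝ}
    (hsm : Measurable s) (hs : ∀ x, 0 ≤ s x ∧ s x ≤ 1) (hfm : Measurable f) (hf : Integrable f) :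
    Integrable fun y => s y * conv G f y :=
  (integrable_conv hG hfm hf).1.bdd_mul hsm.aestronglyMeasurable
    (.of_forall fun y => by rw [Real.norm_of_nonneg (hs y).1]; exact (hs y).2)

theorem smul_conv_le {G : EE d → ℝ} {R M : ℝ} (hG : IsSub G R M) {s f : EE d → ℝ}
    (hsm : Measurable s) (hs : ∀ x, 0 ≤ s x ∧ s x ≤ 1) (hfm : Measurable f) (hf : Integrable f)
    (hf0 : ∀ x, 0 ≤ f x) : ∫ y, s y * conv G f y ≤ (∫ z, G z) * ∫ x, f x := by
  rw [← (integrable_conv hG hfm hf).2]
  exact integral_mono (integrable_smul_conv hG hsm hs hfm hf) (integrable_conv hG hfm hf).1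
    fun y => mul_le_of_le_one_left (hG.conv_nonneg hf0 y) (hs y).2

/-- The cost of one source at all finer scales. -/
theorem source_bound (hd : 1 ≤ d) (hε : 0 < ε) (hp : IsPot g v) {p T I : ℕ} (hp1 : 1 ≤ p)
    (hI : 2 * I + p ≤ T) {s : EE d → ℝ} (hsm : Measurable s) (hs : ∀ x, 0 ≤ s x ∧ s x ≤ 1) :
    ∑ i ∈ Finset.range I, ∫ y, s y *
        conv (Om0 ε p (T - 2 * (i + 1)) T) (nlad ε v (T - 2 * (i + 1) - p)) y ≤
      16 * ((∫ y, s y * nlad ε v T y) + (phi ε v (T - p) - phi ε v T) +
        ∑ i ∈ Finset.range I, (3 + d * 2 ^ d) * (3 / 4 : ℝ) ^ (2 * i) *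
          (phi ε v (T - 2 * (i + 1) - p) - phi ε v (T - 2 * i - p))) := by
  set F := fun (i : ℕ) (y : EE d) =>
    s y * conv (Om0 ε p (T - 2 * (i + 1)) T) (nlad ε v (T - 2 * (i + 1) - p)) y
  set E := fun (i : ℕ) (y : EE d) => s y * conv (PK ε (T - 2 * i - p) (T - 2 * i) T)
    (dd ε v (T - 2 * (i + 1) - p) (T - 2 * i - p)) y
  have hFi : ∀ i ∈ Finset.range I, Integrable (F i) := fun i hi => by
    have := Finset.mem_range.1 hi
    exact integrable_smul_conv (isSub_Om0 hε (by omega)) hsm hs (nlad_spec hε hp _).1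
      (nlad_spec hε hp _).2.1
  have hdd : ∀ i, Continuous (dd ε v (T - 2 * (i + 1) - p) (T - 2 * i - p)) ∧
      Integrable (dd ε v (T - 2 * (i + 1) - p) (T - 2 * i - p)) ∧
      (∀ x, 0 ≤ dd ε v (T - 2 * (i + 1) - p) (T - 2 * i - p) x) ∧
      ∫ x, dd ε v (T - 2 * (i + 1) - p) (T - 2 * i - p) x =
        phi ε v (T - 2 * (i + 1) - p) - phi ε v (T - 2 * i - p) :=
    fun i => dd_spec hε hp.contv hp.intv (by omega)
  have hEi : ∀ i ∈ Finset.range I, Integrable (E i) := fun i hi => by
    have := Finset.mem_range.1 hi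
    exact integrable_smul_conv (isSub_PK hε (by omega)) hsm hs (hdd i).1.measurable (hdd i).2.1
  obtain ⟨hTc, hTi, hT0, hTint⟩ := dd_spec hε hp.contv hp.intv (show T - p ≤ T by omega)
  have hsb : ∀ᵐ x ∂(volume : Measure (EE d)), ‖s x‖ ≤ 1 := .of_forall fun x => by
    rw [Real.norm_of_nonneg (hs x).1]; exact (hs x).2
  have hi1 : Integrable fun y => s y * nlad ε v T y :=
    (nlad_spec hε hp T).2.1.bdd_mul hsm.aestronglyMeasurable hsb
  have hi2 : Integrable fun y => s y * dd ε v (T - p) T y :=
    hTi.bdd_mul hsm.aestronglyMeasurable hsb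
  have hi12 : Integrable fun y => 16 * (s y * nlad ε v T y + s y * dd ε v (T - p) T y) :=
    (hi1.add hi2).const_mul 16
  have hiE : Integrable fun y => 16 * ∑ i ∈ Finset.range I, E i y :=
    (integrable_finsetSum _ hEi).const_mul 16
  have key : ∀ y, ∑ i ∈ Finset.range I, F i y ≤
      16 * (s y * nlad ε v T y + s y * dd ε v (T - p) T y) + 16 * ∑ i ∈ Finset.range I, E i y := by
    intro y
    have h := mul_le_mul_of_nonneg_left (telescope hε hp hp1 I hI y) (hs y).1
    have hB : 0 ≤ s y * (16 * conv (PK ε (T - 2 * I - p) (T - 2 * I) T)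
        (nlad ε v (T - 2 * I - p)) y) :=
      mul_nonneg (hs y).1 (mul_nonneg (by norm_num)
        ((isSub_PK hε (by omega)).conv_nonneg (fun x => norm_nonneg _) y))
    simp only [F, E]
    rw [← Finset.mul_sum, ← Finset.mul_sum]
    linarith
  have h1 := integral_mono (integrable_finsetSum _ hFi) (hi12.add hiE) key
  simp only [Pi.add_apply] at h1
  rw [integral_finsetSum _ hFi, integral_add hi12 hiE, integral_const_mul, integral_const_mul,
    integral_add hi1 hi2, integral_finsetSum _ hEi] at h1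
  have hd1 : ∫ y, s y * dd ε v (T - p) T y ≤ phi ε v (T - p) - phi ε v T := by
    rw [← hTint]
    exact integral_mono hi2 hTi fun y => mul_le_of_le_one_left (hT0 y) (hs y).2
  have hd2 : ∑ i ∈ Finset.range I, ∫ y, E i y ≤ ∑ i ∈ Finset.range I,
      (3 + d * 2 ^ d) * (3 / 4 : ℝ) ^ (2 * i) *
        (phi ε v (T - 2 * (i + 1) - p) - phi ε v (T - 2 * i - p)) :=
    Finset.sum_le_sum fun i hi => by
      have := Finset.mem_range.1 hi
      refine (smul_conv_le (isSub_PK hε (by omega)) hsm hs (hdd i).1.measurable (hdd i).2.1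
        (hdd i).2.2.1).trans ?_
      rw [(hdd i).2.2.2]
      refine mul_le_mul_of_nonneg_right ?_ ?_
      · refine (integral_PK hd hε (by omega) (by omega)).trans (le_of_eq ?_)
        rw [show T - (T - 2 * i) = 2 * i by omega]
      · rw [← (hdd i).2.2.2]; exact integral_nonneg (hdd i).2.2.1
  linarith

/-- Translation differences of a smoothed source, paired with an averaged rung. -/
theorem diff_bound (hd : 1 ≤ d) {p : ℕ} (hp5 : 5 ≤ p) :
    ∃ C, 0 ≤ C ∧ ∀ {ε : ℝ} {g : EE d → ℝ} {v : EE d → EE d}, 0 < ε → IsPot g v →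
      ∀ {J T i : ℕ}, p ≤ J → J + 2 ≤ T → i ≤ J - p → ∀ {σ s : EE d → ℝ},
        Measurable σ → Measurable s → (∀ x, |σ x| ≤ s x) → (∀ x, 0 ≤ s x ∧ s x ≤ 1) →
        ∀ {a : ℝ} {h : EE d}, 0 < a → a + 2 * rho ε (J - p) + ‖h‖ ≤ 127 / 100 * rho ε J →
        Integrable (fun x => ballAvg a (nlad ε v i) x *
          |conv (kern ε J T) σ (x + h) - conv (kern ε J T) σ x|) ∧
        ∫ x, ballAvg a (nlad ε v i) x *
            |conv (kern ε J T) σ (x + h) - conv (kern ε J T) σ x| ≤
          C * (‖h‖ / rho ε J) * ((∫ y, s y * conv (Om0 ε p J T) (nlad ε v (J - p)) y) +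
            (3 / 4 : ℝ) ^ (T - (J + 2)) * (phi ε v i - phi ε v (J - p))) := by
  obtain ⟨C, hC, hlip⟩ := kern_lip hd hp5
  refine ⟨C * (16 * (3 + d * 2 ^ d) + 1), by positivity, ?_⟩
  intro ε g v hε hp J T i hpJ hJT hil σ s hσ hsm hσs hs a h ha hrad
  set l := J - p
  have hJ : J < T := by omega
  have hk := isKer_kern (d := d) hε hJ
  set k : EE d → ℝ := kern ε J T
  set Mx := (volume.real (ball (0 : EE d) (rho ε T)))⁻¹
  set Φ : EE d → ℝ := fun z => |k (z - h) - k z|
  have hΦ : IsSub Φ (rad ε J T + ‖h‖) Mx := by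
    refine ⟨((hk.meas.comp (measurable_id.sub_const h)).sub hk.meas).abs, fun z => abs_nonneg _,
      fun z => abs_le.2 ⟨?_, ?_⟩, fun z hz => ?_⟩
    · linarith [hk.nonneg (z - h), hk.le z]
    · linarith [hk.le (z - h), hk.nonneg z]
    · simp only [Φ]
      rw [hk.supp z (by linarith [norm_nonneg h]),
        hk.supp _ (by linarith [norm_sub_norm_le z h]), sub_zero, abs_zero]
  set Φ' : EE d → ℝ := fun z => Φ (-z)
  have hΦ' : IsSub Φ' (rad ε J T + ‖h‖) Mx :=
    ⟨hΦ.meas.comp measurable_neg, fun z => hΦ.nonneg _, fun z => hΦ.le _,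
      fun z hz => hΦ.supp _ (by rwa [norm_neg])⟩
  have hσlb : LB σ := .of_bound hσ fun x => (hσs x).trans (hs x).2
  have hslb : LB s := .of_bound hsm fun x => by rw [abs_of_nonneg (hs x).1]; exact (hs x).2
  have hdiff : ∀ x, |conv k σ (x + h) - conv k σ x| ≤ conv Φ s x := fun x => by
    have e : conv k σ (x + h) = ∫ z, k (z - h) * σ (x + z) := by
      rw [conv, ← integral_sub_right_eq_self (fun z => k z * σ (x + h + z)) h]
      congr 1; funext z; congr 2; abel
    have hk1 : Integrable fun z => k (z - h) * σ (x + z) :=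
      ((hk.integrable_mul hσlb (x + h)).comp_sub_right h).congr (.of_forall fun z => by
        simp only [add_assoc, add_sub_cancel])
    rw [e, conv, ← integral_sub hk1 (hk.integrable_mul hσlb x)]
    refine abs_integral_le_integral_abs.trans (integral_mono
      (hk1.sub (hk.integrable_mul hσlb x)).abs (hΦ.integrable_mul hslb x) fun z => ?_)
    simp only [Pi.sub_apply]
    rw [← sub_mul, abs_mul]
    exact mul_le_mul_of_nonneg_left (hσs _) (abs_nonneg _)
  obtain ⟨hfm, hfi, -⟩ := nlad_spec hε hp i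
  set f := ballAvg a (nlad ε v i) with hf
  have hf0 : ∀ x, 0 ≤ f x := ballAvg_nonneg a fun x => norm_nonneg _
  have hfm' : Measurable f := measurable_ballAvg a hfm
  have hfi' : Integrable f := by
    rw [hf, ← funext (conv_ker1 a (nlad ε v i))]
    exact (integrable_conv (isKer_ker1 ha).toIsSub hfm hfi).1
  have hcs : ∀ x, |conv Φ s x| ≤ Mx * volume.real (closedBall (0 : EE d) (rad ε J T + ‖h‖)) := by
    intro x
    refine abs_integral_le_integral_abs.trans ?_
    calc ∫ z, |Φ z * s (x + z)|
        ≤ ∫ z, (closedBall (0 : EE d) (rad ε J T + ‖h‖)).indicator (fun _ => Mx) z := by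
          refine integral_mono_of_nonneg (.of_forall fun z => abs_nonneg _)
            ((integrableOn_const measure_closedBall_lt_top.ne).integrable_indicator
              measurableSet_closedBall) (.of_forall fun z => ?_)
          simp only
          rw [abs_mul, abs_of_nonneg (hΦ.nonneg z), abs_of_nonneg (hs _).1]
          by_cases hz : z ∈ closedBall (0 : EE d) (rad ε J T + ‖h‖)
          · rw [indicator_of_mem hz]
            exact (mul_le_of_le_one_right (hΦ.nonneg z) (hs _).2).trans (hΦ.le z)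
          · rw [indicator_of_notMem hz, hΦ.supp z (le_of_lt (by simpa using hz)), zero_mul]
      _ = _ := by
          rw [integral_indicator measurableSet_closedBall, setIntegral_const, smul_eq_mul, mul_comm]
  have hint : Integrable fun x => conv Φ s x * f x :=
    hfi'.bdd_mul (measurable_conv hΦ.meas hsm).aestronglyMeasurable (.of_forall hcs)
  have hint' : Integrable fun x => f x * |conv k σ (x + h) - conv k σ x| := by
    refine hint.mono' (hfm'.mul (((measurable_conv hk.meas hσ).comp (measurable_add_const h)).sub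
      (measurable_conv hk.meas hσ)).abs).aestronglyMeasurable (.of_forall fun x => ?_)
    rw [Real.norm_of_nonneg (mul_nonneg (hf0 x) (abs_nonneg _)), mul_comm]
    exact mul_le_mul_of_nonneg_right (hdiff x) (hf0 x)
  refine ⟨hint', ?_⟩
  set c := C * (‖h‖ / rho ε J)
  have hρJ := rho_pos hε J
  have hc : 0 ≤ c := by positivity
  have hOm := isSub_Om0 (d := d) (p := p) (J := J) (T := T) hε (by omega)
  have hpt : ∀ y, conv Φ' f y ≤ c * (conv (Om0 ε p J T) (nlad ε v l) y +
      conv (Om0 ε p J T) (dd ε v i l) y) := fun y => by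
    rw [hf, ← kernel_step hΦ' (lb_nlad hε hp i), ← conv_add hOm (lb_nlad hε hp _) (lb_dd hε hp hil),
      ← conv_const_mul]
    have hN := conv_le_chain hε (lb_nlad hε hp i) (fun x => norm_nonneg _) (hΦ'.avg ha) i (l - i)
      (isSub_const_mul hOm hc) (fun z z' hzz => ?_) y
    · refine hN.trans (le_of_eq ?_)
      congr 1
      funext x
      simp only [dd, nlad]
      show chain ε (fun y => ‖lad ε v i y‖) i (l - i) x = _
      ring
    · rw [Nat.add_sub_cancel' hil] at hzz
      have hrl : rad ε i l ≤ 2 * rho ε l := by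
        simp only [rad]; linarith [rho_pos hε l, rho_pos hε i]
      refine (le_abs_self _).trans (abs_ballAvg_le ha hΦ'.lb z fun u hu => ?_)
      rw [abs_of_nonneg (hΦ'.nonneg _)]
      simp only [Φ', Φ]
      rw [show -(z + u) - h = -((z + u) + h) by abel]
      show |kern ε J T (-(z + u + h)) - kern ε J T (-(z + u))| ≤ _
      rw [kern_even hε hJ, kern_even hε hJ]
      have h1 : ‖z + u + h - z'‖ ≤ 127 / 100 * rho ε J := by
        rw [show z + u + h - z' = (z - z') + u + h by abel]
        exact norm_add₃_le.trans (by linarith)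
      have h2 : ‖z + u - z'‖ ≤ 127 / 100 * rho ε J := by
        rw [show z + u - z' = (z - z') + u by abel]
        exact (norm_add_le _ _).trans (by linarith [norm_nonneg h])
      have := hlip hε hpJ hJT z' (z + u + h) (z + u) h1 h2
      rw [add_sub_cancel_left] at this
      exact this
  obtain ⟨hddc, hddi, hdd0, hddint⟩ := dd_spec hε hp.contv hp.intv hil
  obtain ⟨hlm, hli, -⟩ := nlad_spec hε hp l
  have hiA := integrable_smul_conv hOm hsm hs hlm hli
  have hiB := integrable_smul_conv hOm hsm hs hddc.measurable hddi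
  calc ∫ x, f x * |conv k σ (x + h) - conv k σ x| ≤ ∫ x, conv Φ s x * f x := by
        refine integral_mono hint' hint fun x => ?_
        simp only
        rw [mul_comm]
        exact mul_le_mul_of_nonneg_right (hdiff x) (hf0 x)
    _ = ∫ y, s y * conv Φ' f y :=
        conv_dual hΦ hsm (C := 1) (fun x => by rw [abs_of_nonneg (hs x).1]; exact (hs x).2) hfm' hfi'
    _ ≤ ∫ y, c * (s y * conv (Om0 ε p J T) (nlad ε v l) y +
          s y * conv (Om0 ε p J T) (dd ε v i l) y) := by
        refine integral_mono (integrable_smul_conv hΦ' hsm hs hfm' hfi')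
          ((hiA.add hiB).const_mul c) fun y => ?_
        have := mul_le_mul_of_nonneg_left (hpt y) (hs y).1
        linarith
    _ ≤ _ := by
        rw [integral_const_mul, integral_add hiA hiB]
        set A := ∫ y, s y * conv (Om0 ε p J T) (nlad ε v l) y
        set q := (3 / 4 : ℝ) ^ (T - (J + 2)) * (phi ε v i - phi ε v l)
        have hA : 0 ≤ A := integral_nonneg fun y =>
          mul_nonneg (hs y).1 (hOm.conv_nonneg (fun x => norm_nonneg _) y)
        have hq : 0 ≤ q := mul_nonneg (by positivity) (hddint ▸ integral_nonneg hdd0)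
        have hB : ∫ y, s y * conv (Om0 ε p J T) (dd ε v i l) y ≤ 16 * (3 + d * 2 ^ d) * q := by
          refine (smul_conv_le hOm hsm hs hddc.measurable hddi hdd0).trans ?_
          rw [hddint]
          calc _ ≤ 16 * ((3 + d * 2 ^ d) * (3 / 4 : ℝ) ^ (T - (J + 2))) *
                (phi ε v i - phi ε v l) :=
                mul_le_mul_of_nonneg_right (integral_Om0 hd hε hJT) (hddint ▸ integral_nonneg hdd0)
            _ = _ := by simp only [q]; ring
        have h16 : (0 : ℝ) ≤ 16 * (3 + d * 2 ^ d) := by positivity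
        calc c * (A + ∫ y, s y * conv (Om0 ε p J T) (dd ε v i l) y)
            ≤ c * ((16 * (3 + d * 2 ^ d) + 1) * (A + q)) := by
              refine mul_le_mul_of_nonneg_left ?_ hc
              nlinarith [mul_nonneg h16 hA]
          _ = _ := by simp only [c]; ring

/-- The loss of one double average of an older source, paired with a shifted rung. -/
theorem step_bound (hd : 1 ≤ d) {p : ℕ} (hp5 : 5 ≤ p) :
    ∃ C, 0 ≤ C ∧ ∀ {ε : ℝ} {g : EE d → ℝ} {v : EE d → EE d}, 0 < ε → IsPot g v →
      ∀ {J T : ℕ}, p ≤ J → J + 2 ≤ T → ∀ {σ s : EE d → ℝ},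
        Measurable σ → Measurable s → (∀ x, |σ x| ≤ s x) → (∀ x, 0 ≤ s x ∧ s x ≤ 1) →
        ∀ {u : EE d}, ‖u‖ ≤ rho ε J / 100 →
        Integrable (fun x => nlad ε v (J - p) (x + u) *
          |conv (kern ε (J - 2) T) σ x - conv (kern ε J T) σ x|) ∧
        ∫ x, nlad ε v (J - p) (x + u) *
            |conv (kern ε (J - 2) T) σ x - conv (kern ε J T) σ x| ≤
          C * ∫ y, s y * conv (Om0 ε p J T) (nlad ε v (J - p)) y := by
  obtain ⟨C, hC, hlip⟩ := kern_lip hd hp5
  refine ⟨C * (5 / 4), by positivity, ?_⟩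
  intro ε g v hε hp J T hpJ hJT σ s hσ hsm hσs hs u hu
  have hJ : J < T := by omega
  have hk := isKer_kern (d := d) hε hJ
  have hk2 := isKer_kern (d := d) hε (show J - 2 < T by omega)
  set k : EE d → ℝ := kern ε J T
  set k2 : EE d → ℝ := kern ε (J - 2) T
  set Mx := (volume.real (ball (0 : EE d) (rho ε T)))⁻¹
  set Φ : EE d → ℝ := fun z => |k2 z - k z|
  have hΦ : IsSub Φ (max (rad ε (J - 2) T) (rad ε J T)) Mx := by
    refine ⟨(hk2.meas.sub hk.meas).abs, fun z => abs_nonneg _,
      fun z => abs_le.2 ⟨?_, ?_⟩, fun z hz => ?_⟩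
    · linarith [hk2.nonneg z, hk.le z]
    · linarith [hk2.le z, hk.nonneg z]
    · simp only [Φ]
      rw [hk2.supp z ((le_max_left _ _).trans hz), hk.supp z ((le_max_right _ _).trans hz),
        sub_zero, abs_zero]
  have hσlb : LB σ := .of_bound hσ fun x => (hσs x).trans (hs x).2
  have hslb : LB s := .of_bound hsm fun x => by rw [abs_of_nonneg (hs x).1]; exact (hs x).2
  have hdiff : ∀ x, |conv k2 σ x - conv k σ x| ≤ conv Φ s x := fun x => by
    rw [conv, conv, ← integral_sub (hk2.integrable_mul hσlb x) (hk.integrable_mul hσlb x)]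
    refine abs_integral_le_integral_abs.trans (integral_mono
      ((hk2.integrable_mul hσlb x).sub (hk.integrable_mul hσlb x)).abs
      (hΦ.integrable_mul hslb x) fun z => ?_)
    simp only [Pi.sub_apply]
    rw [← sub_mul, abs_mul]
    exact mul_le_mul_of_nonneg_left (hσs _) (abs_nonneg _)
  obtain ⟨hlm, hli, -⟩ := nlad_spec hε hp (J - p)
  set f := fun x => nlad ε v (J - p) (x + u) with hf
  have hfi : Integrable f := hli.comp_add_right u
  have hfm : Measurable f := hlm.comp (measurable_add_const u)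
  have hf0 : ∀ x, 0 ≤ f x := fun x => norm_nonneg _
  have hcs : ∀ x, |conv Φ s x| ≤
      Mx * volume.real (closedBall (0 : EE d) (max (rad ε (J - 2) T) (rad ε J T))) := by
    intro x
    refine abs_integral_le_integral_abs.trans ?_
    calc ∫ z, |Φ z * s (x + z)|
        ≤ ∫ z, (closedBall (0 : EE d) (max (rad ε (J - 2) T) (rad ε J T))).indicator
            (fun _ => Mx) z := by
          refine integral_mono_of_nonneg (.of_forall fun z => abs_nonneg _)
            ((integrableOn_const measure_closedBall_lt_top.ne).integrable_indicator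
              measurableSet_closedBall) (.of_forall fun z => ?_)
          simp only
          rw [abs_mul, abs_of_nonneg (hΦ.nonneg z), abs_of_nonneg (hs _).1]
          by_cases hz : z ∈ closedBall (0 : EE d) (max (rad ε (J - 2) T) (rad ε J T))
          · rw [indicator_of_mem hz]
            exact (mul_le_of_le_one_right (hΦ.nonneg z) (hs _).2).trans (hΦ.le z)
          · rw [indicator_of_notMem hz, hΦ.supp z (le_of_lt (by simpa using hz)), zero_mul]
      _ = _ := by
          rw [integral_indicator measurableSet_closedBall, setIntegral_const, smul_eq_mul, mul_comm]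
  have hint : Integrable fun x => conv Φ s x * f x :=
    hfi.bdd_mul (measurable_conv hΦ.meas hsm).aestronglyMeasurable (.of_forall hcs)
  have hint' : Integrable fun x => f x * |conv k2 σ x - conv k σ x| := by
    refine hint.mono' (hfm.mul ((measurable_conv hk2.meas hσ).sub
      (measurable_conv hk.meas hσ)).abs).aestronglyMeasurable (.of_forall fun x => ?_)
    rw [Real.norm_of_nonneg (mul_nonneg (hf0 x) (abs_nonneg _)), mul_comm]
    exact mul_le_mul_of_nonneg_right (hdiff x) (hf0 x)
  refine ⟨hint', ?_⟩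
  have hOm := isSub_Om0 (d := d) (p := p) (J := J) (T := T) hε (by omega)
  have hρJ := rho_pos hε J
  set c := C * (5 / 4)
  have hpt : ∀ y, conv (fun z => Φ (-z)) f y ≤ c * conv (Om0 ε p J T) (nlad ε v (J - p)) y := by
    intro y
    rw [← conv_const_mul]
    simp only [conv, hf]
    rw [← integral_sub_right_eq_self (fun z => Φ (-z) * nlad ε v (J - p) (y + z + u)) u]
    refine integral_mono_of_nonneg
      (.of_forall fun z => mul_nonneg (abs_nonneg _) (norm_nonneg _))
      ((isSub_const_mul hOm (by positivity)).integrable_mul (lb_nlad hε hp _) y)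
      (.of_forall fun z => ?_)
    simp only
    rw [show y + (z - u) + u = y + z by abel]
    refine mul_le_mul_of_nonneg_right ?_ (norm_nonneg _)
    simp only [Φ, k, k2]
    rw [kern_even hε (show J - 2 < T by omega), kern_even hε hJ]
    set z0 := z - u
    have e2 : J - 2 + 2 = J := by omega
    have hA : (kern ε (J - 2) T : EE d → ℝ) z0 =
        ballAvg (rho ε (J - 1)) (ballAvg (rho ε J) (kern ε J T)) z0 := by
      rw [kern_lower hε (show J - 2 + 1 < T by omega), kern_lower hε (show J - 2 + 1 + 1 < T by omega),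
        show J - 2 + 1 + 1 = J by omega, show J - 2 + 1 = J - 1 by omega]
    have hr1 : rho ε (J - 1) = rho ε J / 4 := by
      have := rho_succ' ε (J - 1)
      rw [Nat.sub_add_cancel (by omega)] at this
      linarith
    rw [hA, ← ballAvg_const (rho_pos hε (J - 1)) (kern ε J T z0) z0,
      ← ballAvg_sub _ (hk.lb.avg (rho_pos hε J))
        (.of_bound measurable_const (C := |kern ε J T z0|) fun _ => le_rfl)]
    refine abs_ballAvg_le (rho_pos hε _) ((hk.lb.avg (rho_pos hε J)).sub
      (.of_bound measurable_const (C := |kern ε J T z0|) fun _ => le_rfl)) z0 fun u1 hu1 => ?_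
    rw [← ballAvg_const (rho_pos hε J) (kern ε J T z0) (z0 + u1),
      ← ballAvg_sub _ hk.lb (.of_bound measurable_const (C := |kern ε J T z0|) fun _ => le_rfl)]
    refine abs_ballAvg_le (rho_pos hε _) (hk.lb.sub
      (.of_bound measurable_const (C := |kern ε J T z0|) fun _ => le_rfl)) _ fun u2 hu2 => ?_
    have hz : z0 - z = -u := by simp only [z0]; abel
    have h1 : ‖z0 + u1 + u2 - z‖ ≤ 127 / 100 * rho ε J := by
      rw [show z0 + u1 + u2 - z = (z0 - z) + u1 + u2 by abel, hz]
      refine norm_add₃_le.trans ?_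
      rw [norm_neg]; linarith
    have h2 : ‖z0 - z‖ ≤ 127 / 100 * rho ε J := by rw [hz, norm_neg]; linarith
    refine (hlip hε hpJ hJT z _ _ h1 h2).trans (mul_le_mul_of_nonneg_right ?_ (hOm.nonneg z))
    refine mul_le_mul_of_nonneg_left ?_ hC
    rw [div_le_iff₀ hρJ, show z0 + u1 + u2 - z0 = u1 + u2 by abel]
    linarith [norm_add_le u1 u2]
  calc ∫ x, f x * |conv k2 σ x - conv k σ x| ≤ ∫ x, conv Φ s x * f x := by
        refine integral_mono hint' hint fun x => ?_
        simp only
        rw [mul_comm]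
        exact mul_le_mul_of_nonneg_right (hdiff x) (hf0 x)
    _ = ∫ y, s y * conv (fun z => Φ (-z)) f y :=
        conv_dual hΦ hsm (C := 1) (fun x => by rw [abs_of_nonneg (hs x).1]; exact (hs x).2) hfm hfi
    _ ≤ ∫ y, c * (s y * conv (Om0 ε p J T) (nlad ε v (J - p)) y) := by
        refine integral_mono (integrable_smul_conv ⟨hΦ.meas.comp measurable_neg,
          fun z => hΦ.nonneg _, fun z => hΦ.le _, fun z hz => hΦ.supp _ (by rwa [norm_neg])⟩
          hsm hs hfm hfi) ((integrable_smul_conv hOm hsm hs hlm hli).const_mul c) fun y => ?_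
        have := mul_le_mul_of_nonneg_left (hpt y) (hs y).1
        linarith
    _ = _ := integral_const_mul _ _

/-- A fresh source, paired with a shifted rung. -/
theorem fresh_bound (hd : 1 ≤ d) {m : ℕ} (hm5 : 5 ≤ m) :
    ∃ C, 0 ≤ C ∧ ∀ {ε : ℝ} {g : EE d → ℝ} {v : EE d → EE d}, 0 < ε → IsPot g v →
      ∀ {T : ℕ}, m + 2 ≤ T → ∀ {σ s : EE d → ℝ},
        Measurable σ → Measurable s → (∀ x, |σ x| ≤ s x) → (∀ x, 0 ≤ s x ∧ s x ≤ 1) →
        ∀ {u : EE d}, ‖u‖ ≤ rho ε T / 200 →
        Integrable (fun x => nlad ε v (T - 2 - m) (x + u) * |conv (kern ε (T - 2) T) σ x|) ∧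
        ∫ x, nlad ε v (T - 2 - m) (x + u) * |conv (kern ε (T - 2) T) σ x| ≤
          C * ((∫ y, s y * nlad ε v T y) + (phi ε v (T - 2 - m) - phi ε v T)) := by
  set c0 : ℝ := ((1 / 400 : ℝ) ^ d) ^ m * (1 / 20) ^ (d * 2) with hc0
  have hc : 0 < c0 := by positivity
  refine ⟨1 / c0, by positivity, ?_⟩
  intro ε g v hε hp T hT σ s hσ hsm hσs hs u hu
  set l := T - 2 - m with hl
  have hρT := rho_pos hε T
  have hk := isKer_kern (d := d) hε (show T - 2 < T by omega)
  set k : EE d → ℝ := kern ε (T - 2) T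
  have hσlb : LB σ := .of_bound hσ fun x => (hσs x).trans (hs x).2
  have hslb : LB s := .of_bound hsm fun x => by rw [abs_of_nonneg (hs x).1]; exact (hs x).2
  have hsb : ∀ x, |s x| ≤ 1 := fun x => by rw [abs_of_nonneg (hs x).1]; exact (hs x).2
  have habs : ∀ x, |conv k σ x| ≤ conv k s x := fun x => by
    refine abs_integral_le_integral_abs.trans (integral_mono (hk.integrable_mul hσlb x).abs
      (hk.integrable_mul hslb x) fun z => ?_)
    rw [abs_mul, abs_of_nonneg (hk.nonneg z)]
    exact mul_le_mul_of_nonneg_left (hσs _) (hk.nonneg z)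
  obtain ⟨hlm, hli, -⟩ := nlad_spec hε hp l
  set f := fun x => nlad ε v l (x + u) with hf
  have hfi : Integrable f := hli.comp_add_right u
  have hfm : Measurable f := hlm.comp (measurable_add_const u)
  have hf0 : ∀ x, 0 ≤ f x := fun x => norm_nonneg _
  have hint : Integrable fun x => conv k s x * f x :=
    hfi.bdd_mul (measurable_conv hk.meas hsm).aestronglyMeasurable
      (.of_forall fun x => abs_conv_le hk hslb x fun y _ => hsb _)
  have hint' : Integrable fun x => f x * |conv k σ x| := by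
    refine hint.mono' (hfm.mul (measurable_conv hk.meas hσ).abs).aestronglyMeasurable
      (.of_forall fun x => ?_)
    rw [Real.norm_of_nonneg (mul_nonneg (hf0 x) (abs_nonneg _)), mul_comm]
    exact mul_le_mul_of_nonneg_right (habs x) (hf0 x)
  refine ⟨hint', ?_⟩
  have hlT : l < T := by omega
  have hK := isKer_kern (d := d) hε hlT
  have hpt : ∀ z : EE d, k (-(z - u)) ≤ 1 / c0 * kern ε l T z := by
    intro z
    rcases le_or_gt (rad ε (T - 2) T) ‖z - u‖ with hz | hz
    · rw [hk.supp _ (by rwa [norm_neg])]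
      exact mul_nonneg (by positivity) (hK.nonneg z)
    have hT2 : rho ε (T - 2) = rho ε T / 16 := by
      have := rho_add ε (T - 2) 2
      rw [Nat.sub_add_cancel (by omega)] at this
      linarith
    have hR : rad ε (T - 2) T = 5 / 4 * rho ε T := by simp only [rad, hT2]; ring
    obtain ⟨hS1, hS2⟩ := rad_low hε hm5 (show m ≤ T - 2 by omega)
    rw [hT2] at hS1 hS2
    have hzn : ‖z‖ ≤ 5 / 4 * rho ε T + rho ε T / 200 := by
      have := norm_sub_norm_le z u
      linarith
    set r1 := max (‖z‖ - 399 / 400 * rad ε (T - 2 - m) (T - 2)) 0 +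
      1 / 400 * rad ε (T - 2 - m) (T - 2) with hr1
    have hr10 : 0 ≤ r1 := add_nonneg (le_max_right _ _) (by linarith)
    have hr1R : r1 ≤ 19 / 20 * rad ε (T - 2) T := by
      rw [hR, hr1]
      rcases max_cases (‖z‖ - 399 / 400 * rad ε (T - 2 - m) (T - 2)) 0 with ⟨e, _⟩ | ⟨e, _⟩ <;>
        rw [e] <;> linarith
    obtain ⟨e, he, -⟩ := exists_dir hd (0 : EE d)
    set x : EE d := r1 • e
    have hxn : ‖x‖ = r1 := by simp [x, norm_smul, he, abs_of_nonneg hr10]
    have hreach := kern_reach hε hd (θ := (399 / 400 : ℝ)) (by norm_num) (η := (1 / 400 : ℝ))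
      (by norm_num) (by norm_num) m (T - 2) (T := T) (by omega) (by omega) z x (ge_of_eq hxn)
    have hR0 : 0 < rad ε (T - 2) T := rad_pos hε (by omega)
    have hη1 : r1 / rad ε (T - 2) T ≤ 19 / 20 := by rwa [div_le_iff₀ hR0]
    have h := kern_homothety hε (show T - 2 < T by omega) he (div_nonneg hr10 hR0.le)
      (by linarith) (0 : EE d)
    rw [sub_zero, zero_add, smul_smul, div_mul_cancel₀ _ hR0.ne',
      show T - (T - 2) = 2 by omega] at h
    have h20 : (1 / 20 : ℝ) ^ (d * 2) ≤ (1 - r1 / rad ε (T - 2) T) ^ (d * 2) :=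
      pow_le_pow_left₀ (by norm_num) (by linarith) _
    have hk0 : k (-(z - u)) ≤ k 0 := radDecr_kern hε (by omega) _ _ (by simp)
    rw [div_mul_eq_mul_div, one_mul, le_div_iff₀ hc, hc0]
    calc k (-(z - u)) * (((1 / 400 : ℝ) ^ d) ^ m * (1 / 20) ^ (d * 2))
        ≤ k 0 * (((1 / 400 : ℝ) ^ d) ^ m * (1 / 20) ^ (d * 2)) :=
          mul_le_mul_of_nonneg_right hk0 hc.le
      _ = ((1 / 400 : ℝ) ^ d) ^ m * ((1 / 20) ^ (d * 2) * k 0) := by ring
      _ ≤ ((1 / 400 : ℝ) ^ d) ^ m * k x :=
          mul_le_mul_of_nonneg_left ((mul_le_mul_of_nonneg_right h20 (hk.nonneg 0)).trans h)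
            (by positivity)
      _ ≤ _ := hreach
  obtain ⟨hddc, hddi, hdd0, hddint⟩ := dd_spec hε hp.contv hp.intv (show l ≤ T by omega)
  have hsbd : ∀ᵐ x ∂(volume : Measure (EE d)), ‖s x‖ ≤ 1 := .of_forall hsb
  have hiA : Integrable fun y => s y * nlad ε v T y :=
    (nlad_spec hε hp T).2.1.bdd_mul hsm.aestronglyMeasurable hsbd
  have hiB : Integrable fun y => s y * dd ε v l T y := hddi.bdd_mul hsm.aestronglyMeasurable hsbd
  calc ∫ x, f x * |conv k σ x| ≤ ∫ x, conv k s x * f x := by
        refine integral_mono hint' hint fun x => ?_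
        simp only
        rw [mul_comm]
        exact mul_le_mul_of_nonneg_right (habs x) (hf0 x)
    _ = ∫ y, s y * conv (fun z => k (-z)) f y := conv_dual hk.toIsSub hsm hsb hfm hfi
    _ ≤ ∫ y, 1 / c0 * (s y * nlad ε v T y + s y * dd ε v l T y) := by
        refine integral_mono (integrable_smul_conv ⟨hk.meas.comp measurable_neg,
          fun z => hk.nonneg _, fun z => hk.le _, fun z hz => hk.supp _ (by rwa [norm_neg])⟩
          hsm hs hfm hfi) ((hiA.add hiB).const_mul _) fun y => ?_
        rw [← mul_add, ← conv_top hε hp hlT]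
        show s y * conv (fun z => k (-z)) f y ≤ 1 / c0 * (s y * conv (kern ε l T) (nlad ε v l) y)
        rw [mul_left_comm (1 / c0) (s y)]
        refine mul_le_mul_of_nonneg_left ?_ (hs y).1
        rw [← conv_const_mul]
        simp only [conv, hf]
        rw [← integral_sub_right_eq_self (fun z => k (-z) * nlad ε v l (y + z + u)) u]
        refine integral_mono_of_nonneg
          (.of_forall fun z => mul_nonneg (hk.nonneg _) (norm_nonneg _))
          ((isSub_const_mul hK.toIsSub (by positivity)).integrable_mul (lb_nlad hε hp _) y)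
          (.of_forall fun z => ?_)
        simp only
        rw [show y + (z - u) + u = y + z by abel]
        exact mul_le_mul_of_nonneg_right (hpt z) (norm_nonneg _)
    _ ≤ _ := by
        rw [integral_const_mul, integral_add hiA hiB]
        refine mul_le_mul_of_nonneg_left (add_le_add le_rfl ?_) (by positivity)
        rw [← hddint]
        exact integral_mono hiB hddi fun y => mul_le_of_le_one_left (hdd0 y) (hs y).2

end Vale.Agent.P137.Weights
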