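import Vale.Agent.P137.Centred.States
import Vale.Agent.P137.Centred.Transfer
import Vale.Agent.P137.Centred.Flux

/-!
The flux of the band weights is paid by the drop of `phi` and the births.

Proof notes.  Band `L` of `1, …, n` carries the state of step `n + 1 - L`, `m` levels above the band
index.  A difference of states is a sum over the older sources of differences of kernels; after
summing over the scales each source costs its mass times `|v|` at its own level and the defects,
with geometric weights.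
-/

namespace Vale.Agent.P137.Weights

open MeasureTheory Metric Filter Topology Set Kernel
open scoped RealInnerProductSpace

variable {d M : ℕ}

/-- The weight of a band in one direction. -/
noncomputable def bandW (D : Data d M) (n : ℕ) (k : Fin M) (L : ℕ) : EE d → ℝ :=
  if L = 0 then 0 else D.W (n + 1 - L) k

variable {D : Data d M}

theorem bandW_eq (D : Data d M) (n : ℕ) (k : Fin M) {L : ℕ} (hL : 1 ≤ L) :
    bandW D n k L = D.W (n + 1 - L) k :=
  if_neg (by omega)

theorem measurable_bandW (h : Ok D) (hd : 1 ≤ d) (n : ℕ) (k : Fin M) (L : ℕ) :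
    Measurable (bandW D n k L) := by
  unfold bandW
  split_ifs
  · exact measurable_const
  · exact measurable_W h hd _ k

theorem isWeight_bandW (h : Ok D) (hd : 1 ≤ d) (n : ℕ) (k : Fin M) (x : EE d) :
    Flux.IsWeight n fun L => bandW D n k L x := by
  refine ⟨fun L => ?_, fun L => ?_, by simp [bandW], by simp [bandW, Data.W]⟩ <;>
    simp only [bandW] <;> split_ifs
  · exact le_rfl
  · exact W_nonneg h hd _ k x
  · exact zero_le_one
  · exact W_le_one h hd _ k x

/-! ### Sums -/

theorem tri_sum (f : ℕ → ℕ → ℝ) : ∀ n : ℕ,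
    ∑ j ∈ Finset.range n, ∑ i ∈ Finset.range (j + 1), f j i =
      ∑ i ∈ Finset.range n, ∑ r ∈ Finset.range (n - i), f (i + r) i
  | 0 => by simp
  | n + 1 => by
    rw [Finset.sum_range_succ, tri_sum f n,
      Finset.sum_range_succ (fun i => ∑ r ∈ Finset.range (n + 1 - i), f (i + r) i) n,
      Finset.sum_range_succ (fun i => f n i) n, Nat.add_sub_cancel_left, Finset.sum_range_one,
      add_zero, ← add_assoc, ← Finset.sum_add_distrib]
    refine congrArg (· + f n n) (Finset.sum_congr rfl fun i hi => ?_)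
    have hin : i ≤ n := (Finset.mem_range.1 hi).le
    rw [Nat.succ_sub hin, Finset.sum_range_succ, Nat.add_sub_cancel' hin]

theorem geo_rev (j : ℕ) : ∑ i ∈ Finset.range (j + 1), (9 / 16 : ℝ) ^ (j - i) ≤ 3 := by
  rw [← Finset.sum_range_reflect]
  have h := geom_sum_Ico_le_of_lt_one (m := 0) (n := j + 1) (show (0 : ℝ) ≤ 9 / 16 by norm_num)
    (by norm_num)
  refine le_trans (le_of_eq ?_) (h.trans (by norm_num))
  rw [Finset.range_eq_Ico]
  refine Finset.sum_congr rfl fun i hi => ?_
  have := (Finset.mem_Ico.1 hi).2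
  congr 1
  omega

theorem lag_sum {a Φ : ℝ} (f : ℕ → ℝ) (hlo : ∀ i, a ≤ f i) (hhi : ∀ i, f i ≤ a + Φ) (n : ℕ) :
    ∀ q : ℕ, ∑ i ∈ Finset.range n, (f (i + q) - f i) ≤ (q : ℝ) * Φ
  | 0 => by simp
  | q + 1 => by
    have h := lag_sum f hlo hhi n q
    have e : ∑ i ∈ Finset.range n, (f (i + (q + 1)) - f (i + q)) ≤ Φ := by
      have := Finset.sum_range_sub (fun i => f (i + q)) n
      simp only [add_right_comm _ 1 q] at this
      simp only [← add_assoc, zero_add] at this ⊢
      rw [this]
      linarith [hlo q, hhi (n + q)]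
    have e2 : ∑ i ∈ Finset.range n, (f (i + (q + 1)) - f i) =
        ∑ i ∈ Finset.range n, (f (i + (q + 1)) - f (i + q)) +
          ∑ i ∈ Finset.range n, (f (i + q) - f i) := by
      rw [← Finset.sum_add_distrib]
      exact Finset.sum_congr rfl fun i _ => by ring
    rw [e2]; push_cast; linarith

/-- Geometrically weighted drops below a level. -/
noncomputable def below (ε : ℝ) (v : EE d → EE d) (l : ℕ) : ℝ :=
  ∑ q ∈ Finset.range l, (1 / 2 : ℝ) ^ (l - q) * (phi ε v q - phi ε v l)

theorem below_nonneg {ε : ℝ} (hε : 0 < ε) {v : EE d → EE d} (hc : Continuous v) (hi : Integrable v)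
    (l : ℕ) : 0 ≤ below ε v l :=
  Finset.sum_nonneg fun q hq => mul_nonneg (by positivity)
    (sub_nonneg.2 (phi_anti hε hc hi (Finset.mem_range.1 hq).le))

theorem sum_below_le {ε : ℝ} (hε : 0 < ε) {v : EE d → EE d} (hc : Continuous v) (hi : Integrable v) :
    ∀ N, (∑ l ∈ Finset.range (N + 1), below ε v l) + below ε v N ≤
      2 * (phi ε v 0 - phi ε v N)
  | 0 => by simp [below]
  | N + 1 => by
    have ih := sum_below_le hε hc hi N
    have hd0 : 0 ≤ phi ε v N - phi ε v (N + 1) := sub_nonneg.2 (phi_anti hε hc hi (Nat.le_succ N))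
    have hgeo : ∑ q ∈ Finset.range (N + 1), (1 / 2 : ℝ) ^ (N + 1 - q) ≤ 1 := by
      rw [← Finset.sum_range_reflect]
      have h := geom_sum_Ico_le_of_lt_one (m := 1) (n := N + 2)
        (show (0 : ℝ) ≤ 1 / 2 by norm_num) (by norm_num)
      refine le_trans (le_of_eq ?_) (h.trans (by norm_num))
      rw [Finset.sum_Ico_eq_sum_range]
      refine Finset.sum_congr rfl fun i hi' => ?_
      have := Finset.mem_range.1 hi'
      congr 1
      omega
    have hstep : below ε v (N + 1) ≤ below ε v N / 2 + (phi ε v N - phi ε v (N + 1)) := by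
      have e : below ε v (N + 1) =
          (∑ q ∈ Finset.range (N + 1), (1 / 2 : ℝ) ^ (N + 1 - q) * (phi ε v q - phi ε v N)) +
            (∑ q ∈ Finset.range (N + 1), (1 / 2 : ℝ) ^ (N + 1 - q)) *
              (phi ε v N - phi ε v (N + 1)) := by
        rw [below, Finset.sum_mul, ← Finset.sum_add_distrib]
        exact Finset.sum_congr rfl fun q _ => by ring
      have e2 : ∑ q ∈ Finset.range (N + 1), (1 / 2 : ℝ) ^ (N + 1 - q) * (phi ε v q - phi ε v N) =
          below ε v N / 2 := by
        rw [Finset.sum_range_succ, sub_self, mul_zero, add_zero, below, Finset.sum_div]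
        refine Finset.sum_congr rfl fun q hq => ?_
        rw [Nat.succ_sub (Finset.mem_range.1 hq).le, pow_succ]
        ring
      rw [e, e2]
      have := mul_le_mul_of_nonneg_right hgeo hd0
      linarith
    rw [Finset.sum_range_succ]
    linarith

theorem sum_pow_idx (f : ℕ → ℕ) {b : ℝ} (hb : 2 ≤ b) : ∀ L : ℕ, 1 ≤ L →
    (∀ p, 1 ≤ p → p < L → f (p + 1) = f p + 2) →
    ∑ p ∈ Finset.Icc 1 L, b ^ f p ≤ 2 * b ^ f L
  | 0, h, _ => absurd h (by omega)
  | 1, _, _ => by
    simp only [Finset.Icc_self, Finset.sum_singleton]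
    linarith [pow_nonneg (by linarith : 0 ≤ b) (f 1)]
  | L + 2, _, h => by
    rw [Finset.sum_Icc_succ_top (by omega : 1 ≤ L + 1 + 1)]
    have ih := sum_pow_idx f hb (L + 1) (by omega) fun p p1 p2 => h p p1 (by omega)
    have hp : 0 ≤ b ^ f (L + 1) := pow_nonneg (by linarith) _
    have h4 : 4 * b ^ f (L + 1) ≤ b ^ f (L + 1 + 1) := by
      rw [h (L + 1) (by omega) (by omega), pow_add, mul_comm]
      exact mul_le_mul_of_nonneg_left (by nlinarith) hp
    linarith

/-! ### Pairing with the ladder -/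

theorem shift_pair {g : EE d → ℝ} {v : EE d → EE d} (hp : IsPot g v) {P : EE d → ℝ}
    (hPm : Measurable P) (hP : ∀ x, 0 ≤ P x ∧ P x ≤ 1) (h : EE d) {B : ℝ}
    (hB : ∀ s ∈ Icc (0 : ℝ) 1, ∫ x, P x * ‖v (x + s • h)‖ ≤ B) :
    ∫ x, P x * |g (x + h) - g x| ≤ ‖h‖ * B := by
  have hv := hp.contv
  set μ := volume.restrict (uIoc (0 : ℝ) 1)
  have : IsFiniteMeasure μ := ⟨by simp [μ]⟩
  have hint : Integrable (Function.uncurry fun (x : EE d) (s : ℝ) => P x * ‖v (x + s • h)‖)
      ((volume : Measure (EE d)).prod μ) := by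
    have hm : AEStronglyMeasurable (Function.uncurry fun (x : EE d) (s : ℝ) =>
        P x * ‖v (x + s • h)‖) ((volume : Measure (EE d)).prod μ) :=
      ((hPm.comp measurable_fst).mul (Continuous.measurable (by fun_prop :
        Continuous fun z : EE d × ℝ => ‖v (z.1 + z.2 • h)‖))).aestronglyMeasurable
    have hPb : ∀ᵐ x ∂(volume : Measure (EE d)), ‖P x‖ ≤ 1 := .of_forall fun x => by
      rw [Real.norm_of_nonneg (hP x).1]; exact (hP x).2
    rw [integrable_prod_iff' hm]
    refine ⟨.of_forall fun s =>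
      (hp.intv.norm.comp_add_right (s • h)).bdd_mul hPm.aestronglyMeasurable hPb, ?_⟩
    refine (integrable_const (∫ x, ‖v x‖)).mono' hm.norm.prod_swap.integral_prod_right'
      (.of_forall fun s => ?_)
    rw [Real.norm_of_nonneg (integral_nonneg fun _ => norm_nonneg _),
      ← integral_add_right_eq_self (fun x => ‖v x‖) (s • h)]
    refine integral_mono_of_nonneg (.of_forall fun _ => norm_nonneg _)
      (hp.intv.norm.comp_add_right (s • h)) (.of_forall fun x => ?_)
    simp only [Function.uncurry, norm_mul, norm_norm, Real.norm_of_nonneg (hP x).1]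
    exact mul_le_of_le_one_left (norm_nonneg _) (hP x).2
  have hpt : ∀ x, P x * |g (x + h) - g x| ≤ ‖h‖ * ∫ s, P x * ‖v (x + s • h)‖ ∂μ := by
    intro x
    rw [integral_const_mul, mul_left_comm, hp.seg, ← Real.norm_eq_abs]
    refine mul_le_mul_of_nonneg_left ?_ (hP x).1
    rw [← integral_const_mul]
    refine (intervalIntegral.norm_integral_le_abs_of_norm_le
      (g := fun s => ‖h‖ * ‖v (x + s • h)‖) (.of_forall fun s => ?_)
      (Continuous.intervalIntegrable (by fun_prop) _ _)).trans (le_of_eq ?_)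
    · rw [mul_comm]; exact norm_inner_le_norm _ _
    · rw [abs_of_nonneg, intervalIntegral.integral_of_le zero_le_one]
      · simp only [μ, uIoc_of_le zero_le_one]
      · exact intervalIntegral.integral_nonneg zero_le_one fun s _ =>
          mul_nonneg (norm_nonneg _) (norm_nonneg _)
  refine (integral_mono_of_nonneg (.of_forall fun x => mul_nonneg (hP x).1 (abs_nonneg _))
    (hint.integral_prod_left.const_mul ‖h‖) (.of_forall hpt)).trans ?_
  rw [integral_const_mul]
  refine mul_le_mul_of_nonneg_left ?_ (norm_nonneg h)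
  simp only [Function.uncurry]
  rw [integral_integral_swap hint]
  have hB0 : ∫ _s, B ∂μ = B := by simp [μ]
  rw [← hB0]
  refine integral_mono_ae hint.integral_prod_right (integrable_const B) ?_
  filter_upwards [ae_restrict_mem measurableSet_uIoc] with s hs
  rw [uIoc_of_le zero_le_one] at hs
  exact hB s (Ioc_subset_Icc_self hs)

/-- The cost of all sources at all finer scales. -/
theorem sources_bound (h : Ok D) (hd : 1 ≤ d) {g : EE d → ℝ} (hg : IsPot g D.v) {p n : ℕ}
    (hp : 1 ≤ p) (hn : 2 * n + p ≤ D.T0) :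
    ∑ j ∈ Finset.range n, ∑ i ∈ Finset.range (j + 1), ∫ y, D.src i y *
        conv (Om0 D.ε p (D.lv (j + 1)) (D.lv i)) (nlad D.ε D.v (D.lv (j + 1) - p)) y ≤
      16 * (∑ i ∈ Finset.range n, ∫ y, D.src i y * ‖lad D.ε D.v (D.lv i) y‖) +
        16 * ((p : ℝ) + 3 * (3 + d * 2 ^ d)) * (phi D.ε D.v 0 - phi D.ε D.v D.T0) := by
  set φ := phi D.ε D.v
  have hanti : ∀ {a b : ℕ}, a ≤ b → φ b ≤ φ a := fun hab => phi_anti h.εpos h.contv h.intv hab
  set Cd : ℝ := 3 + d * 2 ^ d
  have hCd : 0 ≤ Cd := by positivity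
  set Φ := φ 0 - φ D.T0
  have hone : ∀ i ∈ Finset.range n,
      ∑ r ∈ Finset.range (n - i), ∫ y, D.src i y *
        conv (Om0 D.ε p (D.lv (i + r + 1)) (D.lv i)) (nlad D.ε D.v (D.lv (i + r + 1) - p)) y ≤
      16 * (∫ y, D.src i y * ‖lad D.ε D.v (D.lv i) y‖) + 16 * (φ (D.lv i - p) - φ (D.lv i)) +
        16 * ∑ r ∈ Finset.range (n - i), Cd * (9 / 16 : ℝ) ^ r *
          (φ (D.lv (i + r + 1) - p) - φ (D.lv (i + r) - p)) := by
    intro i hi
    have hin := Finset.mem_range.1 hi
    have hI : 2 * (n - i) + p ≤ D.lv i := by simp only [Data.lv]; omega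
    have hs := src_prop h hd i
    have := source_bound hd h.εpos hg hp hI hs.1 fun x => (hs.2.2 x).2
    refine le_trans (le_of_eq (Finset.sum_congr rfl fun r hr => ?_)) (this.trans (le_of_eq ?_))
    · have := Finset.mem_range.1 hr
      rw [show D.lv (i + r + 1) = D.lv i - 2 * (r + 1) by simp only [Data.lv]; omega]
    · rw [mul_add, mul_add]
      refine congrArg₂ (· + ·) (congrArg₂ (· + ·) rfl rfl)
        (congrArg _ (Finset.sum_congr rfl fun r hr => ?_))
      have := Finset.mem_range.1 hr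
      rw [show D.lv (i + r + 1) = D.lv i - 2 * (r + 1) by simp only [Data.lv]; omega,
        show D.lv (i + r) = D.lv i - 2 * r by simp only [Data.lv]; omega, pow_mul]
      norm_num
      rfl
  rw [tri_sum (fun j i => ∫ y, D.src i y *
    conv (Om0 D.ε p (D.lv (j + 1)) (D.lv i)) (nlad D.ε D.v (D.lv (j + 1) - p)) y) n]
  refine (Finset.sum_le_sum hone).trans ?_
  rw [Finset.sum_add_distrib, Finset.sum_add_distrib, ← Finset.mul_sum, ← Finset.mul_sum,
    ← Finset.mul_sum]
  have h2 : ∑ i ∈ Finset.range n, (φ (D.lv i - p) - φ (D.lv i)) ≤ (p : ℝ) * Φ := by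
    refine (Finset.sum_le_sum fun i _ => sub_le_sub_right (hanti
      (show D.lv (i + p) ≤ D.lv i - p by simp only [Data.lv]; omega)) _).trans
      (lag_sum (a := φ D.T0) (fun i => φ (D.lv i))
        (fun i => hanti (by simp only [Data.lv]; omega)) (fun i => ?_) n p)
    simp only [Φ]; linarith [hanti (Nat.zero_le (D.lv i))]
  have h3 : ∑ i ∈ Finset.range n, ∑ r ∈ Finset.range (n - i), Cd * (9 / 16 : ℝ) ^ r *
      (φ (D.lv (i + r + 1) - p) - φ (D.lv (i + r) - p)) ≤ 3 * Cd * Φ := by
    have e := tri_sum (fun j i => Cd * (9 / 16 : ℝ) ^ (j - i) *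
      (φ (D.lv (j + 1) - p) - φ (D.lv j - p))) n
    simp only [Nat.add_sub_cancel_left] at e
    rw [← e]
    calc ∑ j ∈ Finset.range n, ∑ i ∈ Finset.range (j + 1), Cd * (9 / 16 : ℝ) ^ (j - i) *
          (φ (D.lv (j + 1) - p) - φ (D.lv j - p))
        ≤ ∑ j ∈ Finset.range n, 3 * Cd * (φ (D.lv (j + 1) - p) - φ (D.lv j - p)) :=
          Finset.sum_le_sum fun j _ => by
            rw [← Finset.sum_mul, ← Finset.mul_sum, mul_comm 3 Cd]
            exact mul_le_mul_of_nonneg_right (mul_le_mul_of_nonneg_left (geo_rev j) hCd)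
              (sub_nonneg.2 (hanti (by simp only [Data.lv]; omega)))
      _ = 3 * Cd * (φ (D.lv n - p) - φ (D.lv 0 - p)) := by
          rw [← Finset.mul_sum, Finset.sum_range_sub (fun j => φ (D.lv j - p))]
      _ ≤ 3 * Cd * Φ := mul_le_mul_of_nonneg_left (sub_le_sub (hanti (Nat.zero_le _))
          (hanti (by simp only [Data.lv]; omega))) (by positivity)
  linarith

theorem abs_W_sub (h : Ok D) (hd : 1 ≤ d) {j : ℕ} (hj : 2 * j ≤ D.T0) (k : Fin M) (x e : EE d) :
    |D.W j k (x + e) - D.W j k x| ≤ ∑ i ∈ Finset.range j,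
      |conv (kern D.ε (D.lv j) (D.lv i)) (D.sig i k) (x + e) -
        conv (kern D.ε (D.lv j) (D.lv i)) (D.sig i k) x| := by
  rw [W_eq h hd j hj, W_eq h hd j hj, ← Finset.sum_sub_distrib]
  exact Finset.abs_sum_le_sum_abs _ _

/-- The translation differences paired with the band errors. -/
theorem grad_part (hd : 1 ≤ d) {m : ℕ} (hm : 5 ≤ m) {K : ℝ} (hK : 1 ≤ K)
    (hmK : 10 * (K + 4) ≤ 4 ^ m) :
    ∃ C, 0 ≤ C ∧ ∀ {M : ℕ} {D : Data d M} {g : EE d → ℝ}, Ok D → IsPot g D.v →
      ∀ {n : ℕ} {idx : ℕ → ℕ}, (∀ L ∈ Finset.Icc 1 n, idx L = D.lv (n + 1 - L) - m) →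
        2 * (n + 1) + m ≤ D.T0 → ∀ (k : Fin M) {h : EE d}, ‖h‖ ≤ rho D.ε 1 / 200 →
        ∑ L ∈ Finset.Icc 1 n, ∫ x, 4 * Flux.fluxErr D.ε D.v K idx L x *
            |bandW D n k L (x - h) - bandW D n k L x| ≤
          ‖h‖ * (C * ((∑ i ∈ Finset.range n, ∫ y, D.src i y * ‖lad D.ε D.v (D.lv i) y‖) +
            (phi D.ε D.v 0 - phi D.ε D.v D.T0))) := by
  obtain ⟨Cd, hCd, hdiff⟩ := diff_bound hd hm
  set cK : ℝ := 8 * (2 * K * (K * (K + 1)) ^ d)
  have hcK : 0 ≤ cK := by
    have : 0 ≤ K := by linarith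
    simp only [cK]; positivity
  set c16 : ℝ := 3 + d * 2 ^ d
  refine ⟨cK * 4 * Cd * (16 + 16 * ((m : ℝ) + 3 * c16) + 12), by
    simp only [c16]; positivity, ?_⟩
  intro M D g hok hg n idx hidx hT k h hh
  have hε := hok.εpos
  set H := nlad D.ε D.v
  set φ := phi D.ε D.v
  set Φ := φ 0 - φ D.T0
  have hanti : ∀ {a b : ℕ}, a ≤ b → φ b ≤ φ a := fun hab => phi_anti hε hok.contv hok.intv hab
  have hΦ : 0 ≤ Φ := sub_nonneg.2 (hanti (Nat.zero_le _))
  set X := fun (j i : ℕ) =>
    ∫ y, D.src i y * conv (Om0 D.ε m (D.lv j) (D.lv i)) (H (D.lv j - m)) y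
  -- one band
  have hband : ∀ L ∈ Finset.Icc 1 n,
      ∫ x, 4 * Flux.fluxErr D.ε D.v K idx L x * |bandW D n k L (x - h) - bandW D n k L x| ≤
        ‖h‖ * (cK * 4 * Cd * ((∑ i ∈ Finset.range (n + 1 - L), X (n + 1 - L) i) +
          3 * (2 * below D.ε D.v (idx L)))) := by
    intro L hL
    obtain ⟨hL1, hLn⟩ := Finset.mem_Icc.1 hL
    set j := n + 1 - L with hj
    set J := D.lv j with hJ
    have hmJ : m + 2 ≤ J := by simp only [hJ, Data.lv]; omega
    set l := idx L with hl
    have hlJ : l = J - m := hidx L hL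
    have hρJ := rho_pos hε J
    have hρl : rho D.ε l * 4 ^ m = rho D.ε J := by
      rw [← rho_add, hlJ, Nat.sub_add_cancel (by omega)]
    have hidxmono : ∀ p ∈ Finset.Icc 1 L, idx p + 2 * (L - p) = l := by
      intro p hp
      obtain ⟨p1, p2⟩ := Finset.mem_Icc.1 hp
      rw [hidx p (Finset.mem_Icc.2 ⟨p1, by omega⟩), hl, hidx L hL]
      simp only [Data.lv]; omega
    -- one pair of an averaged rung and a source
    have hone : ∀ p ∈ Finset.Icc 1 L, ∀ q ∈ Finset.range (idx p), ∀ i ∈ Finset.range j,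
        Integrable (fun x => ballAvg ((K + 1) * rho D.ε (idx p)) (H q) x *
          |conv (kern D.ε J (D.lv i)) (D.sig i k) (x + -h) -
            conv (kern D.ε J (D.lv i)) (D.sig i k) x|) ∧
        ∫ x, ballAvg ((K + 1) * rho D.ε (idx p)) (H q) x *
          |conv (kern D.ε J (D.lv i)) (D.sig i k) (x + -h) -
            conv (kern D.ε J (D.lv i)) (D.sig i k) x| ≤
          Cd * (‖h‖ / rho D.ε J) * (X j i + (9 / 16 : ℝ) ^ (j - 1 - i) * (φ q - φ l)) := by
      intro p hp q hq i hi
      have := hidxmono p hp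
      have := Finset.mem_range.1 hq
      have := Finset.mem_range.1 hi
      have hsrc := src_prop hok hd i
      have hrad : (K + 1) * rho D.ε (idx p) + 2 * rho D.ε (J - m) + ‖-h‖ ≤
          127 / 100 * rho D.ε J := by
        have h1 : rho D.ε (idx p) ≤ rho D.ε l := rho_le' hε (by omega)
        have h2 : rho D.ε 1 ≤ rho D.ε J := rho_le' hε (by omega)
        rw [norm_neg, ← hlJ]
        have h3 := mul_le_mul_of_nonneg_left hmK (rho_pos hε l).le
        nlinarith [mul_le_mul_of_nonneg_left h1 (show (0 : ℝ) ≤ K + 1 by linarith), rho_pos hε l]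
      obtain ⟨hI, hB⟩ := hdiff hε hg (J := J) (T := D.lv i) (i := q) (by omega)
        (by simp only [hJ, Data.lv]; omega) (by omega) (sig_prop hok hd i k).1 hsrc.1
        (abs_sig_le hok hd i k) (fun x => (hsrc.2.2 x).2)
        (mul_pos (by linarith) (rho_pos hε _)) hrad
      refine ⟨hI, hB.trans (le_of_eq ?_)⟩
      rw [norm_neg, ← hlJ, show D.lv i - (J + 2) = 2 * (j - 1 - i) by
        simp only [hJ, Data.lv]; omega, pow_mul, show (3 / 4 : ℝ) ^ 2 = 9 / 16 by norm_num]
      simp only [X, ← hJ, ← hlJ]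
      rfl
    set Y := fun (i : ℕ) (x : EE d) => |conv (kern D.ε J (D.lv i)) (D.sig i k) (x + -h) -
      conv (kern D.ε J (D.lv i)) (D.sig i k) x|
    have hpt : ∀ x, 4 * Flux.fluxErr D.ε D.v K idx L x *
        |bandW D n k L (x - h) - bandW D n k L x| ≤
        ∑ p ∈ Finset.Icc 1 L, ∑ q ∈ Finset.range (idx p), ∑ i ∈ Finset.range j,
          cK * (4 * rho D.ε q) * (ballAvg ((K + 1) * rho D.ε (idx p)) (H q) x * Y i x) := by
      intro x
      have hW : |bandW D n k L (x - h) - bandW D n k L x| ≤ ∑ i ∈ Finset.range j, Y i x := by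
        rw [bandW_eq D n k hL1, sub_eq_add_neg x h]
        exact abs_W_sub hok hd (by omega) k x (-h)
      have e : 4 * Flux.fluxErr D.ε D.v K idx L x = ∑ p ∈ Finset.Icc 1 L,
          ∑ q ∈ Finset.range (idx p),
            cK * (4 * rho D.ε q) * ballAvg ((K + 1) * rho D.ε (idx p)) (H q) x := by
        simp only [Flux.fluxErr, bandErr, Finset.mul_sum]
        refine Finset.sum_congr rfl fun p _ => Finset.sum_congr rfl fun q hq => ?_
        have hqp := Finset.mem_range.1 hq
        have e1 : rho D.ε (idx p) * (1 / 4 : ℝ) ^ (idx p - 1 - q) = 4 * rho D.ε q := by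
          obtain ⟨c, hc⟩ := Nat.exists_eq_add_of_le (show q + 1 ≤ idx p by omega)
          have h1 : idx p - 1 - q = c := by omega
          rw [h1, hc, show q + 1 + c = q + (c + 1) by omega, rho_add, pow_succ, mul_assoc,
            mul_right_comm ((4 : ℝ) ^ c), ← mul_pow]
          norm_num
          ring
        rw [← e1]
        simp only [cK]
        show _ = _ * (rho D.ε (idx p) * _) * ballAvg _ (fun y => ‖lad D.ε D.v q y‖) x
        ring
      have h0 : 0 ≤ 4 * Flux.fluxErr D.ε D.v K idx L x := by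
        rw [e]
        exact Finset.sum_nonneg fun p _ => Finset.sum_nonneg fun q _ => mul_nonneg
          (mul_nonneg hcK (by linarith [rho_pos hε q]))
          (ballAvg_nonneg _ (fun y => norm_nonneg _) x)
      refine (mul_le_mul_of_nonneg_left hW h0).trans (le_of_eq ?_)
      rw [e, Finset.sum_mul]
      refine Finset.sum_congr rfl fun p _ => ?_
      rw [Finset.sum_mul]
      refine Finset.sum_congr rfl fun q _ => ?_
      rw [Finset.mul_sum]
      exact Finset.sum_congr rfl fun i _ => by ring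
    have hIi : ∀ p ∈ Finset.Icc 1 L, ∀ q ∈ Finset.range (idx p), ∀ i ∈ Finset.range j,
        Integrable fun x => cK * (4 * rho D.ε q) *
          (ballAvg ((K + 1) * rho D.ε (idx p)) (H q) x * Y i x) :=
      fun p hp q hq i hi => (hone p hp q hq i hi).1.const_mul _
    refine (integral_mono_of_nonneg (.of_forall fun x => ?_)
      (integrable_finsetSum _ fun p hp => integrable_finsetSum _ fun q hq =>
        integrable_finsetSum _ fun i hi => hIi p hp q hq i hi) (.of_forall hpt)).trans ?_
    · refine mul_nonneg (mul_nonneg (by norm_num) ?_) (abs_nonneg _)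
      have hK0 : (0 : ℝ) ≤ K := by linarith
      refine mul_nonneg two_pos.le (Finset.sum_nonneg fun p _ => mul_nonneg (by positivity) ?_)
      exact mul_nonneg (rho_pos hε _).le (Finset.sum_nonneg fun q _ => mul_nonneg (by positivity)
        (ballAvg_nonneg _ (fun y => norm_nonneg _) x))
    rw [integral_finsetSum _ fun p hp => integrable_finsetSum _ fun q hq =>
      integrable_finsetSum _ fun i hi => hIi p hp q hq i hi]
    set S1 := ∑ i ∈ Finset.range j, X j i
    have hS1 : 0 ≤ S1 := Finset.sum_nonneg fun i hi => integral_nonneg fun y =>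
      mul_nonneg ((src_prop hok hd i).2.2 y).2.1
        ((isSub_Om0 hε (by have := Finset.mem_range.1 hi; simp only [Data.lv]; omega)).conv_nonneg
          (fun x => norm_nonneg _) y)
    have hgeo : ∑ i ∈ Finset.range j, (9 / 16 : ℝ) ^ (j - 1 - i) ≤ 3 := by
      rw [show j = j - 1 + 1 by omega, Nat.add_sub_cancel]
      exact geo_rev (j - 1)
    calc ∑ p ∈ Finset.Icc 1 L, ∫ x, ∑ q ∈ Finset.range (idx p), ∑ i ∈ Finset.range j,
          cK * (4 * rho D.ε q) * (ballAvg ((K + 1) * rho D.ε (idx p)) (H q) x * Y i x)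
        ≤ ∑ p ∈ Finset.Icc 1 L, ∑ q ∈ Finset.range (idx p),
            cK * 4 * Cd * (‖h‖ / rho D.ε J) *
              (rho D.ε q * S1 + 3 * (rho D.ε q * (φ q - φ l))) := by
          refine Finset.sum_le_sum fun p hp => ?_
          rw [integral_finsetSum _ fun q hq => integrable_finsetSum _ fun i hi => hIi p hp q hq i hi]
          refine Finset.sum_le_sum fun q hq => ?_
          rw [integral_finsetSum _ fun i hi => hIi p hp q hq i hi]
          have hql : 0 ≤ φ q - φ l := sub_nonneg.2 (hanti (by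
            have := hidxmono p hp; have := Finset.mem_range.1 hq; omega))
          calc ∑ i ∈ Finset.range j, ∫ x, cK * (4 * rho D.ε q) *
                (ballAvg ((K + 1) * rho D.ε (idx p)) (H q) x * Y i x)
              ≤ ∑ i ∈ Finset.range j, cK * (4 * rho D.ε q) * (Cd * (‖h‖ / rho D.ε J) *
                  (X j i + (9 / 16 : ℝ) ^ (j - 1 - i) * (φ q - φ l))) :=
                Finset.sum_le_sum fun i hi => by
                  rw [integral_const_mul]
                  exact mul_le_mul_of_nonneg_left (hone p hp q hq i hi).2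
                    (mul_nonneg hcK (by linarith [rho_pos hε q]))
            _ = cK * 4 * Cd * (‖h‖ / rho D.ε J) * (rho D.ε q *
                  (S1 + (∑ i ∈ Finset.range j, (9 / 16 : ℝ) ^ (j - 1 - i)) * (φ q - φ l))) := by
                simp only [S1, Finset.sum_mul, mul_add, Finset.mul_sum, Finset.sum_add_distrib]
                exact congrArg₂ (· + ·) (Finset.sum_congr rfl fun i _ => by ring)
                  (Finset.sum_congr rfl fun i _ => by ring)
            _ ≤ _ := by
                refine mul_le_mul_of_nonneg_left ?_ (by positivity)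
                rw [mul_add, mul_left_comm 3 (rho D.ε q)]
                exact add_le_add le_rfl (mul_le_mul_of_nonneg_left
                  (mul_le_mul_of_nonneg_right hgeo hql) (rho_pos hε q).le)
      _ = cK * 4 * Cd * (‖h‖ / rho D.ε J) *
            ((∑ p ∈ Finset.Icc 1 L, ∑ q ∈ Finset.range (idx p), rho D.ε q) * S1 +
              3 * ∑ p ∈ Finset.Icc 1 L, ∑ q ∈ Finset.range (idx p), rho D.ε q * (φ q - φ l)) := by
          simp only [Finset.sum_mul, mul_add, Finset.mul_sum, Finset.sum_add_distrib]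
      _ ≤ cK * 4 * Cd * (‖h‖ / rho D.ε J) *
            (rho D.ε l * S1 + 3 * (rho D.ε l * (2 * below D.ε D.v l))) := by
          have hstep : ∀ p, 1 ≤ p → p < L → idx (p + 1) = idx p + 2 := fun p p1 p2 => by
            have := hidxmono p (Finset.mem_Icc.2 ⟨p1, p2.le⟩)
            have := hidxmono (p + 1) (Finset.mem_Icc.2 ⟨by omega, p2⟩)
            omega
          have hq4 : ∀ a : ℕ, ∑ q ∈ Finset.range a, rho D.ε q ≤ rho D.ε a / 3 := by
            intro a
            induction a with
            | zero => simp; linarith [rho_pos hε 0]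
            | succ a ih => rw [Finset.sum_range_succ, rho_succ']; linarith
          have hsum1 : ∑ p ∈ Finset.Icc 1 L, ∑ q ∈ Finset.range (idx p), rho D.ε q ≤ rho D.ε l := by
            refine (Finset.sum_le_sum fun p _ => hq4 (idx p)).trans ?_
            rw [← Finset.sum_div]
            have := mul_le_mul_of_nonneg_left
              (sum_pow_idx idx (b := 4) (by norm_num) L hL1 hstep) hε.le
            rw [Finset.mul_sum] at this
            simp only [rho, hl]
            linarith [mul_nonneg hε.le (pow_nonneg (show (0 : ℝ) ≤ 4 by norm_num) (idx L))]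
          have hsum2 : ∑ p ∈ Finset.Icc 1 L, ∑ q ∈ Finset.range (idx p), rho D.ε q * (φ q - φ l) ≤
              rho D.ε l * (2 * below D.ε D.v l) := by
            set Z := D.ε * ∑ q ∈ Finset.range l, (2 : ℝ) ^ q * (φ q - φ l)
            have hpZ : ∀ p ∈ Finset.Icc 1 L,
                ∑ q ∈ Finset.range (idx p), rho D.ε q * (φ q - φ l) ≤ (2 : ℝ) ^ idx p * Z := by
              intro p hp
              have hpl := hidxmono p hp
              simp only [Z, Finset.mul_sum]
              refine le_trans (Finset.sum_le_sum fun q hq => ?_)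
                (Finset.sum_le_sum_of_subset_of_nonneg (Finset.range_mono (by omega : idx p ≤ l))
                  fun q hq _ => ?_)
              · have hqp := Finset.mem_range.1 hq
                have h4 : (4 : ℝ) ^ q ≤ 2 ^ idx p * 2 ^ q := by
                  rw [show (4 : ℝ) = 2 * 2 by norm_num, mul_pow]
                  exact mul_le_mul_of_nonneg_right (pow_le_pow_right₀ (by norm_num) hqp.le)
                    (by positivity)
                calc rho D.ε q * (φ q - φ l) = (4 : ℝ) ^ q * (D.ε * (φ q - φ l)) := by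
                      rw [rho]; ring
                  _ ≤ 2 ^ idx p * 2 ^ q * (D.ε * (φ q - φ l)) :=
                      mul_le_mul_of_nonneg_right h4 (mul_nonneg hε.le
                        (sub_nonneg.2 (hanti (by omega))))
                  _ = _ := by ring
              · exact mul_nonneg (by positivity) (mul_nonneg hε.le (mul_nonneg (by positivity)
                  (sub_nonneg.2 (hanti (Finset.mem_range.1 hq).le))))
            refine (Finset.sum_le_sum hpZ).trans ?_
            rw [← Finset.sum_mul]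
            refine (mul_le_mul_of_nonneg_right (sum_pow_idx idx (b := 2) le_rfl L hL1 hstep)
              (mul_nonneg hε.le (Finset.sum_nonneg fun q hq => mul_nonneg (by positivity)
                (sub_nonneg.2 (hanti (Finset.mem_range.1 hq).le))))).trans (le_of_eq ?_)
            simp only [Z, below, Finset.mul_sum, ← hl, rho]
            refine Finset.sum_congr rfl fun q hq => ?_
            obtain ⟨c, hc⟩ := Nat.exists_eq_add_of_le (Finset.mem_range.1 hq).le
            rw [hc, Nat.add_sub_cancel_left, pow_add, pow_add,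
              show (4 : ℝ) = 2 * 2 by norm_num, mul_pow, mul_pow, one_div, inv_pow]
            have : (2 : ℝ) ^ c ≠ 0 := by positivity
            field_simp
            rfl
          refine mul_le_mul_of_nonneg_left (add_le_add (mul_le_mul_of_nonneg_right hsum1 hS1)
            (mul_le_mul_of_nonneg_left hsum2 (by norm_num))) (by positivity)
      _ ≤ _ := by
          have hb := below_nonneg hε hok.contv hok.intv l
          have h1 : rho D.ε l / rho D.ε J ≤ 1 :=
            (div_le_one hρJ).2 (rho_le' hε (by omega))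
          have e : cK * 4 * Cd * (‖h‖ / rho D.ε J) *
              (rho D.ε l * S1 + 3 * (rho D.ε l * (2 * below D.ε D.v l))) =
              rho D.ε l / rho D.ε J *
                (‖h‖ * (cK * 4 * Cd * (S1 + 3 * (2 * below D.ε D.v l)))) := by
            field_simp
          rw [e]
          exact mul_le_of_le_one_left (by positivity) h1
  refine (Finset.sum_le_sum hband).trans ?_
  rw [← Finset.mul_sum, ← Finset.mul_sum, Finset.sum_add_distrib]
  refine mul_le_mul_of_nonneg_left ?_ (norm_nonneg h)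
  rw [mul_assoc _ (16 + 16 * ((m : ℝ) + 3 * c16) + 12)]
  refine mul_le_mul_of_nonneg_left ?_ (by positivity)
  have hX : ∑ L ∈ Finset.Icc 1 n, ∑ i ∈ Finset.range (n + 1 - L), X (n + 1 - L) i ≤
      16 * (∑ i ∈ Finset.range n, ∫ y, D.src i y * ‖lad D.ε D.v (D.lv i) y‖) +
        16 * ((m : ℝ) + 3 * c16) * Φ := by
    refine le_trans (le_of_eq ?_)
      (sources_bound hok hd hg (p := m) (n := n) (by omega) (by omega))
    refine Finset.sum_nbij' (fun L => n - L) (fun j => n - j) ?_ ?_ ?_ ?_ ?_
    · intro L hL; simp only [Finset.mem_coe, Finset.mem_Icc, Finset.mem_range] at hL ⊢; omega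
    · intro j hj; simp only [Finset.mem_coe, Finset.mem_Icc, Finset.mem_range] at hj ⊢; omega
    · intro L hL; simp only [Finset.mem_coe, Finset.mem_Icc] at hL; show n - (n - L) = L; omega
    · intro j hj; simp only [Finset.mem_coe, Finset.mem_range] at hj; show n - (n - j) = j; omega
    · intro L hL
      simp only [Finset.mem_Icc] at hL
      simp only [X, H, show n - L + 1 = n + 1 - L by omega]
  have hG : ∑ L ∈ Finset.Icc 1 n, below D.ε D.v (idx L) ≤ 2 * Φ := by
    have hinj : ∀ a ∈ Finset.Icc 1 n, ∀ b ∈ Finset.Icc 1 n, idx a = idx b → a = b := by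
      intro a ha b hb hab
      rw [hidx a ha, hidx b hb] at hab
      simp only [Finset.mem_Icc] at ha hb
      simp only [Data.lv] at hab
      omega
    rw [← Finset.sum_image hinj]
    refine le_trans (Finset.sum_le_sum_of_subset_of_nonneg (t := Finset.range (D.T0 + 1)) ?_
      fun q _ _ => below_nonneg hε hok.contv hok.intv q)
      (le_trans (le_add_of_nonneg_right (below_nonneg hε hok.contv hok.intv D.T0))
        (sum_below_le hε hok.contv hok.intv D.T0))
    intro q hq
    obtain ⟨L, hL, rfl⟩ := Finset.mem_image.1 hq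
    rw [Finset.mem_range, hidx L hL]
    simp only [Data.lv]; omega
  simp only [← Finset.mul_sum]
  set S := ∑ i ∈ Finset.range n, ∫ y, D.src i y * ‖lad D.ε D.v (D.lv i) y‖
  have hS : 0 ≤ S := Finset.sum_nonneg fun i _ => integral_nonneg fun y =>
    mul_nonneg ((src_prop hok hd i).2.2 y).2.1 (norm_nonneg _)
  have hc : 0 ≤ (m : ℝ) + 3 * c16 := by simp only [c16]; positivity
  nlinarith [mul_nonneg hc hS]

/-- The upper ends of the runs paired with the ladder differences. -/
theorem top_part (hd : 1 ≤ d) {m : ℕ} (hm : 5 ≤ m) :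
    ∃ C, 0 ≤ C ∧ ∀ {M : ℕ} {D : Data d M} {g : EE d → ℝ}, Ok D → IsPot g D.v →
      ∀ {n : ℕ} {idx : ℕ → ℕ}, (∀ L ∈ Finset.Icc 1 n, idx L = D.lv (n + 1 - L) - m) →
        2 * (n + 1) + m ≤ D.T0 → ∀ (k : Fin M) {h : EE d}, ‖h‖ ≤ rho D.ε 1 / 200 →
        ∑ L ∈ Finset.Icc 1 n, ∫ x, max 0 (bandW D n k L x - bandW D n k (L + 1) x) *
            |lad D.ε g (idx L) (x + h) - lad D.ε g (idx L) x| ≤
          ‖h‖ * (C * ((∑ i ∈ Finset.range n, ∫ y, D.src i y * ‖lad D.ε D.v (D.lv i) y‖) +
            (phi D.ε D.v 0 - phi D.ε D.v D.T0))) := by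
  obtain ⟨Cs, hCs, hstep⟩ := step_bound hd (show 5 ≤ m + 2 by omega)
  obtain ⟨Cf, hCf, hfresh⟩ := fresh_bound hd hm
  set c16 : ℝ := 3 + d * 2 ^ d
  refine ⟨Cs * (16 + 16 * (((m + 2 : ℕ) : ℝ) + 3 * c16)) + Cf * ((m : ℝ) + 3), by
    simp only [c16]; positivity, ?_⟩
  intro M D g hok hg n idx hidx hT k h hh
  have hε := hok.εpos
  set H := nlad D.ε D.v
  set φ := phi D.ε D.v
  set Φ := φ 0 - φ D.T0
  have hanti : ∀ {a b : ℕ}, a ≤ b → φ b ≤ φ a := fun hab => phi_anti hε hok.contv hok.intv hab
  set X := fun (j i : ℕ) =>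
    ∫ y, D.src i y * conv (Om0 D.ε (m + 2) (D.lv j) (D.lv i)) (H (D.lv j - (m + 2))) y
  set Fr := fun (j : ℕ) =>
    (∫ y, D.src j y * ‖lad D.ε D.v (D.lv j) y‖) + (φ (D.lv j - 2 - m) - φ (D.lv j))
  have hband : ∀ L ∈ Finset.Icc 1 n, ∫ x, max 0 (bandW D n k L x - bandW D n k (L + 1) x) *
      |lad D.ε g (idx L) (x + h) - lad D.ε g (idx L) x| ≤
      ‖h‖ * (Cs * ∑ i ∈ Finset.range (n - L), X (n - L) i + Cf * Fr (n - L)) := by
    intro L hL
    obtain ⟨hL1, hLn⟩ := Finset.mem_Icc.1 hL
    set j := n - L with hj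
    set J := D.lv j with hJ
    have hmJ : m + 2 ≤ J := by simp only [hJ, Data.lv]; omega
    have eL : bandW D n k L = D.W (j + 1) k := by
      rw [bandW_eq D n k hL1, show n + 1 - L = j + 1 by omega]
    have eL1 : bandW D n k (L + 1) = D.W j k := by
      rw [bandW_eq D n k (by omega), show n + 1 - (L + 1) = j by omega]
    have el : idx L = J - 2 - m := by
      rw [hidx L hL]; simp only [hJ, Data.lv]; omega
    rw [eL, eL1, el]
    have hP : ∀ x, 0 ≤ max 0 (D.W (j + 1) k x - D.W j k x) ∧
        max 0 (D.W (j + 1) k x - D.W j k x) ≤ 1 := fun x =>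
      ⟨le_max_left _ _, max_le zero_le_one (by
        linarith [W_le_one hok hd (j + 1) k x, W_nonneg hok hd j k x])⟩
    refine shift_pair (isPot_lad hε hg (J - 2 - m))
      (measurable_const.max ((measurable_W hok hd (j + 1) k).sub (measurable_W hok hd j k)))
      hP h fun s hs => ?_
    set u := s • h
    have hu : ‖u‖ ≤ rho D.ε 1 / 200 := by
      simp only [u, norm_smul, Real.norm_of_nonneg hs.1]
      exact (mul_le_of_le_one_left (norm_nonneg h) hs.2).trans hh
    have hlvj : D.lv (j + 1) = J - 2 := by simp only [hJ, Data.lv]; omega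
    have h1J : rho D.ε 1 ≤ rho D.ε J := rho_le' hε (by omega)
    have hJ0 := rho_pos hε J
    have hsrc := fun i => src_prop hok hd i
    have hA : ∀ i ∈ Finset.range j,
        Integrable (fun x => H (J - 2 - m) (x + u) *
          |conv (kern D.ε (J - 2) (D.lv i)) (D.sig i k) x -
            conv (kern D.ε J (D.lv i)) (D.sig i k) x|) ∧
        ∫ x, H (J - 2 - m) (x + u) * |conv (kern D.ε (J - 2) (D.lv i)) (D.sig i k) x -
            conv (kern D.ε J (D.lv i)) (D.sig i k) x| ≤ Cs * X j i := by
      intro i hi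
      have := Finset.mem_range.1 hi
      have hh' := hstep hε hg (J := J) (T := D.lv i) hmJ (by simp only [hJ, Data.lv]; omega)
        (sig_prop hok hd i k).1 (hsrc i).1 (abs_sig_le hok hd i k) (fun x => ((hsrc i).2.2 x).2)
        (u := u) (by linarith)
      rw [show J - (m + 2) = J - 2 - m by omega] at hh'
      simp only [X, H, ← hJ, show J - (m + 2) = J - 2 - m by omega]
      exact hh'
    obtain ⟨hBi, hB⟩ := hfresh hε hg (T := J) hmJ (sig_prop hok hd j k).1 (hsrc j).1
      (abs_sig_le hok hd j k) (fun x => ((hsrc j).2.2 x).2) (u := u) (by linarith)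
    have hpt : ∀ x, max 0 (D.W (j + 1) k x - D.W j k x) * ‖lad D.ε D.v (J - 2 - m) (x + u)‖ ≤
        (∑ i ∈ Finset.range j, H (J - 2 - m) (x + u) *
          |conv (kern D.ε (J - 2) (D.lv i)) (D.sig i k) x -
            conv (kern D.ε J (D.lv i)) (D.sig i k) x|) +
        H (J - 2 - m) (x + u) * |conv (kern D.ε (J - 2) J) (D.sig j k) x| := by
      intro x
      rw [← Finset.mul_sum, ← mul_add, mul_comm]
      refine mul_le_mul_of_nonneg_left ?_ (norm_nonneg _)
      refine max_le (by positivity) ?_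
      rw [W_eq hok hd (j + 1) (by omega), W_eq hok hd j (by omega), Finset.sum_range_succ, hlvj,
        ← hJ, add_sub_right_comm, ← Finset.sum_sub_distrib]
      exact add_le_add (Finset.sum_le_sum fun i _ => le_abs_self _) (le_abs_self _)
    refine (integral_mono_of_nonneg (.of_forall fun x => mul_nonneg (hP x).1 (norm_nonneg _))
      ((integrable_finsetSum _ fun i hi => (hA i hi).1).add hBi) (.of_forall hpt)).trans ?_
    simp only [Pi.add_apply]
    rw [integral_add (integrable_finsetSum _ fun i hi => (hA i hi).1) hBi,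
      integral_finsetSum _ fun i hi => (hA i hi).1, Finset.mul_sum]
    exact add_le_add (Finset.sum_le_sum fun i hi => (hA i hi).2) hB
  refine (Finset.sum_le_sum hband).trans ?_
  rw [← Finset.mul_sum]
  refine mul_le_mul_of_nonneg_left ?_ (norm_nonneg h)
  have e : ∀ f : ℕ → ℝ, ∑ L ∈ Finset.Icc 1 n, f (n - L) = ∑ j ∈ Finset.range n, f j := by
    intro f
    refine Finset.sum_nbij' (fun L => n - L) (fun j => n - j) ?_ ?_ ?_ ?_ ?_
    · intro L hL; simp only [Finset.mem_coe, Finset.mem_Icc, Finset.mem_range] at hL ⊢; omega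
    · intro j hj; simp only [Finset.mem_coe, Finset.mem_Icc, Finset.mem_range] at hj ⊢; omega
    · intro L hL; simp only [Finset.mem_coe, Finset.mem_Icc] at hL; show n - (n - L) = L; omega
    · intro j hj; simp only [Finset.mem_coe, Finset.mem_range] at hj; show n - (n - j) = j; omega
    · intro L _; rfl
  rw [e (fun j => Cs * ∑ i ∈ Finset.range j, X j i + Cf * Fr j), Finset.sum_add_distrib,
    ← Finset.mul_sum, ← Finset.mul_sum]
  set S := ∑ i ∈ Finset.range n, ∫ y, D.src i y * ‖lad D.ε D.v (D.lv i) y‖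
  have hX : ∑ j ∈ Finset.range n, ∑ i ∈ Finset.range j, X j i ≤
      16 * S + 16 * (((m + 2 : ℕ) : ℝ) + 3 * c16) * Φ := by
    refine le_trans ?_ (sources_bound hok hd hg (p := m + 2) (n := n) (by omega) (by omega))
    cases n with
    | zero => simp
    | succ n =>
      rw [Finset.sum_range_succ' (fun j => ∑ i ∈ Finset.range j, X j i), Finset.sum_range_succ]
      simp only [Finset.range_zero, Finset.sum_empty, add_zero, X, H]
      refine le_add_of_nonneg_right (Finset.sum_nonneg fun i hi => integral_nonneg fun y => ?_)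
      exact mul_nonneg ((src_prop hok hd i).2.2 y).2.1
        ((isSub_Om0 hε (by have := Finset.mem_range.1 hi; simp only [Data.lv]; omega)).conv_nonneg
          (fun x => norm_nonneg _) y)
  have hF : ∑ j ∈ Finset.range n, Fr j ≤ S + ((m : ℝ) + 2) * Φ := by
    simp only [Fr, Finset.sum_add_distrib]
    refine add_le_add le_rfl ?_
    refine (Finset.sum_le_sum fun i _ => sub_le_sub_right (hanti
      (show D.lv (i + (m + 2)) ≤ D.lv i - 2 - m by simp only [Data.lv]; omega)) _).trans
      ((lag_sum (a := φ D.T0) (Φ := Φ) (fun i => φ (D.lv i))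
        (fun i => hanti (by simp only [Data.lv]; omega))
        (fun i => by simp only [Φ]; linarith [hanti (Nat.zero_le (D.lv i))]) n (m + 2)).trans
        (le_of_eq (by push_cast; ring)))
  have hS : 0 ≤ S := Finset.sum_nonneg fun i _ => integral_nonneg fun y =>
    mul_nonneg ((src_prop hok hd i).2.2 y).2.1 (norm_nonneg _)
  have hΦ : 0 ≤ Φ := sub_nonneg.2 (hanti (Nat.zero_le _))
  have hc : 0 ≤ ((m + 2 : ℕ) : ℝ) + 3 * c16 := by simp only [c16]; positivity
  refine (add_le_add (mul_le_mul_of_nonneg_left hX hCs) (mul_le_mul_of_nonneg_left hF hCf)).trans ?_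
  nlinarith [mul_nonneg (mul_nonneg hCs hc) hS, mul_nonneg hCs hΦ, mul_nonneg hCf hΦ,
    mul_nonneg (mul_nonneg hCf (Nat.cast_nonneg m : (0 : ℝ) ≤ m)) hS, mul_nonneg hCf hS]

/-- The hypothesis of `Flux.flux_deriv` for small translations, and its conclusion. -/
theorem weights_flux (hd : 1 ≤ d) {m : ℕ} (hm : 5 ≤ m) {K δ : ℝ} (hK : 1 ≤ K)
    (hmK : 10 * (K + 4) ≤ 4 ^ m) (hδ : 0 < δ) :
    ∃ C, 0 ≤ C ∧ ∀ {M : ℕ} {D : Data d M} {g : EE d → ℝ}, Ok D → D.δ = δ → IsPot g D.v →
      ∀ {n : ℕ} {edge : ℕ → ℝ} {idx : ℕ → ℕ}, Flux.Levels D.ε K n edge idx →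
        (∀ L ∈ Finset.Icc 1 n, idx L = D.lv (n + 1 - L) - m) → 2 * (n + 1) + m ≤ D.T0 →
        ∀ (k0 : Fin M) (k : EE d), ‖k‖ ≤ 1 →
          (∀ p ∈ (Flux.pairs n).filter (fun p => p.1 ≤ p.2), Integrable fun x =>
            Flux.coef (fun L => bandW D n k0 L x) p * fderiv ℝ (Flux.segF edge g p) x k) ∧
          ∑ p ∈ (Flux.pairs n).filter (fun p => p.1 ≤ p.2), ∫ x,
            Flux.coef (fun L => bandW D n k0 L x) p * fderiv ℝ (Flux.segF edge g p) x k ≤
            C * (phi D.ε D.v 0 - phi D.ε D.v D.T0 +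
              ∑ i ∈ Finset.range n, ∫ x, D.birth i x * ‖lad D.ε D.v (D.lv i) x‖) := by
  obtain ⟨Cg, hCg, hgrad⟩ := grad_part hd hm hK hmK
  obtain ⟨Ct, hCt, htop⟩ := top_part hd hm
  refine ⟨(Cg + Ct) * (2 / δ + 3), by positivity, ?_⟩
  intro M D g hok hDδ hg n edge idx hlev hidx hT k0 k hk
  have hε := hok.εpos
  set Φ := phi D.ε D.v 0 - phi D.ε D.v D.T0
  set B := ∑ i ∈ Finset.range n, ∫ x, D.birth i x * ‖lad D.ε D.v (D.lv i) x‖
  set S := ∑ i ∈ Finset.range n, ∫ y, D.src i y * ‖lad D.ε D.v (D.lv i) y‖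
  have hΦ : 0 ≤ Φ := sub_nonneg.2 (phi_anti hε hok.contv hok.intv (Nat.zero_le _))
  have hB : 0 ≤ B := Finset.sum_nonneg fun i _ => integral_nonneg fun y =>
    mul_nonneg ((birth_prop hok hd i).2 y).1 (norm_nonneg _)
  have hS : S + Φ ≤ (2 / δ + 3) * (Φ + B) := by
    have h1 : S ≤ 2 / D.δ * (phi D.ε D.v (D.lv n) - phi D.ε D.v D.T0) + 2 * B :=
      sum_src_le hok hd (by omega : 2 * n ≤ D.T0)
    rw [hDδ] at h1
    have h2 := mul_le_mul_of_nonneg_left (sub_le_sub_right
      (phi_anti hε hok.contv hok.intv (Nat.zero_le (D.lv n))) (phi D.ε D.v D.T0))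
      (show 0 ≤ 2 / δ by positivity)
    have h3 : 0 ≤ 2 / δ * B := by positivity
    linarith
  set τ := rho D.ε 1 / 200
  set c := min 1 τ
  have hc : 0 < c := lt_min one_pos (by have := rho_pos hε 1; positivity)
  set E := (Cg + Ct) * (2 / δ + 3) * (Φ + B)
  have hE : 0 ≤ E := by positivity
  have hflux := Flux.flux_deriv (K := K) hlev hε hg (measurable_bandW hok hd n k0)
    (isWeight_bandW hok hd n k0) (c • k) (Kc := c * E) fun t ht ht1 => by
      have hnorm : ‖t • c • k‖ ≤ t * c := by
        rw [norm_smul, norm_smul, Real.norm_of_nonneg ht.le, Real.norm_of_nonneg hc.le]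
        exact mul_le_mul_of_nonneg_left (mul_le_of_le_one_right hc.le hk) ht.le
      have hsmall : ‖t • c • k‖ ≤ rho D.ε 1 / 200 :=
        hnorm.trans ((mul_le_of_le_one_left hc.le ht1).trans (min_le_right _ _))
      have hS0 : 0 ≤ S + Φ := add_nonneg (Finset.sum_nonneg fun i _ => integral_nonneg fun y =>
        mul_nonneg ((src_prop hok hd i).2.2 y).2.1 (norm_nonneg _)) hΦ
      calc _ ≤ ‖t • c • k‖ * (Ct * (S + Φ)) + ‖t • c • k‖ * (Cg * (S + Φ)) :=
            add_le_add (htop hok hg hidx hT k0 hsmall) (hgrad hok hg hidx hT k0 hsmall)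
        _ = ‖t • c • k‖ * ((Cg + Ct) * (S + Φ)) := by ring
        _ ≤ (t * c) * E := mul_le_mul hnorm (by
              simp only [E]; rw [mul_assoc _ (2 / δ + 3)]
              exact mul_le_mul_of_nonneg_left hS (by positivity)) (by positivity) (by positivity)
        _ = t * (c * E) := mul_assoc _ _ _
  obtain ⟨hI, hle⟩ := hflux
  have hlin : ∀ p x, fderiv ℝ (Flux.segF edge g p) x (c • k) =
      c * fderiv ℝ (Flux.segF edge g p) x k := fun p x => by rw [map_smul, smul_eq_mul]
  simp only [hlin, mul_left_comm _ c] at hI hle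
  refine ⟨fun p hp => ?_, ?_⟩
  · have := (hI p hp).const_mul c⁻¹
    simpa only [inv_mul_cancel_left₀ hc.ne'] using this
  · simp only [integral_const_mul, ← Finset.mul_sum] at hle
    exact le_of_mul_le_mul_left hle hc

end Vale.Agent.P137.Weights
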