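import Vale.Agent.P137.Centred.MasterSpec
import Vale.Agent.P137.Centred.Descent
import Vale.Agent.P137.Centred.BandInt
import Vale.Agent.P137.Centred.Births
import Vale.Agent.P137.Centred.Weights
import Vale.Agent.P137.Approx

/-!
The master step for the centred operator.

Proof notes.  The radii are cut into bands of ratio `16` with band `L` at ladder level `2 L`, and
the states at level `2 L + 5` weight the band.  Where the weights of the band of the maximiser sum
to one, the gradient norm is at most six times the layered directional derivatives plus the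
misdirected parts in the bands.  The first is the flux, the second the band integrals; both are
bounded by drops of the mass along the ladder and by the births.
-/

namespace Vale.Agent.P137

open MeasureTheory Metric Filter Topology Set
open scoped RealInnerProductSpace ENNReal

variable {d M : ℕ}

namespace MasterC

open Weights

theorem exists_net (d : ℕ) {δ : ℝ} (hδ : 0 < δ) :
    ∃ (M : ℕ) (dir : Fin M → EE d), Net δ dir := by
  obtain ⟨t, hts, htf, hcov⟩ :=
    finite_cover_balls_of_compact (isCompact_sphere (0 : EE d) 1) (Real.sqrt_pos.2 hδ)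
  obtain ⟨M, dir, hinj, hran⟩ := htf.fin_param
  refine ⟨M, dir, hδ, fun k => mem_sphere_zero_iff_norm.1 (hts (hran ▸ mem_range_self k)), ?_⟩
  intro e he
  obtain ⟨p, hp, hep⟩ := mem_iUnion₂.1 (hcov (mem_sphere_zero_iff_norm.2 he))
  obtain ⟨k, rfl⟩ := hran.symm ▸ hp
  have hk : ‖dir k‖ = 1 := mem_sphere_zero_iff_norm.1 (hts (hran ▸ mem_range_self k))
  rw [mem_ball, dist_eq_norm, norm_sub_rev] at hep
  have h2 : ‖dir k - e‖ ^ 2 < δ := by
    rw [← Real.sq_sqrt hδ.le]
    exact pow_lt_pow_left₀ hep (norm_nonneg _) two_ne_zero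
  rw [norm_sub_sq_real, he, hk] at h2
  exact ⟨k, by linarith⟩

/-- The edges of the bands. -/
noncomputable def edgeM (a b : ℝ) (L : ℕ) : ℝ := min (a * 16 ^ (L - 1)) b

theorem exists_top {a b : ℝ} (ha : 0 < a) (hab : a ≤ b) :
    ∃ n, 1 ≤ n ∧ a * 16 ^ (n - 1) ≤ b ∧ b < a * 16 ^ n := by
  have hex : ∃ n, b < a * 16 ^ n := by
    obtain ⟨n, hn⟩ := pow_unbounded_of_one_lt (b / a) (by norm_num : (1 : ℝ) < 16)
    exact ⟨n, by rwa [div_lt_iff₀' ha] at hn⟩
  classical
  refine ⟨Nat.find hex, ?_, ?_, Nat.find_spec hex⟩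
  · by_contra hc
    have := Nat.find_spec hex
    rw [show Nat.find hex = 0 by omega, pow_zero, mul_one] at this
    linarith
  · refine not_lt.1 (Nat.find_min hex ?_)
    by_contra hc
    have := Nat.find_spec hex
    rw [show Nat.find hex = 0 by omega, pow_zero, mul_one] at this
    linarith

theorem rho_two (a : ℝ) {L : ℕ} (hL : 1 ≤ L) : rho (a / 16) (2 * L) = a * 16 ^ (L - 1) := by
  obtain ⟨i, rfl⟩ : ∃ i, L = i + 1 := ⟨L - 1, by omega⟩
  rw [rho, pow_mul, Nat.add_sub_cancel, pow_succ]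
  norm_num
  ring

theorem edge_le_top {a b : ℝ} (ha : 0 < a) {n L : ℕ} (hn : a * 16 ^ (n - 1) ≤ b)
    (hL : L ∈ Finset.Icc 1 n) : edgeM a b L = a * 16 ^ (L - 1) := by
  refine min_eq_left (le_trans ?_ hn)
  have := (Finset.mem_Icc.1 hL).2
  exact mul_le_mul_of_nonneg_left (pow_le_pow_right₀ (by norm_num) (by omega)) ha.le

theorem band_edges {a b : ℝ} (ha : 0 < a) {n : ℕ} (hn : a * 16 ^ (n - 1) ≤ b) {L : ℕ}
    (hL : L ∈ Finset.Icc 1 n) :
    rho (a / 16) (2 * L) ≤ edgeM a b L ∧ edgeM a b L ≤ edgeM a b (L + 1) ∧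
      edgeM a b (L + 1) ≤ 16 * rho (a / 16) (2 * L) := by
  obtain ⟨h1, h2⟩ := Finset.mem_Icc.1 hL
  rw [edge_le_top ha hn hL, rho_two a h1]
  have hstep : a * 16 ^ L = 16 * (a * 16 ^ (L - 1)) := by
    conv_lhs => rw [show L = L - 1 + 1 by omega, pow_succ]
    ring
  refine ⟨le_rfl, le_min ?_ ?_, ?_⟩
  · rw [Nat.add_sub_cancel, hstep]
    have : 0 < a * 16 ^ (L - 1) := by positivity
    linarith
  · exact le_trans (mul_le_mul_of_nonneg_left (pow_le_pow_right₀ (by norm_num) (by omega)) ha.le) hn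
  · refine (min_le_left _ _).trans (le_of_eq ?_)
    rw [Nat.add_sub_cancel, hstep]

theorem levels {a b : ℝ} (ha : 0 < a) {n : ℕ} (hn : a * 16 ^ (n - 1) ≤ b) :
    Flux.Levels (a / 16) 16 n (edgeM a b) fun L => 2 * L where
  one_le_K := by norm_num
  one_le L hL := by have := (Finset.mem_Icc.1 hL).1; omega
  mono L hL := (band_edges ha hn hL).2.1
  lower L hL := by
    have h1 := (band_edges ha hn hL).1
    have h2 := rho_pos (show (0 : ℝ) < a / 16 by positivity) (2 * L)
    linarith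
  upper L hL := (band_edges ha hn hL).2.2

/-- The layered bound at one point for one direction. -/
theorem pointwise {n : ℕ} {w : ℕ → ℝ} (hw : Flux.IsWeight n w) {T D0 : ℝ} {D : ℕ × ℕ → ℝ}
    {m : ℕ → ℝ} {L0 : ℕ} (hL0 : L0 ∈ Finset.Icc 1 n)
    (htop : ∀ p ∈ (Flux.pairs n).filter (fun p => p.1 ≤ p.2), p.1 ≤ L0 → L0 ≤ p.2 → D p = D0)
    (hmis : ∀ p ∈ (Flux.pairs n).filter (fun p => p.1 ≤ p.2),
      ∃ L, p.1 ≤ L ∧ L ≤ p.2 ∧ -D p ≤ m L)
    (hm0 : ∀ L, 0 ≤ m L) (hT : T ≤ 6 * max D0 0 + m L0) :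
    w L0 * T ≤ 6 * (∑ p ∈ (Flux.pairs n).filter (fun p => p.1 ≤ p.2), Flux.coef w p * D p) +
      7 * ∑ L ∈ Finset.Icc 1 n, w L * m L := by
  classical
  set P := (Flux.pairs n).filter fun p : ℕ × ℕ => p.1 ≤ p.2 with hP
  set c := fun p => Flux.coef w p
  have hc : ∀ p, 0 ≤ c p := fun p => Flux.coef_nonneg _ _
  have hcov : ∀ L ∈ Finset.Icc 1 n,
      ∑ p ∈ P, (if p.1 ≤ L ∧ L ≤ p.2 then c p else 0) = w L := by
    intro L hL
    rw [← Flux.sum_coef_cover hw hL, ← Finset.sum_filter]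
    refine Finset.sum_congr ?_ fun p _ => rfl
    ext p
    simp only [hP, Finset.mem_filter]
    constructor
    · rintro ⟨⟨h1, -⟩, h2⟩; exact ⟨h1, h2⟩
    · rintro ⟨h1, h2⟩; exact ⟨⟨h1, by omega⟩, h2⟩
  have hneg : ∑ p ∈ P, c p * max (-D p) 0 ≤ ∑ L ∈ Finset.Icc 1 n, w L * m L := by
    calc ∑ p ∈ P, c p * max (-D p) 0
        ≤ ∑ p ∈ P, ∑ L ∈ Finset.Icc 1 n, (if p.1 ≤ L ∧ L ≤ p.2 then c p else 0) * m L := by
          refine Finset.sum_le_sum fun p hp => ?_
          obtain ⟨L, h1, h2, h3⟩ := hmis p hp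
          have hp' := Flux.mem_pairs (Finset.mem_filter.1 hp).1
          simp only [Finset.mem_Icc] at hp'
          refine le_trans ?_ (Finset.single_le_sum (fun i _ => mul_nonneg
            (by split_ifs <;> simp [hc p]) (hm0 i)) (Finset.mem_Icc.2 ⟨by omega, by omega⟩ : L ∈ _))
          rw [if_pos ⟨h1, h2⟩]
          exact mul_le_mul_of_nonneg_left (max_le h3 (hm0 L)) (hc p)
      _ = _ := by
          rw [Finset.sum_comm]
          exact Finset.sum_congr rfl fun L hL => by rw [← Finset.sum_mul, hcov L hL]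
  have hmax : ∀ x : ℝ, max x 0 = x + max (-x) 0 := fun x => by
    rcases le_total x 0 with h | h
    · rw [max_eq_right h, max_eq_left (by linarith)]; ring
    · rw [max_eq_left h, max_eq_right (by linarith)]; ring
  have hsum0 : 0 ≤ ∑ p ∈ P, c p * max (D p) 0 :=
    Finset.sum_nonneg fun p _ => mul_nonneg (hc p) (le_max_right _ _)
  have hpos : w L0 * max D0 0 ≤ ∑ p ∈ P, c p * max (D p) 0 := by
    rw [← hcov L0 hL0, Finset.sum_mul]
    refine Finset.sum_le_sum fun p hp => ?_
    split_ifs with h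
    · rw [htop p hp h.1 h.2]
    · rw [zero_mul]; exact mul_nonneg (hc p) (le_max_right _ _)
  have hsplit : ∑ p ∈ P, c p * max (D p) 0 =
      (∑ p ∈ P, c p * D p) + ∑ p ∈ P, c p * max (-D p) 0 := by
    rw [← Finset.sum_add_distrib]
    exact Finset.sum_congr rfl fun p _ => by rw [hmax (D p), mul_add]
  have h1 := mul_le_mul_of_nonneg_left hT (hw.nonneg L0)
  have h2 : w L0 * m L0 ≤ ∑ L ∈ Finset.Icc 1 n, w L * m L :=
    Finset.single_le_sum (f := fun L => w L * m L) (fun L _ => mul_nonneg (hw.nonneg L) (hm0 L)) hL0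
  show _ ≤ 6 * (∑ p ∈ P, c p * D p) + _
  linarith

/-- The weighted sums over bands of drops of the mass telescope. -/
theorem sum_bands : ∃ G : ℝ, 0 ≤ G ∧ ∀ {ε : ℝ} {v : EE d → EE d}, 0 < ε → Continuous v →
    Integrable v → ∀ n : ℕ,
      ∑ L ∈ Finset.Icc 1 n, ∑ m ∈ Finset.range (2 * L + 1),
          qC ^ m * (phi ε v (2 * L - m) - phi ε v (2 * L + 7)) ≤
        G * (phi ε v 0 - phi ε v (2 * n + 8)) := by
  have hq := qC_pos
  have hs : Summable fun m : ℕ => qC ^ m * ((m : ℝ) + 7) := by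
    have hn : ‖qC‖ < 1 := by rw [Real.norm_of_nonneg hq.le]; exact qC_lt_one
    refine ((summable_pow_mul_geometric_of_norm_lt_one 1 hn).add
      ((summable_geometric_of_norm_lt_one hn).mul_right 7)).congr fun m => ?_
    ring
  have h0 : ∀ m : ℕ, 0 ≤ qC ^ m * ((m : ℝ) + 7) := fun m => by positivity
  refine ⟨∑' m : ℕ, qC ^ m * ((m : ℝ) + 7), tsum_nonneg h0, fun {ε v} hε hc hi n => ?_⟩
  set φ := phi ε v
  set f := fun J m => qC ^ m * (φ (J - m) - φ (J + 7))
  have hf : ∀ J m, 0 ≤ f J m := fun J m =>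
    mul_nonneg (by positivity) (sub_nonneg.2 (phi_anti hε hc hi (by omega)))
  calc ∑ L ∈ Finset.Icc 1 n, ∑ m ∈ Finset.range (2 * L + 1), f (2 * L) m
      = ∑ J ∈ (Finset.Icc 1 n).image (fun L => 2 * L), ∑ m ∈ Finset.range (J + 1), f J m :=
        (Finset.sum_image (f := fun J => ∑ m ∈ Finset.range (J + 1), f J m)
          fun x _ y _ h => Nat.eq_of_mul_eq_mul_left two_pos h).symm
    _ ≤ ∑ J ∈ Finset.range (2 * n + 1), ∑ m ∈ Finset.range (J + 1), f J m := by
        refine Finset.sum_le_sum_of_subset_of_nonneg (fun J hJ => ?_) fun J _ _ =>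
          Finset.sum_nonneg fun m _ => hf J m
        obtain ⟨L, hL, rfl⟩ := Finset.mem_image.1 hJ
        have := (Finset.mem_Icc.1 hL).2
        rw [Finset.mem_range]; omega
    _ = ∑ m ∈ Finset.range (2 * n + 1), ∑ J ∈ Finset.Ico m (2 * n + 1), f J m :=
        Finset.sum_comm' fun J m => by simp only [Finset.mem_range, Finset.mem_Ico]; omega
    _ ≤ ∑ m ∈ Finset.range (2 * n + 1),
          qC ^ m * ((m : ℝ) + 7) * (φ 0 - φ (2 * n + 8)) := by
        refine Finset.sum_le_sum fun m _ => ?_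
        simp only [f]
        rw [← Finset.mul_sum, mul_assoc]
        refine mul_le_mul_of_nonneg_left ?_ (by positivity)
        have := sum_phi hε hc hi m 7 (2 * n + 1)
        push_cast at this
        exact this
    _ ≤ _ := by
        rw [← Finset.sum_mul]
        exact mul_le_mul_of_nonneg_right (hs.sum_le_tsum _ fun m _ => h0 m)
          (sub_nonneg.2 (phi_anti hε hc hi (Nat.zero_le _)))

/-- The gradient bound for given data. -/
theorem grad_bound (hd : 2 ≤ d) : ∃ C : ℝ, 0 ≤ C ∧ ∀ {M : ℕ} {D : Data d M}, Ok D →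
    D.δ = 1 / 72 → ∀ {g : EE d → ℝ}, IsPot g D.v → ∀ {a b : ℝ}, 0 < a → a ≤ b → ∀ {n : ℕ},
    1 ≤ n → a * 16 ^ (n - 1) ≤ b → b < a * 16 ^ n → D.ε = a / 16 → D.T0 = 2 * n + 7 →
    ∀ {lam : ℝ}, 0 ≤ lam →
    (∀ x, ∀ L ∈ Finset.Icc 1 n, ∀ r, edgeM a b L ≤ r → r ≤ edgeM a b (L + 1) →
      lam < ‖avgV D.v x r‖ → ∑ k, D.W (n + 1 - L) k x = 1) →
    ∫⁻ x, ENNReal.ofReal (‖fderiv ℝ (Fsup a b g) x‖ - lam) ≤
      ENNReal.ofReal (C * M * (phi D.ε D.v 0 - phi D.ε D.v (2 * n + 8) +
        ∑ j ∈ Finset.range n, ∫ x, D.birth j x * ‖lad D.ε D.v (D.lv j) x‖)) := by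
  have hd1 : 1 ≤ d := by omega
  obtain ⟨Cf, hCf, hflux⟩ := weights_flux (d := d) hd1 (m := 5) le_rfl (K := 16) (δ := 1 / 72)
    (by norm_num) (by norm_num) (by norm_num)
  obtain ⟨Cb, hCb, hband⟩ := band_int (d := d) hd (δ := 1 / 72) le_rfl
  obtain ⟨G, hG, hsb⟩ := sum_bands (d := d)
  refine ⟨6 * Cf + 7 * (Cb.toReal * G), by positivity,
    fun {M D} hok hδ {g} hg {a b} ha hab {n} hn1 hn hn' hεa hT0 {lam} hlam hcov => ?_⟩
  set ε := D.ε
  set v := D.v
  set edge := edgeM a b
  set S := ∑ j ∈ Finset.range n, ∫ x, D.birth j x * ‖lad ε v (D.lv j) x‖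
  set Φ := phi ε v 0 - phi ε v (2 * n + 8)
  have hε : 0 < ε := hok.εpos
  have hlev : Flux.Levels ε 16 n edge fun L => 2 * L := hεa.symm ▸ levels ha hn
  have hS : 0 ≤ S := Finset.sum_nonneg fun j _ => integral_nonneg fun x =>
    mul_nonneg ((birth_prop hok hd1 j).2 x).1 (norm_nonneg _)
  have hΦ : 0 ≤ Φ := sub_nonneg.2 (phi_anti hε hg.contv hg.intv (Nat.zero_le _))
  set P := (Flux.pairs n).filter fun p : ℕ × ℕ => p.1 ≤ p.2
  set w := fun (k : Fin M) (L : ℕ) => bandW D n k L
  set DF := fun (k : Fin M) (p : ℕ × ℕ) (x : EE d) => fderiv ℝ (Flux.segF edge g p) x (D.dir k)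
  set mis := fun (k : Fin M) (L : ℕ) (x : EE d) =>
    misD (Flux.segF edge g (L, L)) (D.dir k) x
  set R := fun (k : Fin M) (x : EE d) =>
    6 * (∑ p ∈ P, Flux.coef (fun L => w k L x) p * DF k p x) +
      7 * ∑ L ∈ Finset.Icc 1 n, w k L x * mis k L x
  -- the flux
  have hfl : ∀ k, (∀ p ∈ P, Integrable fun x => Flux.coef (fun L => w k L x) p * DF k p x) ∧
      ∑ p ∈ P, ∫ x, Flux.coef (fun L => w k L x) p * DF k p x ≤ Cf * (Φ + S) := by
    intro k
    obtain ⟨h1, h2⟩ := hflux hok hδ hg hlev (fun L hL => by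
      simp only [Data.lv, hT0]; have := Finset.mem_Icc.1 hL; omega) (by omega) k (D.dir k)
      (hok.net.unit k).le
    refine ⟨h1, h2.trans (mul_le_mul_of_nonneg_left ?_ hCf)⟩
    have := phi_anti hε hg.contv hg.intv (show D.T0 ≤ 2 * n + 8 by omega)
    simp only [Φ, S]
    linarith
  -- the bands
  have hbd : ∀ k, ∀ L ∈ Finset.Icc 1 n, Integrable (fun x => w k L x * mis k L x) ∧
      ∫ x, w k L x * mis k L x ≤ Cb.toReal * ∑ m ∈ Finset.range (2 * L + 1),
        qC ^ m * (phi ε v (2 * L - m) - phi ε v (2 * L + 7)) := by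
    intro k L hL
    obtain ⟨hL1, hL2⟩ := Finset.mem_Icc.1 hL
    obtain ⟨he1, he12, he2⟩ := band_edges ha hn hL
    rw [← hεa] at he1 he2
    have hwm : Measurable (w k L) := measurable_bandW hok hd1 n k L
    have hw0 : ∀ x, 0 ≤ w k L x := fun x => (isWeight_bandW hok hd1 n k x).nonneg L
    have hW : ∀ x, w k L x ≤ (volume.real (ball (0 : EE d) (rho ε (2 * L + 7))))⁻¹ *
        volume.real (goodPts ε v (1 / 72) (D.dir k) (2 * L + 7) ∩
          ball x (5 / 4 * rho ε (2 * L + 7))) := by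
      intro x
      have hlv : D.lv (n - L) = 2 * L + 7 := by simp only [Data.lv, hT0]; omega
      have := BandInt.W_le_goodPts hok hd1 (j := n - L) (by omega) k x
      rw [hlv, hδ, show n - L + 1 = n + 1 - L by omega, ← bandW_eq D n k hL1] at this
      exact this
    have hint := hband hg hε (hok.net.unit k) (2 * L) _ _ he1 he12 he2 (w k L) hW
    have hterm : ∀ m, 0 ≤ qC ^ m * (phi ε v (2 * L - m) - phi ε v (2 * L + 7)) := fun m =>
      mul_nonneg (pow_nonneg qC_pos.le _) (sub_nonneg.2 (phi_anti hε hg.contv hg.intv (by omega)))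
    rw [← ENNReal.ofReal_sum_of_nonneg fun m _ => hterm m] at hint
    have hne := ENNReal.mul_ne_top hCb (ENNReal.ofReal_ne_top
      (r := ∑ m ∈ Finset.range (2 * L + 1), qC ^ m * (phi ε v (2 * L - m) - phi ε v (2 * L + 7))))
    have hnn : ∀ x, 0 ≤ w k L x * mis k L x := fun x =>
      mul_nonneg (hw0 x) (BandInt.misD_nonneg _ _ x)
    have hmm : Measurable fun x => w k L x * mis k L x :=
      hwm.mul (BandInt.measurable_misD _ _)
    have hle : ∫⁻ x, ENNReal.ofReal (w k L x * mis k L x) ≤ Cb * ENNReal.ofReal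
        (∑ m ∈ Finset.range (2 * L + 1), qC ^ m * (phi ε v (2 * L - m) - phi ε v (2 * L + 7))) := by
      simp only [ENNReal.ofReal_mul (hw0 _)]
      exact hint
    refine ⟨(lintegral_ofReal_ne_top_iff_integrable hmm.aestronglyMeasurable
      (.of_forall hnn)).1 (ne_top_of_le_ne_top hne hle), ?_⟩
    rw [integral_eq_lintegral_of_nonneg_ae (.of_forall hnn) hmm.aestronglyMeasurable]
    refine (ENNReal.toReal_mono hne hle).trans (le_of_eq ?_)
    rw [ENNReal.toReal_mul, ENNReal.toReal_ofReal (Finset.sum_nonneg fun m _ => hterm m)]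
  have hRi : ∀ k, Integrable (R k) := fun k =>
    ((integrable_finsetSum _ fun p hp => (hfl k).1 p hp).const_mul 6).add
      ((integrable_finsetSum _ fun L hL => (hbd k L hL).1).const_mul 7)
  have hRint : ∀ k, ∫ x, R k x ≤ (6 * Cf + 7 * (Cb.toReal * G)) * (Φ + S) := by
    intro k
    simp only [R]
    rw [integral_add ((integrable_finsetSum _ fun p hp => (hfl k).1 p hp).const_mul 6)
      ((integrable_finsetSum _ fun L hL => (hbd k L hL).1).const_mul 7),
      integral_const_mul, integral_const_mul,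
      integral_finsetSum _ fun p hp => (hfl k).1 p hp,
      integral_finsetSum _ fun L hL => (hbd k L hL).1]
    have h1 := Finset.sum_le_sum fun L hL => (hbd k L hL).2
    rw [← Finset.mul_sum] at h1
    have h2 := mul_le_mul_of_nonneg_left (hsb hε hg.contv hg.intv n)
      (ENNReal.toReal_nonneg (a := Cb))
    have h3 : 0 ≤ Cb.toReal * G * S := by positivity
    have h4 := (hfl k).2
    simp only [Φ] at *
    linarith
  -- the pointwise bound
  have hseg : ∀ p ∈ P, 0 < edge p.1 ∧ edge p.1 ≤ edge (p.2 + 1) := by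
    intro p hp
    obtain ⟨hm, hle⟩ := Finset.mem_filter.1 hp
    obtain ⟨m1, m2⟩ := Flux.mem_pairs hm
    refine ⟨hlev.pos hε m1, hlev.le (Finset.mem_Icc.1 m1).1 (by omega) ?_⟩
    have := (Finset.mem_Icc.1 m2).2; omega
  have hae : ∀ᵐ x ∂(volume : Measure (EE d)), ∀ p ∈ P, ∀ r ∈ Icc (edge p.1) (edge (p.2 + 1)),
      avg g x r = Flux.segF edge g p x →
        fderiv ℝ (Flux.segF edge g p) x = innerSL ℝ (avgV v x r) := by
    rw [Filter.eventually_all_finset]
    intro p hp
    filter_upwards [ae_gradient_Fsup hg (hseg p hp).1 (hseg p hp).2] with x hx r hr hm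
    exact (hx r hr hm).fderiv
  have hedge1 : edge 1 = a := by simp [edge, edgeM, hab]
  have hedgen : edge (n + 1) = b := by simp [edge, edgeM, hn'.le]
  have hF : Fsup a b g = Flux.segF edge g (1, n) := by
    funext x; simp only [Flux.segF, hedge1, hedgen]
  have hpt : ∀ᵐ x ∂(volume : Measure (EE d)),
      (∀ k, 0 ≤ R k x) ∧ ‖fderiv ℝ (Fsup a b g) x‖ - lam ≤ ∑ k, R k x := by
    filter_upwards [hae] with x hx
    -- the maximiser of a pair lies in a band
    have hloc : ∀ p ∈ P, ∀ r ∈ Icc (edge p.1) (edge (p.2 + 1)),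
        avg g x r = Flux.segF edge g p x → ∀ L, p.1 ≤ L → L ≤ p.2 →
        edge L ≤ r → r ≤ edge (L + 1) →
        fderiv ℝ (Flux.segF edge g p) x = fderiv ℝ (Flux.segF edge g (L, L)) x := by
      intro p hp r hr hm L h1 h2 h3 h4
      obtain ⟨hm', hle⟩ := Finset.mem_filter.1 hp
      obtain ⟨m1, m2⟩ := Flux.mem_pairs hm'
      rw [Finset.mem_Icc] at m1 m2
      have hLP : (L, L) ∈ P := Finset.mem_filter.2 ⟨by
        simp only [Flux.pairs, Finset.mem_product, Finset.mem_Icc]; omega, le_rfl⟩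
      have hmL : avg g x r = Flux.segF edge g (L, L) x := by
        refine le_antisymm (avg_le_Fsup hg (hseg _ hLP).1 ⟨h3, h4⟩ x) ?_
        obtain ⟨s, hs, hse⟩ := exists_Fsup hg (hseg _ hLP).1 (hseg _ hLP).2 x
        show Fsup (edge L) (edge (L + 1)) g x ≤ _
        rw [← hse, hm]
        exact avg_le_Fsup hg (hseg _ hp).1
          ⟨(hlev.le m1.1 h1 (by omega)).trans hs.1,
            hs.2.trans (hlev.le (by omega) (by omega) (by omega))⟩ x
      rw [hx p hp r hr hm, hx (L, L) hLP r ⟨h3, h4⟩ hmL]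
    have hmis : ∀ k, ∀ p ∈ P, ∃ L, p.1 ≤ L ∧ L ≤ p.2 ∧ -DF k p x ≤ mis k L x := by
      intro k p hp
      obtain ⟨r, hr, hm⟩ := exists_Fsup hg (hseg p hp).1 (hseg p hp).2 x
      obtain ⟨L, h1, h2, h3, h4⟩ :=
        Flux.exists_level edge (Finset.mem_filter.1 hp).2 hr.1 hr.2
      refine ⟨L, h1, h2, ?_⟩
      simp only [DF, mis, misD, hloc p hp r hr hm L h1 h2 h3 h4]
      exact le_max_of_le_right (le_max_right _ _)
    -- the top pair
    have h1n : (1, n) ∈ P := Finset.mem_filter.2 ⟨by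
      simp only [Flux.pairs, Finset.mem_product, Finset.mem_Icc]; omega, hn1⟩
    obtain ⟨r, hr, hm⟩ := exists_Fsup hg (hseg _ h1n).1 (hseg _ h1n).2 x
    obtain ⟨L0, l1, l2, l3, l4⟩ := Flux.exists_level edge hn1 hr.1 hr.2
    have hL0 : L0 ∈ Finset.Icc 1 n := Finset.mem_Icc.2 ⟨l1, l2⟩
    set T := ‖fderiv ℝ (Flux.segF edge g (1, n)) x‖ with hT
    have hTL : T = ‖fderiv ℝ (Flux.segF edge g (L0, L0)) x‖ := by
      rw [hT, hloc _ h1n r hr hm L0 l1 l2 l3 l4]
    have hk : ∀ k, w k L0 x * T ≤ R k x := by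
      intro k
      refine pointwise (isWeight_bandW hok hd1 n k x) (D0 := DF k (L0, L0) x) hL0 ?_ (hmis k)
        (fun L => BandInt.misD_nonneg _ _ x) ?_
      · intro p hp p1 p2
        obtain ⟨hm', hle⟩ := Finset.mem_filter.1 hp
        obtain ⟨m1, m2⟩ := Flux.mem_pairs hm'
        rw [Finset.mem_Icc] at m1 m2
        have hrp : r ∈ Icc (edge p.1) (edge (p.2 + 1)) :=
          ⟨(hlev.le m1.1 p1 (by omega)).trans l3,
            l4.trans (hlev.le (by omega) (by omega) (by omega))⟩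
        have hmp : avg g x r = Flux.segF edge g p x := by
          refine le_antisymm (avg_le_Fsup hg (hseg p hp).1 hrp x) ?_
          obtain ⟨s, hs, hse⟩ := exists_Fsup hg (hseg p hp).1 (hseg p hp).2 x
          show Fsup (edge p.1) (edge (p.2 + 1)) g x ≤ _
          rw [← hse, hm]
          exact avg_le_Fsup hg (hseg _ h1n).1 ⟨(hlev.le le_rfl m1.1 (by omega)).trans hs.1,
            hs.2.trans (hlev.le (by omega) (by omega) (by omega))⟩ x
        simp only [DF, hloc p hp r hrp hmp L0 p1 p2 l3 l4]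
      · simp only [mis, misD, DF, hTL]
        linarith [le_max_of_le_right (a := ‖fderiv ℝ (Flux.segF edge g (L0, L0)) x‖ -
          6 * max (fderiv ℝ (Flux.segF edge g (L0, L0)) x (D.dir k)) 0) (b := (0 : ℝ))
          (le_max_left _ (-(fderiv ℝ (Flux.segF edge g (L0, L0)) x (D.dir k))))]
    have hT0' : 0 ≤ T := norm_nonneg _
    have hR0 : ∀ k, 0 ≤ R k x := fun k =>
      (mul_nonneg ((isWeight_bandW hok hd1 n k x).nonneg L0) hT0').trans (hk k)
    refine ⟨hR0, ?_⟩
    rw [hF]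
    rcases le_or_gt T lam with hle | hgt
    · linarith [Finset.sum_nonneg fun k (_ : k ∈ Finset.univ) => hR0 k]
    · have hone := hcov x L0 hL0 r l3 l4 (by
        rw [hT, hx _ h1n r hr hm, innerSL_apply_norm] at hgt
        exact hgt)
      calc T - lam ≤ ∑ k, w k L0 x * T := by
            rw [← Finset.sum_mul, show ∑ k, w k L0 x = 1 by
              simp only [w, bandW_eq D n _ l1]; exact hone, one_mul]
            linarith
        _ ≤ _ := Finset.sum_le_sum fun k _ => hk k
  calc ∫⁻ x, ENNReal.ofReal (‖fderiv ℝ (Fsup a b g) x‖ - lam)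
      ≤ ∫⁻ x, ENNReal.ofReal (∑ k, R k x) := lintegral_mono_ae (by
        filter_upwards [hpt] with x hx using ENNReal.ofReal_le_ofReal hx.2)
    _ = ENNReal.ofReal (∫ x, ∑ k, R k x) := by
        refine (ofReal_integral_eq_lintegral_ofReal (integrable_finsetSum _ fun k _ => hRi k) ?_).symm
        filter_upwards [hpt] with x hx using Finset.sum_nonneg fun k _ => hx.1 k
    _ ≤ _ := by
        refine ENNReal.ofReal_le_ofReal ?_
        rw [integral_finsetSum _ fun k _ => hRi k]
        refine (Finset.sum_le_card_nsmul _ _ _ fun k _ => hRint k).trans (le_of_eq ?_)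
        simp [Φ, S]
        ring

theorem omega_mono' (v : EE d → EE d) {s t : ℝ} (h : s ≤ t) : omega v s ≤ omega v t :=
  iSup₂_le fun u hu =>
    le_iSup₂ (f := fun u (_ : ‖u‖ ≤ t) => ∫⁻ x, ‖v (x + u) - v x‖ₑ) u (hu.trans h)

theorem exists_threshold {w : EE d → EE d} (hw : Integrable w) {η : ℝ≥0∞} (hη : 0 < η) :
    ∃ L : ℝ, 1 ≤ L ∧ ∫⁻ x, ENNReal.ofReal (‖w x‖ - L) ≤ η := by
  have h := tendsto_lintegral_of_dominated_convergence' (μ := (volume : Measure (EE d)))
    (F := fun (m : ℕ) x => ENNReal.ofReal (‖w x‖ - m)) (f := fun _ => 0)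
    (fun x => ENNReal.ofReal ‖w x‖)
    (fun m => (hw.1.norm.aemeasurable.sub_const _).ennreal_ofReal)
    (fun m => .of_forall fun x => ENNReal.ofReal_le_ofReal (by
      have : (0 : ℝ) ≤ m := m.cast_nonneg
      linarith))
    hw.norm.lintegral_lt_top.ne
    (.of_forall fun x => tendsto_const_nhds.congr' ?_)
  · rw [lintegral_zero] at h
    obtain ⟨m, hm, hm1⟩ := ((ENNReal.tendsto_nhds_zero.1 h η hη).and (eventually_ge_atTop 1)).exists
    exact ⟨m, by exact_mod_cast hm1, hm⟩
  · filter_upwards [eventually_ge_atTop ⌈‖w x‖⌉₊] with m hm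
    rw [ENNReal.ofReal_of_nonpos]
    have := (Nat.le_ceil ‖w x‖).trans (Nat.cast_le.2 hm)
    linarith

end MasterC

open MasterC Weights in
/-- Descents of the truncated centred maximal function. -/
theorem centred_master (hd : 2 ≤ d) : ∃ C : ℝ≥0∞, CentredMaster d C := by
  have hd1 : 1 ≤ d := by omega
  obtain ⟨CG, hCG, hgrad⟩ := grad_bound hd
  obtain ⟨CB, hCB, hbirth⟩ := Births.tail (d := d) hd1
  obtain ⟨M, dir, hnet⟩ := exists_net d (show (0 : ℝ) < 1 / 72 by norm_num)
  set K := CG * M with hKdef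
  have hK : 0 ≤ K := by positivity
  set C := ENNReal.ofReal (K * (2 + CB) * 2) with hC
  refine ⟨C, ENNReal.ofReal_ne_top, fun g v hp hg0 a b ha hab h => ?_, fun w hw η hη => ?_⟩
  · obtain ⟨n, hn1, hn, hn'⟩ := exists_top ha hab
    set D : Data d M := ⟨a / 16, 1 / 72, dir, v, 2 * n + 7, fun _ _ => 1⟩
    have hok : Ok D := ⟨by positivity, hnet, hp.contv, hp.intv, fun _ => measurable_const,
      fun _ _ => zero_le_one, fun _ _ => le_rfl⟩
    obtain ⟨hone, hbsum⟩ := Births.full hok hd1 rfl (N := n) (by show 2 * n ≤ 2 * n + 7; omega)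
    have hb := hgrad hok rfl (g := g) hp ha hab hn1 hn hn' rfl rfl (le_refl (0 : ℝ))
      (fun x L hL r _ _ _ => hone _ (by have := Finset.mem_Icc.1 hL; omega)
        (by have := Finset.mem_Icc.1 hL; omega) x)
    refine (Descent.descent_le hp ha hab (L := 0) le_rfl h).trans' (le_of_eq ?_) |>.trans ?_
    · simp
    rw [mul_comm C, mul_assoc]
    refine mul_le_mul' le_rfl (hb.trans ?_)
    have hφ : phi D.ε v 0 = ∫ x, ‖v x‖ := rfl
    rw [hC, ← ofReal_integral_norm_eq_lintegral_enorm hp.intv, ← ENNReal.ofReal_mul (by positivity),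
      ← hφ]
    refine ENNReal.ofReal_le_ofReal ?_
    have hp0 : ∀ l, 0 ≤ phi D.ε v l := fun l => integral_nonneg fun _ => norm_nonneg _
    have hT : phi D.ε v D.T0 ≤ phi D.ε v 0 := phi_anti hok.εpos hp.contv hp.intv (Nat.zero_le _)
    have h8 := hp0 (2 * n + 8)
    have h3 := mul_le_mul_of_nonneg_left
      (show phi D.ε v 0 - phi D.ε v (2 * n + 8) + ∑ j ∈ Finset.range n,
          ∫ x, D.birth j x * ‖lad D.ε v (D.lv j) x‖ ≤ 2 * phi D.ε v 0 by linarith) hK
    have h4 : 0 ≤ K * CB * phi D.ε v 0 := mul_nonneg (mul_nonneg hK hCB) (hp0 0)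
    have h5 : 0 ≤ K * phi D.ε v 0 := mul_nonneg hK (hp0 0)
    linarith
  · -- the threshold
    set η' := min η 1 with hη'
    have hη'0 : 0 < η' := lt_min hη one_pos
    obtain ⟨s, hs, hs'⟩ := ((ENNReal.tendsto_nhds_zero.1 (omega_tendsto hw) η' hη'0).and
      self_mem_nhdsWithin).exists
    have hs0 : (0 : ℝ) < s := hs'
    set δ0 := s / (2 * 4 ^ 8) with hδ0
    have hδ0' : 0 < δ0 := by positivity
    obtain ⟨Lw, hLw1, hLw⟩ := exists_threshold hw hη'0
    set L1 := (volume.real (ball (0 : EE d) δ0))⁻¹ * ((∫ x, ‖w x‖) + 1)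
    set lam := max L1 (2 * Lw)
    have hlam : 0 ≤ lam := le_max_of_le_right (by linarith)
    refine ⟨lam, fun g v hp hg0 hclose a b ha hab h => ?_⟩
    refine (Descent.descent_le hp ha hab hlam h).trans ?_
    rw [mul_comm C, mul_assoc]
    refine mul_le_mul' le_rfl ?_
    set dist1 := ∫⁻ x, ‖v x - w x‖ₑ with hdist
    have hnorm : ∫ y, ‖v y‖ ≤ (∫ y, ‖w y‖) + 1 := by
      have hvw : ∫ y, ‖v y - w y‖ ≤ 1 := by
        rw [hdist, ← ofReal_integral_norm_eq_lintegral_enorm (f := fun y => v y - w y)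
          (hp.intv.sub hw)] at hclose
        exact ENNReal.ofReal_le_one.1 hclose
      have : ∫ y, ‖v y‖ ≤ ∫ y, (‖w y‖ + ‖v y - w y‖) :=
        integral_mono hp.intv.norm (hw.norm.add (hp.intv.sub hw).norm) fun y =>
          norm_le_insert' (v y) (w y)
      rw [integral_add (g := fun y => ‖v y - w y‖) hw.norm (hp.intv.sub hw).norm] at this
      linarith
    have hfar : ∀ x r, δ0 ≤ r → ‖avgV v x r‖ ≤ lam := fun x r hr =>
      (norm_avgV_le hp hδ0' hr x).trans ((mul_le_mul_of_nonneg_left hnorm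
        (inv_nonneg.2 measureReal_nonneg)).trans (le_max_left _ _))
    by_cases hbig : δ0 < a
    · refine le_trans (le_of_eq ?_) zero_le
      refine lintegral_eq_zero_of_ae_eq_zero ?_
      filter_upwards [ae_gradient_Fsup hp ha hab] with x hx
      obtain ⟨r, hr, hm⟩ := exists_Fsup hp ha hab x
      rw [(hx r hr hm).fderiv, innerSL_apply_norm, Pi.zero_apply]
      exact ENNReal.ofReal_of_nonpos (by linarith [hfar x r (hbig.le.trans hr.1)])
    rw [not_lt] at hbig
    set b' := min b δ0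
    have hab' : a ≤ b' := le_min hab hbig
    have hred : ∫⁻ x, ENNReal.ofReal (‖fderiv ℝ (Fsup a b g) x‖ - lam) ≤
        ∫⁻ x, ENNReal.ofReal (‖fderiv ℝ (Fsup a b' g) x‖ - lam) := by
      refine lintegral_mono_ae ?_
      filter_upwards [ae_gradient_Fsup hp ha hab, ae_gradient_Fsup hp ha hab'] with x hx hx'
      obtain ⟨r, hr, hm⟩ := exists_Fsup hp ha hab x
      rw [(hx r hr hm).fderiv, innerSL_apply_norm]
      rcases le_or_gt δ0 r with hge | hlt
      · rw [ENNReal.ofReal_of_nonpos (by linarith [hfar x r hge])]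
        exact zero_le
      · have hr' : r ∈ Icc a b' := ⟨hr.1, le_min hr.2 hlt.le⟩
        have hm' : avg g x r = Fsup a b' g x := by
          refine le_antisymm (avg_le_Fsup hp ha hr' x) ?_
          obtain ⟨t, ht, hte⟩ := exists_Fsup hp ha hab' x
          rw [← hte, hm]
          exact avg_le_Fsup hp ha ⟨ht.1, ht.2.trans (min_le_left _ _)⟩ x
        rw [(hx' r hr' hm').fderiv, innerSL_apply_norm]
    refine hred.trans ?_
    obtain ⟨n, hn1, hn, hn'⟩ := exists_top ha hab'
    set D : Data d M := ⟨a / 16, 1 / 72, dir, v, 2 * n + 7, betaT (a / 16) v Lw (2 * n + 7)⟩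
    have hβ := Births.betaT_ok (a / 16) hp.contv Lw (2 * n + 7)
    have hok : Ok D := ⟨by positivity, hnet, hp.contv, hp.intv, fun j => (hβ j).1,
      fun j => (hβ j).2.1, fun j => (hβ j).2.2⟩
    have hLw0 : 0 < Lw := by linarith
    obtain ⟨hcu, hiu, hu0, hvu⟩ := Births.bigPart_spec hp.contv hp.intv hLw0.le
    have hcov : ∀ x, ∀ L ∈ Finset.Icc 1 n, ∀ r, edgeM a b' L ≤ r → r ≤ edgeM a b' (L + 1) →
        lam < ‖avgV v x r‖ → ∑ k, D.W (n + 1 - L) k x = 1 := by
      intro x L hL r h1 h2 hlt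
      obtain ⟨hL1, hL2⟩ := Finset.mem_Icc.1 hL
      obtain ⟨e1, -, e2⟩ := band_edges ha hn hL
      have hρ : 0 < rho D.ε (2 * L) := rho_pos hok.εpos _
      have hr : 0 < r := hρ.trans_le (e1.trans h1)
      have hlv : D.lv (n - L) = 2 * L + 7 := by
        show 2 * n + 7 - 2 * (n - L) = _; omega
      have h7 : rho D.ε (D.lv (n - L)) = 4 ^ 7 * rho D.ε (2 * L) := by
        rw [hlv]; simp only [rho, pow_add]; ring
      rw [show n + 1 - L = n - L + 1 by omega]
      refine Births.cover_tail hok hd1 hLw0 rfl (by show 2 * _ ≤ 2 * n + 7; omega) (r := r) ?_ ?_ ?_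
      · rw [h7]
        exact mul_le_mul_of_nonneg_left (e1.trans h1) (by positivity)
      · rw [h7]
        have h2' : r ≤ 16 * rho D.ε (2 * L) := h2.trans e2
        linarith
      · have hvol := Band.vol_pos x hr
        have h3 : 2 * Lw < (volume.real (ball x r))⁻¹ * ∫ y in ball x r, ‖v y‖ := by
          refine (le_max_right L1 _).trans_lt (hlt.trans_le ?_)
          rw [avgV, norm_smul, Real.norm_of_nonneg (inv_nonneg.2 measureReal_nonneg)]
          exact mul_le_mul_of_nonneg_left (norm_integral_le_integral_norm _)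
            (inv_nonneg.2 measureReal_nonneg)
        have h4 : ∫ y in ball x r, ‖v y‖ ≤
            volume.real (ball x r) * Lw + ∫ y in ball x r, bigPart v Lw y := by
          refine (setIntegral_mono_on hp.intv.norm.integrableOn
            ((integrableOn_const measure_ball_lt_top.ne).add hiu.integrableOn)
            measurableSet_ball fun y _ => hvu y).trans (le_of_eq ?_)
          rw [Pi.add_def]
          rw [integral_add (f := fun _ => Lw) (g := fun y => bigPart v Lw y)
            (integrableOn_const measure_ball_lt_top.ne) hiu.integrableOn,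
            setIntegral_const, smul_eq_mul]
        rw [lt_inv_mul_iff₀ hvol] at h3
        linarith
    refine (hgrad hok rfl (g := g) hp ha hab' hn1 hn hn' rfl rfl hlam hcov).trans ?_
    set Φ := phi D.ε v 0 - phi D.ε v (2 * n + 8)
    have hΦ0 : 0 ≤ Φ := sub_nonneg.2 (phi_anti hok.εpos hp.contv hp.intv (Nat.zero_le _))
    have hΦ : ENNReal.ofReal Φ ≤ 2 * (η + dist1) := by
      refine (phi_tail hok.εpos hp.contv hp.intv (2 * n + 8)).trans
        ((omega_mono' v (t := s) ?_).trans ((omega_le_add hp.intv hw s).trans ?_))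
      · have h1 : rho D.ε (2 * n + 8) = 4 ^ 8 * rho D.ε (2 * n) := by
          simp only [rho, pow_add]; ring
        have h2 : rho D.ε (2 * n) = a * 16 ^ (n - 1) := rho_two a hn1
        have h3 : a * 16 ^ (n - 1) ≤ δ0 := hn.trans (min_le_right _ _)
        rw [h1, h2]
        calc 2 * (4 ^ 8 * (a * 16 ^ (n - 1))) ≤ 2 * (4 ^ 8 * δ0) := by gcongr
          _ = s := by rw [hδ0]; field_simp
      · rw [mul_add]
        refine add_le_add (hs.trans ((min_le_left η 1).trans ?_)) le_rfl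
        exact le_mul_of_one_le_left zero_le one_le_two
    have hu : ENNReal.ofReal (∫ x, bigPart v Lw x) ≤ η + dist1 := by
      rw [ofReal_integral_eq_lintegral_ofReal hiu (.of_forall hu0)]
      have hpt : ∀ x, ENNReal.ofReal (bigPart v Lw x) ≤
          ‖v x - w x‖ₑ + ENNReal.ofReal (‖w x‖ - Lw) := by
        intro x
        rw [← ofReal_norm]
        refine le_trans (ENNReal.ofReal_le_ofReal ?_)
          (ENNReal.ofReal_add_le (p := ‖v x - w x‖) (q := max 0 (‖w x‖ - Lw))) |>.trans ?_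
        · simp only [bigPart]
          refine max_le (add_nonneg (norm_nonneg _) (le_max_left _ _)) ?_
          linarith [norm_le_insert' (v x) (w x), le_max_right (0 : ℝ) (‖w x‖ - Lw)]
        · refine add_le_add le_rfl (le_of_eq ?_)
          rw [ENNReal.ofReal_max, ENNReal.ofReal_zero]
          exact max_eq_right zero_le
      refine (lintegral_mono hpt).trans ?_
      rw [lintegral_add_left' (f := fun a => ‖v a - w a‖ₑ) (hp.intv.sub hw).1.enorm, add_comm]
      exact add_le_add (hLw.trans (min_le_left η 1)) le_rfl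
    have hB : ∑ j ∈ Finset.range n, ∫ x, D.birth j x * ‖lad D.ε v (D.lv j) x‖ ≤
        CB * ∫ x, bigPart v Lw x :=
      hbirth hok hLw0 rfl n (by show 2 * n ≤ 2 * n + 7; omega)
    refine (ENNReal.ofReal_le_ofReal (mul_le_mul_of_nonneg_left (add_le_add le_rfl hB) hK)).trans ?_
    have hI0 : 0 ≤ ∫ x, bigPart v Lw x := integral_nonneg hu0
    rw [ENNReal.ofReal_mul hK, ENNReal.ofReal_add hΦ0 (mul_nonneg hCB hI0),
      ENNReal.ofReal_mul hCB]
    refine (mul_le_mul' le_rfl (add_le_add hΦ (mul_le_mul' le_rfl hu))).trans ?_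
    rw [← add_mul, ← mul_assoc]
    refine mul_le_mul' ?_ le_rfl
    rw [hC, ← ENNReal.ofReal_ofNat 2, ← ENNReal.ofReal_add (by norm_num) hCB,
      ← ENNReal.ofReal_mul hK]
    refine ENNReal.ofReal_le_ofReal ?_
    linarith [mul_nonneg hK hCB]

end Vale.Agent.P137
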