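import Vale.Agent.P137.Centred.Defs
import Vale.Agent.P137.Centred.Geometry

/-!
Scales and terms of the excess bound.

All scales are powers of `qC`, with `qC ^ 65536 = 1/4`, so that `uu ε J n = ρ_J qC ^ (65536 n)`.
At depth `n`: band and test width `qC ^ (3200 n)`, cap radius `qC ^ (800 n)`, cylinder half height
`qC ^ (200 n)`, pole angle `qC ^ (40 n)`, horizontal push `qC ^ (40 n)`, cell size `qC ^ (2 n)`.
The terms depend on the centre alone, so that they can be integrated.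
-/

namespace Vale.Agent.P137

open MeasureTheory Metric Filter Topology Set
open scoped RealInnerProductSpace ENNReal

variable {d : ℕ}

/-- The base of all decay rates. -/
noncomputable def qC : ℝ := (1 / 4 : ℝ) ^ ((65536 : ℝ)⁻¹)

theorem qC_pos : 0 < qC := Real.rpow_pos_of_pos (by norm_num) _

theorem qC_lt_one : qC < 1 :=
  Real.rpow_lt_one (by norm_num) (by norm_num) (by norm_num)

theorem qC_pow : qC ^ (65536 : ℕ) = 1 / 4 := by
  rw [qC, ← Real.rpow_natCast, ← Real.rpow_mul (by norm_num)]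
  norm_num

theorem uu_eq_qC {ε : ℝ} {J n : ℕ} (h : n ≤ J) :
    uu ε J n = rho ε J * qC ^ (65536 * n) := by
  rw [pow_mul, qC_pow, uu, rho, rho, mul_assoc]
  congr 1
  rw [div_pow, one_pow, mul_one_div, eq_div_iff (by positivity), ← pow_add]
  congr 1
  omega

/-- The depths beyond which all constants are absorbed by one power of `qC`. -/
def Deep (N1 : ℕ) : Prop := 256 ≤ N1 ∧ ∀ n, N1 ≤ n → (10 : ℝ) ^ 9 * qC ^ n ≤ 1

theorem exists_deep (c : ℝ) : ∃ N1, Deep N1 ∧ c * qC ^ N1 ≤ 1 := by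
  obtain ⟨N, hN⟩ := exists_pow_lt_of_lt_one
    (show (0 : ℝ) < ((10 : ℝ) ^ 9 + |c|)⁻¹ by positivity) qC_lt_one
  refine ⟨N + 256, ⟨by omega, fun n hn => ?_⟩, ?_⟩
  all_goals
    have h1 : qC ^ (N + 256) ≤ qC ^ N :=
      pow_le_pow_of_le_one qC_pos.le qC_lt_one.le (by omega)
  · have h2 : qC ^ n ≤ qC ^ N := pow_le_pow_of_le_one qC_pos.le qC_lt_one.le (by omega)
    calc (10 : ℝ) ^ 9 * qC ^ n ≤ ((10 : ℝ) ^ 9 + |c|) * ((10 : ℝ) ^ 9 + |c|)⁻¹ :=
          mul_le_mul (by linarith [abs_nonneg c]) (h2.trans hN.le) (pow_nonneg qC_pos.le n)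
            (by positivity)
      _ = 1 := mul_inv_cancel₀ (by positivity)
  · calc c * qC ^ (N + 256) ≤ |c| * qC ^ (N + 256) :=
          mul_le_mul_of_nonneg_right (le_abs_self c) (pow_nonneg qC_pos.le _)
      _ ≤ ((10 : ℝ) ^ 9 + |c|) * ((10 : ℝ) ^ 9 + |c|)⁻¹ :=
          mul_le_mul (by linarith [pow_nonneg (show (0:ℝ) ≤ 10 by norm_num) 9]) (h1.trans hN.le)
            (pow_nonneg qC_pos.le _) (by positivity)
      _ = 1 := mul_inv_cancel₀ (by positivity)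

/-- The scale with exponent `k n` below the band `J`. -/
noncomputable def sc (ε : ℝ) (J k n : ℕ) : ℝ := rho ε J * qC ^ (k * n)

/-- The band and test width. -/
noncomputable abbrev bb (ε : ℝ) (J n : ℕ) : ℝ := sc ε J 3200 n

/-- The cap radius. -/
noncomputable abbrev zz (ε : ℝ) (J n : ℕ) : ℝ := sc ε J 800 n

/-- The cell size. -/
noncomputable abbrev tl (ε : ℝ) (J n : ℕ) : ℝ := sc ε J 2 n

/-- The relative jump width. -/
noncomputable def jw (n : ℕ) : ℝ := 73000 * qC ^ (1600 * n)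

/-- The deficit at depth `n` in a ball. -/
noncomputable def GE (ε : ℝ) (v : EE d → EE d) (e : EE d) (J n : ℕ) (x : EE d) (s : ℝ) : ℝ≥0∞ :=
  ∫⁻ z in ball x s, ENNReal.ofReal (gg ε v e J n z)

/-- The mass of depth `n / 16` seen from `y`, as a function of the centre. -/
noncomputable def PhiJ (ε : ℝ) (v : EE d → EE d) (J n : ℕ) (y x : EE d) : ℝ :=
  radMass (fun z => ‖vv ε v J (n / 16) z‖) y (zz ε J n) x

/-- The reference deficit at `y`. -/
noncomputable def LL (ε : ℝ) (v : EE d → EE d) (e : EE d) (J n : ℕ) (y : EE d) : ℝ :=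
  (GE ε v e J n y (256 * rho ε J)).toReal

/-- Centres seen from `y` at a pole. -/
def Pole (ε : ℝ) (e : EE d) (J n : ℕ) (y x : EE d) : Prop :=
  ‖x - y‖ ≤ 130 * rho ε J ∧ (1 - qC ^ (40 * n)) * ‖x - y‖ ≤ |⟪x - y, e⟫|

/-- Centres whose sphere through `y` has nearly an endpoint radius. -/
def EndPt (ε : ℝ) (J n : ℕ) (e1 e2 : ℝ) (y x : EE d) : Prop :=
  ‖x - y‖ ≤ 130 * rho ε J ∧
    (|‖x - y‖ - e1| ≤ 70 * bb ε J n ∨ |‖x - y‖ - e2| ≤ 70 * bb ε J n)

/-- Centres at a jump of the mass seen from `y`. -/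
def Jump (ε : ℝ) (v : EE d → EE d) (e : EE d) (J n : ℕ) (y x : EE d) : Prop :=
  ‖x - y‖ ≤ 130 * rho ε J ∧ 0 < LL ε v e J n y ∧
    PhiJ ε v J n y (y + (1 - jw n) • (x - y)) ≤ (qC ^ (20 * n))⁻¹ * LL ε v e J n y ∧
    qC ^ (2 * n) * LL ε v e J n y ≤
      PhiJ ε v J n y (y + (1 + jw n) • (x - y)) - PhiJ ε v J n y (y + (1 - jw n) • (x - y))

/-- The pairs at depths `n, n'` that are far apart and on a common sphere around `x`, at the
scales of depth `m`. -/
def Pairs (ε : ℝ) (J m : ℕ) (x : EE d) : Set (EE d × EE d) :=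
  {p | ‖x - p.1‖ ≤ 130 * rho ε J ∧ ‖x - p.2‖ ≤ 130 * rho ε J ∧ tl ε J m ≤ ‖p.1 - p.2‖ ∧
    |‖x - p.1‖ - ‖x - p.2‖| ≤ 128 * bb ε J m}

/-- The root of the pair term. -/
noncomputable def pairT (ε : ℝ) (v : EE d → EE d) (e : EE d) (J m n n' : ℕ) (x : EE d) : ℝ≥0∞ :=
  (∫⁻ y, ∫⁻ y', (Pairs ε J m x).indicator
    (fun p => ENNReal.ofReal (gg ε v e J n p.1) * ENNReal.ofReal (gg ε v e J n' p.2)) (y, y')) ^
      (1 / 2 : ℝ)

/-- The deficit seen from removed centres. -/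
noncomputable def remT (ε : ℝ) (v : EE d → EE d) (e : EE d) (J n : ℕ) (e1 e2 : ℝ) (x : EE d) :
    ℝ≥0∞ :=
  ∫⁻ y, {y | Pole ε e J n y x ∨ EndPt ε J n e1 e2 y x ∨ Jump ε v e J n y x}.indicator
    (fun z => ENNReal.ofReal (gg ε v e J n z)) y

/-- The depths comparable to `n`. -/
def window (J N1 n : ℕ) : Finset ℕ :=
  (Finset.range (J + 1)).filter fun k => N1 ≤ k ∧ k ≤ 64 * n ∧ n ≤ 64 * k ∧ k ≠ n

/-- The term at depth `n`. -/
noncomputable def TE (ε : ℝ) (v : EE d → EE d) (e : EE d) (J N1 : ℕ) (e1 e2 : ℝ) (n : ℕ)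
    (x : EE d) : ℝ≥0∞ :=
  ENNReal.ofReal (qC ^ n) * GE ε v e J n x (512 * rho ε J) +
    if n < N1 then ENNReal.ofReal ((qC ^ (17 * N1))⁻¹) * GE ε v e J n x (512 * rho ε J)
    else ENNReal.ofReal (4 * (qC ^ (17 * n))⁻¹) *
      (pairT ε v e J n n n x + remT ε v e J n e1 e2 x +
        ∑ k ∈ window J N1 n, (pairT ε v e J k k k x + pairT ε v e J (min n k) n k x))

/-- The term at depth `n` as a real number. -/
noncomputable def TT (ε : ℝ) (v : EE d → EE d) (e : EE d) (J N1 : ℕ) (e1 e2 : ℝ) (n : ℕ)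
    (x : EE d) : ℝ :=
  (TE ε v e J N1 e1 e2 n x).toReal

/-- The deficit in the band at depth `n`. -/
noncomputable def DD (ε : ℝ) (v : EE d → EE d) (e : EE d) (J : ℕ) (x : EE d) (r : ℝ) (n : ℕ) : ℝ :=
  bandDef ε v e J x r (64 * bb ε J n) n

/-- The weighted deficit in the band at depth `n`. -/
noncomputable def WD (ε : ℝ) (v : EE d → EE d) (e : EE d) (J : ℕ) (x : EE d) (r : ℝ) (n : ℕ)
    (n0 : EE d) : ℝ :=
  ∫ z in band x r (64 * bb ε J n), wdir x r n0 z * gg ε v e J n z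

/-- The mass in the core at depth `n`. -/
noncomputable def ZZ (ε : ℝ) (v : EE d → EE d) (J : ℕ) (x : EE d) (r : ℝ) (n : ℕ) : ℝ :=
  ∫ z, chiK ε J x r n z * ‖vv ε v J n z‖

/-- What a good point `y` at depth `m` gives: no pole, no endpoint, a small shell mass. -/
structure GoodPt (ε : ℝ) (v : EE d → EE d) (e : EE d) (J m : ℕ) (e1 e2 : ℝ) (x : EE d) (r : ℝ)
    (y : EE d) : Prop where
  mem : y ∈ band x r (64 * bb ε J m)
  pole : |⟪x - y, e⟫| < (1 - qC ^ (40 * m)) * ‖x - y‖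
  end1 : 6 * bb ε J m < |r - e1|
  end2 : 6 * bb ε J m < |r - e2|
  shell : ∫ z in band x r (6 * bb ε J m) \ ball y (zz ε J m), ‖vv ε v J (m / 16) z‖ ≤
    qC ^ (2 * m) * (GE ε v e J m x (512 * rho ε J)).toReal

end Vale.Agent.P137
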